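import Crest.Agent.R317.Lib

/-!
Row 302: polynomial-time computation with an oracle, on top of the `PT` calculus.

`OPT F` says that `F O a` is computed from `a` by a polynomial-time controller that asks the
oracle `O : Q → ℕ` polynomially many questions (`OPT.controller`). It is closed under `PT`
functions, clipped oracle calls, composition, pairing, branching, bounded recursion and lists.
-/

set_option autoImplicit false

namespace Crest.Agent.R302

open Crest.Agent.PT Crest.Agent.QC Crest.Agent.R317

/-- Queries: which oracle, and the indicator bits of a set. -/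
abbrev Q : Type := Bool × List Bool

/-- Tables of answered queries. -/
abbrev Tab : Type := List (Q × Bin)

/-- Oracles. -/
abbrev Orc : Type := Q → ℕ

/-- Code of a sum type. -/
def encS {α β : Type} [Enc α] [Enc β] : α ⊕ β → List Bool
  | .inl a => false :: enc a
  | .inr b => true :: enc b

instance encSum {α β : Type} [Enc α] [Enc β] : Enc (α ⊕ β) := ⟨encS⟩

section Sum

variable {α β γ δ : Type} [Enc α] [Enc β] [Enc γ] [Enc δ]

theorem enc_inl (a : α) : enc (Sum.inl a : α ⊕ β) = false :: enc a := rfl
theorem enc_inr (b : β) : enc (Sum.inr b : α ⊕ β) = true :: enc b := rfl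

@[simp] theorem sz_inl (a : α) : sz (Sum.inl a : α ⊕ β) = sz a + 1 := rfl
@[simp] theorem sz_inr (b : β) : sz (Sum.inr b : α ⊕ β) = sz b + 1 := rfl

@[fun_prop] theorem pt_inl {f : α → β} (hf : PT f) : PT (fun a => (Sum.inl (f a) : β ⊕ γ)) :=
  (PT.cons (PT.const false) (PT.toRaw.comp hf)).of_enc_eq (fun _ => rfl)

@[fun_prop] theorem pt_inr {f : α → γ} (hf : PT f) : PT (fun a => (Sum.inr (f a) : β ⊕ γ)) :=
  (PT.cons (PT.const true) (PT.toRaw.comp hf)).of_enc_eq (fun _ => rfl)

@[fun_prop] theorem pt_isRight {s : α → β ⊕ γ} (hs : PT s) : PT (fun a => (s a).isRight) :=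
  (PT.head (PT.toRaw.comp hs)).congr (fun a => by cases s a <;> rfl)

/-- Continue with `g` on the right summand, keep the left one. -/
def sbind {β γ δ : Type} (s : β ⊕ γ) (g : γ → β ⊕ δ) : β ⊕ δ :=
  match s with
  | .inl q => .inl q
  | .inr b => g b

theorem pt_sbind {s : α → β ⊕ γ} {g : α → γ → β ⊕ δ} (hs : PT s)
    (hg : PT (fun p : α × γ => g p.1 p.2)) : PT (fun a => sbind (s a) (g a)) := by
  by_cases hne : Nonempty γ
  · obtain ⟨d⟩ := hne
    have h1 : PT (fun a => (s a).elim (fun _ => d) id) :=
      (PT.cond (pt_isRight hs) (PT.tail (PT.toRaw.comp hs))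
        (PT.toRaw.comp (PT.const d))).of_enc_eq (fun a => by cases s a <;> rfl)
    have h2 : PT (fun a => g a ((s a).elim (fun _ => d) id)) := hg.comp (PT.id'.pair h1)
    exact (PT.cond (pt_isRight hs) (PT.toRaw.comp h2) (PT.toRaw.comp hs)).of_enc_eq
      (fun a => by cases s a <;> rfl)
  · refine hs.of_enc_eq (fun a => ?_)
    cases h : s a with
    | inl q => rfl
    | inr b => exact (hne ⟨b⟩).elim

end Sum

/-- Oracle programs. -/
inductive Prog (β : Type) : Type
  | pure : β → Prog β
  | ask : Q → (ℕ → Prog β) → Prog β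

namespace Prog

variable {β γ : Type}

/-- The value computed with a given oracle. -/
def run (O : Orc) : Prog β → β
  | pure b => b
  | ask q k => (k (O q)).run O

/-- The number of questions asked plus their total size. -/
def cost (O : Orc) : Prog β → ℕ
  | pure _ => 0
  | ask q k => (k (O q)).cost O + (sz q + 1)

/-- Sequencing. -/
def bind : Prog β → (β → Prog γ) → Prog γ
  | pure b, f => f b
  | ask q k, f => ask q (fun v => (k v).bind f)

theorem run_bind (O : Orc) (p : Prog β) (f : β → Prog γ) :
    (p.bind f).run O = (f (p.run O)).run O := by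
  induction p with
  | pure b => rfl
  | ask q k ih => exact ih _

theorem cost_bind (O : Orc) (p : Prog β) (f : β → Prog γ) :
    (p.bind f).cost O = p.cost O + (f (p.run O)).cost O := by
  induction p with
  | pure b => simp [bind, cost, run]
  | ask q k ih =>
    show ((k (O q)).bind f).cost O + (sz q + 1) =
      ((k (O q)).cost O + (sz q + 1)) + (f ((k (O q)).run O)).cost O
    rw [ih]; omega

end Prog

/-- Entry `i` of the table answers the query `q`. -/
def hit (tb : Tab) (q : Q) (i : ℕ) : Prop :=
  (tb.getD i ((false, []), ⟨0⟩)).1.1 = q.1 ∧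
    (tb.getD i ((false, []), ⟨0⟩)).1.2.length = q.2.length ∧
    All q.2.length (fun j => (tb.getD i ((false, []), ⟨0⟩)).1.2.getD j false = q.2.getD j false)

theorem hit_iff (tb : Tab) (q : Q) (i : ℕ) :
    hit tb q i ↔ (tb.getD i ((false, []), ⟨0⟩)).1 = q := by
  unfold hit
  generalize (tb.getD i ((false, []), ⟨0⟩)).1 = e
  obtain ⟨b, l⟩ := e
  obtain ⟨b', l'⟩ := q
  simp only [Prod.mk.injEq]
  constructor
  · rintro ⟨h1, h2, h3⟩
    refine ⟨h1, List.ext_getElem h2 (fun j hj hj' => ?_)⟩
    have := h3 j hj'
    simpa [List.getD_eq_getElem?_getD, hj, hj'] using this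
  · rintro ⟨rfl, rfl⟩
    exact ⟨rfl, rfl, fun _ _ => rfl⟩

/-- The table has an entry for `q`. -/
def has (tb : Tab) (q : Q) : Prop := Ex tb.length (hit tb q)

open Classical in
/-- The value the table gives to `q`. -/
noncomputable def tval (tb : Tab) (q : Q) : ℕ :=
  (maxTo tb.length (fun i => if hit tb q i then bz (tb.getD i ((false, []), ⟨0⟩)).2.val else 0)).toNat

theorem has_iff (tb : Tab) (q : Q) : has tb q ↔ ∃ e ∈ tb, e.1 = q := by
  constructor
  · rintro ⟨i, hi, h⟩
    rw [hit_iff] at h
    refine ⟨tb[i], List.getElem_mem hi, ?_⟩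
    simpa [List.getD_eq_getElem?_getD, hi] using h
  · rintro ⟨e, he, h⟩
    obtain ⟨i, hi, rfl⟩ := List.getElem_of_mem he
    refine ⟨i, hi, ?_⟩
    rw [hit_iff]
    simpa [List.getD_eq_getElem?_getD, hi] using h

/-- All entries of the table are answers of `O`. -/
def Cons (O : Orc) (tb : Tab) : Prop := ∀ e ∈ tb, e.2.val = O e.1

theorem tval_eq {O : Orc} {tb : Tab} (hc : Cons O tb) {q : Q} (h : has tb q) : tval tb q = O q := by
  classical
  unfold tval
  rw [maxTo_eq, Int.toNat_natCast]
  have key : ∀ i, i < tb.length → hit tb q i → (tb.getD i ((false, []), ⟨0⟩)).2.val = O q := by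
    intro i hi h
    rw [hit_iff] at h
    rw [← h]
    apply hc
    simp [List.getD_eq_getElem?_getD, hi]
  apply le_antisymm
  · refine Finset.sup_le fun i hi => ?_
    split_ifs with hh
    · rw [key i (by simpa using hi) hh]; simp [bz]
    · simp
  · obtain ⟨i, hi, hh⟩ := h
    refine le_trans ?_ (Finset.le_sup (f := fun i =>
      (if hit tb q i then bz (tb.getD i ((false, []), ⟨0⟩)).2.val else 0).toNat)
      (Finset.mem_range.2 hi))
    simp only [if_pos hh]
    rw [key i hi hh]; simp [bz]

section PTtab

variable {α : Type} [Enc α]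

theorem dt_hit {t : α → Tab} {q : α → Q} {i : α → ℕ} (ht : PT t) (hq : PT q) (hi : PT i) :
    DT (fun a => hit (t a) (q a) (i a)) := by
  unfold hit
  fun_prop

theorem dt_has {t : α → Tab} {q : α → Q} (ht : PT t) (hq : PT q) :
    DT (fun a => has (t a) (q a)) := by
  unfold has
  refine DT.ex (by fun_prop) ?_
  exact dt_hit (by fun_prop) (by fun_prop) (by fun_prop)

theorem bt_tval {t : α → Tab} {q : α → Q} (ht : PT t) (hq : PT q) :
    BT (fun a => tval (t a) (q a)) := by
  classical
  unfold tval
  refine bt_toNat (pt_maxTo (by fun_prop) ?_)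
  refine PT.iteD (dt_hit (by fun_prop) (by fun_prop) (by fun_prop)) ?_ (by fun_prop)
  fun_prop

end PTtab

namespace Prog

variable {β γ : Type}

open Classical in
/-- Run with a table: the value, or the first question the table does not answer. -/
noncomputable def runT (tb : Tab) : Prog β → Q ⊕ β
  | pure b => .inr b
  | ask q k => if has tb q then (k (tval tb q)).runT tb else .inl q

theorem runT_bind (tb : Tab) (p : Prog β) (f : β → Prog γ) :
    (p.bind f).runT tb = sbind (p.runT tb) (fun b => (f b).runT tb) := by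
  induction p with
  | pure b => rfl
  | ask q k ih =>
    simp only [bind, runT]
    split_ifs
    · exact ih _
    · rfl

theorem runT_inr {tb : Tab} {p : Prog β} {b : β} (h : p.runT tb = .inr b) :
    b = p.run (tval tb) := by
  induction p with
  | pure c => simp only [runT, Sum.inr.injEq] at h; exact h.symm
  | ask q k ih =>
    simp only [runT] at h
    split_ifs at h
    exact ih _ h

theorem runT_inr_cons {O : Orc} {tb : Tab} (hc : Cons O tb) {p : Prog β} {b : β}
    (h : p.runT tb = .inr b) : b = p.run O := by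
  induction p with
  | pure c => simp only [runT, Sum.inr.injEq] at h; exact h.symm
  | ask q k ih =>
    simp only [runT] at h
    split_ifs at h with hh
    rw [tval_eq hc hh] at h
    exact ih _ h

theorem runT_inl_sz {O : Orc} {tb : Tab} (hc : Cons O tb) {p : Prog β} {q : Q}
    (h : p.runT tb = .inl q) : sz q ≤ p.cost O := by
  induction p with
  | pure c => simp [runT] at h
  | ask q' k ih =>
    simp only [runT] at h
    simp only [cost]
    split_ifs at h with hh
    · rw [tval_eq hc hh] at h
      have := ih _ h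
      omega
    · simp only [Sum.inl.injEq] at h
      subst h
      omega

open Classical in
/-- The number of questions of the true run that the table does not answer. -/
noncomputable def miss (O : Orc) (tb : Tab) : Prog β → ℕ
  | pure _ => 0
  | ask q k => (k (O q)).miss O tb + if has tb q then 0 else 1

theorem miss_le (O : Orc) (tb : Tab) (p : Prog β) : p.miss O tb ≤ p.cost O := by
  induction p with
  | pure c => exact le_rfl
  | ask q k ih =>
    simp only [miss, cost]
    have := ih (O q)
    split_ifs <;> omega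

theorem miss_mono (O : Orc) (tb : Tab) (e : Q × Bin) (p : Prog β) :
    p.miss O (e :: tb) ≤ p.miss O tb := by
  induction p with
  | pure c => exact le_rfl
  | ask q k ih =>
    simp only [miss]
    have := ih (O q)
    have h : has tb q → has (e :: tb) q := by
      simp only [has_iff]
      rintro ⟨e', he, h⟩
      exact ⟨e', List.mem_cons_of_mem _ he, h⟩
    split_ifs with h1 h2 h2
    · omega
    · omega
    · exact (h1 (h h2)).elim
    · omega

theorem miss_lt {O : Orc} {tb : Tab} (hc : Cons O tb) {p : Prog β} {q : Q}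
    (h : p.runT tb = .inl q) (v : Bin) : p.miss O ((q, v) :: tb) < p.miss O tb := by
  induction p with
  | pure c => simp [runT] at h
  | ask q' k ih =>
    simp only [runT] at h
    simp only [miss]
    split_ifs at h with hh
    · rw [tval_eq hc hh] at h
      have := ih _ h
      have h' : has ((q, v) :: tb) q' := by
        rw [has_iff] at hh ⊢
        obtain ⟨e', he, h⟩ := hh
        exact ⟨e', List.mem_cons_of_mem _ he, h⟩
      simp only [if_pos hh, if_pos h']
      omega
    · simp only [Sum.inl.injEq] at h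
      subst h
      have h' : has ((q', v) :: tb) q' := by
        rw [has_iff]
        exact ⟨_, List.mem_cons_self, rfl⟩
      have := miss_mono O tb (q', v) (k (O q'))
      simp only [if_neg hh, if_pos h']
      omega

end Prog

/-- The table after `k` rounds of the protocol: the controller either asks a question, whose answer
is added to the table, or announces the result. -/
def proto {α β : Type} (O : Orc) (ctl : Tab × α → Q ⊕ β) (x : α) : ℕ → Tab
  | 0 => []
  | k + 1 => match ctl (proto O ctl x k, x) with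
    | .inl q => (q, ⟨O q⟩) :: proto O ctl x k
    | .inr _ => proto O ctl x k

theorem proto_spec {α β : Type} (O : Orc) (P : α → Prog β) (x : α) (k : ℕ)
    (hk : (P x).cost O ≤ k) :
    (P x).runT (proto O (fun z => (P z.2).runT z.1) x k) = .inr ((P x).run O) := by
  set ctl : Tab × α → Q ⊕ β := fun z => (P z.2).runT z.1 with hctl
  have key : ∀ j, Cons O (proto O ctl x j) ∧
      ((∃ b, (P x).runT (proto O ctl x j) = .inr b) ∨
        (P x).miss O (proto O ctl x j) + j ≤ (P x).cost O) := by
    intro j
    induction j with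
    | zero => exact ⟨fun e he => by simp [proto] at he, Or.inr (Prog.miss_le _ _ _)⟩
    | succ j ih =>
      obtain ⟨h1, h2⟩ := ih
      cases h : (P x).runT (proto O ctl x j) with
      | inl q =>
        have e : proto O ctl x (j + 1) = (q, ⟨O q⟩) :: proto O ctl x j := by
          have h' : ctl (proto O ctl x j, x) = .inl q := h
          simp only [proto, h']
        rw [e]
        refine ⟨fun e he => ?_, Or.inr ?_⟩
        · rcases List.mem_cons.1 he with rfl | he
          · rfl
          · exact h1 e he
        · rcases h2 with ⟨b, hb⟩ | h2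
          · rw [h] at hb; cases hb
          · have := Prog.miss_lt h1 h ⟨O q⟩
            omega
      | inr b =>
        have e : proto O ctl x (j + 1) = proto O ctl x j := by
          have h' : ctl (proto O ctl x j, x) = .inr b := h
          simp only [proto, h']
        rw [e]
        exact ⟨h1, Or.inl ⟨b, h⟩⟩
  obtain ⟨h1, h2⟩ := key k
  cases h : (P x).runT (proto O ctl x k) with
  | inl q =>
    rcases h2 with ⟨b, hb⟩ | h2
    · rw [h] at hb; cases hb
    · have := Prog.miss_lt h1 h ⟨O q⟩
      omega
  | inr b => rw [Prog.runT_inr_cons h1 h]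

theorem proto_sz {α β : Type} (O : Orc) (P : α → Prog β) (x : α) (k : ℕ) :
    ∀ e ∈ proto O (fun z => (P z.2).runT z.1) x k, e.2.val = O e.1 ∧ sz e.1 ≤ (P x).cost O := by
  set ctl : Tab × α → Q ⊕ β := fun z => (P z.2).runT z.1 with hctl
  induction k with
  | zero => exact fun e he => by simp [proto] at he
  | succ j ih =>
    cases h : (P x).runT (proto O ctl x j) with
    | inl q =>
      have e : proto O ctl x (j + 1) = (q, ⟨O q⟩) :: proto O ctl x j := by
        have h' : ctl (proto O ctl x j, x) = .inl q := h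
        simp only [proto, h']
      rw [e]
      intro e he
      rcases List.mem_cons.1 he with rfl | he
      · exact ⟨rfl, Prog.runT_inl_sz (fun e he => (ih e he).1) h⟩
      · exact ih e he
    | inr b =>
      have e : proto O ctl x (j + 1) = proto O ctl x j := by
        have h' : ctl (proto O ctl x j, x) = .inr b := h
        simp only [proto, h']
      rw [e]
      exact ih

/-- Polynomial time with an oracle. -/
def OPT {α β : Type} [Enc α] [Enc β] (F : Orc → α → β) : Prop :=
  ∃ P : α → Prog β, PT (fun z : Tab × α => (P z.2).runT z.1) ∧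
    (∃ c : α → ℕ, PB c ∧ ∀ O a, (P a).cost O ≤ c a) ∧
    (∃ B : α → ℕ, PB B ∧ ∀ O a, sz (F O a) ≤ B a) ∧
    ∀ O a, (P a).run O = F O a

namespace OPT

variable {α β γ δ : Type} [Enc α] [Enc β] [Enc γ] [Enc δ]

/-- The controller of an oracle computation. -/
theorem controller {F : Orc → α → β} (hF : OPT F) :
    ∃ (ctl : Tab × α → Q ⊕ β) (k : ℕ), PT ctl ∧
      ∀ O x K, (sz x + 2) ^ k ≤ K → ctl (proto O ctl x K, x) = .inr (F O x) := by
  obtain ⟨P, h1, ⟨c, ⟨k, hk⟩, hc⟩, -, h4⟩ := hF
  refine ⟨fun z => (P z.2).runT z.1, k, h1, fun O x K hK => ?_⟩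
  rw [← h4]
  exact proto_spec O P x K ((hc O x).trans ((hk x).trans hK))

/-- The controller of an oracle computation, with a bound on the size of the questions. -/
theorem controller' {F : Orc → α → β} (hF : OPT F) :
    ∃ (ctl : Tab × α → Q ⊕ β) (k : ℕ), PT ctl ∧
      (∀ O x K, (sz x + 2) ^ k ≤ K → ctl (proto O ctl x K, x) = .inr (F O x)) ∧
      ∀ O x K, ∀ e ∈ proto O ctl x K, e.2.val = O e.1 ∧ sz e.1 ≤ (sz x + 2) ^ k := by
  obtain ⟨P, h1, ⟨c, ⟨k, hk⟩, hc⟩, -, h4⟩ := hF
  refine ⟨fun z => (P z.2).runT z.1, k, h1, fun O x K hK => ?_, fun O x K e he => ?_⟩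
  · rw [← h4]
    exact proto_spec O P x K ((hc O x).trans ((hk x).trans hK))
  · exact ⟨(proto_sz O P x K e he).1, (proto_sz O P x K e he).2.trans ((hc O x).trans (hk x))⟩

/-- The output size is polynomially bounded, uniformly in the oracle. -/
theorem pb {F : Orc → α → β} (hF : OPT F) : ∃ B : α → ℕ, PB B ∧ ∀ O a, sz (F O a) ≤ B a := by
  obtain ⟨P, -, -, h, -⟩ := hF
  exact h

theorem congr {F G : Orc → α → β} (hF : OPT F) (h : ∀ O a, F O a = G O a) : OPT G := by
  have : F = G := by funext O a; exact h O a
  exact this ▸ hF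

/-- No oracle call. -/
theorem pt {f : α → β} (hf : PT f) : OPT (fun _ a => f a) :=
  ⟨fun a => .pure (f a), pt_inr (hf.comp PT.id'.snd), ⟨fun _ => 0, PB.const 0, fun _ _ => le_rfl⟩,
    ⟨_, hf.pb, fun _ _ => le_rfl⟩, fun _ _ => rfl⟩

/-- One oracle call; the answer is clipped to `m a` bits. -/
theorem ask {q : α → Q} {m : α → ℕ} (hq : PT q) (hm : PT m) :
    OPT (fun O a => bz (O (q a) % 2 ^ m a)) := by
  classical
  refine ⟨fun a => .ask (q a) (fun v => .pure (bz (v % 2 ^ m a))), ?_,
    ⟨fun a => sz (q a) + 1, hq.pb.add (PB.const 1), fun _ _ => (Nat.zero_add _).le⟩,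
    ⟨fun a => 3 * m a + 1, ((PB.const 3).mul hm.pbNat).add (PB.const 1), fun O a => ?_⟩,
    fun _ _ => rfl⟩
  · have h1 : DT (fun z : Tab × α => has z.1 (q z.2)) := dt_has (by fun_prop) (by fun_prop)
    have h2 : BT (fun z : Tab × α => tval z.1 (q z.2)) := bt_tval (by fun_prop) (by fun_prop)
    have h3 : PT (fun z : Tab × α => bz (tval z.1 (q z.2) % 2 ^ m z.2)) :=
      pt_bz (BT.mod h2 (BT.pow (BT.const 2) (by fun_prop)))
    exact PT.iteD h1 (pt_inr h3) (pt_inl (by fun_prop))
  · show sz (bz (O (q a) % 2 ^ m a)) ≤ 3 * m a + 1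
    refine (PT.sz_int_le _).trans ?_
    have : (bz (O (q a) % 2 ^ m a)).natAbs.size ≤ m a := by
      rw [Nat.size_le]
      show O (q a) % 2 ^ m a < 2 ^ m a
      exact Nat.mod_lt _ (by positivity)
    omega

/-- Sequencing: the second computation sees the input and the first result. -/
theorem bind {F : Orc → α → β} {G : Orc → α → β → γ} (hF : OPT F)
    (hG : OPT (fun O (p : α × β) => G O p.1 p.2)) : OPT (fun O a => G O a (F O a)) := by
  obtain ⟨P, h1, ⟨c, hc, hc'⟩, ⟨B, hB, hB'⟩, h4⟩ := hF
  obtain ⟨P', h1', ⟨c', hd, hd'⟩, ⟨B', hE, hE'⟩, h4'⟩ := hG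
  obtain ⟨k, hk⟩ := hd.exists_mono
  obtain ⟨l, hl⟩ := hE.exists_mono
  have hp : PB (fun a : α => 2 * sz a + B a + 1 + 2) :=
    ((((PB.const 2).mul PB.size).add hB).add (PB.const 1)).add (PB.const 2)
  refine ⟨fun a => (P a).bind (fun b => P' (a, b)), ?_,
    ⟨fun a => c a + (2 * sz a + B a + 1 + 2) ^ k, hc.add (hp.pow k), fun O a => ?_⟩,
    ⟨fun a => (2 * sz a + B a + 1 + 2) ^ l, hp.pow l, fun O a => ?_⟩, fun O a => ?_⟩
  · simp only [Prog.runT_bind]
    refine pt_sbind (g := fun (z : Tab × α) b => (P' (z.2, b)).runT z.1) h1 ?_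
    exact h1'.comp (f := fun p : (Tab × α) × β => (p.1.1, (p.1.2, p.2))) (by fun_prop)
  · rw [Prog.cost_bind, h4]
    refine Nat.add_le_add (hc' O a) ((hd' O _).trans (hk _ _ ?_))
    have := hB' O a
    simp only [sz_pair]; omega
  · refine (hE' O (a, F O a)).trans (hl _ _ ?_)
    have := hB' O a
    simp only [sz_pair]; omega
  · rw [Prog.run_bind, h4, h4']

/-- Precomposition with a polynomial-time function. -/
theorem pre {G : Orc → β → γ} {f : α → β} (hG : OPT G) (hf : PT f) :
    OPT (fun O a => G O (f a)) := by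
  obtain ⟨P', h1', ⟨c', hd, hd'⟩, ⟨B', hE, hE'⟩, h4'⟩ := hG
  exact ⟨fun a => P' (f a), h1'.comp (f := fun z : Tab × α => (z.1, f z.2)) (by fun_prop),
    ⟨fun a => c' (f a), hd.comp hf.pb, fun O a => hd' O _⟩,
    ⟨fun a => B' (f a), hE.comp hf.pb, fun O a => hE' O _⟩, fun O a => h4' O _⟩

theorem comp {G : Orc → β → γ} {F : Orc → α → β} (hG : OPT G) (hF : OPT F) :
    OPT (fun O a => G O (F O a)) :=
  bind (G := fun O _ b => G O b) hF (hG.pre PT.id'.snd)

/-- Postcomposition with a polynomial-time function. -/
theorem post {g : β → γ} {F : Orc → α → β} (hF : OPT F) (hg : PT g) :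
    OPT (fun O a => g (F O a)) := (pt hg).comp hF

/-- Postcomposition with a polynomial-time function that also sees the input. -/
theorem post₂ {g : α → β → γ} {F : Orc → α → β} (hF : OPT F)
    (hg : PT (fun p : α × β => g p.1 p.2)) : OPT (fun O a => g a (F O a)) :=
  bind (G := fun _ a b => g a b) hF (pt hg)

theorem pair {F : Orc → α → β} {G : Orc → α → γ} (hF : OPT F) (hG : OPT G) :
    OPT (fun O a => (F O a, G O a)) :=
  bind (G := fun O a b => (b, G O a)) hF
    (post₂ (g := fun (p : α × β) c => (p.2, c)) (hG.pre PT.id'.fst) (by fun_prop))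

theorem cond {C : Orc → α → Bool} {F G : Orc → α → β} (hC : OPT C) (hF : OPT F) (hG : OPT G) :
    OPT (fun O a => bif C O a then F O a else G O a) :=
  (hC.pair (hF.pair hG)).post (g := fun p : Bool × β × β => bif p.1 then p.2.1 else p.2.2)
    (PT.cond (by fun_prop) (by fun_prop) (by fun_prop))

theorem ite {p : α → Prop} [∀ a, Decidable (p a)] {F G : Orc → α → β} (hp : DT p) (hF : OPT F)
    (hG : OPT G) : OPT (fun O a => if p a then F O a else G O a) :=
  (cond (pt (pt_decide hp)) hF hG).congr (fun O a => by by_cases h : p a <;> simp [h])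

/-- Bounded recursion with a size bound that holds for every oracle. -/
theorem natRec {g : α → ℕ} {Z : Orc → α → β} {S : Orc → α → ℕ → β → β} (hg : PT g) (hZ : OPT Z)
    (hS : OPT (fun O (p : α × ℕ × β) => S O p.1 p.2.1 p.2.2)) {B : α → ℕ} (hB : PB B)
    (hb : ∀ O a i, i ≤ g a → sz (Nat.rec (Z O a) (S O a) i : β) ≤ B a) :
    OPT (fun O a => (Nat.rec (Z O a) (S O a) (g a) : β)) := by
  obtain ⟨P, h1, ⟨c, hc, hc'⟩, -, h4⟩ := hZ
  obtain ⟨P', h1', ⟨c', hd, hd'⟩, -, h4'⟩ := hS
  obtain ⟨k, hk⟩ := hd.exists_mono
  obtain ⟨l, hl⟩ := h1'.pb.exists_mono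
  let R : α → ℕ → Prog β := fun a i =>
    Nat.rec (P a) (fun j p => p.bind (fun b => P' (a, j, b))) i
  have hrun : ∀ O a i, (R a i).run O = (Nat.rec (Z O a) (S O a) i : β) := by
    intro O a i
    induction i with
    | zero => exact h4 O a
    | succ i ih =>
      show ((R a i).bind _).run O = _
      rw [Prog.run_bind, ih, h4']
  have hT : ∀ tb a i, (R a i).runT tb = (Nat.rec ((P a).runT tb)
      (fun j s => sbind s (fun b => (P' (a, j, b)).runT tb)) i : Q ⊕ β) := by
    intro tb a i
    induction i with
    | zero => rfl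
    | succ i ih =>
      show ((R a i).bind _).runT tb = _
      rw [Prog.runT_bind, ih]
  have hp : PB (fun a : α => 2 * sz a + (2 * g a + B a + 1) + 1) :=
    (((PB.const 2).mul PB.size).add ((((PB.const 2).mul hg.pbNat).add hB).add (PB.const 1))).add
      (PB.const 1)
  refine ⟨fun a => R a (g a), ?_,
    ⟨fun a => c a + g a * (2 * sz a + (2 * g a + B a + 1) + 1 + 2) ^ k,
      hc.add (hg.pbNat.mul ((hp.add (PB.const 2)).pow k)), fun O a => ?_⟩,
    ⟨B, hB, fun O a => hb O a _ le_rfl⟩, fun O a => hrun O a _⟩
  · simp only [hT]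
    refine PT.natRec (g := fun z : Tab × α => g z.2) (z := fun z : Tab × α => (P z.2).runT z.1)
      (s := fun z j s => sbind s (fun b => (P' (z.2, j, b)).runT z.1)) (by fun_prop) h1 ?_
      (B := fun z => sz ((P z.2).runT z.1) +
        (2 * sz z.1 + (2 * sz z.2 + (2 * g z.2 + B z.2 + 1) + 1) + 1 + 2) ^ l) ?_ ?_
    · refine pt_sbind (s := fun p : (Tab × α) × ℕ × (Q ⊕ β) => p.2.2)
        (g := fun p b => (P' (p.1.2, p.2.1, b)).runT p.1.1) (by fun_prop) ?_
      exact h1'.comp (f := fun p : ((Tab × α) × ℕ × (Q ⊕ β)) × β =>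
        (p.1.1.1, (p.1.1.2, p.1.2.1, p.2))) (by fun_prop)
    · have e1 : PB (fun z : Tab × α => sz z.1) := PT.id'.fst.pb
      have e2 : PB (fun z : Tab × α => 2 * sz z.2 + (2 * g z.2 + B z.2 + 1) + 1) :=
        hp.comp PT.id'.snd.pb
      exact h1.pb.add ((((((PB.const 2).mul e1).add e2).add (PB.const 1)).add (PB.const 2)).pow l)
    · rintro ⟨tb, a⟩ i hi
      simp only
      rw [← hT]
      induction i with
      | zero => exact Nat.le_add_right _ _
      | succ i ih =>
        have ih := ih (by simp only at hi ⊢; omega)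
        show sz (((R a i).bind _).runT tb) ≤ _
        rw [Prog.runT_bind]
        cases h : (R a i).runT tb with
        | inl q => rw [h] at ih; exact ih
        | inr b =>
          have hb' := Prog.runT_inr h
          rw [hrun] at hb'
          have h2 := hb (tval tb) a i (by simp only at hi; omega)
          rw [← hb'] at h2
          refine le_trans (hl (tb, a, i, b) _ ?_) (Nat.le_add_left _ _)
          simp only [sz_pair, sz_nat]
          simp only at hi
          omega
  · have : ∀ i, i ≤ g a → (R a i).cost O ≤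
        c a + i * (2 * sz a + (2 * g a + B a + 1) + 1 + 2) ^ k := by
      intro i
      induction i with
      | zero => intro _; exact (hc' O a).trans (Nat.le_add_right _ _)
      | succ i ih =>
        intro hi
        show ((R a i).bind _).cost O ≤ _
        rw [Prog.cost_bind, hrun, Nat.succ_mul]
        have h1 := ih (by omega)
        have h2 := hb O a i (by omega)
        have h3 := (hd' O (a, i, (Nat.rec (Z O a) (S O a) i : β))).trans
          (hk _ (2 * sz a + (2 * g a + B a + 1) + 1) (by simp only [sz_pair, sz_nat]; omega))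
        omega
    exact this _ le_rfl

/-- Bounded iteration with a size bound that holds for every oracle. -/
theorem iter {g : α → ℕ} {Z : Orc → α → β} {S : Orc → α → β → β} (hg : PT g) (hZ : OPT Z)
    (hS : OPT (fun O (p : α × β) => S O p.1 p.2)) {B : α → ℕ} (hB : PB B)
    (hb : ∀ O a i, i ≤ g a → sz ((S O a)^[i] (Z O a)) ≤ B a) :
    OPT (fun O a => (S O a)^[g a] (Z O a)) := by
  have key : ∀ O a i, (Nat.rec (Z O a) (fun _ b => S O a b) i : β) = (S O a)^[i] (Z O a) := by
    intro O a i
    induction i with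
    | zero => rfl
    | succ i ih => rw [Function.iterate_succ_apply', ← ih]
  refine (natRec (S := fun O a _ b => S O a b) hg hZ
    (hS.pre (f := fun p : α × ℕ × β => (p.1, p.2.2)) (by fun_prop)) hB
    (fun O a i hi => by rw [key]; exact hb O a i hi)).congr (fun O a => key O a _)

/-- Recursion where every step adds a polynomially bounded amount of size. -/
theorem natRec_add {g : α → ℕ} {Z : Orc → α → β} {S : Orc → α → ℕ → β → β} (hg : PT g)
    (hZ : OPT Z) (hS : OPT (fun O (p : α × ℕ × β) => S O p.1 p.2.1 p.2.2)) {C : α → ℕ}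
    (hC : PB C) (hb : ∀ O a i b, i < g a → sz (S O a i b) ≤ sz b + C a) :
    OPT (fun O a => (Nat.rec (Z O a) (S O a) (g a) : β)) := by
  obtain ⟨B, hB, hB'⟩ := hZ.pb
  refine natRec hg hZ hS (B := fun a => B a + g a * C a) (hB.add (hg.pbNat.mul hC))
    (fun O a i hi => ?_)
  have : ∀ j, j ≤ g a → sz (Nat.rec (Z O a) (S O a) j : β) ≤ B a + j * C a := by
    intro j
    induction j with
    | zero => intro _; simpa using hB' O a
    | succ j ih =>
      intro hj
      have h1 := ih (by omega)
      have h2 := hb O a j (Nat.rec (Z O a) (S O a) j : β) (by omega)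
      show sz (S O a j _) ≤ _
      rw [Nat.succ_mul]
      omega
  exact (this i hi).trans (Nat.add_le_add_left (Nat.mul_le_mul_right _ hi) _)

/-- A list of oracle-dependent values. -/
theorem mkL {n : α → ℕ} {F : Orc → α → ℕ → β} (hn : PT n)
    (hF : OPT (fun O (p : α × ℕ) => F O p.1 p.2)) : OPT (fun O a => mkL (n a) (F O a)) := by
  obtain ⟨B, hB, hB'⟩ := hF.pb
  obtain ⟨k, hk⟩ := hB.exists_mono
  have key : ∀ O a i, i ≤ n a →
      (Nat.rec [] (fun j l => F O a (n a - 1 - j) :: l) i : List β) =
        (List.range' (n a - i) i).map (F O a) := by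
    intro O a i
    induction i with
    | zero => intro _; rfl
    | succ i ih =>
      intro hi
      show F O a (n a - 1 - i) :: (Nat.rec [] (fun j l => F O a (n a - 1 - j) :: l) i : List β) = _
      rw [ih (by omega), List.range'_succ, List.map_cons]
      congr 2
      · omega
      · congr 1; omega
  refine (natRec_add (Z := fun _ _ => ([] : List β))
    (S := fun O a j l => F O a (n a - 1 - j) :: l) hn (pt (PT.const _)) ?_
    (C := fun a => 2 * (2 * sz a + n a + 1 + 2) ^ k + 1) ?_ (fun O a i b _ => ?_)).congr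
    (fun O a => ?_)
  · exact post₂ (g := fun (p : α × ℕ × List β) v => v :: p.2.2)
      (hF.pre (f := fun p : α × ℕ × List β => (p.1, n p.1 - 1 - p.2.1)) (by fun_prop))
      (by fun_prop)
  · exact ((PB.const 2).mul ((((((PB.const 2).mul PB.size).add hn.pbNat).add (PB.const 1)).add
      (PB.const 2)).pow k)).add (PB.const 1)
  · have := (hB' O (a, n a - 1 - i)).trans
      (hk _ (2 * sz a + n a + 1) (by simp only [sz_pair, sz_nat]; omega))
    simp only [sz_cons] at this ⊢
    omega
  · rw [key O a _ le_rfl, Nat.sub_self, R317.mkL, List.range_eq_range']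

end OPT

end Crest.Agent.R302
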