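import Crest.Agent.R302.DefsA

/-! Row 302, task GRO: growth of log-concave sequences. -/

set_option autoImplicit false

namespace Crest.Agent.R302

open Finset Crest.Agent.R309

theorem GRO_proof : GroStmt := by
  intro g a c L j hg hac hL ha hc hc0
  obtain ⟨hn, hl⟩ := hg
  set r := g (c + 1) / g c with hr
  have hr0 : 0 ≤ r := div_nonneg (hn _) hc0.le
  have h1 : ∀ i : ℕ, g (c + i) ≤ r ^ i * g c := by
    intro i
    induction i with
    | zero => simp
    | succ i ih =>
      have h := hl c (c + i + 1) (by omega)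
      rw [add_sub_cancel_right] at h
      have h2 : g (c + i + 1) ≤ r * g (c + i) := by
        rw [hr, div_mul_eq_mul_div, le_div_iff₀ hc0]; linarith
      push_cast
      rw [← add_assoc, pow_succ]
      have := mul_le_mul_of_nonneg_left ih hr0
      linarith
  have h2 : ∀ i : ℕ, r ^ i * g (c - i) ≤ g c := by
    intro i
    induction i with
    | zero => simp
    | succ i ih =>
      have h := hl (c - i - 1) (c + 1) (by omega)
      rw [add_sub_cancel_right, sub_add_cancel] at h
      have h2 : r * g (c - i - 1) ≤ g (c - i) := by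
        rw [hr, div_mul_eq_mul_div, div_le_iff₀ hc0]; linarith
      push_cast
      rw [← sub_sub, pow_succ, mul_assoc]
      exact (mul_le_mul_of_nonneg_left h2 (pow_nonneg hr0 i)).trans ih
  obtain ⟨n, hn'⟩ : ∃ n : ℕ, c - a = n := ⟨(c - a).toNat, by omega⟩
  have hn0 : n ≠ 0 := by omega
  have h3 := h2 n
  rw [show c - (n : ℤ) = a by omega] at h3
  have h4 : r ^ n ≤ Real.exp L := le_of_mul_le_mul_right (h3.trans hc) ha
  have hnR : (0 : ℝ) < n := by exact_mod_cast Nat.pos_of_ne_zero hn0
  have h5 : r ≤ Real.exp (L / n) := by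
    refine le_of_pow_le_pow_left₀ hn0 (Real.exp_pos _).le ?_
    rw [← Real.exp_nat_mul, mul_div_cancel₀ _ hnR.ne']
    exact h4
  refine (h1 j).trans (mul_le_mul_of_nonneg_right ?_ hc0.le)
  rw [hn', Int.cast_natCast, show L * j / n = j * (L / n) by ring, Real.exp_nat_mul]
  exact pow_le_pow_left₀ hr0 h5 j

end Crest.Agent.R302
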