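import Crest.Agent.R302.DefsC
import Crest.Agent.R302.GRO
import Crest.Agent.R309.AV

set_option autoImplicit false

namespace Crest.Agent.R302

open Finset Crest.Agent.PT Crest.Agent.QC Crest.Agent.R317 Crest.Agent.R300U Crest.Agent.R309

namespace ACC

theorem two_le_pow (M : ℕ) (hM : 1 ≤ M) : (2 : ℝ) ≤ (1 + 1 / (M : ℝ)) ^ M := by
  have h0 : (0 : ℝ) < M := by exact_mod_cast hM
  have := one_add_mul_le_pow (a := 1 / (M : ℝ)) (by have : 0 < 1 / (M : ℝ) := by positivity
                                                    linarith) M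
  rw [mul_one_div_cancel h0.ne'] at this
  linarith

theorem two_pow_le (M k : ℕ) (hM : 1 ≤ M) : (2 : ℝ) ^ k ≤ (1 + 1 / (M : ℝ)) ^ (M * k) := by
  rw [pow_mul]
  exact pow_le_pow_left₀ (by norm_num) (two_le_pow M hM) k

theorem lin_le_two_pow (m : ℕ) (hm : 2000 ≤ m) : 100 * m ≤ 2 ^ m := by
  obtain ⟨k, rfl⟩ : ∃ k, m = k + 10 := ⟨m - 10, by omega⟩
  have h := @Nat.lt_two_pow_self k
  rw [pow_add]
  omega

theorem qJ_le (m : ℕ) (hm : 2000 ≤ m) : qJ m ≤ qN m := by
  unfold qJ qM qN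
  have h1 : m.size ≤ m := Nat.size_le.2 Nat.lt_two_pow_self
  have h2 : 4 ≤ m := by omega
  calc 4 * m ^ 143 * m.size ≤ m * m ^ 143 * m := by gcongr
    _ = m ^ 145 := by ring
    _ ≤ m ^ 600 := Nat.pow_le_pow_right (by omega) (by norm_num)

variable {n m : ℕ} {f : Bool → Finset (Fin n) → ℤ} {P : Pre}

theorem base1 (m : ℕ) : (1 : ℝ) ≤ 1 + 1 / (qH m : ℝ) := by
  have : (0 : ℝ) ≤ 1 / (qH m : ℝ) := by positivity
  linarith

theorem base2 (m : ℕ) : (1 : ℝ) ≤ 1 + 1 / (m : ℝ) ^ 4 := by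
  have : (0 : ℝ) ≤ 1 / (m : ℝ) ^ 4 := by positivity
  linarith

/-- first factor -/
noncomputable def A1 (n m : ℕ) (P : Pre) (x : List ℤ) (j : Fin n) : ℝ :=
  if nd P j then (1 + 1 / (qH m : ℝ)) ^ (-(dF n P x j * dF n P x j)) else 1

/-- second factor -/
noncomputable def A2 (n m : ℕ) (f : Bool → Finset (Fin n) → ℤ) (P : Pre) (x : List ℤ)
    (c : Fin n × Bool) (w : ℕ) : ℝ :=
  (1 + 1 / (m : ℝ) ^ 4) ^ (-(qV m * rho n m f P c.2 c.1 (m ^ 2 + w - qO m) (zv n P c.2 x)))

theorem psi_eq (ω : Fin n × Bool → ℕ) (x : List ℤ) :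
    psi0 n m f P ω x = (∏ j, A1 n m P x j) * ∏ c, A2 n m f P x c (ω c) := rfl

theorem A1_pos (x : List ℤ) (j : Fin n) : 0 < A1 n m P x j := by
  unfold A1
  have := base1 m
  split_ifs
  · exact zpow_pos (by linarith) _
  · exact one_pos

theorem A1_le (x : List ℤ) (j : Fin n) : A1 n m P x j ≤ 1 := by
  unfold A1
  split_ifs
  · exact zpow_le_one_of_nonpos₀ (base1 m) (by nlinarith [mul_self_nonneg (dF n P x j)])
  · exact le_rfl

theorem A2_pos (x : List ℤ) (c : Fin n × Bool) (w : ℕ) : 0 < A2 n m f P x c w := by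
  unfold A2
  have := base2 m
  exact Real.rpow_pos_of_pos (by linarith) _

theorem A2_le (hR : RhoStmt) (h : Spec n m f P) (x : List ℤ) (c : Fin n × Bool) (w : ℕ) :
    A2 n m f P x c w ≤ 1 := by
  unfold A2
  refine Real.rpow_le_one_of_one_le_of_nonpos (base2 m) ?_
  have := (hR n m f P h c.2 c.1).1 (m ^ 2 + w - qO m) (zv n P c.2 x)
  have h2 : (0 : ℝ) ≤ qV m := by positivity
  nlinarith [mul_nonneg h2 this]

theorem A2_mono (hR : RhoStmt) (h : Spec n m f P) (x : List ℤ) (c : Fin n × Bool) {w w' : ℕ}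
    (hw : w ≤ w') : A2 n m f P x c w ≤ A2 n m f P x c w' := by
  unfold A2
  refine Real.rpow_le_rpow_of_exponent_le (base2 m) ?_
  have := (hR n m f P h c.2 c.1).2.1 (m ^ 2 + w - qO m) (m ^ 2 + w' - qO m) (zv n P c.2 x)
    (by have : (w : ℤ) ≤ w' := by exact_mod_cast hw
        linarith)
  have h2 : (0 : ℝ) ≤ qV m := by positivity
  nlinarith [mul_le_mul_of_nonneg_left this h2]

theorem psi_pos (ω : Fin n × Bool → ℕ) (x : List ℤ) : 0 < psi0 n m f P ω x := by
  rw [psi_eq]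
  exact mul_pos (prod_pos fun j _ => A1_pos x j) (prod_pos fun c _ => A2_pos x c _)

theorem P2_le (hR : RhoStmt) (h : Spec n m f P) (ω : Fin n × Bool → ℕ) (x : List ℤ) :
    ∏ c, A2 n m f P x c (ω c) ≤ 1 :=
  prod_le_one (fun c _ => (A2_pos x c _).le) (fun c _ => A2_le hR h x c _)

theorem psi_le (hR : RhoStmt) (h : Spec n m f P) (ω : Fin n × Bool → ℕ) (x : List ℤ) :
    psi0 n m f P ω x ≤ 1 := by
  rw [psi_eq]
  exact mul_le_one₀ (prod_le_one (fun j _ => (A1_pos x j).le) (fun j _ => A1_le x j))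
    (prod_nonneg fun c _ => (A2_pos x c _).le) (P2_le hR h ω x)

theorem psi_mono (hR : RhoStmt) (h : Spec n m f P) {ω ω' : Fin n × Bool → ℕ} (hω : ∀ c, ω c ≤ ω' c)
    (x : List ℤ) : psi0 n m f P ω x ≤ psi0 n m f P ω' x := by
  rw [psi_eq, psi_eq]
  refine mul_le_mul_of_nonneg_left ?_ (prod_nonneg fun j _ => (A1_pos x j).le)
  exact prod_le_prod (fun c _ => (A2_pos x c _).le) (fun c _ => A2_mono hR h x c (hω c))

theorem one_le_fs (hM : MemStmt) (h : Spec n m f P) (ω : Fin n × Bool → ℕ) : 1 ≤ fs n m f P ω := by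
  obtain ⟨x, hx, h1⟩ := (hM n m f P h).1
  rw [← h1 ω]
  exact single_le_sum (f := fun x => psi0 n m f P ω x) (fun x _ => (psi_pos ω x).le) hx

theorem card_sec (hB : BasStmt) (h : Spec n m f P) :
    ((Sec n m f P).card : ℝ) ≤ 2 ^ (2 * m ^ 2) := by
  have h1 : (Sec n m f P).card ≤ (Om n m f P).card := by
    unfold Sec; exact card_filter_le _ _
  have h2 := (hB n m f P h).2.2.2.2.1
  exact_mod_cast h1.trans h2

theorem fs_le (hR : RhoStmt) (hB : BasStmt) (h : Spec n m f P) (ω : Fin n × Bool → ℕ) :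
    fs n m f P ω ≤ 2 ^ (2 * m ^ 2) := by
  refine le_trans ?_ (card_sec hB h)
  have := sum_le_card_nsmul (Sec n m f P) (fun x => psi0 n m f P ω x) 1 (fun x _ => psi_le hR h ω x)
  simpa [fs] using this

/-- the base value of the relaxation -/
def w1 (m : ℕ) : ℕ := qO m - m ^ 126

theorem w1_add (hm : 2000 ≤ m) : w1 m + m ^ 126 = qO m := by
  unfold w1 qO
  have : m ^ 126 ≤ m ^ 131 := Nat.pow_le_pow_right (by omega) (by norm_num)
  omega

theorem w1_ge (hm : 2000 ≤ m) : m ^ 131 ≤ 2 * w1 m := by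
  have h1 := w1_add hm
  have : 2 * m ^ 126 ≤ m ^ 131 := by
    calc 2 * m ^ 126 ≤ m * m ^ 126 := by gcongr; omega
      _ = m ^ 127 := by ring
      _ ≤ m ^ 131 := Nat.pow_le_pow_right (by omega) (by norm_num)
  unfold qO at h1
  omega

theorem qO_le (hm : 2000 ≤ m) : qO m ≤ qT m := Nat.pow_le_pow_right (by omega) (by norm_num)

theorem grow (hR : RhoStmt) (hM : MemStmt) (hB : BasStmt) (hG : Mg2Stmt) (h : Spec n m f P)
    (ω : Fin n × Bool → ℕ) (hω : ∀ c, ω c ≤ qT m) (c : Fin n × Bool) (j : ℕ) (hj : j ≤ m ^ 126) :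
    fs n m f P (Function.update ω c (w1 m + j)) ≤
      Real.exp (4 / (m : ℝ) ^ 2) * fs n m f P (Function.update ω c (w1 m)) := by
  have hm := h.big
  have hm0 : (0 : ℝ) < m := by exact_mod_cast (by omega : 0 < m)
  have hm1 : (2000 : ℝ) ≤ m := by exact_mod_cast hm
  obtain ⟨g, hg, hb⟩ := hG n m f P h ω c hω
  have e1 := w1_add hm
  have e2 := qO_le hm
  have e3 := w1_ge hm
  have hw0 : 0 < w1 m := by
    have : 0 < m ^ 131 := by positivity
    omega
  have b0 := (hb 0 (Nat.zero_le _)).1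
  have b1 := hb (w1 m) (by omega)
  have b2 := (hb (w1 m + j) (by omega)).1
  have f0 := one_le_fs hM h (Function.update ω c 0)
  have f1 := one_le_fs hM h (Function.update ω c (w1 m))
  have f2 := fs_le hR hB h (Function.update ω c (w1 m))
  set t : ℝ := 1 / (m : ℝ) ^ 2 with ht
  have ht0 : 0 < t := by positivity
  have ht1 : t ≤ 1 := by
    rw [ht, div_le_one (by positivity)]; nlinarith
  have g0 : Real.exp (-t) ≤ g 0 := by
    have := mul_le_mul_of_nonneg_left f0 (Real.exp_pos (-t)).le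
    simp only [Nat.cast_zero] at b0
    linarith
  have g0' : 0 < g 0 := lt_of_lt_of_le (Real.exp_pos _) g0
  have g1' : 0 < g (w1 m) := lt_of_lt_of_le (mul_pos (Real.exp_pos _) (by linarith)) b1.1
  have hL : g (w1 m) ≤ Real.exp ((m : ℝ) ^ 3) * g 0 := by
    have h2 : (2 : ℝ) ^ (2 * m ^ 2) ≤ Real.exp (2 * (m : ℝ) ^ 2) := by
      have : (2 : ℝ) ≤ Real.exp 1 := by have := Real.add_one_le_exp (1 : ℝ); linarith
      calc (2 : ℝ) ^ (2 * m ^ 2) ≤ Real.exp 1 ^ (2 * m ^ 2) := pow_le_pow_left₀ (by norm_num) this _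
        _ = Real.exp (2 * (m : ℝ) ^ 2) := by rw [← Real.exp_nat_mul]; push_cast; ring_nf
    calc g (w1 m) ≤ Real.exp t * Real.exp (2 * (m : ℝ) ^ 2) :=
          b1.2.trans (mul_le_mul_of_nonneg_left (f2.trans h2) (Real.exp_pos _).le)
      _ ≤ Real.exp ((m : ℝ) ^ 3) * Real.exp (-t) := by
          rw [← Real.exp_add, ← Real.exp_add]
          refine Real.exp_le_exp.2 ?_
          have : 2 + 2 * (m : ℝ) ^ 2 ≤ (m : ℝ) ^ 3 := by nlinarith [mul_pos hm0 hm0]
          linarith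
      _ ≤ _ := mul_le_mul_of_nonneg_left g0 (Real.exp_pos _).le
  have hgr := GRO_proof g 0 (w1 m) ((m : ℝ) ^ 3) j hg (by exact_mod_cast hw0) (by positivity) g0' hL g1'
  have hex : (m : ℝ) ^ 3 * j / ((w1 m : ℤ) - 0 : ℤ) ≤ 2 * t := by
    have hw : (0 : ℝ) < w1 m := by exact_mod_cast hw0
    have hj' : (j : ℝ) ≤ (m : ℝ) ^ 126 := by exact_mod_cast hj
    have e3' : (m : ℝ) ^ 131 ≤ 2 * w1 m := by exact_mod_cast e3
    rw [sub_zero, Int.cast_natCast, div_le_iff₀ hw, ht]
    calc (m : ℝ) ^ 3 * j ≤ (m : ℝ) ^ 3 * (m : ℝ) ^ 126 := by gcongr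
      _ = 1 / (m : ℝ) ^ 2 * (m : ℝ) ^ 131 := by field_simp
      _ ≤ 1 / (m : ℝ) ^ 2 * (2 * w1 m) := by gcongr
      _ = _ := by ring
  have h5 : g ((w1 m : ℤ) + j) ≤ Real.exp (2 * t) * (Real.exp t * fs n m f P (Function.update ω c (w1 m))) :=
    hgr.trans (mul_le_mul (Real.exp_le_exp.2 hex) b1.2 g1'.le (Real.exp_pos _).le)
  push_cast at b2
  have h6 := mul_le_mul_of_nonneg_left (b2.trans h5) (Real.exp_pos t).le
  rw [← mul_assoc, ← Real.exp_add, add_neg_cancel, Real.exp_zero, one_mul, ← mul_assoc, ← mul_assoc,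
    ← Real.exp_add, ← Real.exp_add] at h6
  rw [show 4 / (m : ℝ) ^ 2 = t + 2 * t + t by rw [ht]; ring]
  exact h6

theorem grow_all (hR : RhoStmt) (hM : MemStmt) (hB : BasStmt) (hG : Mg2Stmt) (h : Spec n m f P)
    (S : Finset (Fin n × Bool)) :
    fs n m f P (fun c => if c ∈ S then qO m else w1 m) ≤
      Real.exp (4 / (m : ℝ) ^ 2) ^ S.card * fs n m f P (fun _ => w1 m) := by
  have hm := h.big
  have e1 := w1_add hm
  have e2 := qO_le hm
  induction S using Finset.induction_on with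
  | empty => simp
  | insert c S hc ih =>
    have := grow hR hM hB hG h (fun c => if c ∈ S then qO m else w1 m)
      (fun c => by split_ifs <;> omega) c (m ^ 126) le_rfl
    have h1 : Function.update (fun c => if c ∈ S then qO m else w1 m) c (w1 m + m ^ 126) =
        fun c' => if c' ∈ insert c S then qO m else w1 m := by
      funext c'
      by_cases hcc : c' = c
      · subst hcc; simp [e1]
      · simp [hcc]
    have h2 : Function.update (fun c => if c ∈ S then qO m else w1 m) c (w1 m) =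
        fun c' => if c' ∈ S then qO m else w1 m := by
      funext c'
      by_cases hcc : c' = c
      · subst hcc; simp [hc]
      · simp [hcc]
    rw [h1, h2] at this
    rw [card_insert_of_notMem hc, pow_succ', mul_assoc]
    exact this.trans (mul_le_mul_of_nonneg_left ih (Real.exp_pos _).le)

theorem bad1 (hR : RhoStmt) (h : Spec n m f P) (x : List ℤ) (hx : x ∈ Sec n m f P)
    (c : Fin n × Bool)
    (hc : 1 / (m : ℝ) ^ 12 < rho n m f P c.2 c.1 (m ^ 2 - m ^ 126) (zv n P c.2 x)) :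
    2 ^ m * psi0 n m f P (fun _ => w1 m) x ≤
      psi0 n m f P (Function.update (fun _ => w1 m) c (w1 m + 2 * m ^ 125)) x := by
  have hm := h.big
  have hm0 : (0 : ℝ) < m := by exact_mod_cast (by omega : 0 < m)
  have hm1 : (2000 : ℝ) ≤ m := by exact_mod_cast hm
  have hn : (n : ℝ) ≤ m := by exact_mod_cast h.le
  have e1 : ((w1 m : ℕ) : ℤ) = qO m - (m : ℤ) ^ 126 := by
    have := w1_add hm
    have : ((w1 m + m ^ 126 : ℕ) : ℤ) = qO m := by exact_mod_cast this
    push_cast at this; linarith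
  have key : 2 ^ m * A2 n m f P x c (w1 m) ≤ A2 n m f P x c (w1 m + 2 * m ^ 125) := by
    unfold A2
    have h5 := ((hR n m f P h c.2 c.1).2.2.2.2.2.2.2.2 x hx).2 (m ^ 2 - m ^ 126) (2 * m ^ 125)
    have a1 : ((m : ℤ) ^ 2 + ((w1 m : ℕ) : ℤ) - qO m) = m ^ 2 - m ^ 126 := by rw [e1]; ring
    have a2 : ((m : ℤ) ^ 2 + ((w1 m + 2 * m ^ 125 : ℕ) : ℤ) - qO m) =
        m ^ 2 - m ^ 126 + ((2 * m ^ 125 : ℕ) : ℤ) := by rw [Nat.cast_add, e1]; ring
    rw [a1, a2]
    set r := rho n m f P c.2 c.1 (m ^ 2 - m ^ 126) (zv n P c.2 x)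
    set r' := rho n m f P c.2 c.1 (m ^ 2 - m ^ 126 + ((2 * m ^ 125 : ℕ) : ℤ)) (zv n P c.2 x)
    have h6 : 1 / (m : ℝ) ^ 12 ≤ ((2 * m ^ 125 : ℕ) : ℝ) / (qT m * (n + 1)) := by
      unfold qT
      push_cast
      rw [div_le_div_iff₀ (by positivity) (by positivity)]
      calc 1 * ((m : ℝ) ^ 136 * (n + 1)) ≤ 1 * ((m : ℝ) ^ 136 * (2 * m)) := by gcongr; linarith
        _ = _ := by ring
    have h7 : r' ≤ r - 1 / (m : ℝ) ^ 12 := h5.trans (max_le (by linarith) (by linarith))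
    have h8 : (2 : ℝ) ^ m ≤ (1 + 1 / (m : ℝ) ^ 4) ^ ((m : ℝ) ^ 5) := by
      have := two_pow_le (m ^ 4) m (Nat.one_le_pow _ _ (by omega))
      rw [← pow_succ, ← Real.rpow_natCast (1 + _)] at this
      push_cast at this
      exact this
    have hb := base2 m
    calc (2 : ℝ) ^ m * (1 + 1 / (m : ℝ) ^ 4) ^ (-(qV m * r))
        ≤ (1 + 1 / (m : ℝ) ^ 4) ^ ((m : ℝ) ^ 5) * (1 + 1 / (m : ℝ) ^ 4) ^ (-(qV m * r)) :=
          mul_le_mul_of_nonneg_right h8 (Real.rpow_nonneg (by linarith) _)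
      _ = (1 + 1 / (m : ℝ) ^ 4) ^ ((m : ℝ) ^ 5 + -(qV m * r)) := by
          rw [Real.rpow_add (by linarith)]
      _ ≤ _ := by
          refine Real.rpow_le_rpow_of_exponent_le hb ?_
          have h9 : (qV m : ℝ) * (1 / (m : ℝ) ^ 12) = (m : ℝ) ^ 5 := by
            unfold qV; push_cast; field_simp
          have h10 : (0 : ℝ) ≤ qV m := by positivity
          nlinarith [mul_le_mul_of_nonneg_left h7 h10]
  rw [psi_eq, psi_eq, mul_left_comm]
  refine mul_le_mul_of_nonneg_left ?_ (prod_nonneg fun j _ => (A1_pos x j).le)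
  rw [← mul_prod_erase univ _ (mem_univ c), ← mul_prod_erase univ _ (mem_univ c), ← mul_assoc,
    Function.update_self]
  refine mul_le_mul key (le_of_eq (prod_congr rfl fun c' hc' => ?_))
    (prod_nonneg fun c _ => (A2_pos x c _).le) (A2_pos x c _).le
  rw [Function.update_of_ne (ne_of_mem_erase hc')]

theorem bad2 (hR : RhoStmt) (h : Spec n m f P) (ω : Fin n × Bool → ℕ) (x : List ℤ) (j : Fin n)
    (hj : nd P j) (hd : (qW m : ℤ) < |dF n P x j|) : 2 ^ (m ^ 4) * psi0 n m f P ω x ≤ 1 := by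
  have hm := h.big
  have h1 : psi0 n m f P ω x ≤ A1 n m P x j := by
    rw [psi_eq, ← mul_prod_erase univ _ (mem_univ j), mul_assoc]
    refine mul_le_of_le_one_right (A1_pos x j).le (mul_le_one₀
      (prod_le_one (fun j _ => (A1_pos x j).le) (fun j _ => A1_le x j))
      (prod_nonneg fun c _ => (A2_pos x c _).le) (P2_le hR h ω x))
  have hb := base1 m
  have h2 : (2 : ℝ) ^ (m ^ 4) ≤ (1 + 1 / (qH m : ℝ)) ^ (dF n P x j * dF n P x j) := by
    refine (two_pow_le (qH m) (m ^ 4) (Nat.one_le_pow _ _ (by omega))).trans ?_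
    rw [← zpow_natCast]
    refine zpow_le_zpow_right₀ hb ?_
    have e : ((qH m * m ^ 4 : ℕ) : ℤ) = (qW m : ℤ) * qW m := by
      unfold qH qW; push_cast; ring
    rw [e, ← abs_mul_abs_self (dF n P x j)]
    have : (0 : ℤ) ≤ qW m := by positivity
    exact mul_le_mul hd.le hd.le this (abs_nonneg _)
  unfold A1 at h1
  rw [if_pos hj, zpow_neg] at h1
  have h3 : (0 : ℝ) < (1 + 1 / (qH m : ℝ)) ^ (dF n P x j * dF n P x j) := zpow_pos (by linarith) _
  calc (2 : ℝ) ^ (m ^ 4) * psi0 n m f P ω x ≤ _ * _ :=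
        mul_le_mul h2 h1 (psi_pos ω x).le h3.le
    _ = 1 := mul_inv_cancel₀ h3.ne'

theorem wf (hW : WfStmt) (h : Spec n m f P) (p : List ℤ) (hp : (mdlM n m f P).Valid (qN m) p)
    (x : List ℤ) (hx : x ∈ Sec n m f P) :
    Real.exp (-(2 / (m : ℝ) ^ 3)) * psi0 n m f P (fun _ => qO m) x ≤
        ((mdlM n m f P).W (qN m) p x : ℝ) ∧
      ((mdlM n m f P).W (qN m) p x : ℝ) ≤ psi0 n m f P (fun _ => qO m) x := by
  unfold Sec at hx
  obtain ⟨hx1, hx2⟩ := mem_filter.1 hx
  obtain ⟨c, c1, c2, e⟩ := hW n m f P h (qN m) p hp x hx1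
  have e0 : qJ m - qN m = 0 := Nat.sub_eq_zero_of_le (qJ_le m h.big)
  have e1 : ∀ i : Fin n, dc n P x i = 0 := fun i => hx2 i i.2
  simp only [e0, e1, Nat.cast_zero, zero_mul, neg_zero, zpow_zero, prod_const_one, mul_one,
    abs_zero, mul_zero] at e
  rw [e]
  have := psi_pos (m := m) (f := f) (P := P) (fun _ => qO m) x
  exact ⟨mul_le_mul_of_nonneg_right c1 this.le, mul_le_of_le_one_left this.le c2⟩

end ACC

open ACC in
theorem ACC_proof (hR : RhoStmt) (hW : WfStmt) (hG : Mg2Stmt) (hM : MemStmt) (hB : BasStmt) :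
    AccStmt := by
  classical
  intro n m f P h p hp
  have hm := h.big
  have hm0 : (0 : ℝ) < m := by exact_mod_cast (by omega : 0 < m)
  have hm1 : (2000 : ℝ) ≤ m := by exact_mod_cast hm
  have hn : (n : ℝ) ≤ m := by exact_mod_cast h.le
  set F := fs n m f P (fun _ => w1 m) with hF
  have hF1 : 1 ≤ F := one_le_fs hM h _
  have hexp : ∀ t : ℝ, 0 ≤ t → t ≤ 1 / 100 → Real.exp t ≤ 102 / 100 := by
    intro t h0 h1
    have := Real.exp_bound' h0 (by linarith) (n := 1) one_pos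
    simp at this
    nlinarith
  -- upper bound
  have u1 : ∑ x ∈ Sec n m f P, ((mdlM n m f P).W (qN m) p x : ℝ) ≤ 102 / 100 * F := by
    have h1 : ∑ x ∈ Sec n m f P, ((mdlM n m f P).W (qN m) p x : ℝ) ≤ fs n m f P (fun _ => qO m) :=
      sum_le_sum fun x hx => (wf hW h p hp x hx).2
    have h2 := grow_all hR hM hB hG h univ
    simp only [mem_univ, if_true, card_univ, Fintype.card_prod, Fintype.card_fin,
      Fintype.card_bool] at h2
    refine h1.trans (h2.trans (mul_le_mul_of_nonneg_right ?_ (by linarith)))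
    rw [← Real.exp_nat_mul]
    refine hexp _ (by positivity) ?_
    push_cast
    rw [← mul_div_assoc, div_le_div_iff₀ (by positivity) (by norm_num)]
    nlinarith
  -- the good states
  set Gd : List ℤ → Prop := fun x =>
    (∀ b, ∀ i < n, rho n m f P b i (m ^ 2 - m ^ 126) (zv n P b x) ≤ 1 / (m : ℝ) ^ 12) ∧
      ∀ j < n, nd P j → |dF n P x j| ≤ qW m with hGd
  have hv0 : (mdlM n m f P).Valid (qN m) [] := ⟨le_rfl, fun v => by simp⟩
  have l1 : Real.exp (-(2 / (m : ℝ) ^ 3)) *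
      ∑ x ∈ (Sec n m f P).filter Gd, psi0 n m f P (fun _ => w1 m) x ≤ amass n m f P := by
    rw [mul_sum]
    unfold amass
    have hsub : (Sec n m f P).filter Gd ⊆ Om n m f P := by
      refine (filter_subset _ _).trans ?_
      unfold Sec; exact filter_subset _ _
    refine le_trans (sum_le_sum fun x hx => ?_) (sum_le_sum_of_subset_of_nonneg hsub
      (fun x hx _ => mul_nonneg ?_ (Pb_nonneg _ _)))
    · obtain ⟨hx1, hx2⟩ := mem_filter.1 hx
      have hacc : ∀ u, (mdlM n m f P).acc x u = true := by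
        intro u
        have hs := hx1
        unfold Sec at hs
        exact decide_eq_true ⟨⟨(mem_filter.1 hs).2, hx2.2⟩, (hM n m f P h).2.1 x hx1 hx2.1 u⟩
      rw [Pb_true (fun u _ => hacc u), mul_one]
      refine le_trans (mul_le_mul_of_nonneg_left (psi_mono hR h (fun _ => ?_) x)
        (Real.exp_pos _).le) (wf hW h [] hv0 x hx1).1
      have := w1_add hm
      omega
    · exact_mod_cast ((hB n m f P h).2.2.1 _ _ x hx).1.le
  have l2 : ∑ x ∈ (Sec n m f P).filter (fun x => ¬ Gd x), psi0 n m f P (fun _ => w1 m) x ≤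
      F / 10 := by
    have h1 : ∀ x ∈ (Sec n m f P).filter (fun x => ¬ Gd x), psi0 n m f P (fun _ => w1 m) x ≤
        (∑ c : Fin n × Bool, psi0 n m f P
          (Function.update (fun _ => w1 m) c (w1 m + 2 * m ^ 125)) x) / 2 ^ m + 1 / 2 ^ (m ^ 4) := by
      intro x hx
      obtain ⟨hx1, hx2⟩ := mem_filter.1 hx
      have s0 : 0 ≤ (∑ c : Fin n × Bool, psi0 n m f P
          (Function.update (fun _ => w1 m) c (w1 m + 2 * m ^ 125)) x) / 2 ^ m :=
        div_nonneg (sum_nonneg fun c _ => (psi_pos _ x).le) (by positivity)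
      have s1 : (0 : ℝ) ≤ 1 / 2 ^ (m ^ 4) := by positivity
      rw [hGd] at hx2
      simp only [not_and_or, not_forall, not_le] at hx2
      rcases hx2 with ⟨b, i, hi, hx2⟩ | ⟨j, hj, hj2, hx2⟩
      · have b1 := bad1 hR h x hx1 (⟨i, hi⟩, b) hx2
        have b2 := single_le_sum (f := fun c : Fin n × Bool => psi0 n m f P
          (Function.update (fun _ => w1 m) c (w1 m + 2 * m ^ 125)) x)
          (fun c _ => (psi_pos _ x).le) (mem_univ (⟨i, hi⟩, b))
        refine le_add_of_le_of_nonneg ?_ s1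
        rw [le_div_iff₀' (by positivity)]
        exact b1.trans b2
      · have b1 := bad2 hR h (fun _ => w1 m) x ⟨j, hj⟩ hj2 hx2
        refine le_add_of_nonneg_of_le s0 ?_
        rw [le_div_iff₀' (by positivity)]
        exact b1
    have h2 : ∑ x ∈ (Sec n m f P).filter (fun x => ¬ Gd x), psi0 n m f P (fun _ => w1 m) x ≤
        ∑ x ∈ Sec n m f P, ((∑ c : Fin n × Bool, psi0 n m f P
          (Function.update (fun _ => w1 m) c (w1 m + 2 * m ^ 125)) x) / 2 ^ m + 1 / 2 ^ (m ^ 4)) :=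
      (sum_le_sum h1).trans (sum_le_sum_of_subset_of_nonneg (filter_subset _ _) fun x _ _ =>
        add_nonneg (div_nonneg (sum_nonneg fun c _ => (psi_pos _ x).le) (by positivity))
          (by positivity))
    rw [sum_add_distrib, ← sum_div, sum_comm, sum_const, nsmul_eq_mul] at h2
    have h3 : ∑ c : Fin n × Bool, ∑ x ∈ Sec n m f P, psi0 n m f P
          (Function.update (fun _ => w1 m) c (w1 m + 2 * m ^ 125)) x ≤ (n * 2) * (2 * F) := by
      have : ∀ c : Fin n × Bool, ∑ x ∈ Sec n m f P, psi0 n m f P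
          (Function.update (fun _ => w1 m) c (w1 m + 2 * m ^ 125)) x ≤ 2 * F := by
        intro c
        have e1 := w1_add hm
        have e2 := qO_le hm
        have := grow hR hM hB hG h (fun _ => w1 m) (fun _ => by omega) c (2 * m ^ 125)
          (by calc 2 * m ^ 125 ≤ m * m ^ 125 := by gcongr; omega
                _ = m ^ 126 := by ring)
        rw [Function.update_eq_self] at this
        refine this.trans (mul_le_mul_of_nonneg_right ?_ (by linarith))
        refine (hexp _ (by positivity) ?_).trans (by norm_num)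
        rw [div_le_div_iff₀ (by positivity) (by norm_num)]
        nlinarith
      have h4 := sum_le_card_nsmul univ _ _ (fun c _ => this c)
      simpa using h4
    have h5 : (100 * m : ℝ) ≤ 2 ^ m := by exact_mod_cast lin_le_two_pow m hm
    have h6 : (n * 2 : ℝ) * (2 * F) / 2 ^ m ≤ F / 20 := by
      rw [div_le_div_iff₀ (by positivity) (by norm_num)]
      nlinarith [mul_le_mul_of_nonneg_left h5 (by linarith : 0 ≤ F),
        mul_le_mul_of_nonneg_left hn (by linarith : 0 ≤ F)]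
    have h7 : ((Sec n m f P).card : ℝ) * (1 / 2 ^ (m ^ 4)) ≤ 1 / 20 := by
      rw [mul_one_div, div_le_div_iff₀ (by positivity) (by norm_num), one_mul]
      have h8 : 2 * m ^ 2 + 5 ≤ m ^ 4 := by nlinarith [Nat.pow_le_pow_left hm 2]
      calc ((Sec n m f P).card : ℝ) * 20 ≤ 2 ^ (2 * m ^ 2) * 2 ^ 5 :=
            mul_le_mul (card_sec hB h) (by norm_num) (by norm_num) (by positivity)
        _ = 2 ^ (2 * m ^ 2 + 5) := by rw [pow_add]
        _ ≤ _ := pow_le_pow_right₀ (by norm_num) h8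
    have h9 := div_le_div_of_nonneg_right h3 (by positivity : (0 : ℝ) ≤ 2 ^ m)
    linarith
  have l3 : ∑ x ∈ (Sec n m f P).filter Gd, psi0 n m f P (fun _ => w1 m) x +
      ∑ x ∈ (Sec n m f P).filter (fun x => ¬ Gd x), psi0 n m f P (fun _ => w1 m) x = F :=
    sum_filter_add_sum_filter_not _ _ _
  have l4 : 9 / 10 ≤ Real.exp (-(2 / (m : ℝ) ^ 3)) := by
    have := Real.add_one_le_exp (-(2 / (m : ℝ) ^ 3))
    have h2 : 2 / (m : ℝ) ^ 3 ≤ 1 / 10 := by
      rw [div_le_div_iff₀ (by positivity) (by norm_num)]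
      nlinarith [mul_pos hm0 hm0]
    linarith
  have l5 : 9 / 10 * (9 / 10 * F) ≤ amass n m f P :=
    le_trans (mul_le_mul l4 (by linarith) (by linarith) (Real.exp_pos _).le) l1
  linarith

end Crest.Agent.R302
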