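import Crest.Agent.R302.REP

/-! Row 302, task ALG: the algorithmic model agrees with the mathematical model. -/

set_option autoImplicit false

namespace Crest.Agent.R302

open Finset Crest.Agent.PT Crest.Agent.QC Crest.Agent.R317 Crest.Agent.R300U Crest.Agent.R309

namespace ALG

variable {n m : ℕ} {f : Bool → Finset (Fin n) → ℤ} {fo : Bool → List Bool → ℤ} {P : Pre}

theorem lin (s : ℕ) (hs : 13 ≤ s) : 150 * (s + 1) ≤ 2 ^ s := by
  induction s, hs using Nat.le_induction with
  | base => norm_num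
  | succ k hk ih => rw [pow_succ]; omega

theorem pw (hm : 2000 ≤ m) {k : ℕ} (hk : k ≤ 150) : m ^ k ≤ 2 ^ m := by
  have h1 := lin (m / 150) (by omega)
  have h2 : m ≤ 2 ^ (m / 150) := by omega
  calc m ^ k ≤ m ^ 150 := Nat.pow_le_pow_right (by omega) hk
    _ ≤ (2 ^ (m / 150)) ^ 150 := Nat.pow_le_pow_left h2 _
    _ = 2 ^ (m / 150 * 150) := by rw [← pow_mul]
    _ ≤ 2 ^ m := Nat.pow_le_pow_right (by norm_num) (by omega)

theorem pwz (hm : 2000 ≤ m) {k : ℕ} (hk : k ≤ 150) : ((m ^ k : ℕ) : ℤ) ≤ 2 ^ m := by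
  exact_mod_cast pw hm hk

theorem X_big (hm : 2000 ≤ m) : (2000 : ℤ) ≤ 2 ^ m := by
  have := pwz hm (k := 1) (by norm_num)
  simp only [pow_one] at this
  omega

theorem n_le (S : Spec n m f P) : (n : ℤ) ≤ 2 ^ m := by
  have := pwz S.big (k := 1) (by norm_num)
  have := S.le
  simp only [pow_one] at *
  omega

theorem sum_range_le {k : ℕ} {g : ℕ → ℤ} {B : ℤ} (h : ∀ i < k, |g i| ≤ B) :
    |∑ i ∈ range k, g i| ≤ k * B := by
  refine (abs_sum_le_sum_abs _ _).trans ((sum_le_sum fun i hi => h i (mem_range.1 hi)).trans ?_)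
  simp

theorem sum_fin_le {A : Finset (Fin n)} {g : Fin n → ℤ} {B : ℤ} (hB : 0 ≤ B) (h : ∀ i, |g i| ≤ B) :
    |∑ i ∈ A, g i| ≤ n * B := by
  refine (abs_sum_le_sum_abs _ _).trans ((sum_le_sum fun i _ => h i).trans ?_)
  rw [sum_const, nsmul_eq_mul]
  have : (A.card : ℤ) ≤ n := by exact_mod_cast (card_le_univ A).trans (by simp)
  exact mul_le_mul_of_nonneg_right this hB

theorem two_he (S : Spec n m f P) (e : Fin n) (he' : isF P e = false) :
    (2 : ℤ) ^ he P e ≤ 2 ^ m :=
  pow_le_pow_right₀ (by norm_num) (S.cy1 e e he').2.2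

theorem zv_le (S : Spec n m f P) {x : List ℤ} (hx : inB n m P x) (b : Bool) (j : Fin n) :
    |zv n P b x j| ≤ 2 * (2 ^ m) ^ 3 := by
  have hX := X_big S.big
  have hn := n_le S
  have hu : (qu m : ℤ) ≤ 2 ^ m := pwz S.big (by norm_num)
  have hxv : ∀ e c, |xv n x e c| ≤ 2 ^ m := fun e c => (REP.getD_le hx _).trans hu
  have h1 : |(if isF P j = true then xv n x j b else 0)| ≤ 2 ^ m := by
    split_ifs
    · exact hxv _ _
    · simp
  have h2 : |∑ e ∈ range n, if isF P e = true then 0 else
      2 ^ he P e * xv n x e false * cyc P e j| ≤ n * (2 ^ m * 2 ^ m) := by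
    refine sum_range_le fun e he' => ?_
    split_ifs with h
    · simp
    · have h' : isF P (⟨e, he'⟩ : Fin n) = false := by simpa using h
      have a1 := two_he S ⟨e, he'⟩ h'
      have a2 := (S.cy1 ⟨e, he'⟩ j h').1
      rw [abs_mul, abs_mul, abs_of_nonneg (by positivity : (0 : ℤ) ≤ 2 ^ he P e)]
      calc 2 ^ he P e * |xv n x e false| * |cyc P e j| ≤ 2 ^ m * 2 ^ m * 1 := by
            have := hxv e false
            gcongr
        _ = _ := by ring
  have h3 : |sgn b| = 1 := by cases b <;> simp [sgn]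
  unfold zv
  refine (abs_add_le _ _).trans ?_
  rw [abs_mul, h3, one_mul]
  generalize (2 : ℤ) ^ m = X at *
  have : (n : ℤ) * (X * X) ≤ X * (X * X) := by gcongr
  nlinarith [mul_pos (show (0 : ℤ) < X by omega) (show (0 : ℤ) < X by omega)]

theorem off_le (S : Spec n m f P) (u : ℕ) (j : Fin n) : |off n m P u j| ≤ (2 ^ m) ^ 3 := by
  have hX := X_big S.big
  have hn := n_le S
  have h2 : |off n m P u j| ≤ n * 2 ^ m := by
    refine sum_range_le fun e he' => ?_
    split_ifs with h
    · simp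
    · have h' : isF P (⟨e, he'⟩ : Fin n) = false := by simpa using h
      have a1 := two_he S ⟨e, he'⟩ h'
      have a2 := (S.cy1 ⟨e, he'⟩ j h').1
      have a3 : (bz (fld u (e * m) (he P e)) : ℤ) ≤ 2 ^ he P e := by
        unfold bz fld
        exact_mod_cast (Nat.mod_lt _ (by positivity)).le
      have a4 : (0 : ℤ) ≤ bz (fld u (e * m) (he P e)) := by unfold bz; positivity
      rw [abs_mul, abs_of_nonneg a4]
      calc bz (fld u (e * m) (he P e)) * |cyc P e j| ≤ 2 ^ m * 1 := by
            have := a3.trans a1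
            gcongr
        _ = _ := by ring
  refine h2.trans ?_
  generalize (2 : ℤ) ^ m = X at *
  have : (n : ℤ) * X ≤ X * X := by gcongr
  nlinarith [mul_pos (show (0 : ℤ) < X by omega) (show (0 : ℤ) < X by omega)]

theorem sum_sub (g : Fin n → ℤ) (A B : Finset (Fin n)) :
    ∑ j ∈ A ∪ B, g j + ∑ j ∈ A ∩ B, g j = ∑ j ∈ A, g j + ∑ j ∈ B, g j := sum_union_inter

theorem ten (m : ℕ) : (2 : ℤ) ^ (10 * m) = (2 ^ m) ^ 10 := by rw [← pow_mul, mul_comm]

theorem memA_iff (S : Spec n m f P) (hR : Reads fo f) (b : Bool) (σ : List Bool → ℕ → Bool)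
    (τ : Finset (Fin n) → Finset (Fin n)) (h0 : τ ∅ = ∅) (hU : ∀ A B, τ (A ∪ B) = τ A ∪ τ B)
    (hI : ∀ A B, τ (A ∩ B) = τ A ∩ τ B)
    (hσ : ∀ L (j : Fin n), σ (bitsOf L) j = decide (j ∈ τ L)) (z : ℕ → ℤ)
    (hz : ∀ j : Fin n, |z j| ≤ 3 * (2 ^ m) ^ 3) :
    memA n m fo b σ z = true ↔ ∑ j : Fin n, z j = 0 ∧ ∀ L, ∑ j ∈ τ L, z j ≤ f b (τ L) := by
  have hX := X_big S.big
  have hn := n_le S
  obtain ⟨⟨L₀, h1⟩, h2⟩ := sfm_spec (n := n) (m := 10 * m)
    (g := fun l => fo b (mkL n (σ l)) - ∑ j ∈ range n, if σ l j = true then z j else 0)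
    (fun L => f b (τ L) - ∑ j ∈ τ L, z j)
    (fun L => by
      have e1 : mkL n (σ (bitsOf L)) = bitsOf (τ L) := mkL_eq_ofFn _ _ (hσ L)
      have e2 : (∑ j ∈ range n, if σ (bitsOf L) j = true then z j else 0) = ∑ j ∈ τ L, z j := by
        rw [sum_range (fun j => if σ (bitsOf L) j = true then z j else 0)]
        simp only [hσ, decide_eq_true_eq]
        rw [← sum_filter]
        simp
      simp only [e1, e2, hR b])
    (by simp [h0, S.empty])
    (fun A B => by
      have a1 := S.sub b (τ A) (τ B)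
      have a2 := sum_sub (fun j => z j) (τ A) (τ B)
      simp only [hU, hI]
      linarith)
    (fun L => by
      have a1 := S.nonneg b (τ L)
      have a2 := S.bd b (τ L)
      have a3 := sum_fin_le (A := τ L) (by positivity) hz
      rw [ten]
      generalize (2 : ℤ) ^ m = X at *
      have a4 : (n : ℤ) * (3 * X ^ 3) ≤ X * (X * X ^ 3) := by gcongr; omega
      have a5 : X * (X * X ^ 3) ≤ X ^ 9 := by
        calc X * (X * X ^ 3) = X ^ 5 := by ring
          _ ≤ X ^ 9 := pow_le_pow_right₀ (by omega) (by norm_num)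
      have a6 : X ≤ X ^ 9 := le_self_pow₀ (by omega) (by norm_num)
      have a7 : 2 * X ^ 9 ≤ X ^ 10 := by
        calc 2 * X ^ 9 ≤ X * X ^ 9 := by gcongr; omega
          _ = _ := by ring
      rw [abs_le] at a3 ⊢
      constructor <;> linarith [a3.1, a3.2])
  unfold memA
  rw [decide_eq_true_eq, sum_range z]
  refine and_congr Iff.rfl ⟨fun h L => ?_, fun h => ?_⟩
  · have := h2 L
    linarith
  · have := h L₀
    linarith

theorem bits_all (A : Finset (Fin n)) (k : ℕ) :
    (bitsOf A).getD k false = decide (∃ h : k < n, (⟨k, h⟩ : Fin n) ∈ A) := by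
  by_cases hk : k < n
  · rw [REP.bits_getD A hk]; simp [hk]
  · rw [List.getD_eq_default _ _ (by simp [bitsOf]; omega)]; simp [hk]

theorem ed_mem (b : Bool) {i : ℕ} (hi : i < (ed P b).length) :
    (ed P b).getD i (0, 0, 0) ∈ ed P b := by
  rw [List.getD_eq_getElem _ _ hi]; exact List.getElem_mem _

theorem zeta_bd (S : Spec n m f P) (b : Bool) (A : Finset (Fin n)) :
    0 ≤ zeta P b A ∧ zeta P b A ≤ 2 ^ m * 2 ^ m := by
  unfold zeta zetaL
  constructor
  · refine sum_nonneg fun i hi => ?_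
    split_ifs
    · exact le_rfl
    · exact (S.edg b _ (ed_mem b (mem_range.1 hi))).2.2.1
  · refine (le_abs_self _).trans ((sum_range_le (B := 2 ^ m) fun i hi => ?_).trans ?_)
    · obtain ⟨-, -, h1, h2, -⟩ := S.edg b _ (ed_mem b hi)
      split_ifs
      · simp
      · rwa [abs_of_nonneg h1]
    · have h1 : ((ed P b).length : ℤ) ≤ n := by exact_mod_cast S.len b
      have := n_le S
      gcongr
      linarith

theorem zeta_sub (S : Spec n m f P) (b : Bool) (A B : Finset (Fin n)) :
    zeta P b (A ∪ B) + zeta P b (A ∩ B) ≤ zeta P b A + zeta P b B := by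
  unfold zeta zetaL
  rw [← sum_add_distrib, ← sum_add_distrib]
  refine sum_le_sum fun i hi => ?_
  obtain ⟨h1, h2, h3, -⟩ := S.edg b _ (ed_mem b (mem_range.1 hi))
  simp only [REP.bits_getD _ h1, REP.bits_getD _ h2, mem_union, mem_inter]
  generalize ((ed P b).getD i (0, 0, 0)).2.2 = w at *
  generalize (⟨_, h1⟩ : Fin n) = c
  generalize (⟨_, h2⟩ : Fin n) = c'
  by_cases a1 : c ∈ A <;> by_cases a2 : c ∈ B <;> by_cases a3 : c' ∈ A <;>
    by_cases a4 : c' ∈ B <;> simp [a1, a2, a3, a4, h3]

theorem gap_eq (hR : Reads fo f) (b : Bool) (i j : ℕ) (z : ℕ → ℤ) (A : Finset (Fin n))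
    (l : List Bool) (hl : ∀ e : Fin n, l.getD e false = decide (e ∈ A)) :
    gapA n m fo P b i j z l =
      j * den n m P b i A - qV m * num n m f P b i (m ^ 2) z A := by
  have e1 : (mkL n fun e => l.getD e false && decide (cp P e = i)) = bitsOf (A ∩ kap n P i) :=
    mkL_eq_ofFn _ _ fun e => by rw [hl]; simp [kap]
  have e2 : (mkL n fun e => (l.getD e false && decide (cp P e = i)) || decide (cp P e < i)) =
      bitsOf (A ∩ kap n P i ∪ low n P i) :=
    mkL_eq_ofFn _ _ fun e => by rw [hl]; simp [kap, low]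
  have e3 : ∀ g : ℕ → ℤ, (∑ e ∈ range n, if l.getD e false = true ∧ cp P e = i then g e else 0) =
      ∑ e ∈ A ∩ kap n P i, g e := fun g => by
    rw [sum_range (fun e => if l.getD e false = true ∧ cp P e = i then g e else 0)]
    simp only [hl, decide_eq_true_eq]
    rw [← sum_filter]
    refine sum_congr ?_ fun _ _ => rfl
    ext e
    simp [kap]
  have e4 := e3 (fun _ => 1)
  unfold gapA den num
  rw [e1, e2, e3 z, e4, hR b]
  simp [zeta]

theorem jv_eq (S : Spec n m f P) (hR : Reads fo f) {x : List ℤ} (hx : inB n m P x) :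
    jvA n m fo P x = jvm n m f P x := by
  classical
  funext b i
  unfold jvA jvm
  refine sum_congr rfl fun j hj => ?_
  have hX := X_big S.big
  have hn := n_le S
  set z := zv n P b x with hzd
  have hz : ∀ e : Fin n, |z e| ≤ 2 * (2 ^ m) ^ 3 := zv_le S hx b
  have g0 := gap_eq (m := m) (P := P) hR b i j z ∅ [] (fun e => by simp)
  have hj' : (j : ℤ) ≤ 2 ^ m := by
    have h1 : (qG m : ℤ) ≤ 2 ^ m := pwz S.big (by norm_num)
    have h2 := mem_range.1 hj
    omega
  have hT : (qT m : ℤ) ≤ 2 ^ m := pwz S.big (by norm_num)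
  have hV : (qV m : ℤ) ≤ 2 ^ m := pwz S.big (by norm_num)
  have hm2 : (m : ℤ) ^ 2 ≤ 2 ^ m := by exact_mod_cast pwz S.big (k := 2) (by norm_num)
  have key : ∀ A : Finset (Fin n), (j * den n m P b i A - qV m * num n m f P b i (m ^ 2) z A) -
      (j * den n m P b i ∅ - qV m * num n m f P b i (m ^ 2) z ∅) =
      (j * qT m + qV m * m ^ 2) * zeta P b (A ∩ kap n P i)
        - (j * qT m + qV m * m ^ 2) * zeta P b (∅ : Finset (Fin n))
        + j * qT m * qT m * (A ∩ kap n P i).card
        - qV m * qT m * ∑ e ∈ A ∩ kap n P i, z e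
        + qV m * qT m * (f b (A ∩ kap n P i ∪ low n P i) - f b (low n P i)) := fun A => by
    simp only [den, num, empty_inter, sum_empty, card_empty, empty_union, Nat.cast_zero]
    ring
  obtain ⟨⟨L₀, h1⟩, h2⟩ := sfm_spec (n := n) (m := 10 * m)
    (g := fun l => gapA n m fo P b i j z l - gapA n m fo P b i j z [])
    (fun A => (j * den n m P b i A - qV m * num n m f P b i (m ^ 2) z A) -
      (j * den n m P b i ∅ - qV m * num n m f P b i (m ^ 2) z ∅))
    (fun A => by
      simp only [g0, gap_eq hR b i j z A (bitsOf A) (fun e => REP.bits_getD A e.2)])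
    (by simp)
    (fun A B => by
      simp only [key, union_inter_distrib_right, inter_inter_distrib_right A B]
      generalize A ∩ kap n P i = A'
      generalize B ∩ kap n P i = B'
      have a1 := zeta_sub S b A' B'
      have a2 : ((A' ∪ B').card : ℤ) + (A' ∩ B').card = A'.card + B'.card := by
        exact_mod_cast card_union_add_card_inter A' B'
      have a3 := sum_sub (fun e => z e) A' B'
      have a4 := S.sub b (A' ∪ low n P i) (B' ∪ low n P i)
      rw [← union_union_distrib_right, ← inter_union_distrib_right] at a4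
      have b1 := mul_le_mul_of_nonneg_left a1
        (show (0 : ℤ) ≤ j * qT m + qV m * m ^ 2 by positivity)
      have b4 := mul_le_mul_of_nonneg_left a4 (show (0 : ℤ) ≤ qV m * qT m by positivity)
      have b2 := congrArg (fun t => (j : ℤ) * qT m * qT m * t) a2
      have b3 := congrArg (fun t => (qV m : ℤ) * qT m * t) a3
      linarith)
    (fun A => by
      rw [key, ten]
      generalize A ∩ kap n P i = A'
      obtain ⟨a1, a2⟩ := zeta_bd S b A'
      obtain ⟨a3, a4⟩ := zeta_bd S b ∅
      have a5 : (A'.card : ℤ) ≤ 2 ^ m := by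
        have : (A'.card : ℤ) ≤ n := by exact_mod_cast (card_le_univ A').trans (by simp)
        linarith
      have a6 := sum_fin_le (A := A') (by positivity) hz
      have a7 : |f b (A' ∪ low n P i) - f b (low n P i)| ≤ 2 ^ m := by
        have := S.nonneg b (A' ∪ low n P i)
        have := S.bd b (A' ∪ low n P i)
        have := S.nonneg b (low n P i)
        have := S.bd b (low n P i)
        rw [abs_le]; constructor <;> linarith
      generalize (2 : ℤ) ^ m = X at *
      generalize f b (A' ∪ low n P i) - f b (low n P i) = φ at *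
      generalize ∑ e ∈ A', z e = s at *
      generalize zeta P b A' = ζ at *
      generalize zeta P b (∅ : Finset (Fin n)) = ζ₀ at *
      have X0 : 0 ≤ X := by omega
      have X1 : 1 ≤ X := by omega
      have c0 : (j : ℤ) * qT m + qV m * m ^ 2 ≤ X * X + X * X := by gcongr
      have c0' : (0 : ℤ) ≤ j * qT m + qV m * m ^ 2 := by positivity
      have p : ∀ k, k ≤ 6 → X ^ k ≤ X ^ 6 := fun k hk => pow_le_pow_right₀ X1 hk
      have c1 : ((j : ℤ) * qT m + qV m * m ^ 2) * ζ ≤ 2 * X ^ 6 := by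
        calc _ ≤ (X * X + X * X) * (X * X) := by gcongr
          _ = 2 * X ^ 4 := by ring
          _ ≤ _ := by linarith [p 4 (by norm_num)]
      have c1' : 0 ≤ ((j : ℤ) * qT m + qV m * m ^ 2) * ζ := by positivity
      have c2 : ((j : ℤ) * qT m + qV m * m ^ 2) * ζ₀ ≤ 2 * X ^ 6 := by
        calc _ ≤ (X * X + X * X) * (X * X) := by gcongr
          _ = 2 * X ^ 4 := by ring
          _ ≤ _ := by linarith [p 4 (by norm_num)]
      have c2' : 0 ≤ ((j : ℤ) * qT m + qV m * m ^ 2) * ζ₀ := by positivity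
      have c3 : (j : ℤ) * qT m * qT m * A'.card ≤ X ^ 6 := by
        calc _ ≤ X * X * X * X := by gcongr
          _ = X ^ 4 := by ring
          _ ≤ _ := p 4 (by norm_num)
      have c3' : 0 ≤ (j : ℤ) * qT m * qT m * A'.card := by positivity
      have c4 : |(qV m : ℤ) * qT m * s| ≤ 2 * X ^ 6 := by
        rw [abs_mul, abs_of_nonneg (by positivity : (0 : ℤ) ≤ qV m * qT m)]
        calc _ ≤ X * X * (X * (2 * X ^ 3)) := by
              have : |s| ≤ X * (2 * X ^ 3) := a6.trans (by gcongr)
              gcongr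
          _ = _ := by ring
      have c5 : |(qV m : ℤ) * qT m * φ| ≤ X ^ 6 := by
        rw [abs_mul, abs_of_nonneg (by positivity : (0 : ℤ) ≤ qV m * qT m)]
        calc _ ≤ X * X * X := by gcongr
          _ = X ^ 3 := by ring
          _ ≤ _ := p 3 (by norm_num)
      have c6 : 10 * X ^ 6 ≤ X ^ 10 := by
        calc 10 * X ^ 6 ≤ X * X ^ 6 := by gcongr; omega
          _ = X ^ 7 := by ring
          _ ≤ _ := pow_le_pow_right₀ X1 (by norm_num)
      have c7 : 0 ≤ X ^ 6 := by positivity
      rw [abs_le] at c4 c5 ⊢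
      constructor <;> linarith [c4.1, c4.2, c5.1, c5.2])
  refine if_congr ⟨fun h A => ?_, fun h => ?_⟩ rfl rfl
  · have := h2 A
    linarith
  · have := h L₀
    linarith

end ALG

theorem ALG_proof : AlgStmt := by
  classical
  intro n m f fo P S hR
  have hX := ALG.X_big S.big
  have p3 : (0 : ℤ) ≤ (2 ^ m) ^ 3 := by positivity
  refine ⟨fun s p x => ?_, fun x hx u => ?_⟩
  · by_cases hx : inB n m P x
    · have h : ∀ b, memA n m fo b (fun l j => l.getD (cl P b j) false) (zv n P b x) = true ↔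
          HB n f P b x := fun b =>
        ALG.memA_iff S hR b _ (cu n P b) (REP.cu_empty S b) (REP.cu_union S b) (REP.cu_inter S b)
          (fun L j => by simp [cu]) _ (fun j => (ALG.zv_le S hx b j).trans (by linarith))
      simp only [mdlA, mdlM]
      rw [ALG.jv_eq S hR hx]
      congr 1
      rw [Bool.eq_iff_iff, Bool.and_eq_true, decide_eq_true_eq, h, h]
    · simp only [mdlA, mdlM, wgt, hx, false_and, if_false]
  · have h : ∀ b (z : ℕ → ℤ), (∀ j : Fin n, |z j| ≤ 3 * (2 ^ m) ^ 3) →
        (memA n m fo b (fun l j => l.getD j false) z = true ↔ Bs (f b) (fun j : Fin n => z j)) :=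
      fun b z hz => ALG.memA_iff S hR b _ id rfl (fun _ _ => rfl) (fun _ _ => rfl)
        (fun L j => REP.bits_getD L j.2) z hz
    have h0 := h false (fun j => zv n P false x j + off n m P u j) fun j =>
      (abs_add_le _ _).trans (by linarith [ALG.zv_le S hx false j, ALG.off_le S u j])
    have h1 := h true (fun j => zv n P true x j - off n m P u j) fun j =>
      (abs_sub _ _).trans (by linarith [ALG.zv_le S hx true j, ALG.off_le S u j])
    simp only [mdlA, mdlM]
    rw [Bool.eq_iff_iff, Bool.and_eq_true, Bool.and_eq_true, h0, h1, decide_eq_true_eq,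
      decide_eq_true_eq, Bool.forall_bool]
    simp [hx, sgn, sub_eq_add_neg]

end Crest.Agent.R302
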