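import Crest.Agent.R302.DefsC

/-!
Row 302, AM: the normalised accepted mass approximates the number of common bases.
-/

set_option autoImplicit false

namespace Crest.Agent.R302

open Finset Crest.Agent.PT Crest.Agent.QC Crest.Agent.R317 Crest.Agent.R300U Crest.Agent.R309

namespace AM

variable {n m : ℕ} {P : Pre}

theorem uniq {j j' : Fin n} (h1 : isF P j = true) (h2 : ¬ nd P j) (h1' : isF P j' = true)
    (h2' : ¬ nd P j') (h : cp P j = cp P j') : j = j' := by
  rcases lt_trichotomy j j' with hl | hl | hl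
  · exact absurd ⟨h1', j, hl, h1, h⟩ h2'
  · exact hl
  · exact absurd ⟨h1, j', hl, h1', h.symm⟩ h2

theorem exists_first {i : ℕ} {j : Fin n} (hj : j ∈ kap n P i) (h : isF P j = true) :
    ∃ j₀ ∈ kap n P i, isF P j₀ = true ∧ ¬ nd P j₀ := by
  obtain ⟨j₀, h0, hmin⟩ := exists_min_image ((kap n P i).filter fun j : Fin n => isF P j = true)
    (fun j => j) ⟨j, mem_filter.2 ⟨hj, h⟩⟩
  obtain ⟨h1, h2⟩ := mem_filter.1 h0
  refine ⟨j₀, h1, h2, ?_⟩
  rintro ⟨-, j', hl, h3, h4⟩
  have h5 : (⟨j', hl.trans j₀.2⟩ : Fin n) ∈ (kap n P i).filter fun j : Fin n => isF P j = true := by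
    simp only [kap, mem_filter, mem_univ, true_and] at h1 ⊢
    exact ⟨h4.trans h1, h3⟩
  exact absurd (hmin _ h5) (not_le.2 hl)

theorem sum_split {M : Type} [AddCommMonoid M] {i : ℕ} (d : Fin n → M)
    (hd : ∀ j : Fin n, isF P j = false → d j = 0) {j₀ : Fin n} (h0 : j₀ ∈ kap n P i)
    (h1 : isF P j₀ = true) (h2 : ¬ nd P j₀) :
    ∑ j ∈ kap n P i, d j = d j₀ + ∑ j ∈ (kap n P i).filter (fun j : Fin n => nd P j), d j := by
  rw [← sum_filter_add_sum_filter_not (kap n P i) (fun j : Fin n => nd P j), add_comm]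
  congr 1
  refine sum_eq_single_of_mem j₀ (mem_filter.2 ⟨h0, h2⟩) fun j hj hne => hd j ?_
  obtain ⟨h3, h4⟩ := mem_filter.1 hj
  by_contra h5
  rw [Bool.not_eq_false] at h5
  simp only [kap, mem_filter, mem_univ, true_and] at h0 h3
  exact hne (uniq h5 h4 h1 h2 (h3.trans h0.symm))

theorem mem_D {d : Fin n → ℤ} : d ∈ Dset n m P ↔ (∀ j, |d j| ≤ m * qW m) ∧
    (∀ j : Fin n, isF P j = false → d j = 0) ∧ (∀ i, ∑ j ∈ kap n P i, d j = 0) ∧
      ∀ j : Fin n, nd P j → |d j| ≤ qW m := by
  simp only [Dset, mem_filter, Fintype.mem_piFinset, mem_Icc, abs_le]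

theorem sum_nd_le {i : ℕ} (d : Fin n → ℤ) (hd : ∀ j : Fin n, nd P j → |d j| ≤ qW m) :
    ∑ j ∈ (kap n P i).filter (fun j : Fin n => nd P j), |d j| ≤ (kap n P i).card * qW m := by
  refine (sum_le_card_nsmul _ _ (qW m : ℤ) fun j hj => hd j (mem_filter.1 hj).2).trans ?_
  rw [nsmul_eq_mul]
  exact mul_le_mul_of_nonneg_right (by exact_mod_cast card_filter_le _ _) (by positivity)

theorem l1_le (hc : ∀ e < n, cp P e < n) {d : Fin n → ℤ} (hd : d ∈ Dset n m P) :
    ∑ j, |d j| ≤ 2 * (n * qW m) := by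
  obtain ⟨-, h1, h2, h3⟩ := mem_D.1 hd
  have hmap : ∀ j ∈ (univ : Finset (Fin n)), cp P j ∈ range n := fun j _ => mem_range.2 (hc j j.2)
  have e1 := sum_fiberwise_of_maps_to hmap (fun j => |d j|)
  have e2 := sum_fiberwise_of_maps_to hmap (fun _ => (2 * qW m : ℤ))
  rw [← e1]
  have e3 : ∑ _j : Fin n, (2 * qW m : ℤ) = 2 * (n * qW m) := by simp; ring
  rw [← e3, ← e2]
  refine sum_le_sum fun i _ => ?_
  change ∑ j ∈ kap n P i, |d j| ≤ ∑ j ∈ kap n P i, (2 * qW m : ℤ)
  rw [sum_const, nsmul_eq_mul]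
  by_cases h : ∃ j ∈ kap n P i, isF P j = true
  · obtain ⟨j, hj, hF⟩ := h
    obtain ⟨j₀, g0, g1, g2⟩ := exists_first hj hF
    rw [sum_split (fun j => |d j|) (fun j hj => by simp [h1 j hj]) g0 g1 g2]
    have h4 := h2 i
    rw [sum_split d h1 g0 g1 g2] at h4
    have h5 : d j₀ = -∑ j ∈ (kap n P i).filter (fun j : Fin n => nd P j), d j := by linarith
    have h6 := abs_sum_le_sum_abs d ((kap n P i).filter (fun j : Fin n => nd P j))
    have h7 := sum_nd_le (i := i) d h3
    rw [h5, abs_neg]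
    linarith
  · push Not at h
    rw [sum_eq_zero fun j hj => by simp [h1 j (by simpa using h j hj)]]
    positivity

/-- the free coordinates -/
noncomputable def box' (n m : ℕ) (P : Pre) : Finset (Fin n → ℤ) :=
  Fintype.piFinset fun j : Fin n => if nd P j then Icc (-(qW m : ℤ)) (qW m) else {0}

theorem mem_box' {c : Fin n → ℤ} : c ∈ box' n m P ↔
    (∀ j : Fin n, nd P j → |c j| ≤ qW m) ∧ ∀ j : Fin n, ¬ nd P j → c j = 0 := by
  simp only [box', Fintype.mem_piFinset]
  constructor
  · intro h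
    refine ⟨fun j hj => ?_, fun j hj => ?_⟩
    · have := h j
      rw [if_pos hj, mem_Icc] at this
      exact abs_le.2 this
    · have := h j
      rwa [if_neg hj, mem_singleton] at this
  · rintro ⟨h1, h2⟩ j
    split_ifs with hj
    · exact mem_Icc.2 (abs_le.1 (h1 j hj))
    · exact mem_singleton.2 (h2 j hj)

theorem sum_Th (hn : n ≤ m) : ∑ d ∈ Dset n m P, Th n m P d = ∑ c ∈ box' n m P, Th n m P c := by
  have hm1 : ∀ j : Fin n, (1 : ℤ) ≤ m := fun j => by have := j.2; omega
  refine sum_nbij' (fun d j => if nd P j then d j else 0)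
    (fun c j => if nd P j then c j else if isF P j = true then
      -∑ j' ∈ (kap n P (cp P j)).filter (fun j : Fin n => nd P j), c j' else 0)
    (fun d hd => ?_) (fun c hc => ?_) (fun d hd => ?_) (fun c hc => ?_) (fun d _ => ?_)
  · obtain ⟨-, -, -, h3⟩ := mem_D.1 hd
    exact mem_box'.2 ⟨fun j hj => by rw [if_pos hj]; exact h3 j hj, fun j hj => if_neg hj⟩
  · obtain ⟨h1, h2⟩ := mem_box'.1 hc
    have hF : ∀ j : Fin n, isF P j = false → (if nd P j then c j else if isF P j = true then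
        -∑ j' ∈ (kap n P (cp P j)).filter (fun j : Fin n => nd P j), c j' else 0) = 0 := by
      intro j hj
      rw [if_neg fun h => by simp [h.1] at hj, if_neg (by simp [hj])]
    refine mem_D.2 ⟨fun j => ?_, hF, fun i => ?_, fun j hj => by rw [if_pos hj]; exact h1 j hj⟩
    · have hW : (0 : ℤ) ≤ qW m := by positivity
      split_ifs with g1 g2
      · have := h1 j g1
        nlinarith [hm1 j]
      · rw [abs_neg]
        refine (abs_sum_le_sum_abs _ _).trans ((sum_nd_le c h1).trans ?_)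
        refine mul_le_mul_of_nonneg_right ?_ hW
        have := card_le_univ (kap n P (cp P j))
        rw [Fintype.card_fin] at this
        exact_mod_cast this.trans hn
      · rw [abs_zero]; positivity
    · by_cases h : ∃ j ∈ kap n P i, isF P j = true
      · obtain ⟨j, hj, hF'⟩ := h
        obtain ⟨j₀, g0, g1, g2⟩ := exists_first hj hF'
        rw [sum_split _ hF g0 g1 g2, if_neg g2, if_pos g1]
        have : cp P j₀ = i := by simpa [kap] using g0
        rw [this, sum_congr rfl fun j hj => if_pos (mem_filter.1 hj).2]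
        ring
      · push Not at h
        exact sum_eq_zero fun j hj => hF j (by simpa using h j hj)
  · obtain ⟨-, h1, h2, -⟩ := mem_D.1 hd
    funext j
    split_ifs with g1 g2
    · exact if_pos g1
    · have h4 := h2 (cp P j)
      rw [sum_split d h1 (j₀ := j) (by simp [kap]) g2 g1] at h4
      rw [sum_congr rfl fun j hj => if_pos (mem_filter.1 hj).2]
      linarith
    · exact (h1 j (by simpa using g2)).symm
  · obtain ⟨-, h2⟩ := mem_box'.1 hc
    funext j
    split_ifs with g1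
    · exact if_pos g1
    · exact (h2 j g1).symm
  · refine prod_congr rfl fun j _ => ?_
    split_ifs with g1
    · simp only [if_pos g1]
    · rfl

/-- the one-dimensional normalisation -/
noncomputable def S1 (m : ℕ) : ℝ :=
  ∑ j ∈ range (2 * qW m + 1), (1 + 1 / (qH m : ℝ)) ^ (-(((j : ℤ) - qW m) * ((j : ℤ) - qW m)))

theorem S1_pos (m : ℕ) : 0 < S1 m :=
  sum_pos (fun _ _ => by positivity) ⟨0, by simp⟩

theorem S1_eq (m : ℕ) :
    ∑ t ∈ Icc (-(qW m : ℤ)) (qW m), (1 + 1 / (qH m : ℝ)) ^ (-(t * t)) = S1 m := by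
  symm
  refine sum_nbij' (fun j => (j : ℤ) - qW m) (fun t => (t + qW m).toNat) (fun j hj => ?_)
    (fun t ht => ?_) (fun j _ => ?_) (fun t ht => ?_) (fun _ _ => rfl)
  · have := mem_range.1 hj
    exact mem_Icc.2 ⟨by omega, by omega⟩
  · have := mem_Icc.1 ht
    exact mem_range.2 (by omega)
  · simp
  · have := mem_Icc.1 ht
    omega

theorem sum_box' : ∑ c ∈ box' n m P, Th n m P c = ∏ j : Fin n, if nd P j then S1 m else 1 := by
  unfold box' Th
  rw [← prod_univ_sum (fun j : Fin n => if nd P j then Icc (-(qW m : ℤ)) (qW m) else {0})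
    (fun j t => if nd P j then (1 + 1 / (qH m : ℝ)) ^ (-(t * t)) else 1)]
  refine prod_congr rfl fun j _ => ?_
  split_ifs
  · exact S1_eq m
  · simp

theorem fac_eq : (fac n m P : ℝ) =
    (∏ e : Fin n, if isF P e = true then (1 : ℝ) else 2 ^ he P e) /
      ∏ j : Fin n, if nd P j then S1 m else 1 := by
  unfold fac
  rw [← prod_div_distrib, Rat.cast_prod, ← Fin.prod_univ_eq_prod_range
    (fun e => (((if isF P e = true then
      (if nd P e then 1 / ∑ j ∈ range (2 * qW m + 1),
        (1 + 1 / (qH m : ℚ)) ^ (-(((j : ℤ) - qW m) * ((j : ℤ) - qW m))) else 1)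
      else 2 ^ he P e : ℚ) : ℝ))) n]
  refine prod_congr rfl fun e _ => ?_
  split_ifs with h1 h2 h2
  · simp [S1]
  · simp
  · exact absurd h2.1 h1
  · simp

end AM

open AM in
theorem AM_proof (hBij : BijStmt) (hZs : ZsStmt) : AmStmt := by
  intro n m f P S
  have hB := hBij n m f P S
  have hD : 0 < ∏ j : Fin n, if nd P j then S1 m else 1 :=
    prod_pos fun j _ => by split_ifs; exacts [S1_pos m, one_pos]
  have hT : ∑ d ∈ Dset n m P, Th n m P d = ∏ j : Fin n, if nd P j then S1 m else 1 :=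
    (sum_Th S.le).trans sum_box'
  constructor
  · have : (0 : ℝ) < fac n m P := by
      rw [fac_eq]
      exact div_pos (prod_pos fun e _ => by split_ifs <;> positivity) hD
    exact_mod_cast this
  · rw [fac_eq, ← mul_div_assoc, hB, ← hT]
    rw [← hT] at hD
    have hTh : ∀ d, 0 ≤ Th n m P d := fun d => prod_nonneg fun j _ => by split_ifs <;> positivity
    rw [div_sub' hD.ne', abs_div, abs_of_pos hD, div_le_iff₀ hD, sum_mul, ← sum_sub_distrib,
      mul_sum]
    refine (abs_sum_le_sum_abs _ _).trans (sum_le_sum fun d hd => ?_)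
    rw [← mul_sub, abs_mul, abs_of_nonneg (hTh d), mul_comm]
    refine mul_le_mul_of_nonneg_right (hZs n m f P S d (mem_D.1 hd).2.2.1 ?_) (hTh d)
    refine (l1_le S.cpl hd).trans ?_
    have : (n : ℤ) ≤ m := by exact_mod_cast S.le
    unfold qW
    push_cast
    calc 2 * ((n : ℤ) * (m : ℤ) ^ 75) ≤ 2 * ((m : ℤ) * (m : ℤ) ^ 75) := by gcongr
      _ = 2 * (m : ℤ) ^ 76 := by ring

end Crest.Agent.R302
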