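import Crest.Agent.R302.PT0

/-! Row 302, task OPM: the model is polynomial-time with an oracle. -/

set_option autoImplicit false

namespace Crest.Agent.R302

open Finset Crest.Agent.PT Crest.Agent.QC Crest.Agent.R317 Crest.Agent.R300U Crest.Agent.R309

namespace OPM

variable {α : Type} [Enc α]

theorem opt_memA {fo : Orc → α → Bool → List Bool → ℤ} {n m : α → ℕ} (b : Bool)
    {σ : α → List Bool → ℕ → Bool} {z : α → ℕ → ℤ} (hn : PT n) (hm : PT m)
    (hfo : OPT (fun O (q : α × Bool × List Bool) => fo O q.1 q.2.1 q.2.2))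
    (hσ : PT (fun q : (α × List Bool) × ℕ => σ q.1.1 q.1.2 q.2))
    (hz : PT (fun q : α × ℕ => z q.1 q.2)) :
    OPT (fun O x => memA (n x) (m x) (fo O x) b (σ x) (z x)) := by
  have h0 : PT (fun q : α × List Bool => mkL (n q.1) (σ q.1 q.2)) :=
    pt_mkL (f := fun (q : α × List Bool) j => σ q.1 q.2 j) (hn.comp PT.id'.fst) hσ
  have h1 : OPT (fun O (q : α × List Bool) => fo O q.1 b (mkL (n q.1) (σ q.1 q.2))) :=
    hfo.pre (f := fun q : α × List Bool => (q.1, b, mkL (n q.1) (σ q.1 q.2)))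
    (PT.pair PT.id'.fst (PT.pair (PT.const _) h0))
  have h2 : PT (fun q : α × List Bool =>
      ∑ j ∈ range (n q.1), if σ q.1 q.2 j = true then z q.1 j else 0) :=
    PT.sumInt (f := fun (q : α × List Bool) j => if σ q.1 q.2 j = true then z q.1 j else 0)
      (hn.comp PT.id'.fst) (PT.iteD (dt_beq hσ (PT.const _))
        (hz.comp (f := fun q : (α × List Bool) × ℕ => (q.1.1, q.2))
          (PT.pair PT.id'.fst.fst PT.id'.snd)) (PT.const _))
  have h2' : OPT (fun O (q : α × List Bool) => fo O q.1 b (mkL (n q.1) (σ q.1 q.2)) -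
      ∑ j ∈ range (n q.1), if σ q.1 q.2 j = true then z q.1 j else 0) :=
    (h1.pair (OPT.pt h2)).post (g := fun r : ℤ × ℤ => r.1 - r.2) (PT.intSub PT.id'.fst PT.id'.snd)
  have h3 : OPT (fun O x => sfm (fun l => fo O x b (mkL (n x) (σ x l)) -
      ∑ j ∈ range (n x), if σ x l j = true then z x j else 0) (n x) (10 * m x)) :=
    opt_sfm (g := fun O x l => fo O x b (mkL (n x) (σ x l)) -
      ∑ j ∈ range (n x), if σ x l j = true then z x j else 0) (m := fun x => 10 * m x)
      h2' hn ((PT.const 10).mul hm)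
  have h4 : PT (fun x => ∑ j ∈ range (n x), z x j) := PT.sumInt hn hz
  have h5 : PT (fun r : ℤ × ℤ => decide (r.1 = 0 ∧ 0 ≤ r.2)) :=
    pt_decide (DT.and (dt_ieq PT.id'.fst (PT.const _)) (dt_ile (PT.const _) PT.id'.snd))
  refine (((OPT.pt h4).pair h3).post h5).congr (fun O x => ?_)
  simp only [memA]

theorem opt_gapA {fo : Orc → α → Bool → List Bool → ℤ} {n m i j : α → ℕ} {P : α → Pre} (b : Bool)
    {z : α → ℕ → ℤ} {l : α → List Bool} (hn : PT n) (hm : PT m) (hP : PT P) (hi : PT i) (hj : PT j)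
    (hfo : OPT (fun O (q : α × Bool × List Bool) => fo O q.1 q.2.1 q.2.2))
    (hz : PT (fun q : α × ℕ => z q.1 q.2)) (hl : PT l) :
    OPT (fun O x => gapA (n x) (m x) (fo O x) (P x) b (i x) (j x) (z x) (l x)) := by
  have h1 := hfo.pre (f := fun x : α => (x, b, mkL (n x) fun e =>
    ((l x).getD e false && decide (cp (P x) e = i x)) || decide (cp (P x) e < i x))) (by fun_prop)
  have h2 : PT (fun x => ∑ e ∈ range (n x),
      if (l x).getD e false = true ∧ cp (P x) e = i x then z x e else 0) :=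
    PT.sumInt (f := fun x e => if (l x).getD e false = true ∧ cp (P x) e = i x then z x e else 0)
      hn (PT.iteD (by fun_prop) hz (PT.const _))
  have h3 : PT (fun x => zetaL (ed (P x) b)
      (mkL (n x) fun e => (l x).getD e false && decide (cp (P x) e = i x))) := by fun_prop
  have h4 : PT (fun x => ∑ e ∈ range (n x),
      if (l x).getD e false = true ∧ cp (P x) e = i x then (1 : ℤ) else 0) := by fun_prop
  refine h1.post₂ (g := fun x (v : ℤ) => (j x : ℤ) * (qT (m x) * (zetaL (ed (P x) b)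
      (mkL (n x) fun e => (l x).getD e false && decide (cp (P x) e = i x)) +
      qT (m x) * ∑ e ∈ range (n x),
        if (l x).getD e false = true ∧ cp (P x) e = i x then (1 : ℤ) else 0)) -
    qV (m x) * (qT (m x) * ((∑ e ∈ range (n x),
      if (l x).getD e false = true ∧ cp (P x) e = i x then z x e else 0) - v -
        (m x : ℤ) ^ 2 * qt (m x)) - (m x : ℤ) ^ 2 * zetaL (ed (P x) b)
      (mkL (n x) fun e => (l x).getD e false && decide (cp (P x) e = i x)))) ?_
  have h2' := h2.comp (PT.id' (α := α × ℤ)).fst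
  have h3' := h3.comp (PT.id' (α := α × ℤ)).fst
  have h4' := h4.comp (PT.id' (α := α × ℤ)).fst
  exact PT.intSub (PT.intMul (by fun_prop) (PT.intMul (by fun_prop)
      (PT.intAdd h3' (PT.intMul (by fun_prop) h4'))))
    (PT.intMul (by fun_prop) (PT.intSub (PT.intMul (by fun_prop)
      (PT.intSub (PT.intSub h2' (by fun_prop)) (by fun_prop))) (PT.intMul (by fun_prop) h3')))

theorem opt_jvA {fo : Orc → α → Bool → List Bool → ℤ} {n m i : α → ℕ} {P : α → Pre} (b : Bool)
    {y : α → List ℤ} (hn : PT n) (hm : PT m) (hP : PT P) (hi : PT i)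
    (hfo : OPT (fun O (q : α × Bool × List Bool) => fo O q.1 q.2.1 q.2.2)) (hy : PT y) :
    OPT (fun O x => jvA (n x) (m x) (fo O x) (P x) (y x) b (i x)) := by
  have h0 : OPT (fun O (q : α × ℕ) => gapA (n q.1) (m q.1) (fo O q.1) (P q.1) b (i q.1) q.2
      (zv (n q.1) (P q.1) b (y q.1)) []) :=
    opt_gapA (fo := fun O (q : α × ℕ) => fo O q.1) b (by fun_prop) (by fun_prop) (by fun_prop)
      (by fun_prop) (by fun_prop)
      (hfo.pre (f := fun q : (α × ℕ) × Bool × List Bool => (q.1.1, q.2)) (by fun_prop))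
      (by fun_prop) (PT.const _)
  have h1 : OPT (fun O (q : (α × ℕ) × List Bool) => gapA (n q.1.1) (m q.1.1) (fo O q.1.1) (P q.1.1)
      b (i q.1.1) q.1.2 (zv (n q.1.1) (P q.1.1) b (y q.1.1)) q.2) :=
    opt_gapA (fo := fun O (q : (α × ℕ) × List Bool) => fo O q.1.1) b (by fun_prop) (by fun_prop)
      (by fun_prop) (by fun_prop) (by fun_prop)
      (hfo.pre (f := fun q : ((α × ℕ) × List Bool) × Bool × List Bool => (q.1.1.1, q.2))
        (by fun_prop)) (by fun_prop) (by fun_prop)
  have h2 := opt_sfm (g := fun O (q : α × ℕ) l =>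
      gapA (n q.1) (m q.1) (fo O q.1) (P q.1) b (i q.1) q.2 (zv (n q.1) (P q.1) b (y q.1)) l -
      gapA (n q.1) (m q.1) (fo O q.1) (P q.1) b (i q.1) q.2 (zv (n q.1) (P q.1) b (y q.1)) [])
    (n := fun q => n q.1) (m := fun q => 10 * m q.1)
    ((h1.pair (h0.pre PT.id'.fst)).post (g := fun r : ℤ × ℤ => r.1 - r.2) (by fun_prop))
    (by fun_prop) (by fun_prop)
  have h3 := (h2.pair h0).post (g := fun r : ℤ × ℤ => if 0 ≤ r.1 + r.2 then (0 : ℕ) else 1)
    (by fun_prop)
  have h4 := OPT.mkL (n := fun x => qG (m x)) (F := fun O x j => if 0 ≤ sfm (fun l =>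
      gapA (n x) (m x) (fo O x) (P x) b (i x) j (zv (n x) (P x) b (y x)) l -
      gapA (n x) (m x) (fo O x) (P x) b (i x) j (zv (n x) (P x) b (y x)) []) (n x) (10 * m x) +
      gapA (n x) (m x) (fo O x) (P x) b (i x) j (zv (n x) (P x) b (y x)) [] then (0 : ℕ) else 1)
    (by fun_prop) h3
  refine (h4.post₂ (g := fun x (l : List ℕ) => ∑ j ∈ range (qG (m x)), l.getD j 0)
    (by fun_prop)).congr (fun O x => ?_)
  unfold jvA
  exact sum_congr rfl fun j hj => getD_mkL _ _ (mem_range.1 hj)

theorem sz_inB {n m : ℕ} {P : Pre} {y : List ℤ} (h : inB n m P y) :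
    sz y ≤ 2 * n * (2 * (3 * qu m + 1) + 1) := by
  rw [← h.1]
  refine sz_list_le y _ (fun v hv => ?_)
  obtain ⟨k, hk, rfl⟩ := List.getElem_of_mem hv
  have hk' : y[k] = y.getD k 0 := by simp [List.getD_eq_getElem?_getD, hk]
  have h1 : |y[k]| ≤ qu m := by
    rw [h.1] at hk
    by_cases hkn : k < n
    · have := (h.2 k hkn).1
      rw [hk']
      simpa [xv] using this
    · have := (h.2 (k - n) (by omega)).2
      have e : n + (k - n) = k := by omega
      simp only [xv, if_true, e] at this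
      rw [hk']
      refine this.trans ?_
      split_ifs
      · exact le_rfl
      · positivity
  have := sz_int_le y[k]
  have := size_le_self y[k].natAbs
  have : y[k].natAbs ≤ qu m := by
    have := Int.natCast_natAbs y[k]
    omega
  omega

end OPM

open OPM in
theorem OPM_proof : OpmStmt := by
  intro α _ fo n m P hn hm hP hfo
  refine ⟨?_, ?_, by fun_prop, by fun_prop, by fun_prop, by fun_prop, by fun_prop,
    fun x => 2 * n x * (2 * (3 * qu (m x) + 1) + 1), PT.pbNat (by fun_prop),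
    fun x y h => sz_inB h⟩
  · have hfo' := hfo.pre
      (f := fun q : (α × ℕ × List ℤ × List ℤ) × Bool × List Bool => (q.1.1, q.2)) (by fun_prop)
    have hmem : ∀ b : Bool, OPT (fun O (q : α × ℕ × List ℤ × List ℤ) =>
        memA (n q.1) (m q.1) (fo O q.1) b (fun l j => l.getD (cl (P q.1) b j) false)
          (zv (n q.1) (P q.1) b q.2.2.2)) := fun b =>
      opt_memA (fo := fun O (q : α × ℕ × List ℤ × List ℤ) => fo O q.1) b (by fun_prop)
        (by fun_prop) hfo' (by fun_prop) (by fun_prop)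
    have hjv : ∀ b : Bool, OPT (fun O (q : (α × ℕ × List ℤ × List ℤ) × ℕ) =>
        jvA (n q.1.1) (m q.1.1) (fo O q.1.1) (P q.1.1) q.1.2.2.2 b q.2) := fun b =>
      opt_jvA (fo := fun O (q : (α × ℕ × List ℤ × List ℤ) × ℕ) => fo O q.1.1) b (by fun_prop)
        (by fun_prop) (by fun_prop) (by fun_prop)
        (hfo.pre (f := fun q : ((α × ℕ × List ℤ × List ℤ) × ℕ) × Bool × List Bool =>
          (q.1.1.1, q.2)) (by fun_prop)) (by fun_prop)
    have hJ := OPT.mkL (n := fun q : α × ℕ × List ℤ × List ℤ => n q.1)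
      (F := fun O q i => jvA (n q.1) (m q.1) (fo O q.1) (P q.1) q.2.2.2 false i +
        jvA (n q.1) (m q.1) (fo O q.1) (P q.1) q.2.2.2 true i) (by fun_prop)
      (((hjv false).pair (hjv true)).post (g := fun r : ℕ × ℕ => r.1 + r.2) (by fun_prop))
    refine ((((hmem false).pair (hmem true)).pair hJ).post₂
      (g := fun q (r : (Bool × Bool) × List ℕ) => wgt (n q.1) (m q.1) (P q.1) (r.1.1 && r.1.2)
        (fun b i => if b = true then 0 else r.2.getD i 0) q.2.1 q.2.2.1 q.2.2.2)
      (pt_wgt (by fun_prop) (by fun_prop) (by fun_prop) (by fun_prop) (by fun_prop) (by fun_prop)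
        (by fun_prop) (by fun_prop))).congr (fun O q => ?_)
    exact wgt_list _ _ _ _ _ _ _ _
  · have hfo' := hfo.pre
      (f := fun q : (α × List ℤ × Bin) × Bool × List Bool => (q.1.1, q.2)) (by fun_prop)
    have h0 := opt_memA (fo := fun O (q : α × List ℤ × Bin) => fo O q.1) false
      (n := fun q => n q.1) (m := fun q => m q.1) (σ := fun _ l j => l.getD j false)
      (z := fun q j => zv (n q.1) (P q.1) false q.2.1 j + off (n q.1) (m q.1) (P q.1) q.2.2.val j)
      (by fun_prop) (by fun_prop) hfo' (by fun_prop) (by fun_prop)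
    have h1 := opt_memA (fo := fun O (q : α × List ℤ × Bin) => fo O q.1) true
      (n := fun q => n q.1) (m := fun q => m q.1) (σ := fun _ l j => l.getD j false)
      (z := fun q j => zv (n q.1) (P q.1) true q.2.1 j - off (n q.1) (m q.1) (P q.1) q.2.2.val j)
      (by fun_prop) (by fun_prop) hfo' (by fun_prop) (by fun_prop)
    exact (h0.pair h1).post₂ (g := fun q (r : Bool × Bool) =>
      decide (inB (n q.1) (m q.1) (P q.1) q.2.1 ∧ accS (n q.1) (m q.1) (P q.1) q.2.1) &&
        (r.1 && r.2)) (by fun_prop)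

end Crest.Agent.R302
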