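import Crest.Agent.R302.DefsA
import Crest.Agent.R309.LAM
import Crest.Agent.R309.SCH

/-! Row 302, task CLO: closure properties of `L`-functions. -/

set_option autoImplicit false

namespace Crest.Agent.R302

open Finset Crest.Agent.R309

namespace CLO

open LAM

variable {V : Type} [Fintype V] [DecidableEq V]

theorem isL_iff (F : (V → ℕ) → ℝ) : IsL F ↔ P F := SCH_proof V F

omit [Fintype V] in
theorem dep_ev {F : (V → ℕ) → ℝ} {S : Finset V} (h : DepOn F S) (α : V → ℕ) (b : V) (hb : b ∉ S) :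
    F (α + ev b) = F α := by
  refine h _ _ fun v hv => ?_
  have : v ≠ b := fun e => hb (e ▸ hv)
  simp [ev, this]

theorem mul {F G : (V → ℕ) → ℝ} {S T : Finset V} (hF : IsL F) (hG : IsL G) (dF : DepOn F S)
    (dG : DepOn G T) (hd : Disjoint S T) : IsL (fun α => F α * G α) := by
  have h := step S F G (fun _ => 1) 0 ((isL_iff _).1 hF) ((isL_iff _).1 hG)
    ⟨fun _ => one_pos, fun _ => by norm_num⟩ (fun α b hb => dep_ev dF α b hb)
    (fun α a ha => dep_ev dG α a (disjoint_left.1 hd ha))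
  simp only [one_mul] at h
  exact (isL_iff _).2 h

theorem tot {F : (V → ℕ) → ℝ} {S : Finset V} {χ : ℤ → ℝ} (o : ℤ) (hF : IsL F) (dF : DepOn F S)
    (hχ : LC χ) : IsL (fun α => F α * χ ((∑ v ∈ S, (α v : ℤ)) - o)) := by
  have h := step S F (fun _ => 1) χ o ((isL_iff _).1 hF) P_one hχ
    (fun α b hb => dep_ev dF α b hb) (fun _ _ _ => rfl)
  simp only [mul_one] at h
  simp only [mul_comm (F _)]
  exact (isL_iff _).2 h

theorem scale {F T : (V → ℕ) → ℝ} (hF : P F) (hT : ∀ γ, 0 < T γ)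
    (h2 : ∀ γ a b, a ≠ b → T (γ + ev a + ev b) * T γ = T (γ + ev a) * T (γ + ev b))
    (h3 : ∀ γ a, T (γ + ev a + ev a) * T γ ≤ T (γ + ev a) * T (γ + ev a)) :
    P (fun α => F α * T α) := by
  refine ⟨fun γ => mul_pos (hF.1 γ) (hT γ), fun γ x => ?_⟩
  have h := hF.2 γ (fun a => x a * T (γ + ev a))
  have hD : Dv (fun α => F α * T α) γ x = Dv F γ (fun a => x a * T (γ + ev a)) := by
    simp only [Dv]
    exact sum_congr rfl fun a _ => by ring
  have hQ : Qv (fun α => F α * T α) γ x * T γ ≤ Qv F γ (fun a => x a * T (γ + ev a)) := by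
    simp only [Qv, sum_mul]
    refine sum_le_sum fun a _ => sum_le_sum fun b _ => ?_
    by_cases hab : a = b
    · subst hab
      have := mul_le_mul_of_nonneg_left (h3 γ a)
        (mul_nonneg (mul_self_nonneg (x a)) (hF.1 (γ + ev a + ev a)).le)
      nlinarith
    · have := h2 γ a b hab
      refine le_of_eq ?_
      calc x a * x b * (F (γ + ev a + ev b) * T (γ + ev a + ev b)) * T γ =
          x a * x b * F (γ + ev a + ev b) * (T (γ + ev a + ev b) * T γ) := by ring
        _ = _ := by rw [this]; ring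
  rw [hD]
  have := mul_le_mul_of_nonneg_right hQ (hF.1 γ).le
  show _ * (F γ * T γ) ≤ _
  nlinarith

theorem prod_ev (χ : V → ℤ → ℝ) (o : V → ℤ) (γ : V → ℕ) (a : V) :
    ∏ v, χ v ((γ v : ℤ) - o v) = χ a ((γ a : ℤ) - o a) * ∏ v ∈ univ.erase a, χ v ((γ v : ℤ) - o v) :=
  (mul_prod_erase univ (fun v => χ v ((γ v : ℤ) - o v)) (mem_univ a)).symm

theorem erase_ev (χ : V → ℤ → ℝ) (o : V → ℤ) (γ : V → ℕ) (a : V) (s : Finset V) (ha : a ∉ s) :
    ∏ v ∈ s, χ v ((((γ + ev a : V → ℕ) v : ℕ) : ℤ) - o v) = ∏ v ∈ s, χ v ((γ v : ℤ) - o v) := by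
  refine prod_congr rfl fun v hv => ?_
  have : v ≠ a := fun e => ha (e ▸ hv)
  simp [ev, this]

theorem single {F : (V → ℕ) → ℝ} {χ : V → ℤ → ℝ} (o : V → ℤ) (hF : IsL F) (hχ : ∀ v, LC (χ v)) :
    IsL (fun α => F α * ∏ v, χ v ((α v : ℤ) - o v)) := by
  refine (isL_iff _).2 (scale ((isL_iff _).1 hF) (fun γ => prod_pos fun v _ => (hχ v).1 _)
    (fun γ a b hab => ?_) (fun γ a => ?_))
  · have key : ∀ δ : V → ℕ, ∏ v, χ v ((δ v : ℤ) - o v) = χ a ((δ a : ℤ) - o a) *
        (χ b ((δ b : ℤ) - o b) * ∏ v ∈ (univ.erase a).erase b, χ v ((δ v : ℤ) - o v)) := by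
      intro δ
      rw [prod_ev χ o δ a, ← mul_prod_erase (univ.erase a) (fun v => χ v ((δ v : ℤ) - o v))
        (a := b) (mem_erase.2 ⟨hab.symm, mem_univ _⟩)]
    have ha : a ∉ (univ.erase a).erase b := by simp
    have hb : b ∉ (univ.erase a).erase b := by simp
    rw [key, key γ, key (γ + ev a), key (γ + ev b), erase_ev _ _ _ _ _ hb, erase_ev _ _ _ _ _ ha,
      erase_ev _ _ _ _ _ hb]
    simp only [Pi.add_apply, ev, Pi.single_eq_same, Pi.single_eq_of_ne hab,
      Pi.single_eq_of_ne hab.symm, add_zero]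
    ring
  · have ha : a ∉ univ.erase a := by simp
    rw [prod_ev χ o _ a, prod_ev χ o γ a, prod_ev χ o (γ + ev a) a, erase_ev _ _ _ _ _ ha,
      erase_ev _ _ _ _ _ ha]
    have h := (hχ a).2 ((γ a : ℤ) + 1 - o a)
    simp only [Pi.add_apply, ev, Pi.single_eq_same]
    push_cast
    rw [show (γ a : ℤ) + 1 - o a - 1 = γ a - o a by ring,
      show (γ a : ℤ) + 1 - o a + 1 = γ a + 1 + 1 - o a by ring] at h
    have := mul_le_mul_of_nonneg_right h
      (sq_nonneg (∏ v ∈ univ.erase a, χ v ((γ v : ℤ) - o v)))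
    nlinarith

theorem pull {W : Type} [Fintype W] [DecidableEq W] (φ : (W → ℕ) → (V → ℕ))
    (π : Option W → Option V) (hφ : ∀ γ a, φ (γ + eo a) = φ γ + eo (π a)) {F : (V → ℕ) → ℝ}
    (hF : IsL F) : IsL (fun α => F (φ α)) := by
  have key : ∀ γ v w, Hf (fun α => F (φ α)) γ v w =
      Hf F (φ γ) (fun c => ∑ a, if π a = c then v a else 0)
        (fun c => ∑ a, if π a = c then w a else 0) := by
    intro γ v w
    simp only [Hf, hφ, sum_mul, mul_sum]
    symm
    calc ∑ c, ∑ d, ∑ b, ∑ a, (if π a = c then v a else 0) * (if π b = d then w b else 0) *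
          F (φ γ + eo c + eo d)
        = ∑ c, ∑ b, ∑ a, (if π a = c then v a else 0) * w b * F (φ γ + eo c + eo (π b)) := by
          refine sum_congr rfl fun c _ => ?_
          rw [sum_comm]
          refine sum_congr rfl fun b _ => ?_
          rw [sum_comm]
          refine sum_congr rfl fun a _ => ?_
          simp [ite_mul, mul_ite]
      _ = ∑ b, ∑ a, v a * w b * F (φ γ + eo (π a) + eo (π b)) := by
          rw [sum_comm]
          refine sum_congr rfl fun b _ => ?_
          rw [sum_comm]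
          refine sum_congr rfl fun a _ => ?_
          simp [ite_mul]
      _ = _ := sum_comm
  refine ⟨fun γ => hF.1 _, fun γ v w hw => ?_⟩
  rw [key] at hw
  rw [key, key, key]
  exact hF.2 _ _ _ hw

theorem emb {W : Type} [Fintype W] [DecidableEq W] (ι : W → V) (δ : V → ℕ) {F : (V → ℕ) → ℝ}
    (hF : IsL F) : IsL (fun α : W → ℕ => F (δ + ∑ w, Pi.single (ι w) (α w))) := by
  refine pull (fun α : W → ℕ => δ + ∑ w, Pi.single (ι w) (α w)) (Option.map ι) ?_ hF
  intro γ a
  cases a with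
  | none => simp [eo]
  | some a =>
    simp only [eo, Option.map_some, Pi.add_apply, Pi.single_add, sum_add_distrib, add_assoc]
    congr 2
    rw [sum_eq_single a]
    · simp [ev]
    · intro b _ hb; simp [ev, hb]
    · simp

theorem res {W : Type} [Fintype W] [DecidableEq W] (ι : W → V) (hι : Function.Injective ι)
    {F : (W → ℕ) → ℝ} (hF : IsL F) : IsL (fun α : V → ℕ => F (fun w => α (ι w))) := by
  classical
  refine pull (fun α : V → ℕ => fun w => α (ι w))
    (fun a => a.bind (fun v => if h : ∃ w, ι w = v then some h.choose else none)) ?_ hF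
  intro γ a
  cases a with
  | none => simp [eo]
  | some a =>
    funext w
    by_cases h : ∃ w, ι w = a
    · have hs := h.choose_spec
      simp only [eo, Option.bind_some, h, dif_pos, Pi.add_apply, ev, Pi.single_apply]
      congr 1
      by_cases hw : w = h.choose
      · rw [if_pos hw, if_pos (by rw [hw, hs])]
      · rw [if_neg hw, if_neg (fun e => hw (hι (e.trans hs.symm)))]
    · have : ι w ≠ a := fun e => h ⟨w, e⟩
      simp [eo, h, ev, this]

theorem prod {I : Type} (s : Finset I) (F : I → (V → ℕ) → ℝ) (S : I → Finset V)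
    (hF : ∀ i ∈ s, IsL (F i)) (dF : ∀ i ∈ s, DepOn (F i) (S i))
    (hd : ∀ i ∈ s, ∀ j ∈ s, i ≠ j → Disjoint (S i) (S j)) : IsL (fun α => ∏ i ∈ s, F i α) := by
  classical
  induction s using Finset.induction_on with
  | empty => simpa using (isL_iff _).2 P_one
  | insert i s hi ih =>
    simp only [prod_insert hi]
    refine mul (S := S i) (T := s.biUnion S) (hF i (mem_insert_self _ _))
      (ih (fun j hj => hF j (mem_insert_of_mem hj)) (fun j hj => dF j (mem_insert_of_mem hj))
        (fun j hj k hk => hd j (mem_insert_of_mem hj) k (mem_insert_of_mem hk)))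
      (dF i (mem_insert_self _ _)) (fun α β h => prod_congr rfl fun j hj =>
        dF j (mem_insert_of_mem hj) α β fun v hv => h v (mem_biUnion.2 ⟨j, hj, hv⟩)) ?_
    rw [disjoint_biUnion_right]
    exact fun j hj => hd i (mem_insert_self _ _) j (mem_insert_of_mem hj) (fun e => hi (e ▸ hj))

theorem tilt {F : (V → ℕ) → ℝ} {c : ℝ} {t : V → ℝ} (hF : IsL F) (hc : 0 < c) (ht : ∀ v, 0 < t v) :
    IsL (fun α => c * F α * ∏ v, t v ^ α v) :=
  (isL_iff _).2 (P_tilt F ((isL_iff _).1 hF) c t hc ht)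

end CLO

theorem CLO_proof : CloStmt := by
  intro V _ _
  exact ⟨fun _ _ _ _ hF hG dF dG hd => CLO.mul hF hG dF dG hd,
    fun _ _ _ o hF dF hχ => CLO.tot o hF dF hχ, fun _ _ o hF hχ => CLO.single o hF hχ,
    fun _ _ _ ι δ _ hF => CLO.emb ι δ hF, fun _ _ _ ι _ hι hF => CLO.res ι hι hF,
    fun _ s F S hF dF hd => CLO.prod s F S hF dF hd, fun _ _ _ hF hc ht => CLO.tilt hF hc ht⟩

end Crest.Agent.R302
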