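import Crest.Agent.R302.DefsC

/-! Row 302, task REP: bookkeeping. -/

set_option autoImplicit false

namespace Crest.Agent.R302.REP

open Finset Crest.Agent.PT Crest.Agent.QC Crest.Agent.R317 Crest.Agent.R300U Crest.Agent.R309
  Crest.Agent.R302

variable {n m : ℕ} {f : Bool → Finset (Fin n) → ℤ} {P : Pre}

theorem bits_getD (L : Finset (Fin n)) {k : ℕ} (hk : k < n) :
    (bitsOf L).getD k false = decide ((⟨k, hk⟩ : Fin n) ∈ L) :=
  getD_ofFn (fun j : Fin n => decide (j ∈ L)) ⟨k, hk⟩ false

theorem mem_cu (S : Spec n m f P) (b : Bool) (L : Finset (Fin n)) (j : Fin n) :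
    j ∈ cu n P b L ↔ (⟨cl P b j, S.cll b j j.2⟩ : Fin n) ∈ L := by
  rw [cu, mem_filter, bits_getD L (S.cll b j j.2)]; simp

theorem cu_empty (S : Spec n m f P) (b : Bool) : cu n P b ∅ = ∅ := by
  ext j; rw [mem_cu S]; simp

theorem cu_univ (S : Spec n m f P) (b : Bool) : cu n P b univ = univ := by
  ext j; rw [mem_cu S]; simp

theorem cu_union (S : Spec n m f P) (b : Bool) (L L' : Finset (Fin n)) :
    cu n P b (L ∪ L') = cu n P b L ∪ cu n P b L' := by
  ext j; simp only [mem_union, mem_cu S]

theorem cu_inter (S : Spec n m f P) (b : Bool) (L L' : Finset (Fin n)) :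
    cu n P b (L ∩ L') = cu n P b L ∩ cu n P b L' := by
  ext j; simp only [mem_inter, mem_cu S]

theorem xv_st (y : Fin n × Bool → ℕ) (k : Fin n × Bool) :
    xv n (st n m P y) k.1 k.2 = (y k : ℤ) - hK n m P k := by
  obtain ⟨e, b⟩ := k
  cases b
  · simp only [xv, st, Bool.false_eq_true, if_false]
    rw [List.getD_append _ _ _ _ (by simp), getD_ofFn]
  · simp only [xv, st, if_true]
    rw [List.getD_append_right _ _ _ _ (by simp)]
    simp only [List.length_ofFn, Nat.add_sub_cancel_left]
    rw [getD_ofFn]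

theorem len_st (y : Fin n × Bool → ℕ) : (st n m P y).length = 2 * n := by
  simp [st]; omega

theorem hK_false (e : Fin n) : hK n m P (e, false) = qu m := by simp [hK]

theorem hK_true (e : Fin n) : hK n m P (e, true) = if isF P e = true then qu m else 0 := by
  cases h : isF P e <;> simp [hK, h]

theorem hK_F {e : Fin n} (h : isF P e = true) (b : Bool) : hK n m P (e, b) = qu m := by
  simp [hK, h]

theorem mem_box {y : Fin n × Bool → ℕ} :
    y ∈ box (fun k => 2 * hK n m P k) ↔ ∀ k, y k ≤ 2 * hK n m P k := by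
  simp only [R309.box, Fintype.mem_piFinset, mem_range, Nat.lt_succ_iff]

theorem inB_iff {x : List ℤ} : inB n m P x ↔
    x.length = 2 * n ∧ ∀ k : Fin n × Bool, |xv n x k.1 k.2| ≤ hK n m P k := by
  rw [inB, all_iff]
  refine and_congr Iff.rfl ⟨fun h k => ?_, fun h e => ⟨?_, ?_⟩⟩
  · obtain ⟨e, b⟩ := k
    cases b
    · rw [hK_false]; exact (h e).1
    · rw [hK_true]; push_cast; exact (h e).2
  · have := h (e, false); rwa [hK_false] at this
  · have := h (e, true); rw [hK_true] at this; push_cast at this; exact this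

theorem inB_st {y : Fin n × Bool → ℕ} (hy : y ∈ box (fun k => 2 * hK n m P k)) :
    inB n m P (st n m P y) := by
  refine inB_iff.2 ⟨len_st y, fun k => ?_⟩
  rw [xv_st, abs_le]
  have := mem_box.1 hy k
  omega

theorem ext_xv {x x' : List ℤ} (h : x.length = 2 * n) (h' : x'.length = 2 * n)
    (e : ∀ k : Fin n × Bool, xv n x k.1 k.2 = xv n x' k.1 k.2) : x = x' := by
  refine List.ext_getElem (h.trans h'.symm) (fun i h1 h2 => ?_)
  rw [← List.getD_eq_getElem x 0 h1, ← List.getD_eq_getElem x' 0 h2]
  by_cases hi : i < n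
  · simpa [xv] using e (⟨i, hi⟩, false)
  · have := e (⟨i - n, by omega⟩, true)
    simp only [xv, if_true] at this
    rwa [show n + (i - n) = i by omega] at this

theorem st_surj {x : List ℤ} (hx : inB n m P x) :
    ∃ y ∈ box (fun k => 2 * hK n m P k), st n m P y = x := by
  obtain ⟨h1, h2⟩ := inB_iff.1 hx
  refine ⟨fun k => (xv n x k.1 k.2 + hK n m P k).toNat, mem_box.2 fun k => ?_,
    ext_xv (len_st _) h1 fun k => ?_⟩
  · have := abs_le.1 (h2 k); omega
  · rw [xv_st]
    have := abs_le.1 (h2 k); omega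

theorem st_inj : Function.Injective (st n m P) := by
  intro y y' h
  funext k
  have h1 := xv_st (m := m) (P := P) y k
  rw [h, xv_st] at h1
  omega

theorem hK_le (k : Fin n × Bool) : hK n m P k ≤ qu m := by
  unfold hK; split_ifs <;> omega

theorem getD_le {x : List ℤ} (hx : inB n m P x) (k : ℕ) : |x.getD k 0| ≤ qu m := by
  obtain ⟨h1, h2⟩ := inB_iff.1 hx
  by_cases hk : k < n
  · have := h2 (⟨k, hk⟩, false)
    simpa [xv, hK] using this
  · by_cases hk' : k < 2 * n
    · have := h2 (⟨k - n, by omega⟩, true)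
      simp only [xv, if_true] at this
      rw [show n + (k - n) = k by omega] at this
      exact this.trans (by exact_mod_cast hK_le _)
    · rw [List.getD_eq_default _ _ (by omega)]; simp

theorem mem_Om (x : List ℤ) :
    x ∈ Om n m f P ↔ inB n m P x ∧ HB n f P false x ∧ HB n f P true x := by
  classical
  rw [Om, mem_filter]
  refine ⟨fun h => h.2, fun h => ⟨?_, h⟩⟩
  refine mem_image.2 ⟨fun k => x.getD k 0, Fintype.mem_piFinset.2 fun k => ?_, ?_⟩
  · exact mem_Icc.2 (abs_le.1 (getD_le h.1 k))
  · refine List.ext_getElem (by rw [List.length_ofFn, h.1.1]) (fun i h1 h2 => ?_)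
    rw [List.getElem_ofFn, List.getD_eq_getElem]

theorem sum_Om (G : List ℤ → ℝ) :
    ∑ x ∈ Om n m f P, G x = ∑ y ∈ box (fun k => 2 * hK n m P k),
      @ite _ (st n m P y ∈ Om n m f P) (Classical.dec _) (G (st n m P y)) 0 := by
  classical
  have e : Om n m f P = ((box (fun k => 2 * hK n m P k)).filter
      (fun y => st n m P y ∈ Om n m f P)).image (st n m P) := by
    ext x
    simp only [mem_image, mem_filter]
    constructor
    · intro hx
      obtain ⟨y, h1, rfl⟩ := st_surj ((mem_Om x).1 hx).1
      exact ⟨y, ⟨h1, hx⟩, rfl⟩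
    · rintro ⟨y, h1, rfl⟩; exact h1.2
  conv_lhs => rw [e]
  rw [sum_image (fun _ _ _ _ h => st_inj h), sum_filter]
  exact sum_congr rfl fun y _ => by congr

theorem zeta_cu (S : Spec n m f P) (b : Bool) (L : Finset (Fin n)) : zeta P b (cu n P b L) = 0 := by
  unfold zeta zetaL
  refine sum_eq_zero fun i hi => if_pos ?_
  have hm : (ed P b).getD i (0, 0, 0) ∈ ed P b := by
    rw [List.getD_eq_getElem _ _ (mem_range.1 hi)]; exact List.getElem_mem _
  obtain ⟨h1, h2, -, -, h3⟩ := S.edg b _ hm
  rw [bits_getD _ h1, bits_getD _ h2, decide_eq_decide, mem_cu S, mem_cu S]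
  simp only [h3]

theorem qT_pos (S : Spec n m f P) : 0 < qT m := pow_pos (by have := S.big; omega) _

theorem cyc_cu (S : Spec n m f P) (b : Bool) (L : Finset (Fin n)) (e : Fin n)
    (he : isF P e = false) : ∑ j ∈ cu n P b L, cyc P e j = 0 := by
  by_contra h
  have h1 := S.cy2 e he b _ h
  rw [zeta_cu S] at h1
  have h2 : (0 : ℤ) < qT m := by exact_mod_cast qT_pos S
  have : (0 : ℤ) < qT m * 2 ^ R302.he P e := by positivity
  omega

theorem sub_cc (S : Spec n m f P) (b : Bool) : Sub (cc n m f P b) := by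
  intro A B
  simp only [cc, cu_union S, cu_inter S, filter_union, filter_inter_distrib]
  have h1 := S.sub b (cu n P b A) (cu n P b B)
  have h2 := card_union_add_card_inter ((cu n P b A).filter (fun j : Fin n => isF P j = true))
    ((cu n P b B).filter (fun j : Fin n => isF P j = true))
  have h3 := congrArg (fun t : ℕ => (qu m : ℤ) * t) h2
  push_cast at h3
  linarith

theorem dF_le {x : List ℤ} (hx : inB n m P x) (j : ℕ) : |dF n P x j| ≤ 2 * qu m := by
  unfold dF
  split_ifs
  · have h1 := getD_le hx (if false = true then n + j else j)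
    have h2 := getD_le hx (if true = true then n + j else j)
    exact (abs_add_le _ _).trans (by unfold xv; linarith)
  · simp

theorem dc_le (S : Spec n m f P) {x : List ℤ} (hx : inB n m P x) (i : ℕ) :
    |dc n P x i| ≤ 2 * m * qu m := by
  refine (abs_sum_le_sum_abs _ _).trans ?_
  refine (sum_le_sum (g := fun _ => 2 * (qu m : ℤ)) fun j _ => ?_).trans ?_
  · split_ifs
    · exact dF_le hx j
    · simp
  · rw [sum_const, card_range, nsmul_eq_mul]
    have : (n : ℤ) ≤ m := by exact_mod_cast S.le
    have h0 : (0 : ℤ) ≤ qu m := by positivity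
    nlinarith

theorem zv_add (x : List ℤ) (j : ℕ) : zv n P false x j + zv n P true x j = dF n P x j := by
  simp only [zv, dF, sgn, Bool.false_eq_true, if_false, if_true]
  split_ifs <;> ring

/-- the part of `α` outside the slots of `L` -/
def rest (b : Bool) (α : VV n → ℕ) (L : Finset (Fin n)) : ℤ :=
  ∑ v, (match slot n P b v with | none => 0 | some e => if e ∈ L then 0 else (α v : ℤ))

/-- the total of the slots -/
def tot (b : Bool) (α : VV n → ℕ) : ℤ := ∑ v, if (slot n P b v).isSome then (α v : ℤ) else 0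

theorem prk_eq (b : Bool) (α : VV n → ℕ) : prk (cc n m f P b) (slot n P b) α =
    (univ : Finset (Finset (Fin n))).inf' ⟨∅, mem_univ _⟩
      (fun L => cc n m f P b L + rest (P := P) b α L) := by
  unfold prk rest
  congr 1
  funext L
  congr 1
  exact sum_congr rfl fun v _ => by cases slot n P b v <;> rfl

theorem rest_empty (b : Bool) (α : VV n → ℕ) : rest (P := P) b α ∅ = tot (P := P) b α :=
  sum_congr rfl fun v _ => by cases slot n P b v <;> simp

theorem rest_univ (b : Bool) (α : VV n → ℕ) : rest (P := P) b α univ = 0 :=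
  sum_eq_zero fun v _ => by cases slot n P b v <;> simp

theorem cc_empty (S : Spec n m f P) (b : Bool) : cc n m f P b ∅ = 0 := by
  simp [cc, cu_empty S, S.empty]

theorem prk_le (b : Bool) (α : VV n → ℕ) (L : Finset (Fin n)) :
    prk (cc n m f P b) (slot n P b) α ≤ cc n m f P b L + rest (P := P) b α L := by
  rw [prk_eq]; exact inf'_le _ (mem_univ L)

theorem prk_le_tot (S : Spec n m f P) (b : Bool) (α : VV n → ℕ) :
    prk (cc n m f P b) (slot n P b) α ≤ tot (P := P) b α := by
  have := prk_le (m := m) (f := f) (P := P) b α ∅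
  rwa [cc_empty S, rest_empty, zero_add] at this

theorem prk_le_cc (b : Bool) (α : VV n → ℕ) :
    prk (cc n m f P b) (slot n P b) α ≤ cc n m f P b univ := by
  have := prk_le (m := m) (f := f) (P := P) b α univ
  rwa [rest_univ, add_zero] at this

theorem dfc_eq (α : VV n → ℕ) : dfc n m f P α =
    (tot (P := P) true α + cc n m f P true univ - 2 * prk (cc n m f P true) (slot n P true) α) +
    (tot (P := P) false α + cc n m f P false univ -
      2 * prk (cc n m f P false) (slot n P false) α) := by
  rw [dfc, Fintype.sum_bool]; rfl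

theorem dfc_nonneg (S : Spec n m f P) (α : VV n → ℕ) : 0 ≤ dfc n m f P α := by
  rw [dfc_eq]
  have := prk_le_tot S true α
  have := prk_le_tot S false α
  have := prk_le_cc (m := m) (f := f) (P := P) true α
  have := prk_le_cc (m := m) (f := f) (P := P) false α
  omega

theorem dfc_congr {α β : VV n → ℕ} (h : ∀ b v, (slot n P b v).isSome → α v = β v) :
    dfc n m f P α = dfc n m f P β := by
  have h1 : ∀ b, tot (P := P) b α = tot (P := P) b β := fun b =>
    sum_congr rfl fun v _ => by
      split_ifs with hv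
      · rw [h b v hv]
      · rfl
  have h2 : ∀ b L, rest (P := P) b α L = rest (P := P) b β L := fun b L =>
    sum_congr rfl fun v _ => by
      have := h b v
      cases hv : slot n P b v with
      | none => rfl
      | some e => simp only [this (by simp [hv])]
  simp only [dfc_eq, prk_eq, h1, h2]

theorem dfc_ev (α : VV n → ℕ) (k : Fin n × Bool) :
    dfc n m f P (α + ev (.inl (k, true))) = dfc n m f P α := by
  refine dfc_congr fun b v hv => ?_
  have : v ≠ .inl (k, true) := by
    rintro rfl
    simp [slot] at hv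
  simp [ev, this]

theorem rest_emb (S : Spec n m f P) (b : Bool) (y ω : Fin n × Bool → ℕ) (z : Fin n → ℕ)
    (L : Finset (Fin n)) : rest (P := P) b (emb n m P y ω z) L =
      ∑ j : Fin n, if isF P j = true ∧ j ∉ cu n P b L then (y (j, b) : ℤ) else 0 := by
  simp only [rest, Fintype.sum_sum_type, Fintype.sum_prod_type, slot, sum_const_zero, add_zero]
  refine sum_congr rfl fun j _ => ?_
  have hl := S.cll b j j.2
  simp only [mem_cu S]
  cases h : isF P j <;> cases b <;> simp [hl, emb, node]

theorem zsum (S : Spec n m f P) (b : Bool) (x : List ℤ) (L : Finset (Fin n)) :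
    ∑ j ∈ cu n P b L, zv n P b x j =
      ∑ j ∈ cu n P b L, if isF P j = true then xv n x j b else 0 := by
  simp only [zv, sum_add_distrib, ← mul_sum]
  rw [sum_comm, sum_eq_zero (s := range n), mul_zero, add_zero]
  intro e he
  cases h : isF P e
  · simp only [Bool.false_eq_true, if_false, ← mul_sum]
    rw [cyc_cu S b L ⟨e, mem_range.1 he⟩ h, mul_zero]
  · simp

theorem val_emb (S : Spec n m f P) (b : Bool) (y ω : Fin n × Bool → ℕ) (z : Fin n → ℕ)
    (L : Finset (Fin n)) : cc n m f P b L + rest (P := P) b (emb n m P y ω z) L =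
      tot (P := P) b (emb n m P y ω z) + f b (cu n P b L) -
        ∑ j ∈ cu n P b L, zv n P b (st n m P y) j := by
  rw [← rest_empty, rest_emb S, rest_emb S, zsum S, cc, cu_empty S, card_filter]
  push_cast
  rw [mul_sum, ← sum_add_sum_compl (cu n P b L), ← sum_add_sum_compl (cu n P b L)
    (fun j : Fin n => if isF P j = true ∧ j ∉ (∅ : Finset (Fin n)) then (y (j, b) : ℤ) else 0)]
  have h1 : ∑ j ∈ cu n P b L,
      (if isF P j = true ∧ j ∉ cu n P b L then (y (j, b) : ℤ) else 0) = 0 :=
    sum_eq_zero fun j hj => if_neg fun h => h.2 hj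
  have h2 : ∑ j ∈ (cu n P b L)ᶜ, (if isF P j = true ∧ j ∉ cu n P b L then (y (j, b) : ℤ) else 0) =
      ∑ j ∈ (cu n P b L)ᶜ,
        (if isF P j = true ∧ j ∉ (∅ : Finset (Fin n)) then (y (j, b) : ℤ) else 0) :=
    sum_congr rfl fun j hj => by simp [mem_compl.1 hj]
  have h3 : ∑ j ∈ cu n P b L, (if isF P j = true then xv n (st n m P y) j b else 0) =
      ∑ j ∈ cu n P b L, (if isF P j = true ∧ j ∉ (∅ : Finset (Fin n)) then (y (j, b) : ℤ) else 0) -
        ∑ j ∈ cu n P b L, (qu m : ℤ) * (if isF P j = true then 1 else 0) := by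
    rw [← sum_sub_distrib]
    refine sum_congr rfl fun j _ => ?_
    by_cases h : isF P j = true
    · have := xv_st (m := m) (P := P) y (j, b)
      rw [hK_F h] at this
      simp [h, this]
    · simp [h]
  rw [h1, h2, h3]
  ring

theorem side_iff (S : Spec n m f P) (b : Bool) (y ω : Fin n × Bool → ℕ) (z : Fin n → ℕ) :
    tot (P := P) b (emb n m P y ω z) + cc n m f P b univ -
      2 * prk (cc n m f P b) (slot n P b) (emb n m P y ω z) = 0 ↔ HB n f P b (st n m P y) := by
  have h1 := prk_le_tot S b (emb n m P y ω z)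
  have h2 := prk_le_cc (m := m) (f := f) (P := P) b (emb n m P y ω z)
  have h3 := val_emb S b y ω z univ
  rw [rest_univ, cu_univ S, S.full] at h3
  constructor
  · intro h
    refine ⟨by omega, fun L => ?_⟩
    have h4 := prk_le (m := m) (f := f) (P := P) b (emb n m P y ω z) L
    rw [val_emb S] at h4
    omega
  · rintro ⟨h4, h5⟩
    have : tot (P := P) b (emb n m P y ω z) ≤
        prk (cc n m f P b) (slot n P b) (emb n m P y ω z) := by
      rw [prk_eq]
      refine le_inf' _ _ fun L _ => ?_
      rw [val_emb S]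
      have := h5 L
      omega
    omega

theorem dfc_iff (S : Spec n m f P) {y : Fin n × Bool → ℕ}
    (hy : y ∈ box (fun k => 2 * hK n m P k)) (ω : Fin n × Bool → ℕ) (z : Fin n → ℕ) :
    dfc n m f P (emb n m P y ω z) = 0 ↔ st n m P y ∈ Om n m f P := by
  rw [mem_Om, ← side_iff S false y ω z, ← side_iff S true y ω z, dfc_eq]
  have := prk_le_tot S true (emb n m P y ω z)
  have := prk_le_tot S false (emb n m P y ω z)
  have := prk_le_cc (m := m) (f := f) (P := P) true (emb n m P y ω z)
  have := prk_le_cc (m := m) (f := f) (P := P) false (emb n m P y ω z)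
  exact ⟨fun h => ⟨inB_st hy, by omega, by omega⟩, fun h => by omega⟩

theorem sum_SS {y : Fin n × Bool → ℕ} (hy : y ∈ box (fun k => 2 * hK n m P k))
    (ω : Fin n × Bool → ℕ) (z : Fin n → ℕ) (i : Fin n) :
    (∑ v ∈ SS n P i, (emb n m P y ω z v : ℤ)) =
      2 * qu m * (kap n P i).card - dc n P (st n m P y) i + ω (i, false) + ω (i, true) + z i := by
  rw [SS, sum_filter, Fintype.sum_sum_type, Fintype.sum_sum_type, dc, kap, card_filter,
    sum_range (fun j => if cp P j = i then dF n P (st n m P y) j else 0)]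
  push_cast
  rw [mul_sum, ← sum_sub_distrib, add_assoc, add_assoc]
  congr 1
  · simp only [Fintype.sum_prod_type]
    refine sum_congr rfl fun e _ => ?_
    have a1 := mem_box.1 hy (e, false)
    have a2 := mem_box.1 hy (e, true)
    have b1 := xv_st (m := m) (P := P) y (e, false)
    have b2 := xv_st (m := m) (P := P) y (e, true)
    simp only at b1 b2
    rw [hK_false] at a1 b1
    rw [hK_true] at a2 b2
    by_cases hc : cp P e = i
    · cases h : isF P e
      · simp only [h, Bool.false_eq_true, if_false] at a2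
        simp [vc, emb, node, h, hc, dF, hK_false, hK_true]
        omega
      · simp only [h, if_true] at a2 b2
        simp [vc, emb, node, h, hc, dF, hK_false, hK_true, b1, b2]
        omega
    · cases h : isF P e <;> simp [vc, h, hc]
  · rw [← add_assoc]
    congr 1
    · simp [Fintype.sum_prod_type, vc, emb, Fin.val_inj, sum_add_distrib, add_comm]
    · simp [vc, emb, Fin.val_inj]

end Crest.Agent.R302.REP

namespace Crest.Agent.R302

open REP

theorem REP_proof : RepStmt := fun _ _ _ _ S =>
  ⟨fun y hy => ⟨inB_st hy, xv_st y⟩, fun _ => st_surj, st_inj, mem_Om, sum_Om, dfc_nonneg S, dfc_ev,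
    sub_cc S, fun _ hy ω z => ⟨dfc_iff S hy ω z, sum_SS hy ω z⟩,
    fun x hx => ⟨dc_le S hx, dF_le hx, fun j _ => zv_add x j⟩,
    fun b L => ⟨zeta_cu S b L, cyc_cu S b L⟩⟩

end Crest.Agent.R302
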