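import Crest.Agent.R302.SLI2
import Crest.Agent.R309.UP
import Crest.Agent.R309.BUP
import Crest.Agent.R309.HAR

/-! Row 302, tasks UP2 and BUP2: Poincaré inequalities with one cheap variable per block. -/

set_option autoImplicit false

namespace Crest.Agent.R302

open Finset Crest.Agent.R309

open UP SLI2 in
theorem UP2_proof (hSli : Sli2Stmt) : Up2Stmt := by
  intro V _ _ F Λ Ξ m hF hΛ t
  have hMrg := MRG_proof SCH_proof
  have hHar := HAR_proof
  induction t with
  | nil =>
    intro _ γ g _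
    have := hF.1 γ
    simp only [Sm, Dir, mul_zero]
    field_simp
    simp
  | cons B t ih =>
    intro hB γ g hm
    obtain ⟨a, b, s⟩ := B
    have hBt : ∀ B ∈ t, Cheap F Λ m B.2.1 ∧ (B.2.2 : ℝ) + 1 ≤ Ξ :=
      fun B h => hB B (List.mem_cons_of_mem _ h)
    obtain ⟨hc, hsΞ⟩ := hB (a, b, s) List.mem_cons_self
    rw [tsum_cons] at hm
    simp only at hc hsΞ hm
    have hG := hMrg V F hF t
    have hcM : ∀ a b U, 0 ≤ cF F a b U := fun a b U => (hF.1 _).le
    set n : ℝ := (t.length : ℝ) with hn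
    have hn0 : 0 ≤ n := Nat.cast_nonneg _
    set Z : ℕ → ℝ := fun i => Sm t (γ + pt a b i (s - i)) F with hZ
    set M : ℕ → ℝ := fun i => Sm t (γ + pt a b i (s - i)) (fun U => F U * g U) with hM
    set S : ℕ → ℝ := fun i => Sm t (γ + pt a b i (s - i)) (fun U => F U * g U ^ 2) with hS
    set D : ℕ → ℝ := fun i => Dir (cF F) t (γ + pt a b i (s - i)) g with hD
    set E : ℕ → ℝ := fun i => Sm t (γ + pt a b i (s - 1 - i))
      (fun U => cF F a b U * (g (U + ev a) - g (U + ev b)) ^ 2) with hE
    have hZpos : ∀ i, 0 < Z i := fun i => hG.1 _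
    have hD0 : ∀ i, 0 ≤ D i := fun i => Dir_nonneg _ hcM _ _ _
    have hE0 : ∀ i, 0 ≤ E i := fun i =>
      Sm_nonneg t _ (fun U => mul_nonneg (hcM _ _ _) (sq_nonneg _)) _
    have hlc : ∀ i, i + 2 ≤ s → Z i * Z (i + 2) ≤ Z (i + 1) ^ 2 := by
      intro i hi
      have h := lc_of_isL _ hG (γ + pt a b i (s - (i + 2))) a b
      simp only [pt_a, pt_b] at h
      have e1 : s - (i + 2) + 1 + 1 = s - i := by omega
      have e2 : s - (i + 2) + 1 = s - (i + 1) := by omega
      rw [e1, e2] at h
      exact h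
    have hhar := hHar s Z (fun i => M i / Z i) (fun i _ => hZpos i) hlc
    have hsl : ∀ i ∈ range s, min (Z i) (Z (i + 1)) * (M (i + 1) / Z (i + 1) - M i / Z i) ^ 2 ≤
        2 * E i + 2 * n * Λ ^ 4 * D i := by
      intro i hi
      have hi' := mem_range.1 hi
      have h := hSli V F Λ m hF hΛ t (fun B h => (hBt B h).1) a b hc
        (γ + pt a b i (s - 1 - i)) g (by rw [deg_pt]; omega)
      simp only [pt_a, pt_b] at h
      have e1 : s - 1 - i + 1 = s - i := by omega
      have e2 : s - 1 - i = s - (i + 1) := by omega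
      rw [e1] at h
      rw [min_comm]
      simp only [hZ, hM, hD, hE]
      rw [← e2]
      exact h
    have hin : ∀ i ∈ range (s + 1), S i - M i ^ 2 / Z i ≤
        n * (2 + 2 * n * Λ ^ 4 * Ξ ^ 2) * D i := fun i hi => ih hBt _ g (by
          have := mem_range.1 hi
          rw [deg_pt]; omega)
    have h1 := sum_le_sum hin
    have h2 := sum_le_sum hsl
    rw [sum_sub_distrib, ← mul_sum] at h1
    rw [sum_add_distrib, ← mul_sum, ← mul_sum] at h2
    have h3 : ∑ i ∈ range s, D i ≤ ∑ i ∈ range (s + 1), D i := by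
      rw [sum_range_succ]; linarith [hD0 s]
    have e1 : ∑ i ∈ range (s + 1), Z i * (M i / Z i) ^ 2 = ∑ i ∈ range (s + 1), M i ^ 2 / Z i :=
      sum_congr rfl fun i _ => by have := hZpos i; field_simp
    have e2 : ∑ i ∈ range (s + 1), Z i * (M i / Z i) = ∑ i ∈ range (s + 1), M i :=
      sum_congr rfl fun i _ => by have := hZpos i; field_simp
    rw [e1, e2] at hhar
    have hSE : 0 ≤ ∑ i ∈ range s, E i := sum_nonneg fun i _ => hE0 i
    have hSD : 0 ≤ ∑ i ∈ range (s + 1), D i := sum_nonneg fun i _ => hD0 i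
    change ∑ i ∈ range (s + 1), S i - (∑ i ∈ range (s + 1), M i) ^ 2 / ∑ i ∈ range (s + 1), Z i ≤
      ((t.length + 1 : ℕ) : ℝ) * (2 + 2 * ((t.length + 1 : ℕ) : ℝ) * Λ ^ 4 * Ξ ^ 2) *
        (((s : ℝ) + 1) ^ 2 * ∑ i ∈ range s, E i + ∑ i ∈ range (s + 1), D i)
    push_cast
    rw [← hn]
    set SE := ∑ i ∈ range s, E i
    set SD := ∑ i ∈ range (s + 1), D i
    set σ : ℝ := ((s : ℝ) + 1) ^ 2 with hσ
    have hσ0 : 0 ≤ σ := sq_nonneg _
    have hσΞ : σ ≤ Ξ ^ 2 := pow_le_pow_left₀ (by positivity) hsΞ 2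
    have hΛ4 : 0 ≤ Λ ^ 4 := by positivity
    have h4 : σ * ∑ i ∈ range s, min (Z i) (Z (i + 1)) * (M (i + 1) / Z (i + 1) - M i / Z i) ^ 2 ≤
        2 * (σ * SE) + 2 * n * (Λ ^ 4 * Ξ ^ 2 * SD) := by
      have h5 : 2 * n * Λ ^ 4 * ∑ i ∈ range s, D i ≤ 2 * n * Λ ^ 4 * SD :=
        mul_le_mul_of_nonneg_left h3 (by positivity)
      have h6 := mul_le_mul_of_nonneg_left (h2.trans (add_le_add le_rfl h5)) hσ0
      have h7 : σ * (n * Λ ^ 4 * SD) ≤ Ξ ^ 2 * (n * Λ ^ 4 * SD) :=
        mul_le_mul_of_nonneg_right hσΞ (by positivity)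
      nlinarith
    have hX : 0 ≤ σ * SE := mul_nonneg hσ0 hSE
    set X := σ * SE
    have p3 : 0 ≤ Λ ^ 4 * Ξ ^ 2 * X := by positivity
    have p4 : 0 ≤ Λ ^ 4 * Ξ ^ 2 * SD := by positivity
    have p5 := mul_nonneg hn0 hX
    have p6 := mul_nonneg hn0 p3
    have p7 := mul_nonneg hn0 p4
    have p8 := mul_nonneg hn0 p6
    nlinarith

namespace UP2

open BUP

variable {κ : Type} [Fintype κ] [DecidableEq κ]

lemma edge_eq (u : κ → ℕ) (F : (κ × Bool → ℕ) → ℝ) (g : (κ → ℕ) → ℝ) (k : κ) :
    (if u k = 0 then 0 else Sm (bl (Function.update u k (u k - 1)) (univ : Finset κ).toList) 0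
      (eg (cF F) (fun U => g (fun j => U (j, false))) k)) =
      ∑ x ∈ (box u).filter (fun x => x k + 1 ≤ u k),
        F (node u (x + Pi.single k 1)) * (g (x + Pi.single k 1) - g x) ^ 2 := by
  split_ifs with h
  · symm
    refine sum_eq_zero fun x hx => ?_
    rw [mem_filter] at hx
    omega
  · rw [sm_full]
    have h1 : box (Function.update u k (u k - 1)) = (box u).filter (fun x => x k + 1 ≤ u k) := by
      ext x
      rw [mem_filter, mem_box, mem_box]
      constructor
      · intro hx
        have hk := hx k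
        rw [Function.update_self] at hk
        refine ⟨fun j => ?_, by omega⟩
        by_cases hj : j = k
        · subst hj; omega
        · have := hx j
          rwa [Function.update_of_ne hj] at this
      · rintro ⟨hx, hk⟩ j
        by_cases hj : j = k
        · subst hj; rw [Function.update_self]; omega
        · rw [Function.update_of_ne hj]; exact hx j
    rw [h1]
    refine sum_congr rfl fun x hx => ?_
    rw [mem_filter] at hx
    have hk := hx.2
    have e1 : node (Function.update u k (u k - 1)) x + ev (k, true) = node u x := by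
      funext ⟨j, b⟩
      by_cases hj : j = k
      · subst hj
        cases b <;> simp [node, ev, Pi.single_apply]
        omega
      · cases b <;> simp [node, ev, Pi.single_apply, hj]
    have e2 : node (Function.update u k (u k - 1)) x + ev (k, false) =
        node u (x + Pi.single k 1) := by
      funext ⟨j, b⟩
      by_cases hj : j = k
      · subst hj
        cases b <;> simp [node, ev, Pi.single_apply]
        omega
      · cases b <;> simp [node, ev, Pi.single_apply, hj]
    have e3 : ∀ y : κ → ℕ, (fun j => node u y (j, false)) = y := fun y => by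
      funext j; simp [node]
    unfold eg cF
    simp only [e1, e2, e3]

lemma tsum_bl (u : κ → ℕ) : tsum (bl u (univ : Finset κ).toList) = ∑ k, u k := by
  unfold tsum bl
  rw [List.map_map, ← Finset.sum_map_toList]
  rfl

end UP2

theorem BUP2_proof (hUp : Up2Stmt) : Bup2Stmt := by
  intro κ _ _ u F Λ Ξ m hF hΛ hB hm g
  have h := hUp (κ × Bool) F Λ Ξ m hF hΛ (BUP.bl u (univ : Finset κ).toList)
    (by
      intro B hB'
      unfold BUP.bl at hB'
      rw [List.mem_map] at hB'
      obtain ⟨k, _, rfl⟩ := hB'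
      exact hB k) 0 (fun U => g (fun j => U (j, false))) (by rw [UP2.tsum_bl]; simpa using hm)
  have hlen : (BUP.bl u (univ : Finset κ).toList).length = Fintype.card κ := by
    unfold BUP.bl
    rw [List.length_map, length_toList, card_univ]
  have e3 : ∀ y : κ → ℕ, (fun j => node u y (j, false)) = y := fun y => by
    funext j; simp [node]
  rw [hlen, BUP.sm_full, BUP.sm_full, BUP.sm_full, BUP.dir_bl u _ _ _ (nodup_toList _),
    toList_toFinset] at h
  simp only [e3, UP2.edge_eq] at h
  refine le_trans h ?_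
  rw [mul_assoc _ (Ξ ^ 2), mul_sum _ _ (Ξ ^ 2)]
  refine mul_le_mul_of_nonneg_left (sum_le_sum fun k _ => ?_) (by positivity)
  refine mul_le_mul_of_nonneg_right (pow_le_pow_left₀ (by positivity) (hB k).2 2) ?_
  exact sum_nonneg fun x _ => mul_nonneg (hF.1 _).le (sq_nonneg _)

theorem up2 : Up2Stmt := UP2_proof SLI2_proof
theorem bup2 : Bup2Stmt := BUP2_proof up2

end Crest.Agent.R302
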