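import Crest.Agent.R302.POIa
import Crest.Agent.R302.REP
import Crest.Agent.R302.CLO
import Crest.Agent.R302.UP2

/-! Row 302, task POI: the Poincaré inequality of the model. -/

set_option autoImplicit false

namespace Crest.Agent.R302.POI

open Finset Crest.Agent.PT Crest.Agent.QC Crest.Agent.R317 Crest.Agent.R300U Crest.Agent.R309
  Crest.Agent.R302 Crest.Agent.R302.REP

variable {n m : ℕ} {f : Bool → Finset (Fin n) → ℤ} {P : Pre}

def idx (k : Fin n × Bool) : ℕ := if k.2 then n + k.1 else k.1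

theorem idx_lt (k : Fin n × Bool) : idx k < 2 * n := by
  have := k.1.2
  unfold idx; split_ifs <;> omega

theorem idx_inj {k k' : Fin n × Bool} : idx k = idx k' ↔ k = k' := by
  refine ⟨fun h => ?_, fun h => h ▸ rfl⟩
  obtain ⟨e, b⟩ := k
  obtain ⟨e', b'⟩ := k'
  have := e.2
  have := e'.2
  cases b <;> cases b' <;> simp [idx] at h ⊢ <;> omega

theorem getD_idx (y : Fin n × Bool → ℕ) (k : Fin n × Bool) :
    (st n m P y).getD (idx k) 0 = (y k : ℤ) - hK n m P k := xv_st y k

theorem mv_eq (y y' : Fin n × Bool → ℕ) (k₁ k₂ : Fin n × Bool)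
    (h : ∀ k, (y' k : ℤ) = y k + ((if k = k₂ then 1 else 0) - if k = k₁ ∧ k₁ ≠ k₂ then 1 else 0)) :
    mvm n (idx k₁ * (2 * n) + idx k₂) 1 (st n m P y) = st n m P y' := by
  have l2 := idx_lt k₂
  have e1 : (idx k₁ * (2 * n) + idx k₂) % (2 * n) = idx k₂ := by
    rw [Nat.mul_add_mod_of_lt l2]
  have e2 : (idx k₁ * (2 * n) + idx k₂) / (2 * n) = idx k₁ := by
    rw [add_comm, Nat.add_mul_div_right _ _ (by omega), Nat.div_eq_of_lt l2, zero_add]
  refine ext_xv (by simp [mvm]) (len_st _) fun k => ?_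
  rw [xv_st, h k]
  change (mvm n _ 1 _).getD (idx k) 0 = _
  rw [mvm, getD_mkL _ _ (idx_lt k), getD_idx, e1, e2]
  simp only [idx_inj, ne_eq, if_true]
  ring

theorem mv_one (x : Fin n × Bool → ℕ) (k : Fin n × Bool) :
    mvm n (idx k * (2 * n) + idx k) 1 (st n m P x) = st n m P (x + Pi.single k 1) :=
  mv_eq _ _ _ _ fun a => by
    by_cases h : a = k <;> simp [h]

theorem mv_two (x : Fin n × Bool → ℕ) {k k' : Fin n × Bool} (hk : k ≠ k') :
    mvm n (idx k * (2 * n) + idx k') 1 (st n m P (x + Pi.single k 1)) =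
      st n m P (x + Pi.single k' 1) :=
  mv_eq _ _ _ _ fun a => by
    by_cases h : a = k
    · subst h; simp [hk]
    · by_cases h' : a = k'
      · subst h'; simp [h]
      · simp [h, h']

theorem getD_up (y : Fin n × Bool → ℕ) (k : Fin n × Bool) (t : ℕ) :
    (st n m P (y + Pi.single k 1)).getD t 0 =
      (st n m P y).getD t 0 + if t = idx k then 1 else 0 := by
  have key : ∀ k' : Fin n × Bool, (st n m P (y + Pi.single k 1)).getD (idx k') 0 =
      (st n m P y).getD (idx k') 0 + if idx k' = idx k then 1 else 0 := by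
    intro k'
    rw [getD_idx, getD_idx]
    simp only [idx_inj, Pi.add_apply, Pi.single_apply]
    split_ifs <;> push_cast <;> ring
  by_cases h1 : t < n
  · exact key (⟨t, h1⟩, false)
  · by_cases h2 : t < 2 * n
    · have := key (⟨t - n, by omega⟩, true)
      rwa [show idx ((⟨t - n, by omega⟩, true) : Fin n × Bool) = t by simp [idx]; omega] at this
    · have := idx_lt k
      rw [List.getD_eq_default _ _ (by rw [len_st]; omega),
        List.getD_eq_default _ _ (by rw [len_st]; omega), if_neg (by omega), add_zero]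

theorem xv_up (y : Fin n × Bool → ℕ) (k k' : Fin n × Bool) :
    xv n (st n m P (y + Pi.single k 1)) k'.1 k'.2 =
      xv n (st n m P y) k'.1 k'.2 + if k' = k then 1 else 0 := by
  have := getD_up (m := m) (P := P) y k (idx k')
  simp only [idx_inj] at this
  exact this

/-- both ends of an edge are states only off the forest -/
theorem not_forest (S : Spec n m f P) (y : Fin n × Bool → ℕ) (k : Fin n × Bool)
    (h0 : st n m P y ∈ Om n m f P) (h1 : st n m P (y + Pi.single k 1) ∈ Om n m f P) :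
    isF P k.1 = false := by
  by_contra hF
  have hF : isF P k.1 = true := by simpa using hF
  have t : ∀ x ∈ Om n m f P, ∑ j : Fin n, (if isF P j = true then xv n x j k.2 else 0) = 0 := by
    intro x hx
    have := zsum S k.2 x univ
    rw [cu_univ S] at this
    rw [← this]
    have hb := ((mem_Om x).1 hx).2
    cases k.2
    · exact hb.1.1
    · exact hb.2.1
  have a := t _ h0
  have b := t _ h1
  have e : ∀ j : Fin n, (if isF P j = true then xv n (st n m P (y + Pi.single k 1)) j k.2 else 0) =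
      (if isF P j = true then xv n (st n m P y) j k.2 else 0) + if j = k.1 then 1 else 0 := by
    intro j
    have := xv_up (m := m) (P := P) y k (j, k.2)
    simp only at this
    rw [this]
    by_cases hj : j = k.1
    · subst hj; simp [hF]
    · have : (j, k.2) ≠ k := fun h => hj (congrArg Prod.fst h)
      simp [hj, this]
  simp only [e, sum_add_distrib, a, sum_ite_eq', mem_univ, if_true] at b
  omega

theorem xvF_up (y : Fin n × Bool → ℕ) (e : Fin n) (he : isF P e = false) (j : ℕ)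
    (hj : isF P j = true) (b : Bool) :
    xv n (st n m P (y + Pi.single (e, false) 1)) j b = xv n (st n m P y) j b := by
  have := e.2
  have hne : j ≠ e := fun h => by rw [h, he] at hj; exact absurd hj (by simp)
  have h2 : (if b = true then n + j else j) ≠ idx (e, false) := by
    cases b <;> simp [idx] <;> omega
  unfold xv
  rw [getD_up, if_neg h2, add_zero]

theorem dF_up (y : Fin n × Bool → ℕ) (e : Fin n) (he : isF P e = false) (j : ℕ) :
    dF n P (st n m P (y + Pi.single (e, false) 1)) j = dF n P (st n m P y) j := by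
  unfold dF
  split_ifs with h
  · rw [xvF_up y e he j h, xvF_up y e he j h]
  · rfl

theorem zv_up (y : Fin n × Bool → ℕ) (e : Fin n) (hF : isF P e = false) (c : Bool) :
    zv n P c (st n m P (y + Pi.single (e, false) 1)) =
      fun j => zv n P c (st n m P y) j + sgn c * (2 ^ he P e * cyc P e j) := by
  funext j
  unfold zv
  have a : (if isF P j = true then xv n (st n m P (y + Pi.single (e, false) 1)) j c else 0) =
      if isF P j = true then xv n (st n m P y) j c else 0 := by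
    split_ifs with h
    · exact xvF_up y e hF j h c
    · rfl
  have b : ∀ e' ∈ range n, (if isF P e' = true then 0 else
      2 ^ he P e' * xv n (st n m P (y + Pi.single (e, false) 1)) e' false * cyc P e' j) =
      (if isF P e' = true then 0 else 2 ^ he P e' * xv n (st n m P y) e' false * cyc P e' j) +
        if e' = e then 2 ^ he P e * cyc P e j else 0 := by
    intro e' _
    have : xv n (st n m P (y + Pi.single (e, false) 1)) e' false =
        xv n (st n m P y) e' false + if e' = e then 1 else 0 := getD_up y (e, false) e'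
    rw [this]
    by_cases h : e' = e
    · subst h; simp [hF]; ring
    · simp [h]
  rw [a, sum_congr rfl b, sum_add_distrib, sum_ite_eq', if_pos (mem_range.2 e.2)]
  ring

theorem psi_pos (hm : 0 < m) (ω : Fin n × Bool → ℕ) (x : List ℤ) : 0 < psi0 n m f P ω x := by
  unfold psi0
  refine mul_pos (prod_pos fun j _ => ?_) (prod_pos fun c _ => by positivity)
  split_ifs <;> positivity

theorem pw (hm : 2000 ≤ m) (a : ℕ) : 2000 * (m : ℝ) ^ a ≤ (m : ℝ) ^ (a + 1) := by
  have : (2000 : ℝ) ≤ m := by exact_mod_cast hm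
  rw [pow_succ']
  exact mul_le_mul_of_nonneg_right this (by positivity)

theorem pm (hm : 2000 ≤ m) {a b : ℕ} (h : a ≤ b) : (m : ℝ) ^ a ≤ (m : ℝ) ^ b :=
  pow_le_pow_right₀ (by exact_mod_cast (show 1 ≤ m by omega)) h

theorem psi_up (hRho : RhoStmt) (S : Spec n m f P) (ω : Fin n × Bool → ℕ) (y : Fin n × Bool → ℕ)
    (e : Fin n) (hF : isF P e = false) :
    psi0 n m f P ω (st n m P (y + Pi.single (e, false) 1)) ≤ 2 * psi0 n m f P ω (st n m P y) := by
  have hm := S.big
  have m0 : (0 : ℝ) < m := by exact_mod_cast (show 0 < m by omega)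
  unfold psi0
  simp only [dF_up y e hF]
  rw [mul_left_comm]
  refine mul_le_mul_of_nonneg_left ?_ (prod_nonneg fun j _ => by split_ifs <;> positivity)
  set b : ℝ := 1 + 1 / (m : ℝ) ^ 4 with hb
  have b1 : 1 ≤ b := by rw [hb]; simp only [le_add_iff_nonneg_right]; positivity
  have b0 : 0 < b := by linarith
  have b2 : b ≤ 2 := by
    have : 1 / (m : ℝ) ^ 4 ≤ 1 := by
      rw [div_le_one (by positivity)]; simpa using pm hm (show 0 ≤ 4 by norm_num)
    linarith
  rw [← Real.rpow_sum_of_pos b0, ← Real.rpow_sum_of_pos b0]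
  refine le_trans ?_ (mul_le_mul_of_nonneg_right b2 (by positivity))
  nth_rewrite 2 [← Real.rpow_one b]
  rw [← Real.rpow_add b0]
  refine Real.rpow_le_rpow_of_exponent_le b1 ?_
  have t : ∀ c : Fin n × Bool,
      -(qV m * rho n m f P c.2 c.1 (m ^ 2 + ω c - qO m)
        (zv n P c.2 (st n m P (y + Pi.single (e, false) 1)))) ≤
      (qV m : ℝ) * (m / qT m) +
        -(qV m * rho n m f P c.2 c.1 (m ^ 2 + ω c - qO m) (zv n P c.2 (st n m P y))) := by
    intro c
    rw [zv_up y e hF]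
    have := (hRho n m f P S c.2 c.1).2.2.2.2.2.2.1 (m ^ 2 + ω c - qO m) (zv n P c.2 (st n m P y)) e
      (sgn c.2) (by cases c.2 <;> simp [sgn]) hF
    have := mul_le_mul_of_nonneg_left (abs_le.1 this).1 (show (0 : ℝ) ≤ qV m by positivity)
    linarith
  refine (sum_le_sum fun c _ => t c).trans ?_
  rw [sum_add_distrib, sum_const, card_univ, nsmul_eq_mul]
  gcongr
  have hn : (n : ℝ) ≤ m := by exact_mod_cast S.le
  simp only [Fintype.card_prod, Fintype.card_fin, Fintype.card_bool, qV, qT]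
  push_cast
  rw [← mul_div_assoc, ← mul_div_assoc, div_le_one (by positivity)]
  have h1 := pw hm 19
  have h2 := pm hm (show 19 + 1 ≤ 136 by norm_num)
  have h3 : (n : ℝ) * 2 * ((m : ℝ) ^ 17 * m) ≤ m * 2 * ((m : ℝ) ^ 17 * m) := by gcongr
  have h4 : (m : ℝ) * 2 * ((m : ℝ) ^ 17 * m) = 2 * (m : ℝ) ^ 19 := by ring
  have h5 : (0 : ℝ) ≤ (m : ℝ) ^ 19 := by positivity
  linarith

/-- the explicit part of the weight -/
noncomputable def RR (n m : ℕ) (P : Pre) (s : ℕ) (p x : List ℤ) : ℝ :=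
  (∏ k : Fin n × Bool, (1 + 1 / (qM m : ℝ)) ^ (-(((qJ m - s : ℕ) : ℤ) * |xv n x k.1 k.2|))) *
    ∏ i : Fin n, ((m : ℝ) ^ 2) ^ (-|dc n P x i|) * (1 + 1 / (qM m : ℝ)) ^ (p.getD i 0 * dc n P x i)

theorem RR_pos (hm : 0 < m) (s : ℕ) (p x : List ℤ) : 0 < RR n m P s p x := by
  unfold RR
  positivity

theorem lam_le (hm : 2000 ≤ m) (s : ℕ) :
    (1 + 1 / (qM m : ℝ)) ^ ((qJ m - s : ℕ) : ℤ) ≤ (m : ℝ) ^ 16 := by
  have M0 : (0 : ℝ) < qM m := by unfold qM; have : 0 < m := by omega
                                 positivity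
  have l1 : (1 : ℝ) ≤ 1 + 1 / (qM m : ℝ) := by simp only [le_add_iff_nonneg_right]; positivity
  rw [zpow_natCast]
  refine (pow_le_pow_right₀ l1 (Nat.sub_le _ _)).trans ?_
  have a : (1 + 1 / (qM m : ℝ)) ^ qM m ≤ 2 ^ 2 := by
    calc _ ≤ Real.exp (1 / (qM m : ℝ)) ^ qM m :=
          pow_le_pow_left₀ (by linarith) (by linarith [Real.add_one_le_exp (1 / (qM m : ℝ))]) _
      _ = Real.exp 1 := by rw [← Real.exp_nat_mul]; congr 1; field_simp
      _ ≤ _ := by linarith [Real.exp_one_lt_d9]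
  have b : (2 : ℝ) ^ m.size ≤ (m : ℝ) ^ 2 := by
    have h1 : 0 < m.size := Nat.size_pos.2 (by omega)
    have h2 : 2 ^ (m.size - 1) ≤ m := Nat.lt_size.1 (by omega)
    have h3 : 2 ^ m.size ≤ m ^ 2 := by
      rw [show m.size = m.size - 1 + 1 by omega, pow_succ]; nlinarith
    exact_mod_cast h3
  calc _ = ((1 + 1 / (qM m : ℝ)) ^ qM m) ^ (4 * m.size) := by
        rw [← pow_mul, qJ]; congr 1; ring
    _ ≤ (2 ^ 2) ^ (4 * m.size) := pow_le_pow_left₀ (by positivity) a _
    _ = (2 ^ m.size) ^ 8 := by rw [← pow_mul, ← pow_mul]; congr 1; ring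
    _ ≤ ((m : ℝ) ^ 2) ^ 8 := pow_le_pow_left₀ (by positivity) b _
    _ = _ := by ring

theorem RR_up (hm : 2000 ≤ m) (s : ℕ) (p : List ℤ) (y : Fin n × Bool → ℕ) (e : Fin n)
    (hF : isF P e = false) :
    RR n m P s p (st n m P (y + Pi.single (e, false) 1)) ≤
      (m : ℝ) ^ 16 * RR n m P s p (st n m P y) := by
  have l1 : (1 : ℝ) ≤ 1 + 1 / (qM m : ℝ) := by simp only [le_add_iff_nonneg_right]; positivity
  have l0 : (1 + 1 / (qM m : ℝ)) ≠ 0 := by linarith
  unfold RR
  simp only [dc, dF_up y e hF]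
  rw [← mul_assoc]
  refine mul_le_mul_of_nonneg_right ?_ (by positivity)
  refine le_trans ?_ (mul_le_mul_of_nonneg_right (lam_le hm s) (by positivity))
  rw [prod_zpow _ _ l0, prod_zpow _ _ l0, ← zpow_add₀ l0]
  refine zpow_le_zpow_right₀ l1 ?_
  have t : ∀ k : Fin n × Bool,
      -(((qJ m - s : ℕ) : ℤ) * |xv n (st n m P (y + Pi.single (e, false) 1)) k.1 k.2|) ≤
      (if k = (e, false) then ((qJ m - s : ℕ) : ℤ) else 0) +
        -(((qJ m - s : ℕ) : ℤ) * |xv n (st n m P y) k.1 k.2|) := by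
    intro k
    rw [xv_up]
    split_ifs
    · have h0 : (0 : ℤ) ≤ ((qJ m - s : ℕ) : ℤ) := by positivity
      have : |xv n (st n m P y) k.1 k.2| ≤ |xv n (st n m P y) k.1 k.2 + 1| + 1 := by
        rw [abs_le]; constructor <;> cases abs_cases (xv n (st n m P y) k.1 k.2 + 1) <;> omega
      nlinarith
    · simp
  refine (sum_le_sum fun k _ => t k).trans ?_
  rw [sum_add_distrib, sum_ite_eq', if_pos (mem_univ _)]

/-- the multi-index with the relaxations at their central value -/
def ex (n m : ℕ) (β : (Fin n × Bool) × Bool → ℕ) : VV n → ℕ :=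
  Sum.elim β (Sum.elim (fun _ => qO m) fun _ => 0)

theorem ex_node (y : Fin n × Bool → ℕ) :
    ex n m (node (fun k => 2 * hK n m P k) y) = emb n m P y (fun _ => qO m) fun _ => 0 := by
  funext v
  rcases v with c | c | c <;> rfl

theorem ex_ev (β : (Fin n × Bool) × Bool → ℕ) (a : (Fin n × Bool) × Bool) :
    ex n m (β + ev a) = ex n m β + ev (.inl a) := by
  funext v
  rcases v with c | c | c <;> simp [ex, ev, Pi.single_apply]

theorem ex_sum (β : (Fin n × Bool) × Bool → ℕ) :
    ∑ v, ex n m β v = ∑ w, β w + n * 2 * qO m := by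
  simp [ex, Fintype.sum_sum_type]

noncomputable def ch (m : ℕ) (_i : Fin n) (t : ℤ) : ℝ := ((m : ℝ) ^ 2) ^ (-|t|)
def oo (n m : ℕ) (P : Pre) (i : Fin n) : ℤ := 2 * qu m * (kap n P i).card + 2 * qO m
noncomputable def ch' (m : ℕ) (P : Pre) (s : ℕ) (p : List ℤ) (k : Fin n × Bool) (t : ℤ) : ℝ :=
  (1 + 1 / (qM m : ℝ)) ^ (-(((qJ m - s : ℕ) : ℤ) * |t|) +
    (if isF P k.1 = true then p.getD (cp P k.1) 0 else 0) * t)

theorem lc_ch (hm : 2000 ≤ m) (i : Fin n) : LC (ch m i) :=
  lc _ (by simpa using pm hm (show 0 ≤ 2 by norm_num)) _ fun z => by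
    cases abs_cases (z - 1) <;> cases abs_cases (z + 1) <;> cases abs_cases z <;> omega

theorem lc_ch' (s : ℕ) (p : List ℤ) (k : Fin n × Bool) : LC (ch' m P s p k) :=
  lc _ (by simp only [le_add_iff_nonneg_right]; positivity) _ fun z => by
    have h0 : (0 : ℤ) ≤ ((qJ m - s : ℕ) : ℤ) := by positivity
    have : 2 * |z| ≤ |z - 1| + |z + 1| := by
      cases abs_cases (z - 1) <;> cases abs_cases (z + 1) <;> cases abs_cases z <;> omega
    nlinarith

theorem FL_val (S : Spec n m f P) (Ψ : (VV n → ℕ) → ℝ) (ε : ℝ) (s : ℕ) (p : List ℤ)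
    {y : Fin n × Bool → ℕ} (hy : y ∈ box (fun k => 2 * hK n m P k)) :
    FL n m f P Ψ ε (ch m) (oo n m P) (ch' m P s p) (emb n m P y (fun _ => qO m) fun _ => 0) =
      ε ^ dfc n m f P (emb n m P y (fun _ => qO m) fun _ => 0) *
        (Ψ (emb n m P y (fun _ => qO m) fun _ => 0) * RR n m P s p (st n m P y)) := by
  have l0 : (1 + 1 / (qM m : ℝ)) ≠ 0 := by positivity
  have a : ∀ i : Fin n, ch m i ((∑ v ∈ SS n P i,
      (emb n m P y (fun _ => qO m) (fun _ => 0) v : ℤ)) - oo n m P i) =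
      ((m : ℝ) ^ 2) ^ (-|dc n P (st n m P y) i|) := by
    intro i
    rw [sum_SS hy, ch, ← abs_neg (dc n P _ _), oo]
    congr 3
    push_cast
    ring
  have b : ∀ k : Fin n × Bool, ch' m P s p k
      ((emb n m P y (fun _ => qO m) (fun _ => 0) (.inl (k, false)) : ℤ) - hK n m P k) =
      (1 + 1 / (qM m : ℝ)) ^ (-(((qJ m - s : ℕ) : ℤ) * |xv n (st n m P y) k.1 k.2|)) *
      (1 + 1 / (qM m : ℝ)) ^ ((if isF P k.1 = true then p.getD (cp P k.1) 0 else 0) *
        xv n (st n m P y) k.1 k.2) := by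
    intro k
    rw [xv_st, ch', zpow_add₀ l0]
    rfl
  have c : ∑ k : Fin n × Bool, (if isF P k.1 = true then p.getD (cp P k.1) 0 else 0) *
      xv n (st n m P y) k.1 k.2 = ∑ i : Fin n, p.getD i 0 * dc n P (st n m P y) i := by
    simp only [dc, sum_range, mul_sum]
    rw [sum_comm, Fintype.sum_prod_type]
    refine sum_congr rfl fun e _ => ?_
    rw [sum_eq_single (⟨cp P e, S.cpl e e.2⟩ : Fin n)]
    · simp only [Fintype.sum_bool, dF, if_true]
      split_ifs <;> ring
    · intro i _ hi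
      rw [if_neg, mul_zero]
      exact fun h => hi (Fin.ext h.symm)
    · simp
  unfold FL RR
  simp only [a, b, prod_mul_distrib]
  rw [prod_zpow _ _ l0 (fun k : Fin n × Bool =>
    (if isF P k.1 = true then p.getD (cp P k.1) 0 else 0) * xv n (st n m P y) k.1 k.2), c,
    ← prod_zpow _ _ l0]
  ring

theorem FL_ev (S : Spec n m f P) (Ψ : (VV n → ℕ) → ℝ) (hΨ : ∀ α, 0 < Ψ α) (ε : ℝ) (he : 0 < ε)
    (o : Fin n → ℤ) (χ' : Fin n × Bool → ℤ → ℝ) (hχ : ∀ k t, 0 < χ' k t) (k : Fin n × Bool)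
    (hc : Cheap Ψ 2 (qM m) (.inl (k, true))) :
    Cheap (FL n m f P Ψ ε (ch m) o χ') (2 * (m : ℝ) ^ 2) (qM m) (.inl (k, true)) := by
  intro α hα
  obtain ⟨c1, c2⟩ := hc α hα
  have m1 : (1 : ℝ) ≤ (m : ℝ) ^ 2 := by simpa using pm S.big (show 0 ≤ 2 by norm_num)
  have m0 : (m : ℝ) ^ 2 ≠ 0 := by linarith
  have a : ∀ i : Fin n, (∑ v ∈ SS n P i, ((α + ev (.inl (k, true)) : VV n → ℕ) v : ℤ)) =
      ∑ v ∈ SS n P i, (α v : ℤ) + if i = ⟨cp P k.1, S.cpl _ k.1.2⟩ then 1 else 0 := by
    intro i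
    simp only [Pi.add_apply, ev, Pi.single_apply]
    push_cast
    rw [sum_add_distrib, sum_ite_eq']
    congr 1
    refine if_congr ?_ rfl rfl
    have hv : vc n P (.inl (k, true)) = some (cp P k.1) := by simp [vc]
    rw [SS, mem_filter, hv, Fin.ext_iff]
    simp only [mem_univ, true_and, Option.some.injEq]
    exact eq_comm
  have b : ∀ k' : Fin n × Bool, (α + ev (.inl (k, true)) : VV n → ℕ) (.inl (k', false)) =
      α (.inl (k', false)) := fun k' => by simp [ev]
  unfold FL
  simp only [dfc_ev, a, b, ch]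
  rw [prod_zpow _ _ m0, prod_zpow _ _ m0]
  set c : Fin n := ⟨cp P k.1, S.cpl _ k.1.2⟩
  set t : Fin n → ℤ := fun i => ∑ v ∈ SS n P i, (α v : ℤ) with ht
  have d : ∀ i, |(-|t i + (if i = c then 1 else 0) - o i|) - (-|t i - o i|)| ≤
      if i = c then 1 else 0 := by
    intro i
    split_ifs
    · rw [abs_le]
      constructor <;> cases abs_cases (t i + 1 - o i) <;> cases abs_cases (t i - o i) <;> omega
    · simp
  have d2 := (abs_sum_le_sum_abs _ _).trans (sum_le_sum fun i (_ : i ∈ (univ : Finset (Fin n))) => d i)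
  rw [sum_ite_eq', if_pos (mem_univ _), sum_sub_distrib, abs_le] at d2
  set A := ∑ i, -|t i + (if i = c then 1 else 0) - o i|
  set B := ∑ i, -|t i - o i|
  have e1 : ((m : ℝ) ^ 2) ^ A ≤ (m : ℝ) ^ 2 * ((m : ℝ) ^ 2) ^ B := by
    rw [← zpow_one_add₀ m0]; exact zpow_le_zpow_right₀ m1 (by omega)
  have e2 : ((m : ℝ) ^ 2) ^ B ≤ (m : ℝ) ^ 2 * ((m : ℝ) ^ 2) ^ A := by
    rw [← zpow_one_add₀ m0]; exact zpow_le_zpow_right₀ m1 (by omega)
  have p1 : 0 < ε ^ dfc n m f P α := zpow_pos he _
  have p2 : 0 < ∏ k, χ' k ((α (.inl (k, false)) : ℤ) - hK n m P k) := prod_pos fun _ _ => hχ _ _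
  have q1 := mul_le_mul c1 e1 (by positivity) (by have := hΨ α; positivity)
  have q2 := mul_le_mul c2 e2 (by positivity)
    (by have := hΨ (α + ev (.inl (k, true))); positivity)
  have r1 := mul_le_mul_of_nonneg_left q1 (mul_pos p1 p2).le
  have r2 := mul_le_mul_of_nonneg_left q2 (mul_pos p1 p2).le
  constructor <;> linarith

theorem W_nonneg (s : ℕ) (p x : List ℤ) : (0 : ℝ) ≤ ((mdlM n m f P).W s p x : ℝ) := by
  have : 0 ≤ (mdlM n m f P).W s p x := by
    simp only [mdlM, wgt]
    split_ifs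
    · refine mul_nonneg (mul_nonneg (by positivity) (prod_nonneg fun j _ => ?_)) (by positivity)
      split_ifs <;> positivity
    · rfl
  exact_mod_cast this

end Crest.Agent.R302.POI

namespace Crest.Agent.R302

open Finset Crest.Agent.R309 POI REP

theorem POI_proof (hRho : RhoStmt) (hLap : LapStmt) (hWf : WfStmt) : PoiStmt := by
  intro n m f P S s p hv g
  obtain ⟨Ψ, Ψ0, hL, hΨ, hc⟩ := hLap n m f P S
  have hm := S.big
  have m0 : 0 < m := by omega
  have mR : (2000 : ℝ) ≤ m := by exact_mod_cast hm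
  have hn : (n : ℝ) ≤ m := by exact_mod_cast S.le
  set W : List ℤ → ℝ := fun x => ((mdlM n m f P).W s p x : ℝ) with hW
  set T : ℕ → List ℤ → ℝ := fun i x => min (W x) (W (mvm n i 1 x)) * (g (mvm n i 1 x) - g x) ^ 2
    with hT
  have T0 : ∀ i x, 0 ≤ T i x := fun i x =>
    mul_nonneg (le_min (W_nonneg _ _ _) (W_nonneg _ _ _)) (sq_nonneg _)
  set π : (Fin n × Bool → ℕ) → ℝ := fun y =>
    Ψ (emb n m P y (fun _ => qO m) fun _ => 0) * RR n m P s p (st n m P y) with hπ
  have π0 : ∀ y, 0 < π y := fun y => mul_pos (Ψ0 _) (RR_pos m0 _ _ _)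
  have x1 : Real.exp (1 / (m : ℝ) ^ 2) ≤ 2 := by
    have : 1 / (m : ℝ) ^ 2 ≤ Real.log 2 := by
      have := Real.log_two_gt_d9
      rw [div_le_iff₀ (by positivity)]; nlinarith
    exact (Real.exp_le_exp.2 this).trans (Real.exp_log (by norm_num)).le
  have x2 : 1 / 2 ≤ Real.exp (-(1 / (m : ℝ) ^ 2)) := by
    have : 1 / (m : ℝ) ^ 2 ≤ 1 / 2 := by
      rw [div_le_div_iff₀ (by positivity) (by norm_num)]; nlinarith
    linarith [Real.add_one_le_exp (-(1 / (m : ℝ) ^ 2))]
  have x3 : 1 / 2 ≤ Real.exp (-(2 / (m : ℝ) ^ 3)) := by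
    have : 2 / (m : ℝ) ^ 3 ≤ 1 / 2 := by
      rw [div_le_div_iff₀ (by positivity) (by norm_num)]
      have := pw hm 2
      nlinarith
    linarith [Real.add_one_le_exp (-(2 / (m : ℝ) ^ 3))]
  have OT : qO m ≤ qT m := Nat.pow_le_pow_right m0 (by norm_num)
  have cmpW : ∀ x ∈ Om n m f P, W x ≤ psi0 n m f P (fun _ => qO m) x * RR n m P s p x ∧
      psi0 n m f P (fun _ => qO m) x * RR n m P s p x ≤ 2 * W x := by
    intro x hx
    obtain ⟨c, c1, c2, c3⟩ := hWf n m f P S s p hv x hx
    have e : W x = c * (psi0 n m f P (fun _ => qO m) x * RR n m P s p x) := by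
      simp only [hW, c3, RR]; ring
    have := mul_pos (psi_pos (f := f) (P := P) m0 (fun _ => qO m) x) (RR_pos (n := n) (P := P) m0 s p x)
    rw [e]
    constructor <;> nlinarith
  have cmpπ : ∀ y ∈ R309.box (fun k => 2 * hK n m P k),
      π y ≤ 2 * (psi0 n m f P (fun _ => qO m) (st n m P y) * RR n m P s p (st n m P y)) ∧
      psi0 n m f P (fun _ => qO m) (st n m P y) * RR n m P s p (st n m P y) ≤ 2 * π y := by
    intro y hy
    obtain ⟨a, b⟩ := hΨ y hy (fun _ => qO m) (fun _ => 0) fun _ => OT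
    have q := psi_pos (f := f) (P := P) m0 (fun _ => qO m) (st n m P y)
    have r := RR_pos (n := n) (P := P) m0 s p (st n m P y)
    have a' := (mul_le_mul_of_nonneg_right x2 q.le).trans a
    have b' := b.trans (mul_le_mul_of_nonneg_right x1 q.le)
    have := mul_le_mul_of_nonneg_right a' r.le
    have := mul_le_mul_of_nonneg_right b' r.le
    simp only [hπ]
    constructor <;> linarith
  have up : ∀ k, ∀ x ∈ R309.box (fun k => 2 * hK n m P k), x k + 1 ≤ 2 * hK n m P k →
      x + Pi.single k 1 ∈ R309.box (fun k => 2 * hK n m P k) := by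
    intro k x hx hk
    rw [mem_box] at hx ⊢
    intro a
    by_cases h : a = k
    · subst h; simpa using hk
    · simpa [h] using hx a
  have iN : ∀ k k' : Fin n × Bool, idx k * (2 * n) + idx k' ∈ range (qN m) := by
    intro k k'
    have a := idx_lt k
    have b := idx_lt k'
    have c := S.le
    have d : m ^ 3 ≤ qN m := Nat.pow_le_pow_right m0 (by norm_num)
    have e : (idx k + 1) * (2 * n) ≤ (2 * m) * (2 * m) := Nat.mul_le_mul (by omega) (by omega)
    have e' : 4 * m ^ 2 ≤ m ^ 3 := by rw [pow_succ' m 2]; exact Nat.mul_le_mul_right _ (by omega)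
    rw [mem_range]
    nlinarith
  have m16 : (1 : ℝ) ≤ (m : ℝ) ^ 16 := by simpa using pm hm (show 0 ≤ 16 by norm_num)
  have key := core (fun k => 2 * hK n m P k) (Om n m f P) (st n m P) W g
    (fun x => ∑ i ∈ range (qN m), T i x) π
    (Fintype.card (Fin n × Bool) * (2 + 2 * Fintype.card (Fin n × Bool) * (2 * (m : ℝ) ^ 2) ^ 4 *
      ((m : ℝ) ^ 142) ^ 2) * ((m : ℝ) ^ 142) ^ 2) (8 * (m : ℝ) ^ 16) sum_Om
    (fun x => W_nonneg _ _ _) (fun y => (π0 y).le) (fun x => sum_nonneg fun i _ => T0 i x)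
    (by positivity) (by positivity)
    (fun y hy h => (cmpW _ h).1.trans (cmpπ y hy).2) ?_ ?_ ?_
  · refine key.trans ?_
    rw [sum_comm]
    refine mul_le_mul_of_nonneg_right ?_ (sum_nonneg fun i _ => sum_nonneg fun x _ => T0 i x)
    have cd : (Fintype.card (Fin n × Bool) : ℝ) ≤ 2 * m := by
      simp only [Fintype.card_prod, Fintype.card_fin, Fintype.card_bool]; push_cast; linarith
    have a : 2 + 2 * (Fintype.card (Fin n × Bool) : ℝ) * (2 * (m : ℝ) ^ 2) ^ 4 *
        ((m : ℝ) ^ 142) ^ 2 ≤ (m : ℝ) ^ 294 := by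
      have h1 : 2000 * (m : ℝ) ^ 293 ≤ (m : ℝ) ^ 294 := pw hm 293
      have h2 : (1 : ℝ) ≤ (m : ℝ) ^ 293 := by simpa using pm hm (show 0 ≤ 293 by norm_num)
      have h3 : 2 * (Fintype.card (Fin n × Bool) : ℝ) * (2 * (m : ℝ) ^ 2) ^ 4 *
          ((m : ℝ) ^ 142) ^ 2 ≤ 2 * (2 * m) * (2 * (m : ℝ) ^ 2) ^ 4 * ((m : ℝ) ^ 142) ^ 2 := by
        gcongr
      have h4 : 2 * (2 * m) * (2 * (m : ℝ) ^ 2) ^ 4 * ((m : ℝ) ^ 142) ^ 2 = 64 * (m : ℝ) ^ 293 := by
        ring
      linarith
    calc _ ≤ 4 * (2 * m * (m : ℝ) ^ 294 * ((m : ℝ) ^ 142) ^ 2) * (8 * (m : ℝ) ^ 16) * (2 * m) := by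
          gcongr
      _ = 128 * (m : ℝ) ^ 596 := by ring
      _ ≤ (m : ℝ) ^ (596 + 1) := by
          have := pw hm 596
          have : (0 : ℝ) ≤ (m : ℝ) ^ 596 := by positivity
          linarith
      _ ≤ (m : ℝ) ^ 600 := pm hm (by norm_num)
      _ = _ := by simp [qN]
  · intro ε e0 e1
    have L0 := hL ε (ch m) (oo n m P) (ch' m P s p) e0 e1 (lc_ch hm) (lc_ch' s p)
    have L1 : IsL fun β => FL n m f P Ψ ε (ch m) (oo n m P) (ch' m P s p) (ex n m β) :=
      CLO.pull (ex n m) (Option.map Sum.inl) (fun γ a => by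
        cases a with
        | none => simp [eo]
        | some a => exact ex_ev γ a) L0
    refine ⟨fun y => FL n m f P Ψ ε (ch m) (oo n m P) (ch' m P s p)
      (ex n m (node (fun k => 2 * hK n m P k) y)), fun y hy => ⟨L1.1 _, fun h => ?_, fun h => ?_⟩,
      fun G => ?_⟩
    · simp only [ex_node, FL_val S Ψ ε s p hy, (dfc_iff S hy _ _).2 h, zpow_zero, one_mul, hπ]
    · simp only [ex_node, FL_val S Ψ ε s p hy]
      refine mul_le_mul_of_nonneg_right ?_ (π0 y).le
      have d0 := dfc_nonneg S (emb n m P y (fun _ => qO m) fun _ => 0)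
      have d1 := mt (dfc_iff S hy (fun _ => qO m) fun _ => 0).1 h
      nth_rewrite 2 [← zpow_one ε]
      exact zpow_le_zpow_right_of_le_one₀ e0 e1 (by omega)
    · have su : ∑ k, 2 * hK n m P k ≤ n * 2 * (2 * qu m) := by
        refine (sum_le_sum fun k _ => Nat.mul_le_mul_left 2 (hK_le k)).trans ?_
        simp
      refine bup2 _ (fun k => 2 * hK n m P k) _ (2 * (m : ℝ) ^ 2) ((m : ℝ) ^ 142)
        (∑ k, 2 * hK n m P k + 1) L1 (by nlinarith) (fun k => ⟨fun β hβ => ?_, ?_⟩) le_rfl G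
      · simp only [ex_ev]
        refine FL_ev S Ψ Ψ0 ε e0 _ _ (fun k => (lc_ch' s p k).1) k (hc k) _ ?_
        rw [ex_sum]
        have c := S.le
        have a1 : n * 2 * (2 * qu m) ≤ 4 * m ^ 142 := by
          rw [qu, pow_succ' m 141]; nlinarith [Nat.zero_le (m ^ 141)]
        have a2 : n * 2 * qO m ≤ 2 * m ^ 142 := by
          have : qO m ≤ m ^ 141 := Nat.pow_le_pow_right m0 (by norm_num)
          rw [pow_succ' m 141]
          have := Nat.mul_le_mul c this
          nlinarith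
        have a3 : 7 * m ^ 142 ≤ qM m := by
          rw [qM, pow_succ' m 142]; exact Nat.mul_le_mul_right _ (by omega)
        have a4 : 1 ≤ m ^ 142 := Nat.one_le_pow _ _ m0
        omega
      · have h1 : (hK n m P k : ℝ) ≤ (m : ℝ) ^ 141 := by exact_mod_cast hK_le (m := m) (P := P) k
        have h2 : 2000 * (m : ℝ) ^ 141 ≤ (m : ℝ) ^ 142 := pw hm 141
        have h3 : (1 : ℝ) ≤ (m : ℝ) ^ 141 := by simpa using pm hm (show 0 ≤ 141 by norm_num)
        push_cast
        linarith
  · intro k x hx hk h0 h1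
    have hF := not_forest S x k h0 h1
    obtain ⟨e, b⟩ := k
    have hb : b = false := by
      cases b
      · rfl
      · simp only [hK_true, show isF P e = false from hF] at hk
        simp at hk
    subst hb
    have mv := mv_one (m := m) (P := P) x (e, false)
    refine le_trans ?_ (mul_le_mul_of_nonneg_left
      (single_le_sum (fun i _ => T0 i (st n m P x)) (iN (e, false) (e, false))) (by positivity))
    simp only [hT, mv]
    rw [← mul_assoc]
    refine mul_le_mul_of_nonneg_right ?_ (sq_nonneg _)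
    have a1 := (cmpπ _ (up _ x hx hk)).1
    have a2 := (cmpW _ h0).2
    have a3 := (cmpW _ h1).2
    have a4 := mul_le_mul (psi_up hRho S (fun _ => qO m) x e hF) (RR_up hm s p x e hF)
      (RR_pos m0 _ _ _).le (by have := psi_pos (f := f) (P := P) m0 (fun _ => qO m) (st n m P x)
                               positivity)
    have a5 := mul_le_mul_of_nonneg_left a2 (show (0 : ℝ) ≤ (m : ℝ) ^ 16 by positivity)
    have a6 := mul_le_mul_of_nonneg_right m16
      (W_nonneg (m := m) (f := f) (P := P) s p (st n m P (x + Pi.single (e, false) 1)))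
    have a7 := W_nonneg (m := m) (f := f) (P := P) s p (st n m P (x + Pi.single (e, false) 1))
    rw [mul_min_of_nonneg _ _ (by positivity)]
    refine le_min ?_ ?_
    · linarith
    · simp only [hW] at a3 ⊢
      linarith
  · intro k k' x hx hk hk' h0 h1 hle
    by_cases hkk : k = k'
    · subst hkk
      rw [sub_self, sq, mul_zero, mul_zero]
      exact mul_nonneg (by positivity) (sum_nonneg fun i _ => T0 i _)
    have mv := mv_two (m := m) (P := P) x hkk
    refine le_trans ?_ (mul_le_mul_of_nonneg_left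
      (single_le_sum (fun i _ => T0 i (st n m P (x + Pi.single k 1))) (iN k k')) (by positivity))
    simp only [hT, mv]
    rw [← mul_assoc, min_eq_left hle, ← neg_sub (g _), neg_sq]
    refine mul_le_mul_of_nonneg_right ?_ (sq_nonneg _)
    have a1 := (cmpπ _ (up _ x hx hk)).1
    have a3 := (cmpW _ h0).2
    have a6 := mul_le_mul_of_nonneg_right m16
      (W_nonneg (m := m) (f := f) (P := P) s p (st n m P (x + Pi.single k 1)))
    have a7 := W_nonneg (m := m) (f := f) (P := P) s p (st n m P (x + Pi.single k 1))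
    simp only [hW] at a3 ⊢
    linarith

end Crest.Agent.R302
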