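import Crest.Agent.R302.ALLa
import Crest.Agent.R302.ALG
import Crest.Agent.R302.AM
import Crest.Agent.R302.OPM
import Crest.Agent.R302.POI

/-! Row 302: hypothesis-free forms of the tasks, second part. -/

set_option autoImplicit false

namespace Crest.Agent.R302.All

theorem poi : PoiStmt := POI_proof rho lap wf
theorem goodAll : GoodStmt := good poi ALG_proof
theorem am (hBij : BijStmt) : AmStmt := AM_proof hBij zs

end Crest.Agent.R302.All
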