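import Crest.Agent.R302.REP

/-! Row 302, task BAS: the elementary fields of `Good`. -/

set_option autoImplicit false

namespace Crest.Agent.R302.BAS

open Finset Crest.Agent.PT Crest.Agent.QC Crest.Agent.R317 Crest.Agent.R300U Crest.Agent.R309
  Crest.Agent.R302 Crest.Agent.R302.REP

theorem pow_le_two_pow {m : ℕ} (hm : 2000 ≤ m) : m ^ 150 ≤ 2 ^ m := by
  induction m, hm using Nat.le_induction with
  | base =>
    calc 2000 ^ 150 ≤ (2 ^ 11) ^ 150 := Nat.pow_le_pow_left (by norm_num) _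
      _ = 2 ^ (11 * 150) := (pow_mul _ _ _).symm
      _ ≤ 2 ^ 2000 := Nat.pow_le_pow_right two_pos (by omega)
  | succ m hm ih =>
    have h1 : ((m + 1) * 2000) ^ 150 ≤ (m * 2001) ^ 150 := Nat.pow_le_pow_left (by omega) _
    rw [mul_pow, mul_pow] at h1
    have h2 : 2001 ^ 150 ≤ 2 * 2000 ^ 150 := by norm_num
    have h3 : (m + 1) ^ 150 * 2000 ^ 150 ≤ (2 * m ^ 150) * 2000 ^ 150 := by
      calc _ ≤ m ^ 150 * 2001 ^ 150 := h1
        _ ≤ m ^ 150 * (2 * 2000 ^ 150) := Nat.mul_le_mul_left _ h2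
        _ = _ := by ring
    have h4 := Nat.le_of_mul_le_mul_right h3 (by positivity)
    rw [pow_succ 2 m]; omega

theorem one_add_pow_le {K : Type} [Field K] [LinearOrder K] [IsStrictOrderedRing K] {x : K}
    (hx : 0 ≤ x) (k : ℕ) (h : 2 * k * x ≤ 1) : (1 + x) ^ k ≤ 1 + 2 * k * x := by
  induction k with
  | zero => simp
  | succ k ih =>
    push_cast at h ⊢
    have h1 : 2 * k * x ≤ 1 := by nlinarith
    have h2 := ih h1
    rw [pow_succ]
    have h3 : (1 + x) ^ k * (1 + x) ≤ (1 + 2 * k * x) * (1 + x) :=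
      mul_le_mul_of_nonneg_right h2 (by linarith)
    nlinarith [mul_le_mul_of_nonneg_right h1 hx]

theorem prod_zpow' {ι : Type} (s : Finset ι) {a : ℚ} (ha : a ≠ 0) (e : ι → ℤ) :
    ∏ i ∈ s, a ^ e i = a ^ ∑ i ∈ s, e i := by
  classical
  induction s using Finset.induction_on with
  | empty => simp
  | insert i s hi ih => rw [prod_insert hi, sum_insert hi, ih, zpow_add₀ ha]

theorem abs_zcl (L : ℕ) (z : ℤ) : |zcl L z| ≤ L := by
  unfold zcl; rw [abs_le]; omega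

theorem zcl_eq {L : ℕ} {z : ℤ} (h : |z| ≤ L) : zcl L z = z := by
  unfold zcl; rw [abs_le] at h; omega

theorem zcl_zero (L : ℕ) : zcl L 0 = 0 := zcl_eq (by simp)

/-- positive rationals of bounded height -/
def Ht (q : ℚ) (h : ℕ) : Prop := ∃ a b : ℕ, 0 < a ∧ 0 < b ∧ a ≤ 2 ^ h ∧ b ≤ 2 ^ h ∧ q = a / b

theorem Ht.mono {q : ℚ} {h h' : ℕ} (H : Ht q h) (e : h ≤ h') : Ht q h' := by
  obtain ⟨a, b, h1, h2, h3, h4, h5⟩ := H
  have := Nat.pow_le_pow_right (show 0 < 2 by norm_num) e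
  exact ⟨a, b, h1, h2, h3.trans this, h4.trans this, h5⟩

theorem Ht.one (h : ℕ) : Ht 1 h := ⟨1, 1, one_pos, one_pos, Nat.one_le_two_pow, Nat.one_le_two_pow,
  by simp⟩

theorem Ht.mul {q q' : ℚ} {h h' : ℕ} (H : Ht q h) (H' : Ht q' h') : Ht (q * q') (h + h') := by
  obtain ⟨a, b, h1, h2, h3, h4, rfl⟩ := H
  obtain ⟨a', b', h1', h2', h3', h4', rfl⟩ := H'
  refine ⟨a * a', b * b', by positivity, by positivity, ?_, ?_, by push_cast; field_simp⟩
  · rw [pow_add]; exact Nat.mul_le_mul h3 h3'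
  · rw [pow_add]; exact Nat.mul_le_mul h4 h4'

theorem Ht.inv {q : ℚ} {h : ℕ} (H : Ht q h) : Ht q⁻¹ h := by
  obtain ⟨a, b, h1, h2, h3, h4, rfl⟩ := H
  exact ⟨b, a, h2, h1, h4, h3, by rw [inv_div]⟩

theorem Ht.pow {q : ℚ} {h : ℕ} (H : Ht q h) (k : ℕ) : Ht (q ^ k) (k * h) := by
  induction k with
  | zero => simpa using Ht.one 0
  | succ k ih => rw [pow_succ, Nat.succ_mul]; exact ih.mul H

theorem Ht.zpow {q : ℚ} {h : ℕ} (H : Ht q h) {e : ℤ} {E : ℕ} (he : |e| ≤ E) :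
    Ht (q ^ e) (E * h) := by
  obtain ⟨k, rfl | rfl⟩ := Int.eq_nat_or_neg e
  · rw [zpow_natCast]
    exact (H.pow k).mono (Nat.mul_le_mul_right _ (by simpa using he))
  · rw [zpow_neg, zpow_natCast]
    exact (H.pow k).inv.mono (Nat.mul_le_mul_right _ (by simpa using he))

theorem Ht.prod (k : ℕ) {g : ℕ → ℚ} {h : ℕ} (H : ∀ i, Ht (g i) h) :
    Ht (∏ i ∈ range k, g i) (k * h) := by
  induction k with
  | zero => simpa using Ht.one 0
  | succ k ih => rw [prod_range_succ, Nat.succ_mul]; exact ih.mul (H k)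

theorem Ht.spec {q : ℚ} {h h' : ℕ} (H : Ht q h) (e : h < h') :
    0 < q ∧ q.num.toNat < 2 ^ h' ∧ q.den < 2 ^ h' := by
  obtain ⟨a, b, h1, h2, h3, h4, rfl⟩ := H
  have h5 := Nat.pow_lt_pow_right (show 1 < 2 by norm_num) e
  have e1 : ((a : ℚ) / b) = Rat.divInt a b := by rw [Rat.divInt_eq_div]; simp
  refine ⟨by positivity, ?_, ?_⟩
  · have := Int.le_of_dvd (by exact_mod_cast h1)
      (Rat.num_dvd (a : ℤ) (b := (b : ℤ)) (by exact_mod_cast h2.ne'))
    rw [e1]; omega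
  · have := Int.le_of_dvd (by exact_mod_cast h2) (Rat.den_dvd (a : ℤ) (b : ℤ))
    rw [e1]; omega

theorem Ht.base {m k : ℕ} (hm : 2000 ≤ m) (hk : k < 150) : Ht (1 + 1 / ((m ^ k : ℕ) : ℚ)) m := by
  have h1 := pow_le_two_pow hm
  have h2 : m ^ k < m ^ 150 := Nat.pow_lt_pow_right (by omega) hk
  have h3 : 0 < m ^ k := pow_pos (by omega) _
  refine ⟨m ^ k + 1, m ^ k, by omega, h3, by omega, by omega, ?_⟩
  have : ((m ^ k : ℕ) : ℚ) ≠ 0 := by exact_mod_cast h3.ne'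
  rw [Nat.cast_add]; field_simp; simp

theorem geo {ξ : ℝ} (h0 : 0 ≤ ξ) (h1 : ξ ≤ 1 / 2) (u : ℕ) :
    ∑ t ∈ Icc (-(u : ℤ)) u, ξ ^ t.natAbs ≤ 1 + 4 * ξ - 4 * ξ ^ (u + 1) := by
  induction u with
  | zero => simp
  | succ u ih =>
    have e : Icc (-((u + 1 : ℕ) : ℤ)) (u + 1 : ℕ) =
        insert (-((u + 1 : ℕ) : ℤ)) (insert ((u + 1 : ℕ) : ℤ) (Icc (-(u : ℤ)) u)) := by
      ext t; simp only [mem_Icc, mem_insert]; omega
    rw [e, sum_insert (by simp only [mem_Icc, mem_insert]; omega),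
      sum_insert (by simp only [mem_Icc]; omega), Int.natAbs_neg, Int.natAbs_natCast, pow_succ ξ (u + 1)]
    have : 0 ≤ ξ ^ (u + 1) := by positivity
    nlinarith

variable {n m : ℕ} {f : Bool → Finset (Fin n) → ℤ} {P : Pre}

/-- the base of the tilts -/
def lam (m : ℕ) : ℚ := 1 + 1 / (qM m : ℚ)

def EA (n m s : ℕ) (x : List ℤ) : ℤ :=
  ∑ k ∈ range (2 * n), -(((qJ m - s : ℕ) : ℤ) * |zcl (qu m) (x.getD k 0)|)

def EB (n m : ℕ) (P : Pre) (p x : List ℤ) : ℤ :=
  ∑ i ∈ range n, zcl (eTt (qN m)) (p.getD i 0) * zcl (qM m) (dc n P x i)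

noncomputable def RR (n m : ℕ) (f : Bool → Finset (Fin n) → ℤ) (P : Pre) (x : List ℤ) : ℚ :=
  (∏ i ∈ range n, ((m : ℚ) ^ 2) ^ (-|zcl (qM m) (dc n P x i)|)) *
    (∏ j ∈ range n, if nd P j then
      (1 + 1 / (qH m : ℚ)) ^ (-(zcl (qM m) (dF n P x j) * zcl (qM m) (dF n P x j))) else 1) *
    ∏ i ∈ range n, (1 + 1 / (m : ℚ) ^ 4) ^ (-((jvm n m f P x false i + jvm n m f P x true i : ℕ) : ℤ))

theorem one_le_lam : 1 ≤ lam m := le_add_of_nonneg_right (by positivity)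

theorem lam_pos : 0 < lam m := one_pos.trans_le one_le_lam

theorem W_eq (s : ℕ) (p : List ℤ) {x : List ℤ} (hx : x ∈ Om n m f P) :
    (mdlM n m f P).W s p x = lam m ^ (EA n m s x + EB n m P p x) * RR n m f P x := by
  obtain ⟨h1, h2⟩ := (mem_Om x).1 hx
  simp only [mdlM, wgt]
  rw [if_pos ⟨h1, by simpa using h2⟩, prod_mul_distrib, zpow_add₀ lam_pos.ne', EA, EB,
    ← prod_zpow' _ lam_pos.ne', ← prod_zpow' _ lam_pos.ne', RR, lam]
  ring

theorem W_zero (s : ℕ) (p x : List ℤ) (hx : x ∉ Om n m f P) : (mdlM n m f P).W s p x = 0 := by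
  simp only [mdlM, wgt]
  exact if_neg fun h => hx ((mem_Om x).2 ⟨h.1, by simpa using h.2⟩)

theorem jvm_le (x : List ℤ) (b : Bool) (i : ℕ) : jvm n m f P x b i ≤ qG m := by
  unfold jvm
  refine (sum_le_sum (g := fun _ => 1) fun j _ => ?_).trans (by simp)
  split_ifs <;> omega

theorem RR_ht (hm : 2000 ≤ m) (x : List ℤ) : Ht (RR n m f P x)
    (n * (qM m * m) + n * (qM m * qM m * m) + n * (2 * qG m * m)) := by
  refine ((Ht.prod n fun i => ?_).mul (Ht.prod n fun j => ?_)).mul (Ht.prod n fun i => ?_)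
  · refine Ht.zpow ⟨m ^ 2, 1, by positivity, one_pos, ?_, Nat.one_le_two_pow, by simp⟩ ?_
    · exact (Nat.pow_le_pow_right (by omega) (by norm_num)).trans (pow_le_two_pow hm)
    · rw [abs_neg, abs_abs]; exact abs_zcl _ _
  · split_ifs
    · refine (Ht.base hm (k := 146) (by norm_num)).zpow ?_
      rw [abs_neg, abs_mul]; push_cast
      exact mul_le_mul (abs_zcl _ _) (abs_zcl _ _) (abs_nonneg _) (by positivity)
    · exact Ht.one _
  · have := Ht.base hm (k := 4) (by norm_num)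
    rw [Nat.cast_pow] at this
    refine this.zpow ?_
    rw [abs_neg, Nat.abs_cast]
    have h1 := jvm_le (m := m) (f := f) (P := P) x false i
    have h2 := jvm_le (m := m) (f := f) (P := P) x true i
    omega

theorem RR_pos (hm : 2000 ≤ m) (x : List ℤ) : 0 < RR n m f P x :=
  ((RR_ht hm x).spec (Nat.lt_succ_self _)).1

theorem RR_le (hm : 2000 ≤ m) (x : List ℤ) : RR n m f P x ≤ 1 := by
  have hm1 : (1 : ℚ) ≤ m := by exact_mod_cast (by omega : 1 ≤ m)
  have k : ∀ (a : ℚ) (e : ℤ), 1 ≤ a → 0 ≤ e → 0 ≤ a ^ (-e) ∧ a ^ (-e) ≤ 1 := fun a e ha he =>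
    ⟨zpow_nonneg (by linarith) _, zpow_le_one_of_nonpos₀ ha (by omega)⟩
  have k2 : ∀ g : ℕ → ℚ, (∀ i, 0 ≤ g i ∧ g i ≤ 1) →
      0 ≤ ∏ i ∈ range n, g i ∧ ∏ i ∈ range n, g i ≤ 1 := fun g h =>
    ⟨prod_nonneg fun i _ => (h i).1, prod_le_one (fun i _ => (h i).1) fun i _ => (h i).2⟩
  refine mul_le_one₀ (mul_le_one₀ (k2 _ fun i => ?_).2 (k2 _ fun j => ?_).1 (k2 _ fun j => ?_).2)
    (k2 _ fun i => ?_).1 (k2 _ fun i => ?_).2
  · exact k _ _ (one_le_pow₀ hm1) (abs_nonneg _)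
  iterate 2
    split_ifs
    · exact k _ _ (le_add_of_nonneg_right (by positivity)) (mul_self_nonneg _)
    · simp
  iterate 2 exact k _ _ (le_add_of_nonneg_right (by positivity)) (by positivity)

theorem EA_nonpos (s : ℕ) (x : List ℤ) : EA n m s x ≤ 0 :=
  sum_nonpos fun k _ => neg_nonpos.2 (by positivity)

theorem EA_abs (s : ℕ) (x : List ℤ) : |EA n m s x| ≤ (2 * n * (qJ m * qu m) : ℕ) := by
  refine (abs_sum_le_sum_abs _ _).trans ((sum_le_sum (g := fun _ => (qJ m : ℤ) * qu m)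
    fun k _ => ?_).trans (by simp))
  rw [abs_neg, abs_mul, abs_abs, Nat.abs_cast]
  exact mul_le_mul (by exact_mod_cast Nat.sub_le _ _) (abs_zcl _ _) (abs_nonneg _) (by positivity)

theorem EB_abs (p x : List ℤ) : |EB n m P p x| ≤ (n * (eTt (qN m) * qM m) : ℕ) := by
  refine (abs_sum_le_sum_abs _ _).trans ((sum_le_sum (g := fun _ => (eTt (qN m) : ℤ) * qM m)
    fun k _ => ?_).trans (by simp))
  rw [abs_mul]
  exact mul_le_mul (abs_zcl _ _) (abs_zcl _ _) (abs_nonneg _) (by positivity)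

theorem EB_nil (x : List ℤ) : EB n m P [] x = 0 := by simp [EB, zcl_zero]

theorem W_ht (S : Spec n m f P) (s : ℕ) (p : List ℤ) {x : List ℤ} (hx : x ∈ Om n m f P) :
    0 < (mdlM n m f P).W s p x ∧ ((mdlM n m f P).W s p x).num.toNat < 2 ^ qh m ∧
      ((mdlM n m f P).W s p x).den < 2 ^ qh m := by
  have hm := S.big
  have hn := S.le
  have h1 : Ht (lam m ^ (EA n m s x + EB n m P p x))
      ((2 * n * (qJ m * qu m) + n * (eTt (qN m) * qM m)) * m) :=
    (Ht.base hm (k := 143) (by norm_num)).zpow ((abs_add_le _ _).trans (by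
      rw [Nat.cast_add]; exact add_le_add (EA_abs s x) (EB_abs p x)))
  rw [W_eq s p hx]
  refine (h1.mul (RR_ht hm x)).spec ?_
  have hs : m.size ≤ m := Nat.size_le.2 Nat.lt_two_pow_self
  have a1 : 2 * n * (qJ m * qu m) * m ≤ 8 * m ^ 287 := by
    calc _ ≤ 2 * m * (4 * m ^ 143 * m * m ^ 141) * m := by unfold qJ qM qu; gcongr
      _ = _ := by ring
  have a2 : n * (eTt (qN m) * qM m) * m ≤ m ^ 145 * eTt (qN m) := by
    calc _ ≤ m * (eTt (qN m) * m ^ 143) * m := by unfold qM; gcongr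
      _ = _ := by ring
  have a3 : n * (qM m * m) ≤ m ^ 145 := by
    calc _ ≤ m * (m ^ 143 * m) := by unfold qM; gcongr
      _ = _ := by ring
  have a4 : n * (qM m * qM m * m) ≤ m ^ 288 := by
    calc _ ≤ m * (m ^ 143 * m ^ 143 * m) := by unfold qM; gcongr
      _ = _ := by ring
  have a5 : n * (2 * qG m * m) ≤ 2 * m ^ 27 := by
    calc _ ≤ m * (2 * m ^ 25 * m) := by unfold qG; gcongr
      _ = _ := by ring
  have b : ∀ i j, i ≤ j → m ^ i ≤ m ^ j := fun i j h => Nat.pow_le_pow_right (by omega) h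
  have b1 := b 287 299 (by norm_num)
  have b2 := b 145 299 (by norm_num)
  have b3 := b 288 299 (by norm_num)
  have b4 := b 27 299 (by norm_num)
  have b5 := Nat.mul_le_mul_right (eTt (qN m)) (b 145 300 (by norm_num))
  have b6 : 2000 * m ^ 299 ≤ m ^ 300 := by rw [pow_succ m 299, mul_comm]; gcongr
  have b7 : 0 < m ^ 299 := pow_pos (by omega) _
  rw [qh, mul_add, add_mul]
  omega

theorem lam_le (hm : 2000 ≤ m) {e : ℤ} (he : e ≤ 2 * m * qu m) : lam m ^ e ≤ 2 := by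
  refine (zpow_le_zpow_right₀ one_le_lam he).trans ?_
  have hm1 : (2000 : ℚ) ≤ m := by exact_mod_cast hm
  have h1 : 2 * ((2 * m * qu m : ℕ) : ℚ) * (1 / (qM m : ℚ)) ≤ 1 := by
    unfold qu qM
    push_cast
    rw [mul_one_div, div_le_one (by positivity)]
    calc _ = 4 * (m : ℚ) ^ 142 := by ring
      _ ≤ m * m ^ 142 := by gcongr; linarith
      _ = _ := by ring
  have h2 := one_add_pow_le (by positivity) _ h1
  have e1 : (2 * m * qu m : ℤ) = ((2 * m * qu m : ℕ) : ℤ) := by push_cast; ring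
  rw [e1, zpow_natCast, lam]
  linarith

theorem ratio (hm : 2000 ≤ m) {e e' : ℤ} {r : ℚ} (hr : 0 < r) (h : e ≤ e' + 2 * m * qu m) :
    lam m ^ e * r ≤ 2 * (lam m ^ e' * r) := by
  have h1 : lam m ^ e = lam m ^ (e - e') * lam m ^ e' := by
    rw [← zpow_add₀ lam_pos.ne', sub_add_cancel]
  rw [h1, mul_assoc]
  exact mul_le_mul_of_nonneg_right (lam_le hm (by omega))
    (mul_pos (zpow_pos lam_pos _) hr).le

theorem getD_x0 (k : ℕ) : (List.replicate (2 * n) (0 : ℤ)).getD k 0 = 0 := by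
  rw [List.getD_eq_getElem?_getD, List.getElem?_replicate]; split_ifs <;> rfl

theorem xv_x0 (e : ℕ) (b : Bool) : xv n (List.replicate (2 * n) 0) e b = 0 := getD_x0 _

theorem zv_x0 (b : Bool) (j : ℕ) : zv n P b (List.replicate (2 * n) 0) j = 0 := by
  simp [zv, xv_x0]

theorem dF_x0 (j : ℕ) : dF n P (List.replicate (2 * n) 0) j = 0 := by simp [dF, xv_x0]

theorem dc_x0 (i : ℕ) : dc n P (List.replicate (2 * n) 0) i = 0 := by simp [dc, dF_x0]

theorem x0_Om (S : Spec n m f P) : List.replicate (2 * n) 0 ∈ Om n m f P := by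
  have h : ∀ b, HB n f P b (List.replicate (2 * n) 0) := fun b =>
    ⟨by simp [zv_x0], fun L => by simp [zv_x0, S.nonneg]⟩
  exact (mem_Om _).2 ⟨inB_iff.2 ⟨by simp, fun k => by simp [xv_x0]⟩, h _, h _⟩

theorem zeta_nonneg (S : Spec n m f P) (b : Bool) (A : Finset (Fin n)) : 0 ≤ zeta P b A := by
  unfold zeta zetaL
  refine sum_nonneg fun i hi => ?_
  have hm : (ed P b).getD i (0, 0, 0) ∈ ed P b := by
    rw [List.getD_eq_getElem _ _ (mem_range.1 hi)]; exact List.getElem_mem _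
  split_ifs
  · rfl
  · exact (S.edg b _ hm).2.2.1

theorem jvm_x0 (S : Spec n m f P) (b : Bool) (i : ℕ) :
    jvm n m f P (List.replicate (2 * n) 0) b i = 0 := by
  unfold jvm
  refine sum_eq_zero fun j _ => if_pos fun A => ?_
  have h1 := zeta_nonneg S b (A ∩ kap n P i)
  have h2 := S.nonneg b (A ∩ kap n P i ∪ low n P i)
  refine le_trans (mul_nonpos_of_nonneg_of_nonpos (by positivity) ?_) ?_
  · simp only [num, zv_x0, sum_const_zero]
    have h3 : (0 : ℤ) ≤ m ^ 2 * zeta P b (A ∩ kap n P i) := by positivity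
    have h4 : (0 : ℤ) ≤ qT m * (f b (A ∩ kap n P i ∪ low n P i) + m ^ 2 * qt m) := by positivity
    linarith
  · unfold den; positivity

theorem W_x0 (S : Spec n m f P) (s : ℕ) (p : List ℤ) :
    (mdlM n m f P).W s p (List.replicate (2 * n) 0) = 1 := by
  rw [W_eq s p (x0_Om S)]
  simp [EA, EB, RR, dc_x0, dF_x0, zcl_zero, jvm_x0 S]

theorem mvm_inv (i : ℕ) {σ : ℕ} (hσ : σ < 2) {x : List ℤ} (hx : x.length = 2 * n) :
    mvm n i (1 - σ) (mvm n i σ x) = x := by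
  refine List.ext_getElem (by simp [mvm, hx]) fun k h1 h2 => ?_
  rw [← List.getD_eq_getElem _ 0 h1, ← List.getD_eq_getElem _ 0 h2]
  have hk : k < 2 * n := hx ▸ h2
  unfold mvm
  rw [getD_mkL _ _ hk, getD_mkL _ _ hk]
  obtain rfl | rfl : σ = 0 ∨ σ = 1 := by omega
  · rw [if_neg zero_ne_one, if_pos rfl]; ring
  · rw [if_neg (by norm_num : ¬ (1 - 1 = 1)), if_pos rfl]; ring

theorem Om_sub : Om n m f P ⊆
    (Fintype.piFinset (fun _ : Fin (2 * n) => Icc (-(qu m : ℤ)) (qu m))).image List.ofFn := by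
  classical
  unfold Om; exact filter_subset _ _

theorem card_Om (S : Spec n m f P) : (Om n m f P).card ≤ 2 ^ (2 * m ^ 2) := by
  refine (card_le_card Om_sub).trans (card_image_le.trans ?_)
  rw [Fintype.card_piFinset, prod_const, card_univ, Fintype.card_fin, Int.card_Icc]
  have hm := S.big
  have h1 := pow_le_two_pow hm
  have h2 : 2000 * m ^ 141 ≤ m ^ 150 := by
    calc _ ≤ m * m ^ 141 := Nat.mul_le_mul_right _ hm
      _ = m ^ 142 := by ring
      _ ≤ _ := Nat.pow_le_pow_right (by omega) (by norm_num)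
  have h3 : 0 < m ^ 141 := pow_pos (by omega) _
  have h4 : ((qu m : ℤ) + 1 - -(qu m : ℤ)).toNat ≤ 2 ^ m := by
    have : qu m = m ^ 141 := rfl
    omega
  calc _ ≤ (2 ^ m) ^ (2 * n) := Nat.pow_le_pow_left h4 _
    _ ≤ (2 ^ m) ^ (2 * m) := Nat.pow_le_pow_right (by positivity) (by have := S.le; omega)
    _ = _ := by rw [← pow_mul]; congr 1; ring

theorem W_le (S : Spec n m f P) (s : ℕ) (p : List ℤ) {x : List ℤ} (hx : x ∈ Om n m f P) :
    (mdlM n m f P).W s p x ≤ lam m ^ (EA n m s x + EB n m P p x) := by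
  rw [W_eq s p hx]
  exact mul_le_of_le_one_right (zpow_pos lam_pos _).le (RR_le S.big x)

theorem W_le_one (S : Spec n m f P) (s : ℕ) {x : List ℤ} (hx : x ∈ Om n m f P) :
    (mdlM n m f P).W s [] x ≤ 1 :=
  (W_le S s [] hx).trans (zpow_le_one_of_nonpos₀ one_le_lam (by
    rw [EB_nil, add_zero]; exact EA_nonpos s x))

theorem W_up (S : Spec n m f P) (s : ℕ) (p : List ℤ) {x : List ℤ} (hx : x ∈ Om n m f P) :
    (mdlM n m f P).W s p x ≤ 2 ^ (qN m * eTt (qN m)) := by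
  have hm := S.big
  have h1 : EA n m s x + EB n m P p x ≤ (qN m * eTt (qN m) : ℕ) := by
    have a1 := EA_nonpos (n := n) (m := m) s x
    have a2 := (le_abs_self _).trans (EB_abs (n := n) (m := m) (P := P) p x)
    have a3 : n * (eTt (qN m) * qM m) ≤ qN m * eTt (qN m) := by
      calc _ ≤ m * (eTt (qN m) * m ^ 143) := Nat.mul_le_mul_right _ S.le
        _ = m ^ 144 * eTt (qN m) := by ring
        _ ≤ _ := Nat.mul_le_mul_right _ (Nat.pow_le_pow_right (by omega) (by norm_num))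
    omega
  refine (W_le S s p hx).trans ((zpow_le_zpow_right₀ one_le_lam h1).trans ?_)
  rw [zpow_natCast]
  refine pow_le_pow_left₀ lam_pos.le ?_ _
  have : (1 : ℚ) ≤ qM m := by exact_mod_cast Nat.one_le_pow _ _ (by omega)
  have := (div_le_one (by linarith : (0 : ℚ) < qM m)).2 this
  unfold lam; linarith

theorem xi_le (hm : 2000 ≤ m) : (m : ℚ) ^ 4 ≤ lam m ^ qJ m := by
  have hM : (0 : ℚ) < qM m := by exact_mod_cast pow_pos (by omega : 0 < m) 143
  have h1 : 2 ≤ lam m ^ qM m := by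
    have := one_add_mul_le_pow (a := 1 / (qM m : ℚ)) (by
      have : 0 ≤ 1 / (qM m : ℚ) := by positivity
      linarith) (qM m)
    rw [mul_one_div_cancel hM.ne'] at this
    unfold lam; linarith
  have h2 : (m : ℚ) ≤ 2 ^ m.size := by exact_mod_cast (Nat.lt_size_self m).le
  calc (m : ℚ) ^ 4 ≤ (2 ^ m.size) ^ 4 := by gcongr
    _ ≤ ((lam m ^ qM m) ^ m.size) ^ 4 := by gcongr
    _ = _ := by rw [← pow_mul, ← pow_mul, qJ]; congr 1; ring

theorem Z0_le (S : Spec n m f P) : (mdlM n m f P).Z (Om n m f P) 0 [] ≤ 1 + 1 / (32 * m) := by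
  classical
  have hm := S.big
  have hm1 : (2000 : ℝ) ≤ m := by exact_mod_cast hm
  set ξ : ℝ := ((lam m ^ qJ m : ℚ) : ℝ)⁻¹ with hξ
  have hp : (0 : ℝ) < ((lam m ^ qJ m : ℚ) : ℝ) := by exact_mod_cast pow_pos lam_pos _
  have x0 : 0 ≤ ξ := by positivity
  have x1 : ξ ≤ 1 / (m : ℝ) ^ 4 := by
    rw [hξ, one_div]
    exact inv_anti₀ (by positivity) (by exact_mod_cast xi_le hm)
  have x2 : ξ * (m : ℝ) ^ 4 ≤ 1 := by rwa [le_div_iff₀ (by positivity)] at x1
  have m2 : (2000 : ℝ) ^ 2 ≤ (m : ℝ) ^ 2 := by gcongr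
  have x3 : 512 * (m : ℝ) ^ 2 * ξ ≤ 1 := by
    have : 0 ≤ (m : ℝ) ^ 2 * ξ := by positivity
    nlinarith
  have x4 : ξ ≤ 1 / 2 := by nlinarith
  let G : List ℤ → ℝ := fun x => ∏ k : Fin (2 * n), ξ ^ (x.getD k 0).natAbs
  have h1 : ∀ x ∈ Om n m f P, ((mdlM n m f P).W 0 [] x : ℝ) ≤ G x := by
    intro x hx
    refine (Rat.cast_le.2 (W_le S 0 [] hx)).trans_eq ?_
    rw [EB_nil, add_zero, EA, ← prod_zpow' _ lam_pos.ne', Rat.cast_prod, prod_range]
    refine prod_congr rfl fun k _ => ?_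
    rw [zcl_eq (getD_le ((mem_Om x).1 hx).1 k), Nat.sub_zero, zpow_neg, zpow_mul, zpow_natCast,
      ← Int.natCast_natAbs, zpow_natCast, hξ, inv_pow]
    push_cast; rfl
  have hn : (n : ℝ) ≤ m := by exact_mod_cast S.le
  calc _ ≤ ∑ x ∈ Om n m f P, G x := sum_le_sum h1
    _ ≤ _ := sum_le_sum_of_subset_of_nonneg Om_sub fun x _ _ => by positivity
    _ = ∑ g ∈ Fintype.piFinset (fun _ : Fin (2 * n) => Icc (-(qu m : ℤ)) (qu m)),
          ∏ k, ξ ^ (g k).natAbs := by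
        rw [sum_image fun _ _ _ _ h => List.ofFn_injective h]
        exact sum_congr rfl fun g _ => prod_congr rfl fun k _ => by rw [getD_ofFn]
    _ = ∏ _k : Fin (2 * n), ∑ t ∈ Icc (-(qu m : ℤ)) (qu m), ξ ^ t.natAbs :=
        (prod_univ_sum _ (fun (_ : Fin (2 * n)) (t : ℤ) => ξ ^ t.natAbs)).symm
    _ ≤ (1 + 4 * ξ) ^ (2 * n) := by
        rw [prod_const, card_univ, Fintype.card_fin]
        refine pow_le_pow_left₀ (sum_nonneg fun t _ => by positivity) ((geo x0 x4 _).trans ?_) _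
        have : 0 ≤ ξ ^ (qu m + 1) := by positivity
        linarith
    _ ≤ 1 + 1 / (32 * m) := by
        have a1 : 2 * ((2 * n : ℕ) : ℝ) * (4 * ξ) ≤ 1 / (32 * m) := by
          rw [le_div_iff₀ (by positivity)]
          push_cast
          have : (n : ℝ) * (m * ξ) ≤ m * (m * ξ) := by gcongr
          nlinarith
        have a2 : 1 / (32 * (m : ℝ)) ≤ 1 := by rw [div_le_one (by positivity)]; linarith
        exact (one_add_pow_le (by positivity) _ (a1.trans a2)).trans (by linarith)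

theorem W_step (S : Spec n m f P) (s : ℕ) {x : List ℤ} (hx : x ∈ Om n m f P) :
    (mdlM n m f P).W s [] x ≤ (mdlM n m f P).W (s + 1) [] x ∧
      (mdlM n m f P).W (s + 1) [] x ≤ 2 * (mdlM n m f P).W s [] x := by
  rw [W_eq s _ hx, W_eq (s + 1) _ hx, EB_nil, add_zero, add_zero]
  have hr := RR_pos (f := f) (P := P) S.big x
  constructor
  · refine mul_le_mul_of_nonneg_right (zpow_le_zpow_right₀ one_le_lam ?_) hr.le
    refine sum_le_sum fun k _ => neg_le_neg (mul_le_mul_of_nonneg_right ?_ (abs_nonneg _))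
    omega
  · refine ratio S.big hr ?_
    have h1 : EA n m (s + 1) x ≤ ∑ k ∈ range (2 * n),
        (-(((qJ m - s : ℕ) : ℤ) * |zcl (qu m) (x.getD k 0)|) + qu m) := by
      refine sum_le_sum fun k _ => ?_
      have a1 := abs_zcl (qu m) (x.getD k 0)
      have a2 := abs_nonneg (zcl (qu m) (x.getD k 0))
      have a3 : ((qJ m - s : ℕ) : ℤ) ≤ ((qJ m - (s + 1) : ℕ) : ℤ) + 1 := by omega
      nlinarith
    rw [sum_add_distrib, sum_const, card_range, nsmul_eq_mul] at h1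
    have h2 : ((2 * n : ℕ) : ℤ) * qu m ≤ 2 * m * qu m := by
      have := S.le
      gcongr; omega
    exact h1.trans (add_le_add le_rfl h2)

theorem W_bump (S : Spec n m f P) {p : List ℤ} (hp : (mdlM n m f P).Valid (qN m) p) (v : ℕ) {δ : ℤ}
    (hδ : |δ| ≤ 1) (hv : |p.getD v 0 + δ| ≤ eTt (qN m)) {x : List ℤ} (hx : x ∈ Om n m f P) :
    (mdlM n m f P).W (qN m) p x ≤ 2 * (mdlM n m f P).W (qN m) (bump (qN m) p v δ) x ∧
      (mdlM n m f P).W (qN m) (bump (qN m) p v δ) x ≤ 2 * (mdlM n m f P).W (qN m) p x := by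
  have hm := S.big
  rw [W_eq _ _ hx, W_eq _ _ hx]
  have hr := RR_pos (f := f) (P := P) hm x
  have hN : n ≤ qN m := S.le.trans (Nat.le_self_pow (n := 600) (by omega) m)
  have hd : ∀ i, |zcl (qM m) (dc n P x i)| ≤ 2 * m * qu m := fun i => by
    have := dc_le S ((mem_Om x).1 hx).1 i
    unfold zcl; rw [abs_le] at this ⊢; omega
  have hp2 : ∀ i, |p.getD i 0| ≤ eTt (qN m) := hp.2
  have e : EB n m P (bump (qN m) p v δ) x = EB n m P p x +
      ∑ i ∈ range n, if i = v then δ * zcl (qM m) (dc n P x i) else 0 := by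
    rw [EB, EB, ← sum_add_distrib]
    refine sum_congr rfl fun i hi => ?_
    rw [R309.bump, getD_mkL _ _ ((mem_range.1 hi).trans_le hN), zcl_eq (hp2 i)]
    split_ifs with h
    · subst h; rw [zcl_eq hv]; ring
    · rw [add_zero, zcl_eq (hp2 i), add_zero]
  have h1 : |∑ i ∈ range n, if i = v then δ * zcl (qM m) (dc n P x i) else 0| ≤ 2 * m * qu m := by
    rw [sum_ite_eq']
    split_ifs
    · rw [abs_mul]
      exact (mul_le_mul hδ (hd v) (abs_nonneg _) zero_le_one).trans_eq (one_mul _)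
    · rw [abs_zero]; positivity
  rw [abs_le] at h1
  rw [e]
  exact ⟨ratio hm hr (by omega), ratio hm hr (by omega)⟩

theorem mass (p : List ℤ) : ∑ x ∈ Om n m f P, ((mdlM n m f P).W (qN m) p x : ℝ) *
    Pb (qN m) (fun u => (mdlM n m f P).acc x u = true) = amass n m f P := by
  refine sum_congr rfl fun x hx => ?_
  by_cases h : accS n m P x
  · rw [W_eq _ _ hx, W_eq _ _ hx, EB_nil, EB, sum_eq_zero fun i hi => by
      rw [h.1 i (mem_range.1 hi), zcl_zero, mul_zero]]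
  · have : Pb (qN m) (fun u => (mdlM n m f P).acc x u = true) = 0 := by
      simp [Pb, Av, mdlM, h]
    rw [this, mul_zero, mul_zero]

end Crest.Agent.R302.BAS

namespace Crest.Agent.R302

open BAS

theorem BAS_proof : BasStmt := fun n m f P S => by
  classical
  refine ⟨?_, W_zero, fun s p _ => W_ht S s p,
    fun i _ hσ x hx => mvm_inv i hσ ((REP.mem_Om x).1 hx).1.1, card_Om S, W_x0 S,
    fun s _ => W_le_one S s, fun s p _ => W_up S s p, Z0_le S, fun s _ => W_step S s,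
    fun _ hp v _ _ hδ hv _ => W_bump S hp v hδ hv, mass⟩
  unfold Sec
  exact Finset.mem_filter.2 ⟨x0_Om S, fun i _ => dc_x0 i⟩

end Crest.Agent.R302
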