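import Crest.Agent.R302.DefsB

/-! Row 302, task CAP: exchange capacities. -/

set_option autoImplicit false

namespace Crest.Agent.R302

open Finset Crest.Agent.PT Crest.Agent.QC Crest.Agent.R317 Crest.Agent.R300U

theorem getD_bitsOf {n : ℕ} (S : Finset (Fin n)) (j : Fin n) :
    (bitsOf S).getD j false = decide (j ∈ S) := by
  simp only [bitsOf, getD_ofFn]

theorem mkL_eq_bitsOf {n : ℕ} (p : ℕ → Bool) (S : Finset (Fin n))
    (h : ∀ j : Fin n, p j = true ↔ j ∈ S) : mkL n p = bitsOf S :=
  mkL_eq_ofFn _ _ (fun j => by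
    by_cases hj : j ∈ S
    · simp [hj, (h j).2 hj]
    · have : p j = false := by simpa using fun h' => hj ((h j).1 h')
      simp [hj, this])

theorem gz_mkL {n : ℕ} (F : ℕ → ℕ → ℤ) {a a' : ℕ} (ha : a < n) (ha' : a' < n) :
    gz (mkL n (fun a => mkL n (F a))) a a' = F a a' := by
  unfold gz
  rw [getD_mkL _ _ ha, getD_mkL _ _ ha']

namespace CAP

/-- the bits of `insert a (S.erase a')` -/
def ins (n a a' : ℕ) (l : List Bool) : List Bool :=
  mkL n (fun j => decide (j = a ∨ (j ≠ a' ∧ l.getD j false = true)))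

/-- the capacity -/
noncomputable def capv (g : List Bool → ℤ) (n m a a' : ℕ) : ℤ :=
  sfm (fun l => g (ins n a a' l) - g (ins n a a' [])) n m + g (ins n a a' [])

theorem ins_bits {n : ℕ} (a a' : Fin n) (S : Finset (Fin n)) :
    ins n a a' (bitsOf S) = bitsOf (insert a (S.erase a')) :=
  mkL_eq_bitsOf _ _ (fun j => by rw [getD_bitsOf]; simp [Fin.val_inj])

theorem ins_nil {n : ℕ} (a a' : Fin n) : ins n a a' [] = bitsOf (insert a (∅ : Finset (Fin n))) :=
  mkL_eq_bitsOf _ _ (fun j => by simp [Fin.val_inj])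

theorem capv_spec {n m : ℕ} {g : List Bool → ℤ} {f : Finset (Fin n) → ℤ}
    (hg : ∀ S, g (bitsOf S) = f S) (hs : Sub f) (h0 : ∀ S, 0 ≤ f S) (hM : ∀ S, f S ≤ 2 ^ m)
    (a a' : Fin n) (h : a ≠ a') (θ : ℤ) : θ < capv g n m a a' ↔ Arc f θ a a' := by
  obtain ⟨⟨S, h1⟩, h2⟩ := sfm_spec (n := n) (m := m)
    (g := fun l => g (ins n a a' l) - g (ins n a a' []))
    (fun S => f (insert a (S.erase a')) - f (insert a ∅))
    (fun S => by simp only [ins_bits, ins_nil, hg]) (by simp)
    (fun A B => by
      have := hs (insert a (A.erase a')) (insert a (B.erase a'))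
      have e1 : insert a (A.erase a') ∪ insert a (B.erase a') = insert a ((A ∪ B).erase a') := by
        ext j; simp only [mem_union, mem_insert, mem_erase]; tauto
      have e2 : insert a (A.erase a') ∩ insert a (B.erase a') = insert a ((A ∩ B).erase a') := by
        ext j; simp only [mem_inter, mem_insert, mem_erase]; tauto
      rw [e1, e2] at this
      omega)
    (fun S => by
      have := h0 (insert a (S.erase a')); have := hM (insert a (S.erase a'))
      have := h0 (insert a ∅); have := hM (insert a ∅)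
      rw [abs_le]; omega)
  unfold capv
  rw [ins_nil, hg] at *
  constructor
  · intro hθ A ha ha'
    have := h2 A
    rw [erase_eq_of_notMem ha', insert_eq_of_mem ha] at this
    omega
  · intro hA
    have := hA (insert a (S.erase a')) (mem_insert_self _ _) (by simp [h.symm])
    omega

theorem opt_capv {α : Type} [Enc α] {g : Orc → α → List Bool → ℤ} {n m a a' : α → ℕ}
    (hg : OPT (fun O (p : α × List Bool) => g O p.1 p.2)) (hn : PT n) (hm : PT m) (ha : PT a)
    (ha' : PT a') : OPT (fun O x => capv (g O x) (n x) (m x) (a x) (a' x)) := by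
  have h0 : OPT (fun O x => g O x (ins (n x) (a x) (a' x) [])) :=
    hg.pre (f := fun x => (x, ins (n x) (a x) (a' x) [])) (by unfold ins; fun_prop)
  have h1 : OPT (fun O (p : α × List Bool) => g O p.1 (ins (n p.1) (a p.1) (a' p.1) p.2)) :=
    hg.pre (f := fun p : α × List Bool => (p.1, ins (n p.1) (a p.1) (a' p.1) p.2))
      (by unfold ins; fun_prop)
  have h2 := opt_sfm (g := fun O x l => g O x (ins (n x) (a x) (a' x) l) -
      g O x (ins (n x) (a x) (a' x) []))
    ((h1.pair (h0.pre PT.id'.fst)).post (g := fun r : ℤ × ℤ => r.1 - r.2) (by fun_prop)) hn hm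
  exact (h2.pair h0).post (g := fun r : ℤ × ℤ => r.1 + r.2) (by fun_prop)

end CAP

open CAP in
theorem CAP_proof : CapStmt := by
  intro α _ fo n m hn hm hfo
  have key : ∀ b : Bool, OPT (fun O x =>
      mkL (n x) (fun a => mkL (n x) (fun a' => capv (fo O x b) (n x) (m x) a a'))) := by
    intro b
    refine OPT.mkL hn (OPT.mkL (n := fun p : α × ℕ => n p.1)
      (F := fun O p a' => capv (fo O p.1 b) (n p.1) (m p.1) p.2 a') (by fun_prop) ?_)
    exact opt_capv (g := fun O (q : (α × ℕ) × ℕ) => fo O q.1.1 b)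
      (hfo.pre (f := fun p : ((α × ℕ) × ℕ) × List Bool => (p.1.1.1, b, p.2)) (by fun_prop))
      (by fun_prop) (by fun_prop) (by fun_prop) (by fun_prop)
  refine ⟨_, (key false).pair (key true), fun O x f hf hr b a a' h θ => ?_⟩
  rw [← capv_spec (m := m x) (hr b) (hf.sub b) (hf.nonneg b) (hf.bd b) a a' h θ]
  cases b
  · simp only [Bool.false_eq_true, if_false]
    rw [gz_mkL _ a.2 a'.2]
  · simp only [if_true]
    rw [gz_mkL _ a.2 a'.2]

end Crest.Agent.R302
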