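import Crest.Agent.R302.DefsB

/-! Row 302, task CLS: closed sets and class totals. -/

set_option autoImplicit false

namespace Crest.Agent.R302.CLS

open Finset Crest.Agent.R302

variable {n : ℕ}

theorem sup_le {ι : Type} {g : Finset (Fin n) → ℤ} (hs : Sub g) (h0 : ∀ A, 0 ≤ g A) (he : g ∅ = 0)
    (s : Finset ι) (A : ι → Finset (Fin n)) : g (s.sup A) ≤ ∑ i ∈ s, g (A i) := by
  classical
  induction s using Finset.induction_on with
  | empty => simp [he]
  | insert i s hi ih =>
    rw [sup_insert, sum_insert hi, sup_eq_union]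
    have := hs (A i) (s.sup A)
    have := h0 (A i ∩ s.sup A)
    omega

theorem inf_le {ι : Type} {g : Finset (Fin n) → ℤ} (hs : Sub g) (h0 : ∀ A, 0 ≤ g A)
    (he : g univ = 0) (s : Finset ι) (A : ι → Finset (Fin n)) : g (s.inf A) ≤ ∑ i ∈ s, g (A i) := by
  classical
  induction s using Finset.induction_on with
  | empty => simp [he]
  | insert i s hi ih =>
    rw [inf_insert, sum_insert hi, inf_eq_inter]
    have := hs (A i) (s.inf A)
    have := h0 (A i ∪ s.inf A)
    omega

theorem closed_le (g : Finset (Fin n) → ℤ) (θ : ℤ) (Y : Finset (Fin n)) (hs : Sub g)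
    (h0 : ∀ A, 0 ≤ g A) (he : g ∅ = 0) (hu : g univ = 0) (hθ : 0 ≤ θ)
    (hY : ∀ a ∈ Y, ∀ a', Arc g θ a a' → a' ∈ Y) : g Y ≤ n ^ 2 * θ := by
  have hex : ∀ a a' : Fin n, ∃ A : Finset (Fin n),
      a ∈ Y → a' ∉ Y → a ∈ A ∧ a' ∉ A ∧ g A ≤ θ := by
    intro a a'
    by_cases h : a ∈ Y ∧ a' ∉ Y
    · have h1 : ¬ Arc g θ a a' := fun h1 => h.2 (hY a h.1 a' h1)
      simp only [Arc, not_forall, not_lt] at h1
      obtain ⟨A, h2, h3, h4⟩ := h1
      exact ⟨A, fun _ _ => ⟨h2, h3, h4⟩⟩
    · exact ⟨∅, fun h1 h2 => absurd ⟨h1, h2⟩ h⟩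
  choose A hA using hex
  have e : Y = Y.sup (fun a => Yᶜ.inf (A a)) := by
    ext j
    simp only [mem_sup, Finset.mem_inf, mem_compl]
    constructor
    · exact fun hj => ⟨j, hj, fun a' h => (hA j a' hj h).1⟩
    · rintro ⟨a, ha, h⟩
      by_contra hj
      exact (hA a j ha hj).2.1 (h j hj)
  have c : ∀ S : Finset (Fin n), (S.card : ℤ) ≤ n := fun S => by
    have := card_le_univ S
    rw [Fintype.card_fin] at this
    exact_mod_cast this
  calc g Y = g (Y.sup (fun a => Yᶜ.inf (A a))) := congrArg g e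
    _ ≤ ∑ a ∈ Y, g (Yᶜ.inf (A a)) := sup_le hs h0 he _ _
    _ ≤ ∑ a ∈ Y, (n : ℤ) * θ := sum_le_sum fun a ha => by
        calc g (Yᶜ.inf (A a)) ≤ ∑ a' ∈ Yᶜ, g (A a a') := inf_le hs h0 hu _ _
          _ ≤ ∑ a' ∈ Yᶜ, θ := sum_le_sum fun a' h => (hA a a' ha (mem_compl.1 h)).2.2
          _ ≤ n * θ := by
            rw [sum_const, nsmul_eq_mul]; exact mul_le_mul_of_nonneg_right (c _) hθ
    _ ≤ n ^ 2 * θ := by
        rw [sum_const, nsmul_eq_mul, sq, mul_assoc]
        exact mul_le_mul_of_nonneg_right (c _) (by positivity)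

theorem upper {m : ℕ} (f : Bool → Finset (Fin n) → ℤ) (θ : ℤ) (b : Bool) (X : Finset (Fin n))
    (z : Bool → Fin n → ℤ) (hP : Pair n m f) (hθ : 0 ≤ θ) (hz : ∀ c, Bs (f c) (z c))
    (hX : ∀ a a', Arc (f b) θ a a' → Reach f θ a' a → (a ∈ X ↔ a' ∈ X)) :
    ∑ j ∈ X, z b j ≤ n * (2 * n ^ 2 * θ + ∑ j, |z false j + z true j|) := by
  classical
  let κ : Fin n → Finset (Fin n) := fun a => univ.filter (fun e => Reach f θ a e ∧ Reach f θ e a)
  have hκ : ∀ a e, κ e = κ a ↔ Reach f θ a e ∧ Reach f θ e a := by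
    intro a e
    constructor
    · intro h
      have : e ∈ κ a := by
        rw [← h]; exact mem_filter.2 ⟨mem_univ _, .refl, .refl⟩
      exact (mem_filter.1 this).2
    · intro h
      ext j
      simp only [κ, mem_filter, mem_univ, true_and]
      exact ⟨fun h1 => ⟨h.1.trans h1.1, h1.2.trans h.2⟩, fun h1 => ⟨h.2.trans h1.1, h1.2.trans h.1⟩⟩
  have arc : ∀ c a a', Arc (f c) θ a a' → Reach f θ a a' := fun c a a' h =>
    Relation.ReflTransGen.single (by cases c; exacts [Or.inl h, Or.inr h])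
  have cl : ∀ c Y, (∀ a ∈ Y, ∀ a', Arc (f c) θ a a' → a' ∈ Y) → ∑ j ∈ Y, z c j ≤ n ^ 2 * θ :=
    fun c Y hY => ((hz c).2 Y).trans
      (closed_le _ θ Y (hP.sub c) (hP.nonneg c) (hP.empty c) (hP.full c) hθ hY)
  have one : ∀ a, ∑ j ∈ X.filter (fun j => κ j = κ a), z b j ≤
      2 * n ^ 2 * θ + ∑ j, |z false j + z true j| := by
    intro a
    let C : Finset (Fin n) := univ.filter (fun e => Reach f θ a e ∧ ¬ Reach f θ e a)
    have hC : ∀ c, ∀ e ∈ C, ∀ e', Arc (f c) θ e e' → e' ∈ C := by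
      intro c e he e' h
      simp only [C, mem_filter, mem_univ, true_and] at he ⊢
      exact ⟨he.1.trans (arc c _ _ h), fun h1 => he.2 ((arc c _ _ h).trans h1)⟩
    have hd : Disjoint C (X.filter (fun j => κ j = κ a)) := by
      rw [disjoint_left]
      intro e h1 h2
      exact (mem_filter.1 h1).2.2 ((hκ a e).1 (mem_filter.1 h2).2).2
    have h1 := cl b (C ∪ X.filter (fun j => κ j = κ a)) (by
      intro e he e' h
      rcases mem_union.1 he with he | he
      · exact mem_union_left _ (hC b e he e' h)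
      · obtain ⟨h2, h3⟩ := mem_filter.1 he
        have h4 := (hκ a e).1 h3
        have h5 := h4.1.trans (arc b _ _ h)
        by_cases h6 : Reach f θ e' a
        · exact mem_union_right _ (mem_filter.2
            ⟨(hX e e' h (h6.trans h4.1)).1 h2, (hκ a e').2 ⟨h5, h6⟩⟩)
        · exact mem_union_left _ (mem_filter.2 ⟨mem_univ _, h5, h6⟩))
    rw [sum_union hd] at h1
    have h2 := cl (!b) C (hC _)
    have h3 : -(∑ j ∈ C, z b j + ∑ j ∈ C, z (!b) j) ≤ ∑ j, |z false j + z true j| := by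
      rw [← sum_add_distrib, ← sum_neg_distrib]
      refine (sum_le_sum (g := fun j => |z false j + z true j|) fun j _ => ?_).trans
        (sum_le_sum_of_subset_of_nonneg (subset_univ _) fun j _ _ => abs_nonneg _)
      cases b
      · exact neg_le_abs _
      · simp only [Bool.not_true]; rw [add_comm (z true j)]; exact neg_le_abs _
    linarith
  have hn : 0 ≤ 2 * (n : ℤ) ^ 2 * θ + ∑ j, |z false j + z true j| :=
    add_nonneg (by positivity) (sum_nonneg fun j _ => abs_nonneg _)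
  rw [← sum_fiberwise_of_maps_to (s := X) (t := univ.image κ) (g := κ)
    (fun j _ => mem_image_of_mem _ (mem_univ _))]
  calc _ ≤ ∑ k ∈ univ.image κ, (2 * (n : ℤ) ^ 2 * θ + ∑ j, |z false j + z true j|) :=
        sum_le_sum fun k hk => by
          obtain ⟨a, -, rfl⟩ := mem_image.1 hk
          exact one a
    _ ≤ _ := by
        rw [sum_const, nsmul_eq_mul]
        refine mul_le_mul_of_nonneg_right ?_ hn
        have := card_image_le (s := (univ : Finset (Fin n))) (f := κ)
        rw [card_univ, Fintype.card_fin] at this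
        exact_mod_cast this

end Crest.Agent.R302.CLS

namespace Crest.Agent.R302

open Finset

theorem CLS_proof : ClsStmt := by
  refine ⟨fun n g θ Y => CLS.closed_le g θ Y, fun n m f θ b X z hP hθ hz hX => ?_⟩
  have h1 := CLS.upper f θ b X z hP hθ hz hX
  have h2 := CLS.upper f θ b Xᶜ z hP hθ hz (fun a a' h h' => by
    simp only [mem_compl]; exact not_congr (hX a a' h h'))
  have h3 := sum_add_sum_compl X (z b)
  rw [(hz b).1] at h3
  rw [abs_le]
  constructor <;> linarith

end Crest.Agent.R302
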