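import Crest.Agent.R302.DefsB

/-!
Row 302, task DEEP: a deep common base.
-/

set_option autoImplicit false

namespace Crest.Agent.R302

open Finset Crest.Agent.PT Crest.Agent.QC Crest.Agent.R317 Crest.Agent.R300U

namespace DEEP

/-- reachable points are reached in at most `n` steps -/
theorem reach_bound {n : ℕ} (r : Fin n → Fin n → Prop) (a' : Fin n) (P : ℕ → Fin n → Prop)
    (h0 : P 0 a') (hm : ∀ k x, P k x → P (k + 1) x) (hs : ∀ k x y, P k x → r x y → P (k + 1) y)
    {a : Fin n} (h : Relation.ReflTransGen r a' a) : P n a := by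
  classical
  have mono : ∀ k l x, k ≤ l → P k x → P l x := by
    intro k l x hkl hx
    induction hkl with
    | refl => exact hx
    | step _ ih => exact hm _ _ ih
  by_cases hc : ∃ k < n, ∀ x, P (k + 1) x → P k x
  · obtain ⟨k, hk, hcl⟩ := hc
    refine mono k n a hk.le ?_
    induction h with
    | refl => exact mono 0 k _ (Nat.zero_le _) h0
    | tail _ hr ih => exact hcl _ (hs _ _ _ ih hr)
  · push Not at hc
    have key : ∀ k ≤ n, k + 1 ≤ (univ.filter (P k)).card := by
      intro k hk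
      induction k with
      | zero => exact card_pos.2 ⟨a', by simp [h0]⟩
      | succ k ih =>
        obtain ⟨x, hx1, hx2⟩ := hc k (by omega)
        have : univ.filter (P k) ⊂ univ.filter (P (k + 1)) := by
          refine ⟨fun y hy => ?_, fun hsub => hx2 ?_⟩
          · simp only [mem_filter, mem_univ, true_and] at hy ⊢
            exact hm _ _ hy
          · have := hsub (show x ∈ univ.filter (P (k + 1)) by simp [hx1])
            simpa using this
        have h1 := card_lt_card this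
        have h2 := ih (by omega)
        omega
    have h1 := key n le_rfl
    have h2 := card_filter_le (univ : Finset (Fin n)) (P n)
    rw [card_univ, Fintype.card_fin] at h2
    omega

/-- unit vector -/
def u {n : ℕ} (a : Fin n) : Fin n → ℤ := Pi.single a 1

theorem sum_u {n : ℕ} (a : Fin n) (A : Finset (Fin n)) :
    ∑ j ∈ A, u a j = if a ∈ A then 1 else 0 := by
  unfold u
  rw [sum_pi_single']

theorem path {n : ℕ} (f : Bool → Finset (Fin n) → ℤ) (θ : ℤ) {a' a : Fin n} (h : Reach f θ a' a) :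
    ∃ Y : Bool → Fin n → ℤ, (∀ j, Y false j + Y true j = u a' j - u a j) ∧ (∀ c, ∑ j, Y c j = 0) ∧
      ∀ c A, ∑ j ∈ A, Y c j ≤ n ∧ (0 < ∑ j ∈ A, Y c j → θ < f c A) := by
  refine reach_bound (fun a a' => Arc (f false) θ a a' ∨ Arc (f true) θ a a') a'
    (fun k x => ∃ Y : Bool → Fin n → ℤ, (∀ j, Y false j + Y true j = u a' j - u x j) ∧
      (∀ c, ∑ j, Y c j = 0) ∧ ∀ c A, ∑ j ∈ A, Y c j ≤ (k : ℤ) ∧ (0 < ∑ j ∈ A, Y c j → θ < f c A))
    ⟨fun _ _ => 0, by simp, by simp, by simp⟩ ?_ ?_ h
  · rintro k x ⟨Y, h1, h2, h3⟩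
    exact ⟨Y, h1, h2, fun c A => ⟨by have := (h3 c A).1; push_cast; omega, (h3 c A).2⟩⟩
  · rintro k x y ⟨Y, h1, h2, h3⟩ hr
    obtain ⟨b, hb⟩ : ∃ b, Arc (f b) θ x y := hr.elim (fun h => ⟨_, h⟩) (fun h => ⟨_, h⟩)
    refine ⟨fun c j => Y c j + if c = b then u x j - u y j else 0, fun j => ?_, fun c => ?_,
      fun c A => ?_⟩
    · have := h1 j
      cases b <;> simp <;> omega
    · rw [sum_add_distrib, h2 c]
      split_ifs
      · rw [sum_sub_distrib, sum_u, sum_u]; simp
      · simp
    · obtain ⟨k1, k2⟩ := h3 c A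
      rw [sum_add_distrib]
      by_cases hc : c = b
      · subst hc
        simp only [if_true]
        rw [sum_sub_distrib, sum_u, sum_u]
        by_cases hx : x ∈ A <;> by_cases hy : y ∈ A <;> simp only [hx, hy, if_true, if_false]
        · exact ⟨by push_cast; omega, fun h => k2 (by omega)⟩
        · exact ⟨by push_cast; omega, fun _ => hb A hx hy⟩
        · exact ⟨by push_cast; omega, fun h => k2 (by omega)⟩
        · exact ⟨by push_cast; omega, fun h => k2 (by omega)⟩
      · simp only [hc, if_false, sum_const_zero, add_zero]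
        exact ⟨by push_cast; omega, k2⟩

theorem bits_getD {n : ℕ} (A : Finset (Fin n)) (a : Fin n) :
    (bitsOf A).getD a false = decide (a ∈ A) := by
  unfold bitsOf
  rw [getD_ofFn]

/-- the cycle of an edge -/
theorem edge {n : ℕ} (f : Bool → Finset (Fin n) → ℤ) (b : Bool) (a a' : Fin n) (w : ℤ)
    (hw : (8 * n ^ 2 : ℤ) ≤ w) (h1 : Arc (f b) (w - 1) a a') (h2 : Reach f (w - 1) a' a) :
    ∃ (V : Bool → Fin n → ℤ) (δ : ℤ), 0 ≤ δ ∧ w ≤ 16 * n ^ 2 * δ ∧ 8 * n ^ 2 * δ ≤ w ∧
      (∀ j, V false j + V true j = 0) ∧ (∀ c, ∑ j, V c j = 0) ∧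
      (∀ c A, ∑ j ∈ A, V c j ≤ n + 1 ∧ (0 < ∑ j ∈ A, V c j → w ≤ f c A)) ∧
      ∀ A, (bitsOf A).getD a false ≠ (bitsOf A).getD a' false →
        w ≤ f b A ∨ ∑ j ∈ A, V b j ≤ -1 := by
  obtain ⟨Y, k1, k2, k3⟩ := path f (w - 1) h2
  have hn : (0 : ℤ) < n := by have := a.2; omega
  have hN : (0 : ℤ) < 8 * n ^ 2 := by positivity
  have d1 : 8 * n ^ 2 * (w / (8 * n ^ 2)) ≤ w := Int.mul_ediv_self_le hN.ne'
  have d2 : w < 8 * n ^ 2 * (w / (8 * n ^ 2)) + 8 * n ^ 2 := Int.lt_mul_ediv_self_add hN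
  have d3 : 1 ≤ w / (8 * n ^ 2) := Int.le_ediv_of_mul_le hN (by omega)
  refine ⟨fun c j => Y c j + if c = b then u a j - u a' j else 0, w / (8 * n ^ 2), by omega, ?_,
    d1, fun j => ?_, fun c => ?_, fun c A => ?_, fun A hA => ?_⟩
  · nlinarith
  · have := k1 j
    cases b <;> simp <;> omega
  · rw [sum_add_distrib, k2 c]
    split_ifs
    · rw [sum_sub_distrib, sum_u, sum_u]; simp
    · simp
  · obtain ⟨l1, l2⟩ := k3 c A
    rw [sum_add_distrib]
    by_cases hc : c = b
    · subst hc
      simp only [if_true]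
      rw [sum_sub_distrib, sum_u, sum_u]
      by_cases hx : a ∈ A <;> by_cases hy : a' ∈ A <;> simp only [hx, hy, if_true, if_false]
      · exact ⟨by omega, fun h => by have := l2 (by omega); omega⟩
      · exact ⟨by omega, fun _ => by have := h1 A hx hy; omega⟩
      · exact ⟨by omega, fun h => by have := l2 (by omega); omega⟩
      · exact ⟨by omega, fun h => by have := l2 (by omega); omega⟩
    · simp only [hc, if_false, sum_const_zero, add_zero]
      exact ⟨by omega, fun h => by have := l2 h; omega⟩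
  · rw [bits_getD, bits_getD] at hA
    rw [sum_add_distrib]
    simp only [if_true]
    rw [sum_sub_distrib, sum_u, sum_u]
    by_cases hx : a ∈ A <;> by_cases hy : a' ∈ A <;> simp only [hx, hy, if_true, if_false]
    · simp [hx, hy] at hA
    · left; have := h1 A hx hy; omega
    · by_cases h0 : 0 < ∑ j ∈ A, Y b j
      · left; have := (k3 b A).2 h0; omega
      · right; omega
    · simp [hx, hy] at hA

end DEEP

open DEEP in
theorem DEEP_proof : DeepStmt := by
  intro n m f P hP hlen hed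
  have hex : ∀ p : Bool × ℕ, ∃ (V : Bool → Fin n → ℤ) (δ : ℤ), p.2 < (ed P p.1).length →
      0 ≤ δ ∧ ((ed P p.1).getD p.2 (0, 0, 0)).2.2 ≤ 16 * n ^ 2 * δ ∧
      8 * n ^ 2 * δ ≤ ((ed P p.1).getD p.2 (0, 0, 0)).2.2 ∧
      (∀ j, V false j + V true j = 0) ∧ (∀ c, ∑ j, V c j = 0) ∧
      (∀ c A, ∑ j ∈ A, V c j ≤ n + 1 ∧
        (0 < ∑ j ∈ A, V c j → ((ed P p.1).getD p.2 (0, 0, 0)).2.2 ≤ f c A)) ∧
      ∀ A : Finset (Fin n), (bitsOf A).getD ((ed P p.1).getD p.2 (0, 0, 0)).1 false ≠
          (bitsOf A).getD ((ed P p.1).getD p.2 (0, 0, 0)).2.1 false →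
        ((ed P p.1).getD p.2 (0, 0, 0)).2.2 ≤ f p.1 A ∨ ∑ j ∈ A, V p.1 j ≤ -1 := by
    rintro ⟨b, i⟩
    by_cases hi : i < (ed P b).length
    · have hmem : (ed P b).getD i (0, 0, 0) ∈ ed P b := by
        rw [List.getD_eq_getElem _ _ hi]; exact List.getElem_mem hi
      obtain ⟨a, a', e1, e2, e3, e4, e5⟩ := hed b _ hmem
      obtain ⟨V, δ, h⟩ := edge f b a a' _ e3 e4 e5
      refine ⟨V, δ, fun _ => ?_⟩
      simp only [e1, e2]
      exact h
    · exact ⟨fun _ _ => 0, 0, fun h => absurd h hi⟩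
  choose V δ hV using hex
  set I : Finset (Bool × ℕ) := (univ ×ˢ range n).filter (fun p => p.2 < (ed P p.1).length) with hI
  have hIm : ∀ p ∈ I, p.2 < (ed P p.1).length := fun p hp => (mem_filter.1 hp).2
  have hIc : (I.card : ℤ) ≤ 2 * n := by
    have h1 : I.card ≤ ((univ : Finset Bool) ×ˢ range n).card := card_filter_le _ _
    rw [card_product, card_range, card_univ, Fintype.card_bool] at h1
    exact_mod_cast h1
  let z : Bool → Fin n → ℤ := fun c j => ∑ p ∈ I, δ p * V p c j
  have hz : ∀ c A, ∑ j ∈ A, z c j = ∑ p ∈ I, δ p * ∑ j ∈ A, V p c j := by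
    intro c A
    simp only [z, mul_sum]
    exact sum_comm
  have hneg : ∀ j, z true j = -z false j := by
    intro j
    simp only [z]
    rw [← sum_neg_distrib]
    refine sum_congr rfl fun p hp => ?_
    have := (hV p (hIm p hp)).2.2.2.1 j
    have e : V p true j = -V p false j := by omega
    rw [e]; ring
  have hterm : ∀ c A, ∀ p ∈ I, 8 * n ^ 2 * (δ p * ∑ j ∈ A, V p c j) ≤ (n + 1) * f c A := by
    intro c A p hp
    obtain ⟨h1, -, h3, -, -, h6, -⟩ := hV p (hIm p hp)
    obtain ⟨h7, h8⟩ := h6 c A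
    have hf := hP.nonneg c A
    by_cases h0 : 0 < ∑ j ∈ A, V p c j
    · have h9 := h8 h0
      calc 8 * n ^ 2 * (δ p * ∑ j ∈ A, V p c j) = (∑ j ∈ A, V p c j) * (8 * n ^ 2 * δ p) := by ring
        _ ≤ (n + 1) * f c A := mul_le_mul h7 (h3.trans h9) (by positivity) (by positivity)
    · have : δ p * ∑ j ∈ A, V p c j ≤ 0 := mul_nonpos_of_nonneg_of_nonpos h1 (by omega)
      have h2 : (0 : ℤ) ≤ (n + 1) * f c A := by positivity
      have h4 : (0 : ℤ) ≤ 8 * n ^ 2 := by positivity
      nlinarith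
  have hsub : ∀ c A, ∀ J ⊆ I, 2 * ∑ p ∈ J, δ p * ∑ j ∈ A, V p c j ≤ f c A := by
    intro c A J hJ
    have hf := hP.nonneg c A
    rcases Nat.eq_zero_or_pos n with h0 | h0
    · have : J = ∅ := by
        rw [eq_empty_iff_forall_notMem]
        intro p hp
        have := (mem_product.1 (mem_filter.1 (hJ hp)).1).2
        rw [mem_range] at this
        omega
      simp [this, hf]
    · have h1 : 8 * n ^ 2 * ∑ p ∈ J, δ p * ∑ j ∈ A, V p c j ≤ J.card * ((n + 1) * f c A) := by
        rw [mul_sum]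
        have := sum_le_card_nsmul J _ _ (fun p hp => hterm c A p (hJ hp))
        rwa [nsmul_eq_mul] at this
      have h2 : (J.card : ℤ) ≤ 2 * n := le_trans (by exact_mod_cast card_le_card hJ) hIc
      have hn : (1 : ℤ) ≤ n := by exact_mod_cast h0
      have h3 : (J.card : ℤ) * ((n + 1) * f c A) ≤ (4 * n ^ 2) * f c A := by
        calc (J.card : ℤ) * ((n + 1) * f c A) ≤ (2 * n) * ((2 * n) * f c A) :=
              mul_le_mul h2 (mul_le_mul_of_nonneg_right (by omega) hf) (by positivity)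
                (by positivity)
          _ = _ := by ring
      have h4 : (0 : ℤ) < 4 * n ^ 2 := by positivity
      refine le_of_mul_le_mul_left ?_ h4
      nlinarith
  have hhalf : ∀ c A, 2 * ∑ j ∈ A, z c j ≤ f c A := fun c A => by
    rw [hz]; exact hsub c A I subset_rfl
  have hB : ∀ c, Bs (f c) (z c) := by
    intro c
    refine ⟨?_, fun A => ?_⟩
    · rw [hz]
      exact sum_eq_zero fun p hp => by rw [(hV p (hIm p hp)).2.2.2.2.1 c, mul_zero]
    · have := hhalf c A
      have := hP.nonneg c A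
      omega
  have hzeta : ∀ c A, zeta P c A ≤ m ^ 4 * (f c A - ∑ j ∈ A, z c j) := by
    intro c A
    have hf := hP.nonneg c A
    have h1 := hhalf c A
    have hs : 0 ≤ f c A - ∑ j ∈ A, z c j := by omega
    have h2 : ∀ i ∈ range (ed P c).length,
        (if (bitsOf A).getD ((ed P c).getD i (0, 0, 0)).1 false =
          (bitsOf A).getD ((ed P c).getD i (0, 0, 0)).2.1 false then 0
        else ((ed P c).getD i (0, 0, 0)).2.2) ≤ 16 * n ^ 2 * (f c A - ∑ j ∈ A, z c j) := by
      intro i hi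
      have hi' := mem_range.1 hi
      split_ifs with hc
      · positivity
      · obtain ⟨k1, k2, -, -, -, -, k7⟩ := hV (c, i) hi'
        have hn : (1 : ℤ) ≤ n := by have := hlen c; omega
        have hn2 : (1 : ℤ) ≤ n ^ 2 := one_le_pow₀ hn
        rcases k7 A hc with h | h
        · simp only at h
          nlinarith
        · have hp : (c, i) ∈ I := by
            simp only [hI, mem_filter, mem_product, mem_univ, mem_range, true_and]
            exact ⟨lt_of_lt_of_le hi' (hlen c), hi'⟩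
          have h3 := hsub c A (I.erase (c, i)) (erase_subset _ _)
          have h4 := hz c A
          rw [← add_sum_erase I _ hp] at h4
          simp only at h k2
          have h5 : δ (c, i) * ∑ j ∈ A, V (c, i) c j ≤ -δ (c, i) := by nlinarith
          have h6 : δ (c, i) ≤ f c A - ∑ j ∈ A, z c j := by omega
          exact k2.trans (mul_le_mul_of_nonneg_left h6 (by positivity))
    have h3 := sum_le_card_nsmul _ _ _ h2
    rw [card_range, nsmul_eq_mul] at h3
    refine le_trans h3 ?_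
    rw [← mul_assoc]
    refine mul_le_mul_of_nonneg_right ?_ hs
    have a1 : ((ed P c).length : ℤ) ≤ m := by exact_mod_cast (hlen c).trans hP.le
    have a2 : (n : ℤ) ≤ m := by exact_mod_cast hP.le
    have a3 : (16 : ℤ) ≤ m := by have := hP.big; omega
    calc ((ed P c).length : ℤ) * (16 * (n : ℤ) ^ 2) ≤ (m : ℤ) * ((m : ℤ) * (m : ℤ) ^ 2) := by gcongr
      _ = (m : ℤ) ^ 4 := by ring
  refine ⟨z false, hB false, ?_, fun A => ⟨hzeta false A, ?_⟩⟩
  · have : -z false = z true := by funext j; rw [hneg]; rfl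
    rw [this]; exact hB true
  · have := hzeta true A
    simp only [hneg, sum_neg_distrib, sub_neg_eq_add] at this
    exact this

end Crest.Agent.R302
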