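import Crest.Agent.R302.DefsE
import Crest.Agent.R309.ANN
import Crest.Agent.R309.ITR

/-! Row 302, task EANN: analysis of annealing and descent for the generic engine. -/

set_option autoImplicit false

namespace Crest.Agent.R302

open Finset Crest.Agent.PT Crest.Agent.QC Crest.Agent.R317 Crest.Agent.R300U Crest.Agent.R309

namespace EANN

lemma est_nonneg (M : Mdl) (a s : ℕ) (p : List ℤ) (s' : ℕ) (p' : List ℤ) (u : ℕ) :
    0 ≤ M.est a s p s' p' u := by
  unfold Mdl.est; positivity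

lemma upd {Z Z' X e Zh c : ℝ} {i : ℕ} (hc : 0 ≤ c) (hZ : 0 < Z) (h2 : Z ≤ 2 * Z') (hX : 12 ≤ X)
    (he : |e - Z' / Z| ≤ 6 / X) (h1 : c * (1 - 12 / X) ^ i * Z ≤ Zh)
    (h3 : Zh ≤ (1 + 12 / X) ^ i * Z) :
    c * (1 - 12 / X) ^ (i + 1) * Z' ≤ Zh * e ∧ Zh * e ≤ (1 + 12 / X) ^ (i + 1) * Z' := by
  have hX0 : 0 < X := by linarith
  have hr : 0 ≤ 1 - 12 / X := by
    have : 12 / X ≤ 1 := by rw [div_le_one hX0]; exact hX
    linarith
  have hr0 : 0 ≤ 12 / X := by positivity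
  set ρ := Z' / Z with hρ
  have hρ2 : 1 / 2 ≤ ρ := by rw [hρ, le_div_iff₀ hZ]; linarith
  have hZ' : Z' = ρ * Z := by rw [hρ]; field_simp
  have h6 : 6 / X ≤ ρ * (12 / X) := by
    have : 6 / X = (1 / 2) * (12 / X) := by ring
    rw [this]; exact mul_le_mul_of_nonneg_right hρ2 hr0
  rw [abs_le] at he
  have e1 : ρ * (1 - 12 / X) ≤ e := by linarith [he.1]
  have e2 : e ≤ ρ * (1 + 12 / X) := by linarith [he.2]
  have hA : 0 ≤ c * (1 - 12 / X) ^ i * Z := by positivity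
  have hB : 0 ≤ ρ * (1 - 12 / X) := by positivity
  constructor
  · calc c * (1 - 12 / X) ^ (i + 1) * Z' = (c * (1 - 12 / X) ^ i * Z) * (ρ * (1 - 12 / X)) := by
          rw [hZ']; ring
      _ ≤ Zh * e := mul_le_mul h1 e1 hB (hA.trans h1)
  · calc Zh * e ≤ ((1 + 12 / X) ^ i * Z) * (ρ * (1 + 12 / X)) :=
          mul_le_mul h3 e2 (hB.trans e1) (by positivity)
      _ = (1 + 12 / X) ^ (i + 1) * Z' := by rw [hZ']; ring

lemma final {r Z Zh a : ℝ} {T : ℕ} (ha : 1 ≤ a) (hr0 : 0 ≤ r) (hr1 : r ≤ 1)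
    (hT : r * T ≤ 1 / (32 * a)) (hZ : 0 ≤ Z)
    (h1 : (1 - 1 / (32 * a)) * (1 - r) ^ T * Z ≤ Zh) (h2 : Zh ≤ (1 + r) ^ T * Z) :
    |Zh - Z| ≤ Z / (8 * a) := by
  have ha0 : 0 < a := by linarith
  have hb : 1 - r * T ≤ (1 - r) ^ T := by
    have := one_add_mul_le_pow (a := -r) (by linarith) T
    have e : (1 + -r) = 1 - r := by ring
    rw [e] at this; linarith
  set y := 1 / (32 * a) with hy
  have hy0 : 0 < y := by positivity
  have hy1 : y ≤ 1 / 32 := by
    rw [hy]; exact one_div_le_one_div_of_le (by norm_num) (by linarith)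
  have hc : (1 + r) ^ T * (1 - r) ^ T ≤ 1 := by
    rw [← mul_pow]; exact pow_le_one₀ (by nlinarith) (by nlinarith)
  have hp : 0 ≤ (1 + r) ^ T := by positivity
  have hd : (1 + r) ^ T * (1 - y) ≤ 1 :=
    le_trans (mul_le_mul_of_nonneg_left (by linarith) hp) hc
  have he : (1 + r) ^ T ≤ 1 + 2 * y := by
    by_contra hcon
    push Not at hcon
    have : (1 + 2 * y) * (1 - y) < (1 + r) ^ T * (1 - y) :=
      mul_lt_mul_of_pos_right hcon (by linarith)
    nlinarith
  have e : Z / (8 * a) = 4 * y * Z := by rw [hy]; field_simp; ring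
  rw [e, abs_le]
  have hyZ : 0 ≤ y * Z := by positivity
  constructor
  · have h3 : (1 - y) * (1 - y) ≤ (1 - y) * (1 - r) ^ T :=
      mul_le_mul_of_nonneg_left (by linarith) (by linarith)
    have h4 : (1 - 2 * y) ≤ (1 - y) * (1 - r) ^ T := by nlinarith
    have : (1 - 2 * y) * Z ≤ (1 - y) * (1 - r) ^ T * Z := mul_le_mul_of_nonneg_right h4 hZ
    nlinarith
  · have : (1 + r) ^ T * Z ≤ (1 + 2 * y) * Z := mul_le_mul_of_nonneg_right he hZ
    nlinarith

lemma eTt_ge (n : ℕ) : n + 4 * n * n * (2 * n + 1) + 2 * n + 3 ≤ eTt n := by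
  unfold eTt
  have : (8 * n ^ 2 + 2) * (2 * n + 1) = 2 * (4 * n * n * (2 * n + 1)) + 4 * n + 2 := by ring
  omega

lemma eTt_ge' (n : ℕ) : 4 * n * n + 3 ≤ eTt n := by
  have := eTt_ge n
  have h : 4 * n * n * 1 ≤ 4 * n * n * (2 * n + 1) := Nat.mul_le_mul_left _ (by omega)
  omega

/-- sure invariant -/
def Inv (M : Mdl) (i : ℕ) (st : St) : Prop :=
  st.1 = min i M.n ∧ (∀ v, |st.2.1.getD v 0| ≤ i) ∧ 0 ≤ st.2.2.1

lemma inv_step (M : Mdl) (a i : ℕ) (st : St) (u : ℕ) (h : Inv M i st) :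
    Inv M (i + 1) (M.astep a st u) := by
  obtain ⟨s, p, Zh, q⟩ := st
  obtain ⟨h1, h2, h4⟩ := h
  simp only at h1 h2 h4
  have h2' : ∀ v, |p.getD v 0| ≤ ((i + 1 : ℕ) : ℤ) := fun v => (h2 v).trans (by push_cast; omega)
  unfold Mdl.astep
  simp only
  split_ifs with c1 c2 c3
  · exact ⟨by simp only; omega, h2', mul_nonneg h4 (est_nonneg ..)⟩
  · refine ⟨by simp only; omega, fun v => ?_, mul_nonneg h4 (est_nonneg ..)⟩
    push_cast
    exact ANN.bump_abs h2 _ (ANN.sgn_abs q) v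
  · exact ⟨by simp only; omega, h2', h4⟩
  · exact ⟨by simp only; omega, h2', h4⟩

/-- good event -/
def Good (M : Mdl) (Ω : Finset (List ℤ)) (a i : ℕ) (st : St) : Prop :=
  st.1 ≤ M.n ∧ st.2.2.2 ≤ 2 * M.n ∧
  (1 - 1 / (32 * (a : ℝ))) * (1 - 12 / (eXi M.n a : ℝ)) ^ i * M.Z Ω st.1 st.2.1 ≤ (st.2.2.1 : ℝ) ∧
  (st.2.2.1 : ℝ) ≤ (1 + 12 / (eXi M.n a : ℝ)) ^ i * M.Z Ω st.1 st.2.1 ∧
  ∃ m : ℕ, (st.1 < M.n → st.2.2.2 = 0 ∧ st.2.1 = [] ∧ m = 0) ∧
    M.Z Ω st.1 st.2.1 ≤ 2 ^ M.n * (1 - 1 / ((4 * M.n : ℕ) : ℝ)) ^ m ∧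
    (∀ v, |st.2.1.getD v 0| ≤ m) ∧ m ≤ 4 * M.n * M.n ∧
    (∀ q' < st.2.2.2, (1 - 1 / (M.n : ℝ)) * M.Z Ω st.1 st.2.1 < M.Z Ω st.1 (M.cand st.2.1 q')) ∧
    (st.2.2.2 = 2 * M.n ∨ i ≤ st.1 + m * (2 * M.n + 1) + st.2.2.2)

section

variable {M : Mdl} {Ω : Finset (List ℤ)} {A : ℝ} {a : ℕ}

lemma Z_ge (hM : M.Good Ω A a) {s : ℕ} {p : List ℤ} (hV : M.Valid s p) : 1 ≤ M.Z Ω s p := by
  have h1 : ((M.W s p M.x0 : ℚ) : ℝ) = 1 := by rw [hM.w0 s p]; simp
  rw [← h1]
  exact single_le_sum (f := fun x => (M.W s p x : ℝ))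
    (fun y hy => by exact_mod_cast (hM.ht s p hV y hy).1.le) hM.mem0

lemma Z_le {s s' : ℕ} {p p' : List ℤ} {c : ℚ}
    (h : ∀ x ∈ Ω, M.W s p x ≤ c * M.W s' p' x) : M.Z Ω s p ≤ c * M.Z Ω s' p' := by
  unfold Mdl.Z
  rw [mul_sum]
  exact sum_le_sum fun x hx => by exact_mod_cast h x hx

lemma Z_top (hM : M.Good Ω A a) (s : ℕ) : M.Z Ω s [] ≤ 2 ^ M.n := by
  have := sum_le_card_nsmul Ω (fun x => (M.W s [] x : ℝ)) 1
    (fun x hx => by exact_mod_cast hM.le1 s x hx)
  rw [nsmul_eq_mul, mul_one] at this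
  exact this.trans (by exact_mod_cast hM.card)

lemma good_step (hEst : EEstStmt) (hM : M.Good Ω A a) (ha : 1 ≤ a) (i : ℕ) (st : St)
    (h : Good M Ω a i st) :
    Pb (M.bE a) (fun v => ¬ Good M Ω a (i + 1) (M.astep a st v)) ≤
      (2 : ℝ)⁻¹ ^ (a + 1) / (eTt M.n + 1) := by
  obtain ⟨s, p, Zh, q⟩ := st
  obtain ⟨h1, h3, h4, h5, m, h2, h6, h7, h8, h9, h10⟩ := h
  simp only at h1 h2 h3 h4 h5 h6 h7 h8 h9 h10
  have hn := hM.pos
  have hT := eTt_ge' M.n
  set n := M.n with hndef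
  have hK : 1 ≤ 4 * n := by omega
  have hV : M.Valid s p := ⟨h1, fun v => (h7 v).trans (by rw [← hndef]; omega)⟩
  have hZ1 : 1 ≤ M.Z Ω s p := Z_ge hM hV
  have hZ0 : 0 < M.Z Ω s p := by linarith
  have hnM : (1 : ℝ) ≤ (n : ℝ) := by exact_mod_cast hn
  have ha' : (1 : ℝ) ≤ a := by exact_mod_cast ha
  have hc0 : (0 : ℝ) ≤ 1 - 1 / (32 * (a : ℝ)) := by
    have : 1 / (32 * (a : ℝ)) ≤ 1 := by rw [div_le_one (by positivity)]; linarith
    linarith
  have hXi : 1024 * (n : ℝ) ≤ eXi n a := by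
    have h0 : 1024 * n ≤ eXi n a := by
      unfold eXi
      calc 1024 * n = 1024 * n * 1 * 1 := by ring
        _ ≤ 1024 * n * a * eTt n := by gcongr; omega
    exact_mod_cast h0
  have hX12 : (12 : ℝ) ≤ eXi n a := by linarith
  have hX0 : (0 : ℝ) < eXi n a := by linarith
  have h6X : 6 / (eXi n a : ℝ) ≤ 1 / (4 * (n : ℝ)) := by
    rw [div_le_div_iff₀ hX0 (by positivity)]; linarith
  have hr0 : (0 : ℝ) ≤ 12 / (eXi n a : ℝ) := by positivity
  have hr1 : 12 / (eXi n a : ℝ) ≤ 1 := by rw [div_le_one hX0]; exact hX12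
  have hlo : (1 - 1 / (32 * (a : ℝ))) * (1 - 12 / (eXi n a : ℝ)) ^ (i + 1) * M.Z Ω s p ≤ Zh := by
    refine le_trans (mul_le_mul_of_nonneg_right (mul_le_mul_of_nonneg_left ?_ hc0) hZ0.le) h4
    exact pow_le_pow_of_le_one (by linarith) (by linarith) (by omega)
  have hhi : (Zh : ℝ) ≤ (1 + 12 / (eXi n a : ℝ)) ^ (i + 1) * M.Z Ω s p := by
    refine le_trans h5 (mul_le_mul_of_nonneg_right ?_ hZ0.le)
    exact pow_le_pow_right₀ (by linarith) (by omega)
  by_cases c1 : s < n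
  · obtain ⟨hq, hp, hm⟩ := h2 c1
    subst hp hq hm
    have hV' : M.Valid (s + 1) [] := ⟨c1, hV.2⟩
    have hr := hM.rs s c1
    have hE := (hEst M Ω A a hM ha s [] hV).1 (s + 1) [] (fun x hx =>
      ⟨(hM.ht _ _ hV' x hx).1.le, (hr x hx).2⟩)
    refine le_trans (Pb_mono fun u _ hu => ?_) hE
    by_contra hc
    push Not at hc
    apply hu
    have hA : M.astep a (s, [], Zh, 0) u = (s + 1, [], Zh * M.est a s [] (s + 1) [] u, 0) := by
      unfold Mdl.astep; simp only; rw [if_pos c1]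
    rw [hA]
    have hZ2 : M.Z Ω s [] ≤ ((2 : ℚ) : ℝ) * M.Z Ω (s + 1) [] := Z_le fun x hx => by
      linarith [(hr x hx).1, (hM.ht _ _ hV' x hx).1]
    have hu2 := upd hc0 hZ0 (by exact_mod_cast hZ2) hX12 hc h4 h5
    refine ⟨c1, Nat.zero_le _, ?_, ?_, 0, fun _ => ⟨rfl, rfl, rfl⟩, ?_, h7, h8, ?_, ?_⟩
    · simp only; push_cast; exact hu2.1
    · simp only; push_cast; exact hu2.2
    · simp only [pow_zero, mul_one]; exact Z_top hM _
    · intro q' hq'; simp at hq'
    · simp only; rw [← hndef]; omega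
  · have hs : s = n := by omega
    by_cases c2 : q < 2 * n
    · have hδ := ANN.sgn_abs q
      have hb : |p.getD (q / 2) 0 + (if q % 2 = 0 then 1 else -1 : ℤ)| ≤ eTt M.n := by
        refine (abs_add_le _ _).trans ?_
        have := h7 (q / 2)
        rw [← hndef]; omega
      have hr : ∀ x ∈ Ω, M.W s p x ≤ 2 * M.W s (M.cand p q) x ∧
          M.W s (M.cand p q) x ≤ 2 * M.W s p x := by
        rw [hs]
        exact hM.rp p ⟨le_rfl, hV.2⟩ (q / 2) (by omega) _ hδ hb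
      have h7' : ∀ v, |(M.cand p q).getD v 0| ≤ ((m + 1 : ℕ) : ℤ) := fun v => by
        push_cast; exact ANN.bump_abs h7 _ hδ v
      have hV' : M.Valid s (M.cand p q) := ⟨h1, fun v => (h7' v).trans (by rw [← hndef]; omega)⟩
      have hE := (hEst M Ω A a hM ha s p hV).1 s (M.cand p q) (fun x hx =>
        ⟨(hM.ht _ _ hV' x hx).1.le, (hr x hx).2⟩)
      refine le_trans (Pb_mono fun u _ hu => ?_) hE
      by_contra hc
      push Not at hc
      apply hu
      have hc' := abs_le.1 hc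
      by_cases c3 : M.est a s p s (M.cand p q) u ≤ 1 - 1 / (2 * M.n : ℚ)
      · have hA : M.astep a (s, p, Zh, q) u =
            (s, M.cand p q, Zh * M.est a s p s (M.cand p q) u, 0) := by
          unfold Mdl.astep; simp only; rw [if_neg c1, if_pos c2, if_pos c3]
        rw [hA]
        have hZ2 : M.Z Ω s p ≤ ((2 : ℚ) : ℝ) * M.Z Ω s (M.cand p q) :=
          Z_le fun x hx => (hr x hx).1
        have hu2 := upd hc0 hZ0 (by exact_mod_cast hZ2) hX12 hc h4 h5
        have c3' : (M.est a s p s (M.cand p q) u : ℝ) ≤ 1 - 1 / (2 * (n : ℝ)) := by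
          have := (Rat.cast_le (K := ℝ)).2 c3
          push_cast at this
          exact this
        have hdec : M.Z Ω s (M.cand p q) ≤ (1 - 1 / ((4 * n : ℕ) : ℝ)) * M.Z Ω s p := by
          rw [← div_le_iff₀ hZ0]
          have e1 : 1 / (2 * (n : ℝ)) = 2 * (1 / (4 * (n : ℝ))) := by
            field_simp; norm_num
          have e2 : ((4 * n : ℕ) : ℝ) = 4 * (n : ℝ) := by push_cast; ring
          rw [e2]
          linarith [hc'.1]
        have hw : 0 ≤ 1 - 1 / ((4 * n : ℕ) : ℝ) := by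
          have hK' : (1 : ℝ) ≤ ((4 * n : ℕ) : ℝ) := by exact_mod_cast hK
          have : 1 / ((4 * n : ℕ) : ℝ) ≤ 1 := by rw [div_le_one (by linarith)]; exact hK'
          linarith
        have h6' : M.Z Ω s (M.cand p q) ≤ 2 ^ n * (1 - 1 / ((4 * n : ℕ) : ℝ)) ^ (m + 1) := by
          refine hdec.trans ?_
          calc (1 - 1 / ((4 * n : ℕ) : ℝ)) * M.Z Ω s p
              ≤ (1 - 1 / ((4 * n : ℕ) : ℝ)) * (2 ^ n * (1 - 1 / ((4 * n : ℕ) : ℝ)) ^ m) :=
                mul_le_mul_of_nonneg_left h6 hw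
            _ = _ := by ring
        refine ⟨h1, Nat.zero_le _, ?_, ?_, m + 1, fun h => absurd h c1, h6', h7', ?_, ?_, ?_⟩
        · simp only; push_cast; exact hu2.1
        · simp only; push_cast; exact hu2.2
        · exact ANN.moves_le hK ((Z_ge hM hV').trans h6')
        · intro q' hq'; simp at hq'
        · right
          simp only
          have : (m + 1) * (2 * M.n + 1) = m * (2 * n + 1) + (2 * n + 1) := by rw [← hndef]; ring
          omega
      · have hA : M.astep a (s, p, Zh, q) u = (s, p, Zh, q + 1) := by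
          unfold Mdl.astep; simp only; rw [if_neg c1, if_pos c2, if_neg c3]
        rw [hA]
        have c3' : 1 - 1 / (2 * (n : ℝ)) < (M.est a s p s (M.cand p q) u : ℝ) := by
          have := (Rat.cast_lt (K := ℝ)).2 (not_le.1 c3)
          push_cast at this
          exact this
        refine ⟨h1, c2, hlo, hhi, m, fun h => absurd h c1, h6, h7, h8, ?_, ?_⟩
        · intro q' hq'
          simp only at hq' ⊢
          by_cases hqq : q' < q
          · exact h9 q' hqq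
          · have : q' = q := by omega
            subst this
            rw [← lt_div_iff₀ hZ0]
            have e1 : 1 / (2 * (n : ℝ)) = 2 * (1 / (4 * (n : ℝ))) := by
              field_simp; norm_num
            have e2 : 1 / (n : ℝ) = 4 * (1 / (4 * (n : ℝ))) := by
              field_simp
            have e3 : 0 < 1 / (4 * (n : ℝ)) := by positivity
            rw [e2]
            linarith [hc'.2]
        · simp only; rw [← hndef]; omega
    · rw [Pb_false]
      · positivity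
      · intro u _ hu
        apply hu
        have hA : M.astep a (s, p, Zh, q) u = (s, p, Zh, q) := by
          unfold Mdl.astep; simp only; rw [if_neg c1, if_neg c2]
        rw [hA]
        exact ⟨h1, h3, hlo, hhi, m, h2, h6, h7, h8, h9, Or.inl (by simp only; omega)⟩

end

end EANN

theorem EANN_proof (hEst : EEstStmt) : EAnnStmt := by
  intro M Ω A a hM ha
  have hItr := ITR_proof AV_proof
  have hn := hM.pos
  have hT := EANN.eTt_ge M.n
  have hT' := EANN.eTt_ge' M.n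
  have ha' : (1 : ℝ) ≤ a := by exact_mod_cast ha
  constructor
  · intro u
    have h := (hItr St (M.bE a) (M.astep a) (0, [], 1, 0) (eTt M.n) _ le_rfl).2.1
      (EANN.Inv M) ⟨by simp, by simp, by simp⟩
      (fun i _ x v _ hx => EANN.inv_step M a i x v hx) u
    obtain ⟨h1, h2, h4⟩ := h
    refine ⟨?_, ⟨le_rfl, h2⟩, h4⟩
    unfold Mdl.prep
    rw [h1]; omega
  · intro c hc
    have hV0 : M.Valid 0 [] := ⟨Nat.zero_le _, by simp⟩
    have h0 : EANN.Good M Ω a 0 (0, [], 1, 0) := by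
      refine ⟨Nat.zero_le _, Nat.zero_le _, ?_, ?_, 0, fun _ => ⟨rfl, rfl, rfl⟩, ?_, by simp,
        Nat.zero_le _, by simp, Or.inr (Nat.zero_le _)⟩
      · simp only [pow_zero, mul_one, Rat.cast_one]
        have h1 := hM.z0
        have h2 : (0 : ℝ) < 1 / (32 * (a : ℝ)) := by positivity
        have h3 : 1 / (32 * (a : ℝ)) ≤ 1 := by rw [div_le_one (by positivity)]; linarith
        have h4 := mul_le_mul_of_nonneg_left h1 (by linarith : 0 ≤ 1 - 1 / (32 * (a : ℝ)))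
        nlinarith
      · simp only [pow_zero, one_mul, Rat.cast_one]; exact EANN.Z_ge hM hV0
      · simp only [pow_zero, mul_one]; exact EANN.Z_top hM 0
    have h := (hItr St (M.bE a) (M.astep a) (0, [], 1, 0) (eTt M.n) c hc).2.2
      (EANN.Good M Ω a) _ h0 (fun i _ x hx => EANN.good_step hEst hM ha i x hx)
    have hfin : (eTt M.n : ℝ) * ((2 : ℝ)⁻¹ ^ (a + 1) / (eTt M.n + 1)) ≤ (2 : ℝ)⁻¹ ^ (a + 1) := by
      rw [← mul_div_assoc, div_le_iff₀ (by positivity)]
      have : (0 : ℝ) ≤ (2 : ℝ)⁻¹ ^ (a + 1) := by positivity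
      nlinarith
    refine le_trans (Pb_mono fun u _ hu => ?_) (h.trans hfin)
    intro hG
    apply hu
    change EANN.Good M Ω a (eTt M.n) (M.prep a u) at hG
    generalize M.prep a u = st at hG ⊢
    obtain ⟨s, p, Zh, q⟩ := st
    obtain ⟨h1, h3, h4, h5, m, h2, h6, h7, h8, h9, h10⟩ := hG
    simp only at h1 h2 h3 h4 h5 h6 h7 h8 h9 h10 ⊢
    have hm : m * (2 * M.n + 1) ≤ 4 * M.n * M.n * (2 * M.n + 1) := Nat.mul_le_mul_right _ h8
    have hq : q = 2 * M.n := by omega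
    have hs : s = M.n := by
      by_contra hs
      have := h2 (by omega)
      omega
    subst hs
    have hV : M.Valid M.n p := ⟨le_rfl, fun v => (h7 v).trans (by omega)⟩
    have hZ1 := EANN.Z_ge hM hV
    constructor
    · refine hM.dsc p (fun v => lt_of_le_of_lt (h7 v) (by omega)) ?_
      intro v hv δ hδ
      rcases hδ with rfl | rfl
      · have := h9 (2 * v) (by omega)
        unfold Mdl.cand at this
        rw [if_pos (by omega), show 2 * v / 2 = v by omega] at this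
        exact this
      · have := h9 (2 * v + 1) (by omega)
        unfold Mdl.cand at this
        rw [if_neg (by omega), show (2 * v + 1) / 2 = v by omega] at this
        exact this
    · have hnM : (1 : ℝ) ≤ (M.n : ℝ) := by exact_mod_cast hn
      have hT1 : (1 : ℝ) ≤ eTt M.n := by
        have : 1 ≤ eTt M.n := by omega
        exact_mod_cast this
      have hXi : (eXi M.n a : ℝ) = 1024 * (M.n : ℝ) * a * eTt M.n := by
        unfold eXi; push_cast; ring
      have hX0 : (0 : ℝ) < eXi M.n a := by rw [hXi]; positivity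
      have haT : (1 : ℝ) ≤ (a : ℝ) * eTt M.n := by nlinarith
      refine EANN.final ha' (by positivity) ?_ ?_ (by linarith) h4 h5
      · rw [div_le_one hX0, hXi]; nlinarith
      · rw [div_mul_eq_mul_div, div_le_div_iff₀ hX0 (by positivity), hXi]
        nlinarith

end Crest.Agent.R302
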