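import Crest.Agent.R302.DefsE
import Crest.Agent.R309.KT
import Crest.Agent.R309.SAMP
import Crest.Agent.R309.MIX

/-! Row 302, task ESAMP: the chain of the generic engine mixes. -/

set_option autoImplicit false

namespace Crest.Agent.R302

open Finset Crest.Agent.PT Crest.Agent.QC Crest.Agent.R317 Crest.Agent.R300U Crest.Agent.R309

namespace ESAMP

theorem crs_zero (w : ℚ) : crs w 0 = 0 := by simp [crs]

theorem acq_zero (w : ℚ) : acq w 0 = 0 := by simp [acq, crs_zero]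

theorem accN_zero (B : ℕ) (w : ℚ) : accN B w 0 = 0 := by simp [accN, crs_zero]

theorem Av_two (G : ℕ → ℕ → ℝ) :
    Av 2 (fun t => G (fld t 0 1) (fld t 1 1)) = (G 0 0 + G 1 0 + G 0 1 + G 1 1) / 4 := by
  unfold Av
  have e4 : (2 : ℕ) ^ 2 = 4 := by norm_num
  rw [e4]
  simp only [sum_range_succ, sum_range_zero, zero_add]
  have a0 : fld 0 0 1 = 0 := by decide
  have a1 : fld 1 0 1 = 1 := by decide
  have a2 : fld 2 0 1 = 0 := by decide
  have a3 : fld 3 0 1 = 1 := by decide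
  have b0 : fld 0 1 1 = 0 := by decide
  have b1 : fld 1 1 1 = 0 := by decide
  have b2 : fld 2 1 1 = 1 := by decide
  have b3 : fld 3 1 1 = 1 := by decide
  rw [a0, a1, a2, a3, b0, b1, b2, b3]
  norm_num

/-- the law of the proposal -/
theorem Av_prop (M : Mdl) (x : List ℤ) (ψ : List ℤ → ℝ) (h0 : ψ x = 0) :
    Av M.b0 (fun v => ψ (M.prop x v)) =
      ∑ i ∈ range M.n, ∑ σ ∈ range 2, ψ (M.mv i σ x) / (4 * (2 : ℝ) ^ M.aB) := by
  have e := Av_split M.aB 2 (fun i t =>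
    ψ (if i < M.n ∧ fld t 0 1 = 1 then M.mv (un M.n i) (un 1 (fld t 1 1)) x else x))
  have e0 : M.b0 = M.aB + 2 := rfl
  rw [e0]
  refine Eq.trans (Eq.trans (Av_congr fun v _ => ?_) e) ?_
  · unfold Mdl.prop
    simp only [fld_div, add_zero]
    simp only [fld_zero]
  have hA : M.n ≤ 2 ^ M.aB := (Nat.lt_size_self _).le
  set T : ℕ → ℝ := fun i => Av 2 (fun t => ψ (if i < M.n ∧ fld t 0 1 = 1 then
      M.mv (un M.n i) (un 1 (fld t 1 1)) x else x)) with hT
  have z : ∀ i, M.n ≤ i → T i = 0 := by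
    intro i hi
    rw [hT]
    simp only
    rw [← Av_const 2 0]
    refine Av_congr fun t _ => ?_
    rw [if_neg (fun h => by omega), h0]
  have e2 : ∑ i ∈ range (2 ^ M.aB), T i = ∑ i ∈ range M.n, T i := by
    symm
    refine sum_subset (range_subset_range.2 hA) fun i _ hi => z i (by simpa using hi)
  show (∑ i ∈ range (2 ^ M.aB), T i) / 2 ^ M.aB = _
  rw [e2, sum_div]
  refine sum_congr rfl fun k hk => ?_
  have hk' := mem_range.1 hk
  have u1 : un M.n k = k := min_eq_left hk'.le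
  have e3 : T k = (ψ (M.mv k 0 x) + ψ (M.mv k 1 x)) / 4 := by
    rw [hT]
    simp only [u1]
    have := Av_two (fun e σ => ψ (if k < M.n ∧ e = 1 then M.mv k (un 1 σ) x else x))
    rw [this]
    have v0 : un 1 0 = 0 := by decide
    have v1 : un 1 1 = 1 := by decide
    simp only [hk', true_and, zero_ne_one, if_false, if_true, h0, v0, v1]
    ring
  rw [e3]
  simp only [sum_range_succ, sum_range_zero, zero_add]
  field_simp

/-- off-diagonal part of the kernel -/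
noncomputable def ofd (M : Mdl) (w : List ℤ → ℚ) (x y : List ℤ) : ℝ :=
  ∑ i ∈ range M.n, ∑ σ ∈ range 2,
    if M.mv i σ x = y then acq (w x) (w y) / (4 * (2 : ℝ) ^ M.aB) else 0

/-- the kernel -/
noncomputable def ker (M : Mdl) (Ω : Finset (List ℤ)) (w : List ℤ → ℚ) (x y : List ℤ) : ℝ :=
  ofd M w x y + if x = y then 1 - ∑ z ∈ Ω, ofd M w x z else 0

theorem sum_off (M : Mdl) (Ω : Finset (List ℤ)) (w : List ℤ → ℚ) (hz : ∀ y, y ∉ Ω → w y = 0)
    (x : List ℤ) (G : List ℤ → ℝ) :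
    ∑ y ∈ Ω, ofd M w x y * G y = ∑ i ∈ range M.n, ∑ σ ∈ range 2,
      acq (w x) (w (M.mv i σ x)) * G (M.mv i σ x) / (4 * (2 : ℝ) ^ M.aB) := by
  unfold ofd
  simp only [sum_mul]
  rw [sum_comm]
  refine sum_congr rfl fun i _ => ?_
  rw [sum_comm]
  refine sum_congr rfl fun σ _ => ?_
  simp only [ite_mul, zero_mul]
  rw [sum_ite_eq]
  split_ifs with h
  · ring
  · rw [hz _ h, acq_zero]; simp

theorem acq_le {w w' : ℚ} (hw : 0 < w) (hw' : 0 ≤ w') :
    0 ≤ acq w w' ∧ acq w w' ≤ 1 ∧ min (w : ℝ) w' ≤ 2 * (w * acq w w') := by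
  rcases hw'.eq_or_lt with h | h
  · subst h
    rw [acq_zero]
    refine ⟨le_rfl, zero_le_one, ?_⟩
    simp
  · obtain ⟨a, b, -, d⟩ := KT.acq_facts w w' hw h
    exact ⟨a, b, d⟩

end ESAMP

open ESAMP in
theorem ESAMP_proof : ESampStmt := by
  intro M Ω A a hM s p hv
  set w : List ℤ → ℚ := M.W s p with hwdef
  have hz : ∀ y, y ∉ Ω → w y = 0 := fun y hy => hM.zero s p y hy
  have hw : ∀ x ∈ Ω, 0 < w x := fun x hx => (hM.ht s p hv x hx).1
  have hw0 : ∀ y, 0 ≤ w y := fun y => by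
    by_cases hy : y ∈ Ω
    · exact (hw y hy).le
    · rw [hz y hy]
  have hstep : ∀ x ∈ Ω, ∀ u, M.mstep s p x u ∈ Ω := by
    intro x hx u
    unfold Mdl.mstep
    split_ifs with h
    · by_contra hc
      rw [hM.zero s p _ hc, accN_zero] at h
      omega
    · exact hx
  refine ⟨fun T u => ?_, fun B φ hφ => ?_⟩
  · unfold Mdl.samp
    induction T with
    | zero => exact hM.mem0
    | succ T ih => rw [iterN]; exact hstep _ ih _
  set n := M.n with hn
  have hn1 : 1 ≤ n := hM.pos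
  have hA0 : (0 : ℝ) < 4 * 2 ^ M.aB := by positivity
  have hnA : (n : ℝ) ≤ 2 ^ M.aB := by
    have : M.n ≤ 2 ^ M.aB := (Nat.lt_size_self _).le
    exact_mod_cast this
  have hKop : ∀ (f : List ℤ → ℝ), ∀ x ∈ Ω, Kop Ω (ker M Ω w) f x =
      f x + ∑ y ∈ Ω, ofd M w x y * (f y - f x) := by
    intro f x hx
    unfold Kop ker
    simp only [add_mul, ite_mul, zero_mul, sum_add_distrib, mul_sub, sum_sub_distrib]
    rw [sum_ite_eq, if_pos hx, ← sum_mul]
    ring
  have hKt : ∀ (f : List ℤ → ℝ), ∀ x ∈ Ω, Kt M.b1 (M.mstep s p) f x = Kop Ω (ker M Ω w) f x := by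
    intro f x hx
    have hsz : ∀ y, (max (crs (w x) (w y)) (crs (w y) (w x))).size ≤ 2 * M.h := by
      intro y
      obtain ⟨-, a1, a2⟩ := hM.ht s p hv x hx
      rw [Nat.size_le, two_mul, pow_add]
      by_cases hy : y ∈ Ω
      · obtain ⟨-, b1, b2⟩ := hM.ht s p hv y hy
        unfold crs
        exact max_lt (Nat.mul_lt_mul'' b1 a2) (Nat.mul_lt_mul'' a1 b2)
      · rw [hz y hy, crs_zero]
        refine max_lt (by positivity) ?_
        unfold crs
        rw [Rat.den_zero, mul_one]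
        exact lt_of_lt_of_le a1 (Nat.le_mul_of_pos_right _ (by positivity))
    set ψ : List ℤ → ℝ := fun l => acq (w x) (w l) * (f l - f x) with hψ
    have h0 : ψ x = 0 := by simp [hψ]
    have e1 : Kt M.b1 (M.mstep s p) f x = f x + Av M.b0 (fun v => ψ (M.prop x v)) := by
      unfold Kt
      have e := Av_fld_fld (c := M.b1) (s := 0) (k := M.b0) (s' := M.b0) (k' := 2 * M.h)
        (by omega) (by unfold Mdl.b1; omega) (fun v r =>
          if r < accN (2 * M.h) (w x) (w (M.prop x v)) then f (M.prop x v) else f x)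
      rw [← Av_const M.b0 (f x), ← Av_add]
      refine Eq.trans (Av_congr fun u _ => ?_) (e.trans (Av_congr fun v _ => ?_))
      · unfold Mdl.mstep
        split_ifs <;> rfl
      · rw [KT.Av_accept (hsz _)]
    rw [e1, Av_prop M x ψ h0, hKop f x hx, sum_off M Ω w hz x (fun y => f y - f x)]
  have hit : ∀ T, ∀ x ∈ Ω, (Kt M.b1 (M.mstep s p))^[T] φ x = (Kop Ω (ker M Ω w))^[T] φ x := by
    intro T
    induction T with
    | zero => intro x _; rfl
    | succ T ih =>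
      intro x hx
      rw [Function.iterate_succ_apply', Function.iterate_succ_apply', hKt _ x hx]
      unfold Kop
      exact sum_congr rfl fun y hy => by
        have := ih y hy
        unfold Kop at this
        simp only [this]
  have hπ : ∀ x ∈ Ω, (0 : ℝ) < w x := fun x hx => by exact_mod_cast hw x hx
  have hoff0 : ∀ x ∈ Ω, ∀ y, 0 ≤ ofd M w x y := by
    intro x hx y
    unfold ofd
    refine sum_nonneg fun i _ => sum_nonneg fun σ _ => ?_
    split_ifs
    · exact div_nonneg (acq_le (hw x hx) (hw0 y)).1 hA0.le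
    · exact le_rfl
  have hso : ∀ x ∈ Ω, ∑ z ∈ Ω, ofd M w x z ≤ 1 / 2 := by
    intro x hx
    have e := sum_off M Ω w hz x (fun _ => 1)
    simp only [mul_one] at e
    rw [e]
    calc _ ≤ ∑ i ∈ range M.n, ∑ σ ∈ range 2, 1 / (4 * (2 : ℝ) ^ M.aB) :=
          sum_le_sum fun i _ => sum_le_sum fun σ _ =>
            div_le_div_of_nonneg_right (acq_le (hw x hx) (hw0 _)).2.1 hA0.le
      _ = n * (2 / (4 * (2 : ℝ) ^ M.aB)) := by
          simp only [sum_const, card_range, nsmul_eq_mul, hn]; push_cast; ring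
      _ ≤ 2 ^ M.aB * (2 / (4 * (2 : ℝ) ^ M.aB)) := mul_le_mul_of_nonneg_right hnA (by positivity)
      _ = 1 / 2 := by field_simp; norm_num
  have hrev : ∀ x ∈ Ω, ∀ y ∈ Ω, (w x : ℝ) * ofd M w x y = w y * ofd M w y x := by
    intro x hx y hy
    unfold ofd
    simp only [mul_sum]
    refine sum_congr rfl fun i hi => ?_
    have hi' := mem_range.1 hi
    have r := (KT.acq_facts _ _ (hw x hx) (hw y hy)).2.2.1
    have k : ∀ σ < 2, (M.mv i σ x = y ↔ M.mv i (1 - σ) y = x) := by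
      intro σ hσ
      constructor
      · intro h; rw [← h]; exact hM.inv i hi' σ hσ x hx
      · intro h
        have := hM.inv i hi' (1 - σ) (by omega) y hy
        rw [h, show 1 - (1 - σ) = σ by omega] at this
        exact this
    simp only [sum_range_succ, sum_range_zero, zero_add]
    have k0 := k 0 (by omega)
    have k1 := k 1 (by omega)
    simp only [Nat.sub_zero, Nat.sub_self] at k0 k1
    simp only [k0, k1, mul_ite, mul_zero, ← mul_div_assoc, r]
    ring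
  have k1 : ∀ x ∈ Ω, ∀ y ∈ Ω, 0 ≤ ker M Ω w x y ∧
      (w x : ℝ) * ker M Ω w x y = w y * ker M Ω w y x := by
    intro x hx y hy
    unfold ker
    by_cases hxy : x = y
    · subst hxy
      refine ⟨?_, rfl⟩
      rw [if_pos rfl]
      linarith [hso x hx, hoff0 x hx x]
    · rw [if_neg hxy, if_neg (Ne.symm hxy), add_zero, add_zero]
      exact ⟨hoff0 x hx y, hrev x hx y hy⟩
  have k2 : ∀ x ∈ Ω, ∑ y ∈ Ω, ker M Ω w x y = 1 ∧ 1 / 2 ≤ ker M Ω w x x := by
    intro x hx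
    unfold ker
    refine ⟨?_, ?_⟩
    · rw [sum_add_distrib, sum_ite_eq, if_pos hx]; ring
    · rw [if_pos rfl]; linarith [hso x hx, hoff0 x hx x]
  have hC1 : 1 ≤ eC n := by
    unfold eC
    exact Nat.mul_pos (by omega) (by omega)
  have hA : (2 : ℝ) ^ M.aB ≤ 2 * n + 1 := by
    have h1 := SAMP.two_pow_size_le M.n
    have h3 : 2 ^ M.aB ≤ 2 * n + 1 := h1
    exact_mod_cast h3
  have hpo : ∀ f, 2 * Var Ω (fun x => (w x : ℝ)) f ≤
      (eC n : ℝ) * ∑ x ∈ Ω, ∑ y ∈ Ω, (w x : ℝ) * ker M Ω w x y * (f x - f y) ^ 2 := by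
    intro f
    have a1 := hM.poi s p hv f
    have e1 : ∀ x ∈ Ω, ∑ y ∈ Ω, (w x : ℝ) * ker M Ω w x y * (f x - f y) ^ 2 =
        ∑ i ∈ range M.n, ∑ σ ∈ range 2,
          acq (w x) (w (M.mv i σ x)) * ((w x : ℝ) * (f (M.mv i σ x) - f x) ^ 2) /
            (4 * (2 : ℝ) ^ M.aB) := by
      intro x _
      rw [← sum_off M Ω w hz x (fun y => (w x : ℝ) * (f y - f x) ^ 2)]
      refine sum_congr rfl fun y _ => ?_
      unfold ker
      by_cases hxy : x = y
      · subst hxy; simp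
      · rw [if_neg hxy]; ring
    have a2 : ∑ i ∈ range M.n, ∑ x ∈ Ω,
        min (w x : ℝ) (w (M.mv i 1 x)) * (f (M.mv i 1 x) - f x) ^ 2 ≤
        (8 * 2 ^ M.aB) * ∑ x ∈ Ω, ∑ y ∈ Ω, (w x : ℝ) * ker M Ω w x y * (f x - f y) ^ 2 := by
      rw [sum_congr rfl e1, sum_comm (s := Ω), mul_sum]
      refine sum_le_sum fun i _ => ?_
      rw [mul_sum]
      refine sum_le_sum fun x hx => ?_
      simp only [sum_range_succ, sum_range_zero, zero_add]
      obtain ⟨c1, -, -⟩ := acq_le (hw x hx) (hw0 (M.mv i 0 x))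
      obtain ⟨-, -, c3⟩ := acq_le (hw x hx) (hw0 (M.mv i 1 x))
      have c4 : 0 ≤ acq (w x) (w (M.mv i 0 x)) * ((w x : ℝ) * (f (M.mv i 0 x) - f x) ^ 2) :=
        mul_nonneg c1 (mul_nonneg (hπ x hx).le (sq_nonneg _))
      have c5 := mul_le_mul_of_nonneg_right c3 (sq_nonneg (f (M.mv i 1 x) - f x))
      have e : ∀ X Y : ℝ, (8 * 2 ^ M.aB) * (X / (4 * (2 : ℝ) ^ M.aB) + Y / (4 * (2 : ℝ) ^ M.aB)) =
          2 * X + 2 * Y := fun X Y => by field_simp; ring
      rw [e]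
      nlinarith
    have a3 : 0 ≤ ∑ x ∈ Ω, ∑ y ∈ Ω, (w x : ℝ) * ker M Ω w x y * (f x - f y) ^ 2 :=
      sum_nonneg fun x hx => sum_nonneg fun y hy =>
        mul_nonneg (mul_nonneg (hπ x hx).le (k1 x hx y hy).1) (sq_nonneg _)
    have hn0 : (0 : ℝ) ≤ n := Nat.cast_nonneg _
    have a5 := a1.trans (mul_le_mul_of_nonneg_left a2 hn0)
    have e : (eC n : ℝ) = 32 * n * (n + 1) := by unfold eC; push_cast; ring
    rw [e]
    have a6 := mul_le_mul_of_nonneg_right hA (mul_nonneg hn0 a3)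
    have a7 := mul_nonneg hn0 a3
    nlinarith
  have hm := MIX_proof _ Ω (fun x => (w x : ℝ)) (ker M Ω w) (eC n) (by exact_mod_cast hC1) hπ k1 k2
    hpo φ (fun x _ => hφ _) M.x0 hM.mem0 (eT n B)
  have z1 : ∑ x ∈ Ω, (w x : ℝ) ≤ 2 ^ n * 2 ^ (n * eTt n) := by
    have := sum_le_card_nsmul Ω (fun x => (w x : ℝ)) (2 ^ (n * eTt n)) (fun x hx => by
      have := hM.up s p hv x hx
      exact_mod_cast this)
    rw [nsmul_eq_mul] at this
    refine this.trans (mul_le_mul_of_nonneg_right ?_ (by positivity))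
    exact_mod_cast hM.card
  have z2 : (∑ x ∈ Ω, (w x : ℝ)) / (w M.x0 : ℝ) ≤ 2 ^ eB1 n := by
    have h0 : w M.x0 = 1 := hM.w0 s p
    rw [h0, Rat.cast_one, div_one]
    unfold eB1
    rw [pow_add]
    exact z1
  have hC' : (1 : ℝ) ≤ eC n := by exact_mod_cast hC1
  have h0 : 0 ≤ 1 - 1 / (eC n : ℝ) := by
    have : 1 / (eC n : ℝ) ≤ 1 := (div_le_one (by linarith)).2 hC'
    linarith
  have z3 : (1 - 1 / (eC n : ℝ)) ^ eT n B ≤ 2⁻¹ ^ (eB1 n + 2 * B) := by
    unfold eT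
    rw [pow_mul]
    exact pow_le_pow_left₀ (pow_nonneg h0 _) (SAMP.half_pow _ hC1) _
  have z4 := mul_le_mul z2 z3 (pow_nonneg h0 _) (by positivity)
  have e : (2 : ℝ) ^ eB1 n * 2⁻¹ ^ (eB1 n + 2 * B) = (2⁻¹ ^ B) ^ 2 := by
    rw [pow_add, ← mul_assoc, ← mul_pow, mul_inv_cancel₀ (by norm_num), one_pow, one_mul,
      ← pow_mul, mul_comm]
  rw [e] at z4
  rw [hit _ M.x0 hM.mem0]
  exact abs_le_of_sq_le_sq' (hm.trans z4) (by positivity) |> abs_le.2

end Crest.Agent.R302
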