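import Crest.Agent.R302.EEST
import Crest.Agent.R302.EANN
import Crest.Agent.R302.ESAMP

/-!
Row 302: the counter of the generic engine.
-/

set_option autoImplicit false

namespace Crest.Agent.R302

open Finset Crest.Agent.PT Crest.Agent.QC Crest.Agent.R317 Crest.Agent.R300U Crest.Agent.R309

namespace ECNT

theorem arith {a N Z Zh e X : ℝ} (ha : 1 ≤ a) (hZ : 0 < Z) (hZN : Z ≤ 8 * N)
    (h1 : |Zh - Z| ≤ Z / (8 * a)) (h2 : |e - N / Z| ≤ 3 / X) (hX : 1024 * a ≤ X) :
    |Zh * e - N| ≤ N / (4 * a) := by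
  have ha0 : 0 < a := by linarith
  have hN : 0 ≤ N := by linarith
  set t := 1 / a with ht
  have ht0 : 0 < t := by positivity
  have ht1 : t ≤ 1 := by rw [ht, div_le_one ha0]; exact ha
  obtain ⟨η, hη, rfl⟩ : ∃ η : ℝ, |η| ≤ t / 8 ∧ Zh = Z * (1 + η) := by
    refine ⟨(Zh - Z) / Z, ?_, by field_simp; ring⟩
    rw [abs_div, abs_of_pos hZ, div_le_iff₀ hZ]
    calc |Zh - Z| ≤ Z / (8 * a) := h1
      _ = t / 8 * Z := by rw [ht]; field_simp
  have h3 : |Z * e - N| ≤ N * (t / 32) := by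
    have e1 : Z * e - N = Z * (e - N / Z) := by field_simp
    have e2 : 3 / X ≤ t / 256 := by
      calc 3 / X ≤ 3 / (1024 * a) := div_le_div_of_nonneg_left (by norm_num) (by positivity) hX
        _ = 3 * t / 1024 := by rw [ht]; field_simp
        _ ≤ t / 256 := by linarith
    rw [e1, abs_mul, abs_of_pos hZ]
    calc Z * |e - N / Z| ≤ (8 * N) * (t / 256) := by
          gcongr
          exact h2.trans e2
      _ = N * (t / 32) := by ring
  obtain ⟨a1, a2⟩ := abs_le.1 hη
  obtain ⟨b1, b2⟩ := abs_le.1 h3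
  have e3 : Z * (1 + η) * e = (1 + η) * (Z * e) := by ring
  have e4 : N / (4 * a) = N * t / 4 := by rw [ht]; field_simp
  rw [e3, e4]
  have hNt : 0 ≤ N * t := by positivity
  have hNt1 : N * t ≤ N := mul_le_of_le_one_right hN ht1
  have hNtt : N * t * t ≤ N * t := mul_le_of_le_one_right hNt ht1
  have hNtt0 : 0 ≤ N * t * t := by positivity
  rw [abs_le]
  constructor
  · have : (1 - t / 8) * (N - N * (t / 32)) ≤ (1 + η) * (Z * e) :=
      mul_le_mul (by linarith) (by linarith) (by linarith) (by linarith)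
    nlinarith
  · have : (1 + η) * (Z * e) ≤ (1 + t / 8) * (N + N * (t / 32)) :=
      mul_le_mul (by linarith) (by linarith) (by linarith) (by linarith)
    nlinarith

end ECNT

theorem ECNT_proof (hEst : EEstStmt) (hAnn : EAnnStmt) : ECntStmt := by
  intro M Ω A a hM ha
  obtain ⟨hs, hp⟩ := hAnn M Ω A a hM ha
  refine ⟨fun u => ?_, ?_⟩
  · unfold Mdl.cntq Mdl.estA
    have := (hs (fld u 0 (M.bP a))).2.2
    positivity
  · let B1 : ℕ → Prop := fun u =>
      ¬ (M.Z Ω M.n (M.prep a u).2.1 ≤ 8 * A ∧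
        |((M.prep a u).2.2.1 : ℝ) - M.Z Ω M.n (M.prep a u).2.1| ≤
          M.Z Ω M.n (M.prep a u).2.1 / (8 * a))
    let B2 : ℕ → ℕ → Prop := fun w v => 3 / (eXi M.n a : ℝ) <
      |(M.estA a M.n (M.prep a w).2.1 v : ℝ) - A / M.Z Ω M.n (M.prep a w).2.1|
    have h1 : Pb (M.bP a + M.bE a) (fun u => B1 (fld u 0 (M.bP a))) ≤ (2 : ℝ)⁻¹ ^ (a + 1) := by
      rw [Pb_fld (by omega) B1]
      exact hp _ le_rfl
    have h2 : Pb (M.bP a + M.bE a) (fun u => B2 (fld u 0 (M.bP a)) (fld u (M.bP a) (M.bE a))) ≤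
        (2 : ℝ)⁻¹ ^ (a + 1) := by
      rw [Pb_fld_fld (by omega) le_rfl B2]
      exact Av_le_const fun w _ => (hEst M Ω A a hM ha _ _ (hs w).2.1).2 rfl
    have h3 := Pb_le_add (c := M.bP a + M.bE a)
      (E := fun u => ¬ (|(M.cntq a u : ℝ) - A| ≤ A / (4 * a)))
      (E₁ := fun u => B1 (fld u 0 (M.bP a)))
      (E₂ := fun u => B2 (fld u 0 (M.bP a)) (fld u (M.bP a) (M.bE a))) (fun u _ hu => by
        by_contra hc
        rw [not_or] at hc
        obtain ⟨c1, c2⟩ := hc
        simp only [B1, not_not] at c1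
        simp only [B2, not_lt] at c2
        apply hu
        have hX : 1024 * (a : ℝ) ≤ eXi M.n a := by exact_mod_cast EEST.eXi_ge hM.pos a
        have := ECNT.arith (by exact_mod_cast ha)
          (lt_of_lt_of_le one_pos (EANN.Z_ge hM (hs (fld u 0 (M.bP a))).2.1)) c1.1 c1.2 c2 hX
        unfold Mdl.cntq
        push_cast
        exact this)
    rw [Pb_not] at h3
    rw [pow_succ] at h1 h2
    linarith

/-- the counter of the generic engine, with no hypotheses -/
theorem ecnt : ECntStmt :=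
  ECNT_proof (EEST_proof ESAMP_proof) (EANN_proof (EEST_proof ESAMP_proof))

end Crest.Agent.R302
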