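import Crest.Agent.R302.DefsE
import Crest.Agent.R309.PT2

/-! Row 302, task EOPT: the engine is polynomial-time with an oracle. -/

set_option autoImplicit false

namespace Crest.Agent.R302

open Finset Crest.Agent.PT Crest.Agent.QC Crest.Agent.R317 Crest.Agent.R300U Crest.Agent.R309

variable {α β : Type} [Enc α] [Enc β]

/-- random iterations with a size bound -/
theorem opt_iterN {b u T : α → ℕ} {σ : Orc → α → β → ℕ → β} {x₀ : Orc → α → β} (hb : PT b)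
    (hσ : OPT (fun O (q : α × β × Bin) => σ O q.1 q.2.1 q.2.2.val)) (hx : OPT x₀) (hu : BT u)
    (hT : PT T) {B : α → ℕ} (hB : PB B)
    (h : ∀ O a i, i ≤ T a → sz (iterN (b a) (σ O a) (x₀ O a) (u a) i) ≤ B a) :
    OPT (fun O a => iterN (b a) (σ O a) (x₀ O a) (u a) (T a)) :=
  (OPT.natRec (S := fun O a i x => σ O a x (fld (u a) (i * b a) (b a))) hT hx
    (hσ.pre (f := fun q : α × ℕ × β => (q.1, q.2.2, (⟨fld (u q.1) (q.2.1 * b q.1) (b q.1)⟩ : Bin)))
      (PT.pair (by fun_prop) (PT.pair (by fun_prop) (BT.mk (BT.fld (hu.comp (by fun_prop))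
        (by fun_prop) (by fun_prop)))))) hB
    (fun O a i hi => by rw [← PT2.iterN_eq_rec]; exact h O a i hi)).congr
    (fun _ _ => (PT2.iterN_eq_rec _ _ _ _ _).symm)

/-- branching on an oracle-dependent proposition -/
theorem OPT.iteO {p : Orc → α → Prop} [∀ O a, Decidable (p O a)] {F G : Orc → α → β}
    (hp : OPT (fun O a => decide (p O a))) (hF : OPT F) (hG : OPT G) :
    OPT (fun O a => if p O a then F O a else G O a) :=
  (OPT.cond hp hF hG).congr (fun O a => by by_cases h : p O a <;> simp [h])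

open Classical in
/-- counting successes (in unary) -/
theorem opt_cnt {b N u : α → ℕ} {p : Orc → α → ℕ → Prop} (hb : PT b) (hN : PT N)
    (hp : OPT (fun O (q : α × Bin) => decide (p O q.1 q.2.val))) (hu : BT u) :
    OPT (fun O a => cnt (b a) (N a) (p O a) (u a)) := by
  refine (OPT.natRec_add (Z := fun _ _ => (0 : ℕ))
    (S := fun O a i c => if p O a (fld (u a) (i * b a) (b a)) then c + 1 else c) hN
    (OPT.pt (PT.const _)) ?_ (C := fun _ => 1) (PB.const 1) (fun O a i c _ => ?_)).congr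
    (fun O a => ?_)
  · refine OPT.iteO (p := fun O (q : α × ℕ × ℕ) => p O q.1 (fld (u q.1) (q.2.1 * b q.1) (b q.1)))
      (hp.pre (f := fun q : α × ℕ × ℕ => (q.1, (⟨fld (u q.1) (q.2.1 * b q.1) (b q.1)⟩ : Bin)))
        (PT.pair (by fun_prop) (BT.mk (BT.fld (hu.comp (by fun_prop)) (by fun_prop) (by fun_prop)))))
      (OPT.pt (by fun_prop)) (OPT.pt (by fun_prop))
  · split_ifs <;> simp
  · unfold cnt
    generalize N a = k
    induction k with
    | zero => rfl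
    | succ k ih =>
      rw [sum_range_succ, ← ih]
      show (if _ then _ else _) = _
      split_ifs <;> rfl

namespace EOPT

@[fun_prop] theorem pt_eTt {n : α → ℕ} (hn : PT n) : PT (fun a => eTt (n a)) := by
  unfold eTt; fun_prop

@[fun_prop] theorem pt_eC {n : α → ℕ} (hn : PT n) : PT (fun a => eC (n a)) := by
  unfold eC; fun_prop

@[fun_prop] theorem pt_eB1 {n : α → ℕ} (hn : PT n) : PT (fun a => eB1 (n a)) := by
  unfold eB1; fun_prop

@[fun_prop] theorem pt_eT {n A : α → ℕ} (hn : PT n) (hA : PT A) : PT (fun a => eT (n a) (A a)) := by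
  unfold eT; fun_prop

@[fun_prop] theorem pt_eXi {n A : α → ℕ} (hn : PT n) (hA : PT A) :
    PT (fun a => eXi (n a) (A a)) := by
  unfold eXi; fun_prop

@[fun_prop] theorem pt_eN {n A : α → ℕ} (hn : PT n) (hA : PT A) : PT (fun a => eN (n a) (A a)) := by
  unfold eN; fun_prop

def fb1 (n h : ℕ) : ℕ := n.size + 2 + 2 * h
def fbS (n h a : ℕ) : ℕ := eT n (eXi n a) * fb1 n h
def fbC (n h a : ℕ) : ℕ := fbS n h a + eXi n a
def fbE (n h a : ℕ) : ℕ := eN n a * fbC n h a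
def fbP (n h a : ℕ) : ℕ := eTt n * fbE n h a

@[fun_prop] theorem pt_fb1 {n h : α → ℕ} (hn : PT n) (hh : PT h) :
    PT (fun a => fb1 (n a) (h a)) := by
  unfold fb1; fun_prop

@[fun_prop] theorem pt_fbS {n h A : α → ℕ} (hn : PT n) (hh : PT h) (hA : PT A) :
    PT (fun a => fbS (n a) (h a) (A a)) := by
  unfold fbS; fun_prop

@[fun_prop] theorem pt_fbC {n h A : α → ℕ} (hn : PT n) (hh : PT h) (hA : PT A) :
    PT (fun a => fbC (n a) (h a) (A a)) := by
  unfold fbC; fun_prop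

@[fun_prop] theorem pt_fbE {n h A : α → ℕ} (hn : PT n) (hh : PT h) (hA : PT A) :
    PT (fun a => fbE (n a) (h a) (A a)) := by
  unfold fbE; fun_prop

@[fun_prop] theorem pt_fbP {n h A : α → ℕ} (hn : PT n) (hh : PT h) (hA : PT A) :
    PT (fun a => fbP (n a) (h a) (A a)) := by
  unfold fbP; fun_prop

theorem b1_eq (M : Mdl) : M.b1 = fb1 M.n M.h := rfl
theorem bS_eq (M : Mdl) (a : ℕ) : M.bS a = fbS M.n M.h a := rfl
theorem bC_eq (M : Mdl) (a : ℕ) : M.bC a = fbC M.n M.h a := rfl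
theorem bE_eq (M : Mdl) (a : ℕ) : M.bE a = fbE M.n M.h a := rfl
theorem bP_eq (M : Mdl) (a : ℕ) : M.bP a = fbP M.n M.h a := rfl

theorem mstep_cases (M : Mdl) (s : ℕ) (p x : List ℤ) (u : ℕ) :
    M.mstep s p x u = x ∨ M.W s p (M.mstep s p x u) ≠ 0 := by
  unfold Mdl.mstep
  split_ifs with h
  · right
    intro h0
    rw [h0] at h
    simp [accN, crs] at h
  · exact Or.inl rfl

theorem samp_cases (M : Mdl) (s : ℕ) (p : List ℤ) (T u : ℕ) :
    M.samp s p T u = M.x0 ∨ M.W s p (M.samp s p T u) ≠ 0 := by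
  unfold Mdl.samp
  induction T with
  | zero => exact Or.inl rfl
  | succ T ih =>
    rw [iterN]
    rcases mstep_cases M s p (iterN M.b1 (M.mstep s p) M.x0 u T) (fld u (T * M.b1) M.b1) with h | h
    · rw [h]; exact ih
    · exact Or.inr h

theorem ht_est (M : Mdl) (a s : ℕ) (p : List ℤ) (s' : ℕ) (p' : List ℤ) (u : ℕ) :
    Ht (eN M.n a + 1) (M.est a s p s' p' u : GQ) := by
  have h := PT2.cnt_le (M.bC a) (eN M.n a) (M.coin a s p s' p') u
  have h2 : eN M.n a < 2 ^ eN M.n a := Nat.lt_two_pow_self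
  refine ht_of_parts (x := ((2 * cnt (M.bC a) (eN M.n a) (M.coin a s p s' p') u : ℕ) : ℤ))
    (d := eN M.n a) (by simp [Mdl.est]) ?_ ?_
  · rw [Int.natAbs_natCast, pow_succ]; omega
  · rw [pow_succ]; omega

/-- invariant of the preparation -/
def Inv (M : Mdl) (a k i : ℕ) (st : St) : Prop :=
  st.1 ≤ i ∧ st.2.2.2 ≤ i ∧ st.2.1.length ≤ M.n ∧ (∀ z ∈ st.2.1, z.natAbs ≤ i) ∧
    Ht (k + i * (eN M.n a + 1)) (st.2.2.1 : GQ)

theorem inv_astep {M : Mdl} {a k i : ℕ} {st : St} (h : Inv M a k i st) (u : ℕ) :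
    Inv M a k (i + 1) (M.astep a st u) := by
  obtain ⟨h1, h2, h3, h4, h5⟩ := h
  have h4' : ∀ z ∈ st.2.1, z.natAbs ≤ i + 1 := fun z hz => (h4 z hz).trans (Nat.le_succ _)
  have h5' : Ht (k + (i + 1) * (eN M.n a + 1)) (st.2.2.1 : GQ) :=
    h5.mono (by rw [Nat.succ_mul]; omega)
  have h6 : ∀ s' p', Ht (k + (i + 1) * (eN M.n a + 1))
      ((st.2.2.1 * M.est a st.1 st.2.1 s' p' u : ℚ) : GQ) := by
    intro s' p'
    rw [Rat.cast_mul, Nat.succ_mul, ← add_assoc]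
    exact h5.mul (ht_est _ _ _ _ _ _ _)
  unfold Mdl.astep
  split_ifs
  · exact ⟨Nat.succ_le_succ h1, h2.trans (Nat.le_succ _), h3, h4', h6 _ _⟩
  · refine ⟨h1.trans (Nat.le_succ _), Nat.zero_le _, by simp [Mdl.cand, R309.bump], fun z hz => ?_,
      h6 _ _⟩
    obtain ⟨j, -, rfl⟩ := mem_mkL.1 hz
    have h7 : (st.2.1.getD j 0).natAbs ≤ i := by
      rw [List.getD_eq_getElem?_getD]
      cases e : st.2.1[j]? with
      | none => simp
      | some z => exact h4 z (List.mem_of_getElem? e)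
    split_ifs <;> omega
  · exact ⟨h1.trans (Nat.le_succ _), Nat.succ_le_succ h2, h3, h4', h5'⟩
  · exact ⟨h1.trans (Nat.le_succ _), h2.trans (Nat.le_succ _), h3, h4', h5'⟩

theorem sz_inv {M : Mdl} {a k i T : ℕ} {st : St} (h : Inv M a k i st) (hi : i ≤ T) :
    sz st ≤ 3 * T + 2 * (M.n * (6 * T + 3)) + 40 * (k + T * (eN M.n a + 1) + 1) + 3 := by
  obtain ⟨s, p, z, q⟩ := st
  obtain ⟨h1, h2, h3, h4, h5⟩ := h
  have h6 := (h5.mono (Nat.add_le_add_left (Nat.mul_le_mul_right _ hi) k)).sz_rat_le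
  have h7 := sz_list_le p (3 * T + 1) (fun x hx => by
    have := sz_int_le x
    have := size_le_self x.natAbs
    have := h4 x hx
    omega)
  have h8 : p.length * (2 * (3 * T + 1) + 1) ≤ M.n * (6 * T + 3) :=
    Nat.mul_le_mul h3 (by omega)
  simp only [sz_pair, sz_nat] at *
  omega

/-- the hypotheses -/
structure Hyp (M : Orc → α → Mdl) (n h B : α → ℕ) : Prop where
  hn : PT n
  hh : PT h
  hB : PB B
  hM : ∀ O x, (M O x).n = n x ∧ (M O x).h = h x
  hW : OPT (fun O (q : α × ℕ × List ℤ × List ℤ) => (M O q.1).W q.2.1 q.2.2.1 q.2.2.2)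
  hmv : OPT (fun O (q : α × ℕ × ℕ × List ℤ) => (M O q.1).mv q.2.1 q.2.2.1 q.2.2.2)
  hacc : OPT (fun O (q : α × List ℤ × Bin) => (M O q.1).acc q.2.1 q.2.2.val)
  hx0 : OPT (fun O (x : α) => (M O x).x0)
  hsz : ∀ O x s p y, (M O x).W s p y ≠ 0 → sz y ≤ B x

variable {M : Orc → α → Mdl} {n h B : α → ℕ}

theorem o_prop (H : Hyp M n h B) :
    OPT (fun O (q : α × List ℤ × Bin) => (M O q.1).prop q.2.1 q.2.2.val) := by
  have hn := H.hn
  have h0 : BT (fun q : α × List ℤ × Bin => q.2.2.val) := by fun_prop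
  have h1 : BT (fun q : α × List ℤ × Bin => fld q.2.2.val 0 (n q.1).size) :=
    BT.fld h0 (PT.const _) (by fun_prop)
  refine (OPT.ite (p := fun q : α × List ℤ × Bin =>
      fld q.2.2.val 0 (n q.1).size < n q.1 ∧ fld q.2.2.val (n q.1).size 1 = 1)
    ((DT.lt h1 (by fun_prop)).and (DT.eq (BT.fld h0 (by fun_prop) (PT.const _)) (BT.const _)))
    (H.hmv.pre (f := fun q : α × List ℤ × Bin => (q.1, un (n q.1) (fld q.2.2.val 0 (n q.1).size),
      un 1 (fld q.2.2.val ((n q.1).size + 1) 1), q.2.1))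
      (PT.pair (by fun_prop) (PT.pair (pt_un (by fun_prop) h1) (PT.pair
        (pt_un (PT.const _) (BT.fld h0 (by fun_prop) (PT.const _))) (by fun_prop)))))
    (OPT.pt (f := fun q : α × List ℤ × Bin => q.2.1) (by fun_prop))).congr (fun O q => ?_)
  simp only [Mdl.prop, Mdl.aB, (H.hM O q.1).1]

theorem o_mstep (H : Hyp M n h B) :
    OPT (fun O (q : (α × ℕ × List ℤ) × List ℤ × Bin) =>
      (M O q.1.1).mstep q.1.2.1 q.1.2.2 q.2.1 q.2.2.val) := by
  have hn := H.hn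
  have hh := H.hh
  have h0 : BT (fun q : (α × ℕ × List ℤ) × List ℤ × Bin => q.2.2.val) := by fun_prop
  have h1 := (o_prop H).pre (f := fun q : (α × ℕ × List ℤ) × List ℤ × Bin =>
    (q.1.1, q.2.1, (⟨fld q.2.2.val 0 ((n q.1.1).size + 2)⟩ : Bin)))
    (PT.pair (by fun_prop) (PT.pair (by fun_prop) (BT.mk (BT.fld h0 (PT.const _) (by fun_prop)))))
  have h2 := H.hW.pre (f := fun q : (α × ℕ × List ℤ) × List ℤ × Bin =>
    (q.1.1, q.1.2.1, q.1.2.2, q.2.1)) (by fun_prop)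
  have h3 := H.hW.comp (h1.post₂ (g := fun q y => (q.1.1, q.1.2.1, q.1.2.2, y)) (by fun_prop))
  refine ((h1.pair (h2.pair h3)).post₂ (g := fun q r =>
    if fld q.2.2.val ((n q.1.1).size + 2) (2 * h q.1.1) < accN (2 * h q.1.1) r.2.1 r.2.2 then r.1
    else q.2.1) ?_).congr (fun O q => ?_)
  · exact PT.iteD (DT.lt (BT.fld (by fun_prop) (by fun_prop) (by fun_prop))
      (bt_accN (by fun_prop) (by fun_prop) (by fun_prop))) (by fun_prop) (by fun_prop)
  · simp only [Mdl.mstep, Mdl.b0, Mdl.aB, (H.hM O q.1.1).1, (H.hM O q.1.1).2]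

theorem o_smp (H : Hyp M n h B) :
    OPT (fun O (q : (α × ℕ × List ℤ) × ℕ × Bin) =>
      (M O q.1.1).smp q.2.1 q.1.2.1 q.1.2.2 q.2.2.val) := by
  have hn := H.hn
  have hh := H.hh
  obtain ⟨B0, hB0, hB0'⟩ := H.hx0.pb
  have hf : PT (fun q : (α × ℕ × List ℤ) × ℕ × Bin => q.1.1) := by fun_prop
  refine (opt_iterN (b := fun q : (α × ℕ × List ℤ) × ℕ × Bin => fb1 (n q.1.1) (h q.1.1))
    (u := fun q => q.2.2.val) (T := fun q => eT (n q.1.1) (eXi (n q.1.1) q.2.1))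
    (σ := fun O q => (M O q.1.1).mstep q.1.2.1 q.1.2.2) (x₀ := fun O q => (M O q.1.1).x0)
    (by fun_prop)
    ((o_mstep H).pre (f := fun r : ((α × ℕ × List ℤ) × ℕ × Bin) × List ℤ × Bin => (r.1.1, r.2))
      (by fun_prop))
    (H.hx0.pre hf) (by fun_prop) (by fun_prop) (B := fun q => B0 q.1.1 + B q.1.1)
    ((hB0.comp hf.pb).add (H.hB.comp hf.pb)) (fun O q i _ => ?_)).congr (fun O q => ?_)
  · have e : fb1 (n q.1.1) (h q.1.1) = (M O q.1.1).b1 := by
      rw [b1_eq, (H.hM O q.1.1).1, (H.hM O q.1.1).2]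
    rw [e]
    rcases samp_cases (M O q.1.1) q.1.2.1 q.1.2.2 i q.2.2.val with h1 | h1
    · have := hB0' O q.1.1
      rw [← h1] at this
      exact this.trans (Nat.le_add_right _ _)
    · exact (H.hsz O _ _ _ _ h1).trans (Nat.le_add_left _ _)
  · simp only [Mdl.smp, Mdl.samp, b1_eq, (H.hM O q.1.1).1, (H.hM O q.1.1).2]

/-- arguments of an estimate: `x, s, p`, then `a, s', p'` -/
abbrev EA (α : Type) : Type := (α × ℕ × List ℤ) × ℕ × ℕ × List ℤ

open Classical in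
theorem o_coin (H : Hyp M n h B) :
    OPT (fun O (q : EA α × Bin) =>
      decide ((M O q.1.1.1).coin q.1.2.1 q.1.1.2.1 q.1.1.2.2 q.1.2.2.1 q.1.2.2.2 q.2.val)) := by
  have hn := H.hn
  have hh := H.hh
  have h1 := (o_smp H).pre (f := fun q : EA α × Bin => (q.1.1, q.1.2.1, q.2)) (by fun_prop)
  have h2 := H.hW.comp (h1.post₂ (g := fun q y => (q.1.1.1, q.1.1.2.1, q.1.1.2.2, y)) (by fun_prop))
  have h3 := H.hW.comp (h1.post₂ (g := fun q y => (q.1.1.1, q.1.2.2.1, q.1.2.2.2, y)) (by fun_prop))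
  refine ((h2.pair h3).post₂ (g := fun q r =>
    decide (fld q.2.val (fbS (n q.1.1.1) (h q.1.1.1) q.1.2.1) (eXi (n q.1.1.1) q.1.2.1) <
      ⌊2 ^ eXi (n q.1.1.1) q.1.2.1 * r.2 / (2 * r.1)⌋₊)) ?_).congr (fun O q => ?_)
  · exact pt_decide (DT.lt (BT.fld (by fun_prop) (by fun_prop) (by fun_prop)) (bt_qfloor (pt_qdiv
      (pt_qmul (pt_qpow (PT.const _) (by fun_prop)) (by fun_prop))
      (pt_qmul (PT.const _) (by fun_prop)))))
  · simp only [Mdl.coin, bS_eq, (H.hM O q.1.1.1).1, (H.hM O q.1.1.1).2]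

theorem o_est (H : Hyp M n h B) :
    OPT (fun O (q : EA α × Bin) =>
      (M O q.1.1.1).est q.1.2.1 q.1.1.2.1 q.1.1.2.2 q.1.2.2.1 q.1.2.2.2 q.2.val) := by
  have hn := H.hn
  have hh := H.hh
  have h1 := opt_cnt (b := fun q : EA α × Bin => fbC (n q.1.1.1) (h q.1.1.1) q.1.2.1)
    (N := fun q => eN (n q.1.1.1) q.1.2.1) (u := fun q => q.2.val)
    (p := fun O q => (M O q.1.1.1).coin q.1.2.1 q.1.1.2.1 q.1.1.2.2 q.1.2.2.1 q.1.2.2.2)
    (by fun_prop) (by fun_prop)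
    ((o_coin H).pre (f := fun r : (EA α × Bin) × Bin => (r.1.1, r.2)) (by fun_prop)) (by fun_prop)
  refine (h1.post₂ (g := fun q (c : ℕ) => 2 * (c : ℚ) / (eN (n q.1.1.1) q.1.2.1 : ℚ)) ?_).congr
    (fun O q => ?_)
  · exact pt_qdiv (pt_qmul (PT.const _) (pt_qnat (by fun_prop))) (pt_qnat (by fun_prop))
  · simp only [Mdl.est, bC_eq, (H.hM O q.1.1.1).1, (H.hM O q.1.1.1).2]

theorem o_estA (H : Hyp M n h B) :
    OPT (fun O (q : (α × ℕ × List ℤ) × ℕ × Bin) =>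
      (M O q.1.1).estA q.2.1 q.1.2.1 q.1.2.2 q.2.2.val) := by
  classical
  have hn := H.hn
  have hh := H.hh
  have h0 := (o_smp H).pre
    (f := fun r : ((α × ℕ × List ℤ) × ℕ × Bin) × Bin => (r.1.1, r.1.2.1, r.2)) (by fun_prop)
  have h2 := H.hacc.comp (h0.post₂ (g := fun r y => (r.1.1.1, y,
    (⟨fld r.2.val (fbS (n r.1.1.1) (h r.1.1.1) r.1.2.1) (n r.1.1.1)⟩ : Bin)))
    (PT.pair (by fun_prop) (PT.pair (by fun_prop)
      (BT.mk (BT.fld (by fun_prop) (by fun_prop) (by fun_prop))))))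
  have h1 := opt_cnt (b := fun q : (α × ℕ × List ℤ) × ℕ × Bin => fbC (n q.1.1) (h q.1.1) q.2.1)
    (N := fun q => eN (n q.1.1) q.2.1) (u := fun q => q.2.2.val)
    (p := fun O q v => (M O q.1.1).acc ((M O q.1.1).smp q.2.1 q.1.2.1 q.1.2.2 v)
      (fld v (fbS (n q.1.1) (h q.1.1) q.2.1) (n q.1.1)) = true)
    (by fun_prop) (by fun_prop) (h2.congr (fun O r => by simp)) (by fun_prop)
  refine (h1.post₂ (g := fun q (c : ℕ) => (c : ℚ) / (eN (n q.1.1) q.2.1 : ℚ)) ?_).congr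
    (fun O q => ?_)
  · exact pt_qdiv (pt_qnat (by fun_prop)) (pt_qnat (by fun_prop))
  · simp only [Mdl.estA, bC_eq, bS_eq, (H.hM O q.1.1).1, (H.hM O q.1.1).2]

/-- candidates -/
def fcand (n : ℕ) (p : List ℤ) (q : ℕ) : List ℤ := bump n p (q / 2) (if q % 2 = 0 then 1 else -1)

@[fun_prop] theorem pt_fcand {n : α → ℕ} {p : α → List ℤ} {q : α → ℕ} (hn : PT n) (hp : PT p)
    (hq : PT q) : PT (fun a => fcand (n a) (p a) (q a)) := by
  unfold fcand; fun_prop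

theorem o_astep (H : Hyp M n h B) :
    OPT (fun O (q : (α × ℕ) × St × Bin) => (M O q.1.1).astep q.1.2 q.2.1 q.2.2.val) := by
  have hn := H.hn
  have hh := H.hh
  have h1 := (o_est H).pre (f := fun q : (α × ℕ) × St × Bin =>
    (((q.1.1, q.2.1.1, q.2.1.2.1), q.1.2, q.2.1.1 + 1, q.2.1.2.1), q.2.2)) (by fun_prop)
  have h2 := (o_est H).pre (f := fun q : (α × ℕ) × St × Bin =>
    (((q.1.1, q.2.1.1, q.2.1.2.1), q.1.2, q.2.1.1, fcand (n q.1.1) q.2.1.2.1 q.2.1.2.2.2), q.2.2))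
    (by fun_prop)
  refine ((h1.pair h2).post₂ (g := fun q r =>
    if q.2.1.1 < n q.1.1 then (q.2.1.1 + 1, q.2.1.2.1, q.2.1.2.2.1 * r.1, q.2.1.2.2.2)
    else if q.2.1.2.2.2 < 2 * n q.1.1 then
      (if r.2 ≤ 1 - 1 / (2 * n q.1.1 : ℚ) then
        (q.2.1.1, fcand (n q.1.1) q.2.1.2.1 q.2.1.2.2.2, q.2.1.2.2.1 * r.2, 0)
      else (q.2.1.1, q.2.1.2.1, q.2.1.2.2.1, q.2.1.2.2.2 + 1))
    else q.2.1) ?_).congr (fun O q => ?_)
  · exact PT.iteD (by fun_prop) (by fun_prop)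
      (PT.iteD (by fun_prop) (PT.iteD (dt_qle (by fun_prop) (by fun_prop)) (by fun_prop)
        (by fun_prop)) (by fun_prop))
  · simp only [Mdl.astep, Mdl.cand, fcand, (H.hM O q.1.1).1]
    all_goals congr

theorem o_prep (H : Hyp M n h B) :
    OPT (fun O (q : (α × ℕ) × Bin) => (M O q.1.1).prep q.1.2 q.2.val) := by
  have hn := H.hn
  have hh := H.hh
  refine (opt_iterN (b := fun q : (α × ℕ) × Bin => fbE (n q.1.1) (h q.1.1) q.1.2)
    (u := fun q => q.2.val) (T := fun q => eTt (n q.1.1))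
    (σ := fun O q => (M O q.1.1).astep q.1.2) (x₀ := fun _ _ => ((0, [], 1, 0) : St))
    (by fun_prop)
    ((o_astep H).pre (f := fun r : ((α × ℕ) × Bin) × St × Bin => (r.1.1, r.2)) (by fun_prop))
    (OPT.pt (PT.const _)) (by fun_prop) (by fun_prop)
    (B := fun q => 3 * eTt (n q.1.1) + 2 * (n q.1.1 * (6 * eTt (n q.1.1) + 3)) +
      40 * (sz (1 : ℚ) + eTt (n q.1.1) * (eN (n q.1.1) q.1.2 + 1) + 1) + 3)
    (PT.pbNat (by fun_prop)) (fun O q i hi => ?_)).congr (fun O q => ?_)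
  · rw [← (H.hM O q.1.1).1]
    rw [← (H.hM O q.1.1).1] at hi
    refine sz_inv ?_ hi
    clear hi
    induction i with
    | zero =>
      exact ⟨le_rfl, le_rfl, Nat.zero_le _, fun z hz => absurd hz List.not_mem_nil,
        (ht_ratCast_sz _).mono (Nat.le_add_right _ _)⟩
    | succ i ih => exact inv_astep ih _
  · simp only [Mdl.prep, bE_eq, (H.hM O q.1.1).1, (H.hM O q.1.1).2]

theorem o_cntq (H : Hyp M n h B) :
    OPT (fun O (q : α × ℕ × Bin) => (M O q.1).cntq q.2.1 q.2.2.val) := by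
  have hn := H.hn
  have hh := H.hh
  have h1 := (o_prep H).pre (f := fun q : α × ℕ × Bin =>
    ((q.1, q.2.1), (⟨fld q.2.2.val 0 (fbP (n q.1) (h q.1) q.2.1)⟩ : Bin)))
    (PT.pair (by fun_prop) (BT.mk (BT.fld (by fun_prop) (PT.const _) (by fun_prop))))
  have h2 := (o_estA H).comp (h1.post₂ (g := fun q (st : St) => ((q.1, n q.1, st.2.1), q.2.1,
    (⟨fld q.2.2.val (fbP (n q.1) (h q.1) q.2.1) (fbE (n q.1) (h q.1) q.2.1)⟩ : Bin)))
    (PT.pair (by fun_prop) (PT.pair (by fun_prop)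
      (BT.mk (BT.fld (by fun_prop) (by fun_prop) (by fun_prop))))))
  refine ((h1.pair h2).post (g := fun r : St × ℚ => r.1.2.2.1 * r.2) (by fun_prop)).congr
    (fun O q => ?_)
  simp only [Mdl.cntq, bP_eq, bE_eq, (H.hM O q.1).1, (H.hM O q.1).2]

end EOPT

open EOPT in
theorem EOPT_proof : EOptStmt := by
  intro α _ M n h B hn hh hB hM hW hmv hacc hx0 hsz
  refine ⟨o_cntq ⟨hn, hh, hB, hM, hW, hmv, hacc, hx0, hsz⟩,
    fun q => fbP (n q.1) (h q.1) q.2 + fbE (n q.1) (h q.1) q.2, by fun_prop, fun O x a => ?_⟩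
  simp only [bP_eq, bE_eq, (hM O x).1, (hM O x).2]

end Crest.Agent.R302
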