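import Crest.Agent.R302.DefsA

/-! Row 302, FRK: Frank's discrete sandwich theorem. -/

set_option autoImplicit false

namespace Crest.Agent.R302

open Finset

namespace FRK

theorem sandwich {E : Type} [DecidableEq E] (S : Finset E) : ∀ (b p : Finset E → ℤ),
    (∀ A ⊆ S, ∀ B ⊆ S, b (A ∪ B) + b (A ∩ B) ≤ b A + b B) →
    (∀ A ⊆ S, ∀ B ⊆ S, p A + p B ≤ p (A ∪ B) + p (A ∩ B)) →
    b ∅ = 0 → p ∅ = 0 → (∀ A ⊆ S, p A ≤ b A) →
    ∃ z : E → ℤ, ∀ A ⊆ S, p A ≤ ∑ e ∈ A, z e ∧ ∑ e ∈ A, z e ≤ b A := by
  induction S using Finset.induction_on with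
  | empty =>
    intro b p _ _ hb hp _
    refine ⟨0, fun A hA => ?_⟩
    rw [subset_empty.1 hA, hb, hp]; simp
  | insert e S he ih =>
    intro b p hb hp b0 p0 hpb
    obtain ⟨Y, hY, hmax⟩ := exists_max_image S.powerset (fun X => p (insert e X) - b X)
      ⟨∅, empty_mem_powerset _⟩
    rw [mem_powerset] at hY
    set m := p (insert e Y) - b Y with hm
    have hle : ∀ X ⊆ S, p (insert e X) - b X ≤ m := fun X hX => hmax X (mem_powerset.2 hX)
    have s1 : ∀ X ⊆ S, X ⊆ insert e S := fun X hX => hX.trans (subset_insert _ _)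
    have s2 : ∀ X ⊆ S, insert e X ⊆ insert e S := fun X hX => insert_subset_insert _ hX
    have u1 : ∀ X Y : Finset E, insert e X ∪ Y = insert e (X ∪ Y) := fun X Y => insert_union _ _ _
    have u2 : ∀ X Y : Finset E, X ∪ insert e Y = insert e (X ∪ Y) := fun X Y => union_insert _ _ _
    have u3 : ∀ X Y : Finset E, insert e X ∪ insert e Y = insert e (X ∪ Y) := fun X Y =>
      (insert_union_distrib _ _ _).symm
    have i1 : ∀ X : Finset E, ∀ Y ⊆ S, insert e X ∩ Y = X ∩ Y := fun X Y hY =>
      insert_inter_of_notMem (fun h => he (hY h))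
    have i2 : ∀ X ⊆ S, ∀ Y : Finset E, X ∩ insert e Y = X ∩ Y := fun X hX Y =>
      inter_insert_of_notMem (fun h => he (hX h))
    have i3 : ∀ X Y : Finset E, insert e X ∩ insert e Y = insert e (X ∩ Y) := fun X Y =>
      (insert_inter_distrib _ _ _).symm
    have key : ∀ X ⊆ S, p X ≤ b (insert e X) - m := by
      intro X hX
      have h1 := hp _ (s2 Y hY) _ (s1 X hX)
      have h2 := hb _ (s1 Y hY) _ (s2 X hX)
      rw [u1, i1 _ _ hX] at h1
      rw [u2, i2 _ hY] at h2
      have h3 := hpb _ (s2 _ (union_subset hY hX))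
      have h4 := hpb _ (s1 _ (inter_subset_right.trans hX : Y ∩ X ⊆ S))
      omega
    obtain ⟨z, hz⟩ := ih (fun X => min (b X) (b (insert e X) - m))
      (fun X => max (p X) (p (insert e X) - m))
      (fun A hA B hB => by
        have h1 := hb _ (s1 A hA) _ (s1 B hB)
        have h2 := hb _ (s2 A hA) _ (s1 B hB)
        have h3 := hb _ (s1 A hA) _ (s2 B hB)
        have h4 := hb _ (s2 A hA) _ (s2 B hB)
        rw [u1, i1 _ _ hB] at h2
        rw [u2, i2 _ hA] at h3
        rw [u3, i3] at h4
        omega)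
      (fun A hA B hB => by
        have h1 := hp _ (s1 A hA) _ (s1 B hB)
        have h2 := hp _ (s2 A hA) _ (s1 B hB)
        have h3 := hp _ (s1 A hA) _ (s2 B hB)
        have h4 := hp _ (s2 A hA) _ (s2 B hB)
        rw [u1, i1 _ _ hB] at h2
        rw [u2, i2 _ hA] at h3
        rw [u3, i3] at h4
        omega)
      (by
        have := key ∅ (empty_subset _)
        omega)
      (by
        have := hle ∅ (empty_subset _)
        omega)
      (fun A hA => by
        have h1 := hpb _ (s1 A hA)
        have h2 := hpb _ (s2 A hA)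
        have h3 := hle A hA
        have h4 := key A hA
        omega)
    have hsum : ∀ X ⊆ S, ∑ x ∈ X, Function.update z e m x = ∑ x ∈ X, z x := fun X hX =>
      sum_congr rfl fun x hx => Function.update_of_ne (fun h : x = e => he (hX (h ▸ hx))) _ _
    refine ⟨Function.update z e m, fun A hA => ?_⟩
    by_cases h : e ∈ A
    · have hA' : A.erase e ⊆ S := subset_insert_iff.1 hA
      have h1 := hz _ hA'
      rw [← insert_erase h, sum_insert (notMem_erase _ _), hsum _ hA', Function.update_self]
      omega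
    · have hA' : A ⊆ S := (subset_insert_iff_of_notMem h).1 hA
      have h1 := hz _ hA'
      rw [hsum _ hA']
      omega

end FRK

theorem FRK_proof : FrkStmt := by
  intro E _ _ f₀ f₁ d h0 h1 e0 e1 u0 u1 hd hle
  obtain ⟨z, hz⟩ := FRK.sandwich (univ : Finset E) f₀ (fun A => ∑ e ∈ A, d e - f₁ A)
    (fun A _ B _ => h0 A B)
    (fun A _ B _ => by
      have := h1 A B
      have h2 := sum_union_inter (s₁ := A) (s₂ := B) (f := d)
      omega)
    e0 (by simp [e1]) (fun A _ => by have := hle A; omega)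
  have hu := hz univ subset_rfl
  simp only [hd, u0, u1] at hu
  refine ⟨z, ⟨by omega, fun A => (hz A (subset_univ _)).2⟩, ?_, fun A => ?_⟩
  · simp only [Pi.sub_apply, sum_sub_distrib]; omega
  · have := (hz A (subset_univ _)).1
    simp only [Pi.sub_apply, sum_sub_distrib]
    omega

end Crest.Agent.R302
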