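import Crest.Agent.R302.REP

/-! Row 302, task GOOD: the model satisfies the requirements of the engine. -/

set_option autoImplicit false

namespace Crest.Agent.R302

open Finset Crest.Agent.PT Crest.Agent.QC Crest.Agent.R317 Crest.Agent.R300U Crest.Agent.R309

theorem GOOD_proof (hB : BasStmt) (hP : PoiStmt) (hS : SecStmt) (hA : AccStmt) (hG : AlgStmt) :
    GoodStmt := by
  intro n m a f fo P S hR ha ham
  obtain ⟨b1, b2, b3, b4, b5, b6, b7, b8, b9, b10, b11, b12⟩ := hB n m f P S
  obtain ⟨g1, g2⟩ := hG n m f fo P S hR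
  have hW : (mdlA n m fo P).W = (mdlM n m f P).W := by
    funext s p x; exact g1 s p x
  have hZ : ∀ s p, (mdlA n m fo P).Z (Om n m f P) s p = (mdlM n m f P).Z (Om n m f P) s p := by
    intro s p; unfold Mdl.Z; rw [hW]
  have hm := S.big
  have hx0 : (mdlM n m f P).x0 ∈ Om n m f P := (mem_filter.1 b1).1
  refine ⟨?_, hx0, ?_, ?_, ?_, ?_, ?_, ?_, ?_, ?_, ?_, ?_, ?_, ?_, ?_⟩
  · exact Nat.one_le_pow _ _ (by omega)
  · rw [hW]; exact b2
  · rw [hW]; exact fun s p _ => b3 s p
  · exact fun i _ => b4 i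
  · rw [hW]; exact fun s p hv g => hP n m f P S s p hv g
  · refine b5.trans (Nat.pow_le_pow_right (by norm_num) ?_)
    show 2 * m ^ 2 ≤ m ^ 600
    calc 2 * m ^ 2 ≤ m * m ^ 2 := Nat.mul_le_mul_right _ (by omega)
      _ = m ^ 3 := by ring
      _ ≤ m ^ 600 := Nat.pow_le_pow_right (by omega) (by norm_num)
  · rw [hW]; exact b6
  · rw [hW]; exact b7
  · rw [hW]; exact fun s p _ => b8 s p
  · rw [hZ]
    refine b9.trans ?_
    have h1 : (0 : ℝ) < a := by exact_mod_cast ha
    have h2 : (a : ℝ) ≤ m := by exact_mod_cast ham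
    have : (1 : ℝ) / (32 * m) ≤ 1 / (32 * a) :=
      one_div_le_one_div_of_le (by positivity) (by linarith)
    linarith
  · rw [hW]; exact fun s _ => b10 s
  · rw [hW]; exact b11
  · intro p _
    rw [hW, ← b12 p]
    refine sum_congr rfl fun x hx => ?_
    have hx' : inB n m P x := ((REP.mem_Om x).1 hx).1
    have e : (fun u => (mdlA n m fo P).acc x u = true) =
        fun u => (mdlM n m f P).acc x u = true := by
      funext u; rw [g2 x hx' u]
    show _ * Pb (qN m) _ = _
    rw [e]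
    rfl
  · intro p hp hd
    have hd' : ∀ v < qN m, ∀ δ : ℤ, δ = 1 ∨ δ = -1 →
        (1 - 1 / (qN m : ℝ)) * (mdlM n m f P).Z (Om n m f P) (qN m) p <
          (mdlM n m f P).Z (Om n m f P) (qN m) (bump (qN m) p v δ) := by
      intro v hv δ hδ
      have := hd v hv δ hδ
      rw [hZ, hZ] at this
      exact this
    have h1 := hS n m f P S p hp hd'
    have h2 := hA n m f P S p ⟨le_rfl, fun v => (hp v).le⟩
    have h3 : 0 ≤ (mdlM n m f P).Z (Om n m f P) (qN m) p :=
      sum_nonneg fun x hx => by exact_mod_cast (b3 _ p x hx).1.le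
    rw [hZ]
    show (mdlM n m f P).Z (Om n m f P) (qN m) p ≤ _
    linarith

end Crest.Agent.R302
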