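import Crest.Agent.R302.KRa

/-! Row 302, task KR: the merging process as a polynomial-time function. -/

set_option autoImplicit false

namespace Crest.Agent.R302

open Finset Crest.Agent.PT Crest.Agent.QC Crest.Agent.R317 Crest.Agent.R300U

namespace KR

abbrev In : Type := ℕ × ℤ × List (List ℤ) × List (List ℤ) × List ℕ
abbrev St : Type := Pre × List ℕ × List (List ℤ) × List (List ℤ)

def sv (x : In) (b : Bool) : ℕ → ℕ → ℤ := gz (if b then x.2.2.2.1 else x.2.2.1)
def Tv (x : In) : ℤ := max x.2.1 1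
def co (st : St) (j : ℕ) : ℕ := st.2.1.getD j 0
def pi (st : St) (b : Bool) (i j : ℕ) : ℤ := gz (if b then st.2.2.2 else st.2.2.1) i j

def build (n : ℕ) (c : List ℕ) (cl : Bool → ℕ → ℕ) (F : ℕ → Bool) (cy : ℕ → ℕ → ℤ) (he : ℕ → ℕ)
    (ed : Bool → Eds) (co : ℕ → ℕ) (pi : Bool → ℕ → ℕ → ℤ) : St :=
  ((c, mkL n (cl false), mkL n (cl true), mkL n F, mkL n (fun i => mkL n (cy i)), mkL n he,
    ed false, ed true), mkL n co, mkL n (fun i => mkL n (pi false i)),
    mkL n (fun i => mkL n (pi true i)))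

def abs (n : ℕ) (st : St) : AS n where
  cl b j := cl st.1 b j
  F j := isF st.1 j
  cy i j := cyc st.1 i j
  he i := he st.1 i
  ed := ed st.1
  co j := co st j
  pi b i j := pi st b i j

lemma gz_mkL {n : ℕ} (f : ℕ → ℕ → ℤ) (i j : Fin n) :
    gz (mkL n fun i => mkL n (f i)) i j = f i j := by
  unfold gz
  rw [getD_mkL _ _ i.2, getD_mkL _ _ j.2]

lemma abs_build (n : ℕ) (c : List ℕ) (cl : Bool → ℕ → ℕ) (F : ℕ → Bool) (cy : ℕ → ℕ → ℤ)
    (he : ℕ → ℕ) (ed : Bool → Eds) (co : ℕ → ℕ) (pi : Bool → ℕ → ℕ → ℤ) :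
    abs n (build n c cl F cy he ed co pi) =
      ⟨fun b j => cl b j, fun j => F j, fun i j => cy i j, fun i => he i, ed, fun j => co j,
        fun b i j => pi b i j⟩ := by
  unfold abs
  congr 1
  · funext b j
    cases b <;> exact getD_mkL _ _ j.2
  · funext j
    exact getD_mkL _ _ j.2
  · funext i j
    exact gz_mkL _ i j
  · funext j
    exact getD_mkL _ _ j.2
  · funext b
    cases b <;> rfl
  · funext j
    exact getD_mkL _ _ j.2
  · funext b i j
    cases b <;> exact gz_mkL _ i j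

def yv (st : St) (b : Bool) (a a' j : ℕ) : ℤ := pi st b a j - pi st b a' j

def updL (n : ℕ) (st : St) (b : Bool) (a a' e : ℕ) (w : ℤ) (k : ℕ) : St :=
  build n st.1.1
    (fun c j => if c = b ∧ cl st.1 c j = cl st.1 c a' then cl st.1 c a else cl st.1 c j)
    (fun j => if co st a = co st a' ∧ j = e then false else isF st.1 j)
    (fun i j => if co st a = co st a' ∧ i = e then yv st b a a' e * yv st b a a' j else cyc st.1 i j)
    (fun i => if co st a = co st a' ∧ i = e then k else he st.1 i)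
    (fun c => if c = b then (a, a', w) :: ed st.1 c else ed st.1 c)
    (fun j => if co st j = co st a' then co st a else co st j)
    (fun c i j => pi st c i j + (if co st a = co st a' then -(pi st c i e * yv st b a a' e)
      else if co st i = co st a' then 1 else 0) * yv st b a a' j)

lemma abs_updL {n : ℕ} (st : St) (b : Bool) (a a' e : Fin n) (e₀ : ℕ) (w : ℤ) (k : ℕ)
    (he : co st a = co st a' → e₀ = e) :
    abs n (updL n st b a a' e₀ w k) = upd (abs n st) b a a' e w k := by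
  unfold updL
  rw [abs_build]
  by_cases hs : co st a = co st a'
  · rw [he hs]
    simp only [upd, abs, coef, Yv, yv, Fin.val_inj]
    congr
  · simp only [upd, abs, coef, Yv, yv, hs, false_and, if_false]
    congr

def Good (x : In) (st : St) (b : Bool) (a a' : ℕ) : Prop :=
  cl st.1 b a ≠ cl st.1 b a' ∧ Tv x < sv x b a a' ∧
    All x.1 fun i => All x.1 fun j =>
      (cl st.1 false i = cl st.1 false j ∨ sv x false i j ≤ sv x b a a') ∧
      (cl st.1 true i = cl st.1 true j ∨ sv x true i j ≤ sv x b a a')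

open Classical in
noncomputable def sb (x : In) (st : St) : Bool :=
  decide (Ex x.1 fun a => Ex x.1 fun a' => Good x st true a a')

noncomputable def sa (x : In) (st : St) : ℕ :=
  fnd x.1 fun a => Ex x.1 fun a' => Good x st (sb x st) a a'

noncomputable def sa' (x : In) (st : St) : ℕ := fnd x.1 fun a' => Good x st (sb x st) (sa x st) a'

noncomputable def se (x : In) (st : St) : ℕ :=
  fnd x.1 fun j => yv st (sb x st) (sa x st) (sa' x st) j ≠ 0

noncomputable def sw (x : In) (st : St) : ℤ := sv x (sb x st) (sa x st) (sa' x st)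

noncomputable def step (x : In) (st : St) : St :=
  if sa x st < x.1 then
    updL x.1 st (sb x st) (sa x st) (sa' x st) (se x st) (sw x st)
      ((sw x st / Tv x).toNat.size - 1)
  else st

def st0 (x : In) : St :=
  build x.1 x.2.2.2.2 (fun _ j => j) (fun _ => true) (fun _ _ => 0) (fun _ => 0) (fun _ => [])
    (fun j => j) (fun c i j => if c = true ∧ j = i then -1 else 0)

noncomputable def run (x : In) (k : ℕ) : St := Nat.rec (st0 x) (fun _ st => step x st) k

/-! ### correctness -/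

def Stuck (x : In) (st : St) : Prop :=
  ∀ b (a a' : Fin x.1), cl st.1 b a ≠ cl st.1 b a' → sv x b a a' ≤ Tv x

lemma ex_good {x : In} {st : St} (h : ¬ Stuck x st) :
    ∃ (b : Bool) (a a' : Fin x.1), Good x st b a a' := by
  classical
  unfold Stuck at h
  push Not at h
  obtain ⟨b, a, a', h1, h2⟩ := h
  obtain ⟨⟨c, i, j⟩, h3, h4⟩ := exists_max_image
    (univ.filter fun t : Bool × Fin x.1 × Fin x.1 => cl st.1 t.1 t.2.1 ≠ cl st.1 t.1 t.2.2)
    (fun t => sv x t.1 t.2.1 t.2.2) ⟨(b, a, a'), mem_filter.2 ⟨mem_univ _, h1⟩⟩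
  refine ⟨c, i, j, (mem_filter.1 h3).2,
    h2.trans_le (h4 (b, a, a') (mem_filter.2 ⟨mem_univ _, h1⟩)), fun u hu v hv => ⟨?_, ?_⟩⟩
  · exact or_iff_not_imp_left.2 fun h5 =>
      h4 (false, ⟨u, hu⟩, ⟨v, hv⟩) (mem_filter.2 ⟨mem_univ _, h5⟩)
  · exact or_iff_not_imp_left.2 fun h5 =>
      h4 (true, ⟨u, hu⟩, ⟨v, hv⟩) (mem_filter.2 ⟨mem_univ _, h5⟩)

lemma sa_lt {x : In} {st : St} (h : ¬ Stuck x st) : sa x st < x.1 := by
  obtain ⟨b, a, a', hg⟩ := ex_good h
  unfold sa
  rw [fnd_lt_iff]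
  cases hb : sb x st
  · cases b
    · exact ⟨a, a.2, a', a'.2, hg⟩
    · unfold sb at hb
      rw [decide_eq_false_iff_not] at hb
      exact absurd ⟨a, a.2, a', a'.2, hg⟩ hb
  · unfold sb at hb
    simp only [decide_eq_true_eq] at hb
    exact hb

lemma good_sel {x : In} {st : St} (h : sa x st < x.1) :
    sa' x st < x.1 ∧ Good x st (sb x st) (sa x st) (sa' x st) := by
  have h1 := (fnd_spec x.1 fun a => Ex x.1 fun a' => Good x st (sb x st) a a').2.2 h
  have h2 : sa' x st < x.1 := (fnd_lt_iff _ _).2 h1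
  exact ⟨h2, (fnd_spec x.1 fun a' => Good x st (sb x st) (sa x st) a').2.2 h2⟩

lemma sz_getD_le {β : Type} [Enc β] (l : List β) (i : ℕ) (d : β) :
    sz (l.getD i d) ≤ sz l + sz d := by
  induction l generalizing i with
  | nil => simp
  | cons y l ih =>
    cases i with
    | zero => simp only [List.getD_cons_zero, sz_cons]; omega
    | succ i => have := ih i; simp only [List.getD_cons_succ, sz_cons]; omega

lemma sz_sv (x : In) (b : Bool) (a a' : ℕ) : sz (sv x b a a') ≤ sz x + 1 := by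
  obtain ⟨n, T, s₀, s₁, c⟩ := x
  unfold sv gz
  have h0 : sz (0 : ℤ) = 1 := by rw [PT.sz_int]; simp
  cases b
  · have h1 := sz_getD_le (s₀.getD a []) a' 0
    have h2 := sz_getD_le s₀ a []
    simp only [sz_pair, sz_nil, Bool.false_eq_true, if_false] at h2 ⊢
    omega
  · have h1 := sz_getD_le (s₁.getD a []) a' 0
    have h2 := sz_getD_le s₁ a []
    simp only [sz_pair, sz_nil, if_true] at h2 ⊢
    omega

lemma log_spec {T w : ℤ} (hT : 1 ≤ T) (h : T < w) :
    T * 2 ^ ((w / T).toNat.size - 1) ≤ w ∧ w < 2 * T * 2 ^ ((w / T).toNat.size - 1) ∧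
      (w / T).toNat.size - 1 ≤ sz w := by
  have h1 : 1 ≤ w / T := Int.le_ediv_of_mul_le (by omega) (by omega)
  obtain ⟨q, hq⟩ := Int.eq_ofNat_of_zero_le (show 0 ≤ w / T by omega)
  have h2 : T * (w / T) ≤ w := Int.mul_ediv_self_le (by omega)
  have h3 : w < T * (w / T) + T := Int.lt_mul_ediv_self_add (by omega)
  have h4 : w / T ≤ w := Int.ediv_le_self _ (by omega)
  rw [hq] at h1 h2 h3 h4 ⊢
  rw [Int.toNat_natCast]
  have h5 : 0 < q.size := Nat.size_pos.2 (by omega)
  have h6 : 2 ^ (q.size - 1) ≤ q := Nat.lt_size.1 (by omega)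
  have h7 : q < 2 ^ q.size := Nat.lt_size_self q
  have h8 : (2 : ℤ) ^ (q.size - 1) ≤ q := by exact_mod_cast h6
  have h9 : (q : ℤ) + 1 ≤ 2 * 2 ^ (q.size - 1) := by
    rw [← pow_succ', show q.size - 1 + 1 = q.size by omega]
    exact_mod_cast h7
  refine ⟨by nlinarith, by nlinarith, ?_⟩
  have h10 := PT.size_natAbs_le w
  have h11 : q.size ≤ w.natAbs.size := Nat.size_le_size (by omega)
  omega

structure Ok (x : In) (st : St) : Prop where
  sh : ∃ cl F cy he ed co pi, st = build x.1 x.2.2.2.2 cl F cy he ed co pi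
  inv : Inv (Tv x) (sz x + 1) (sv x) (abs x.1 st)

lemma Ok.fst {x : In} {st : St} (h : Ok x st) : st.1.1 = x.2.2.2.2 := by
  obtain ⟨_, _, _, _, _, _, _, rfl⟩ := h.sh
  rfl

lemma ok_st0 (x : In) : Ok x (st0 x) := by
  refine ⟨⟨_, _, _, _, _, _, _, rfl⟩, ?_⟩
  unfold st0
  rw [abs_build]
  have := inv_ini (n := x.1) (Tv x) (sz x + 1) (sv x)
  simpa only [ini, Fin.val_inj] using this

def tot (st : St) : ℕ := (ed st.1 false).length + (ed st.1 true).length

lemma ok_step {x : In} {st : St} (h : Ok x st) (hs : sa x st < x.1) :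
    Ok x (step x st) ∧ tot (step x st) = tot st + 1 := by
  obtain ⟨h1, h2, h3, h4⟩ := good_sel hs
  have hT : 1 ≤ Tv x := le_max_right _ _
  obtain ⟨l1, l2, l3⟩ := log_spec hT h3
  have hsz := sz_sv x (sb x st) (sa x st) (sa' x st)
  unfold step
  rw [if_pos hs]
  refine ⟨⟨⟨_, _, _, _, _, _, _, by unfold updL; rw [h.fst]⟩, ?_⟩, ?_⟩
  · have he : co st (sa x st) = co st (sa' x st) → se x st < x.1 := fun hc => by
      obtain ⟨j, hj⟩ := h.inv.Y_ne (b := sb x st) (a := ⟨_, hs⟩) (a' := ⟨_, h1⟩) hc h2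
      exact (fnd_lt_iff _ _).2 ⟨j, j.2, hj⟩
    rw [abs_updL st (sb x st) ⟨_, hs⟩ ⟨_, h1⟩
      (if hl : se x st < x.1 then ⟨_, hl⟩ else ⟨_, hs⟩) (se x st) _ _
      (fun hc => by rw [dif_pos (he hc)])]
    refine h.inv.upd h2 rfl h3 (fun c i j hij => ?_) (fun hc => ?_) l1 l2 (l3.trans hsz)
    · cases c
      · exact (h4 i i.2 j j.2).1.resolve_left hij
      · exact (h4 i i.2 j j.2).2.resolve_left hij
    · rw [dif_pos (he hc)]
      exact (fnd_spec x.1 fun j => yv st (sb x st) (sa x st) (sa' x st) j ≠ 0).2.2 (he hc)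
  · unfold tot updL build
    cases sb x st <;> simp [ed] <;> omega

lemma run_spec (x : In) (k : ℕ) :
    Ok x (run x k) ∧ (¬ sa x (run x k) < x.1 ∨ tot (run x k) = k) := by
  induction k with
  | zero => exact ⟨ok_st0 x, Or.inr rfl⟩
  | succ k ih =>
    have e : run x (k + 1) = step x (run x k) := rfl
    by_cases hs : sa x (run x k) < x.1
    · obtain ⟨h1, h2⟩ := ok_step ih.1 hs
      rw [e]
      exact ⟨h1, Or.inr (by rw [h2, ih.2.resolve_left (not_not.2 hs)])⟩
    · have : step x (run x k) = run x k := by unfold step; rw [if_neg hs]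
      rw [e, this]
      exact ⟨ih.1, Or.inl hs⟩

lemma stuck_run (x : In) : Stuck x (run x (2 * x.1 + 1)) := by
  obtain ⟨h1, h2⟩ := run_spec x (2 * x.1 + 1)
  by_contra h
  have h3 := h2.resolve_left (not_not.2 (sa_lt h))
  have h4 := h1.inv.cnt false
  have h5 := h1.inv.cnt true
  unfold tot at h3
  simp only [abs] at h4 h5
  omega

lemma pair_eq {n : ℕ} (Y : Fin n → ℤ) (χ : Bool → Fin n → Bool) :
    ∑ j ∈ univ.filter (fun j => χ false j = true), Y j -
      ∑ j ∈ univ.filter (fun j => χ true j = true), Y j = pr Y (ind χ) := by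
  unfold pr ind
  rw [sum_filter, sum_filter, ← sum_sub_distrib]
  refine sum_congr rfl fun j _ => ?_
  split_ifs <;> simp

lemma kspec {x : In} {st : St} (h : Ok x st) (hs : Stuck x st) :
    KSpec x.1 (Tv x) (sv x) st.1 := by
  have hI := h.inv
  have hT : 1 ≤ Tv x := le_max_right _ _
  refine ⟨fun b e he => hI.lt b ⟨e, he⟩, fun b => (Nat.le_add_right _ _).trans (hI.cnt b),
    fun b ε hε => ?_, fun b A a a' h1 h2 h3 => ?_, fun e j _ => hI.cy1 e j, hI.cy2,
    fun e he A hA h1 j hj => (hI.coc A hA j e (hI.cy3 e he j hj)).2 h1, hI.cy4, fun e => ?_⟩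
  · obtain ⟨a, a', rfl, h1, h2, h3⟩ := hI.edg b ε hε
    exact ⟨a.2, a'.2, fun h4 => h1 (Fin.ext h4), rfl, h2, h3⟩
  · by_contra h4
    push Not at h4
    exact h3 ((hI.con b A h4 a a' h1).1 h2)
  · have hu : ∀ (e' : Fin x.1) (χ : Bool → Fin x.1 → Bool), isF st.1 e' = true →
        pr (fun j : Fin x.1 => bv st.1 e' j) (ind χ) = ind χ false e' - ind χ true e' := by
      intro e' χ h1
      rw [pr_cert (e := e') (fun j hj hje => by
        exfalso
        apply hj
        unfold bv
        rw [if_pos h1, if_neg fun h2 => hje (Fin.ext h2)])]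
      unfold bv
      rw [if_pos h1, if_pos rfl, one_mul]
    have hc : ∀ e' : Fin x.1, isF st.1 e' = false →
        (fun j : Fin x.1 => bv st.1 e' j) = (abs x.1 st).cy e' := by
      intro e' h1
      funext j
      unfold bv
      rw [if_neg (by simp [h1])]
      rfl
    cases he : isF st.1 e
    · obtain ⟨χ, σ, h1, h2, h3, h4⟩ := hI.dual e he
      refine ⟨fun b => univ.filter fun j => χ b j = true, σ, h1, fun b a a' _ h5 => ?_,
        fun e' => ?_⟩
      · simp only [mem_filter, mem_univ, true_and]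
        rw [h2 b a a' (by simpa [abs] using h5)]
      · rw [pair_eq]
        cases he' : isF st.1 e'
        · rw [hc e' he']
          exact h4 e' he'
        · rw [hu e' χ he', if_neg (by rintro rfl; simp [he] at he')]
          unfold ind
          rw [h3 e' he', sub_self, mul_zero]
    · obtain ⟨χ, h1, h2⟩ := hI.cer e he
      have hσ := ind_sq ((h2 e he).2 rfl)
      refine ⟨fun b => univ.filter fun j => χ b j = true, ind χ false e - ind χ true e,
        by rcases hσ with h | h <;> rw [h] <;> simp, fun b a a' _ h5 => ?_, fun e' => ?_⟩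
      · simp only [mem_filter, mem_univ, true_and]
        rw [h1 b a a' (by
          by_contra h6
          have := hs b a a' h6
          simp only [if_true] at h5
          omega)]
      · rw [pair_eq]
        cases he' : isF st.1 e'
        · rw [hc e' he', hI.cy0 e' he' _ h1.ind, mul_zero,
            if_neg (by rintro rfl; simp [he] at he')]
        · rw [hu e' χ he']
          by_cases h3 : e' = e
          · subst h3
            rw [if_pos rfl]
            rcases hσ with h | h <;> rw [h] <;> simp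
          · have h4 : χ false e' = χ true e' := by
              by_contra h4
              exact h3 ((h2 e' he').1 h4)
            have h5 : ind χ false e' - ind χ true e' = 0 := by
              unfold ind
              rw [h4, sub_self]
            rw [h5, mul_zero, if_neg h3]

/-! ### polynomial time -/

lemma sz_mkL {β : Type} [Enc β] {n B : ℕ} {f : ℕ → β} (h : ∀ i : Fin n, sz (f i) ≤ B) :
    sz (mkL n f) ≤ n * (2 * B + 1) := by
  have := sz_list_le (mkL n f) B (fun y hy => by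
    obtain ⟨i, hi, rfl⟩ := List.mem_map.1 hy
    exact h ⟨i, List.mem_range.1 hi⟩)
  rwa [length_mkL] at this

lemma sz_one {z : ℤ} (h : |z| ≤ 1) : sz z ≤ 4 := by
  have h1 := PT.sz_int_le z
  have h2 : z.natAbs.size ≤ 1 := Nat.size_le.2 (by rw [abs_le] at h; omega)
  omega

lemma sz_ok {x : In} {st : St} (h : Ok x st) : sz st ≤ 100000 * (sz x + 1) ^ 2 := by
  obtain ⟨⟨cl, F, cy, he, ed, co, pi, rfl⟩, hI⟩ := h
  rw [abs_build] at hI
  have hn : x.1 ≤ sz x ∧ sz x.2.2.2.2 ≤ sz x := by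
    obtain ⟨n, T, s₀, s₁, c⟩ := x
    simp only [sz_pair, sz_nat]
    omega
  have a1 : ∀ b, sz (mkL x.1 (cl b)) ≤ x.1 * (2 * x.1 + 1) := fun b =>
    sz_mkL fun i => (hI.lt b i).le.trans' (by simp)
  have a2 : sz (mkL x.1 F) ≤ x.1 * (2 * 1 + 1) := sz_mkL fun i => by simp
  have a3 : sz (mkL x.1 fun i => mkL x.1 (cy i)) ≤ x.1 * (2 * (x.1 * (2 * 4 + 1)) + 1) :=
    sz_mkL fun i => sz_mkL fun j => sz_one (hI.cy1 i j)
  have a4 : sz (mkL x.1 he) ≤ x.1 * (2 * (sz x + 1) + 1) :=
    sz_mkL fun i => (hI.hel i).trans' (by simp)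
  have a5 : ∀ b, sz (ed b) ≤ x.1 * (2 * (5 * sz x + 3) + 1) := fun b => by
    refine (sz_list_le (ed b) (5 * sz x + 3) fun ε hε => ?_).trans
      (Nat.mul_le_mul_right _ ((Nat.le_add_right _ _).trans (hI.cnt b)))
    obtain ⟨a, a', rfl, -⟩ := hI.edg b ε hε
    have := sz_sv x b a a'
    have := a.2
    have := a'.2
    simp only [sz_pair, sz_nat]
    omega
  have a6 : sz (mkL x.1 co) ≤ x.1 * (2 * x.1 + 1) :=
    sz_mkL fun i => (hI.col i).le.trans' (by simp)
  have a7 : ∀ b, sz (mkL x.1 fun i => mkL x.1 (pi b i)) ≤ x.1 * (2 * (x.1 * (2 * 4 + 1)) + 1) :=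
    fun b => sz_mkL fun i => sz_mkL fun j => sz_one (hI.pi_le b i j)
  have b1 := a1 false
  have b2 := a1 true
  have b3 := a5 false
  have b4 := a5 true
  have b5 := a7 false
  have b6 := a7 true
  have c1 : x.1 * x.1 ≤ sz x * sz x := Nat.mul_le_mul hn.1 hn.1
  have c2 : x.1 * sz x ≤ sz x * sz x := Nat.mul_le_mul_right _ hn.1
  unfold build
  simp only [sz_pair]
  nlinarith [hn.1, hn.2]

section
variable {α : Type} [Enc α]

@[fun_prop] lemma pt_gz {S : α → List (List ℤ)} {a a' : α → ℕ} (hS : PT S) (ha : PT a)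
    (ha' : PT a') : PT (fun q => gz (S q) (a q) (a' q)) := by unfold gz; fun_prop

@[fun_prop] lemma pt_cl {P : α → Pre} {b : α → Bool} {e : α → ℕ} (hP : PT P) (hb : PT b)
    (he : PT e) : PT (fun q => cl (P q) (b q) (e q)) := by unfold cl; fun_prop

@[fun_prop] lemma bt_cl {P : α → Pre} {b : α → Bool} {e : α → ℕ} (hP : PT P) (hb : PT b)
    (he : PT e) : BT (fun q => cl (P q) (b q) (e q)) := BT.ofPT (pt_cl hP hb he)

@[fun_prop] lemma pt_isF {P : α → Pre} {e : α → ℕ} (hP : PT P) (he : PT e) :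
    PT (fun q => isF (P q) (e q)) := by unfold isF; fun_prop

@[fun_prop] lemma pt_cyc {P : α → Pre} {e j : α → ℕ} (hP : PT P) (he : PT e) (hj : PT j) :
    PT (fun q => cyc (P q) (e q) (j q)) := by unfold cyc; fun_prop

@[fun_prop] lemma pt_he {P : α → Pre} {e : α → ℕ} (hP : PT P) (he' : PT e) :
    PT (fun q => he (P q) (e q)) := by unfold he; fun_prop

@[fun_prop] lemma pt_ed {P : α → Pre} {b : α → Bool} (hP : PT P) (hb : PT b) :
    PT (fun q => ed (P q) (b q)) := by unfold ed; fun_prop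

@[fun_prop] lemma pt_sv {x : α → In} {b : α → Bool} {a a' : α → ℕ} (hx : PT x) (hb : PT b)
    (ha : PT a) (ha' : PT a') : PT (fun q => sv (x q) (b q) (a q) (a' q)) := by
  unfold sv; fun_prop

@[fun_prop] lemma pt_Tv {x : α → In} (hx : PT x) : PT (fun q => Tv (x q)) := by
  unfold Tv; fun_prop

@[fun_prop] lemma pt_co {st : α → St} {j : α → ℕ} (hs : PT st) (hj : PT j) :
    PT (fun q => co (st q) (j q)) := by unfold co; fun_prop

@[fun_prop] lemma bt_co {st : α → St} {j : α → ℕ} (hs : PT st) (hj : PT j) :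
    BT (fun q => co (st q) (j q)) := BT.ofPT (pt_co hs hj)

@[fun_prop] lemma pt_pi {st : α → St} {b : α → Bool} {i j : α → ℕ} (hs : PT st) (hb : PT b)
    (hi : PT i) (hj : PT j) : PT (fun q => pi (st q) (b q) (i q) (j q)) := by unfold pi; fun_prop

@[fun_prop] lemma pt_yv {st : α → St} {b : α → Bool} {a a' j : α → ℕ} (hs : PT st) (hb : PT b)
    (ha : PT a) (ha' : PT a') (hj : PT j) :
    PT (fun q => yv (st q) (b q) (a q) (a' q) (j q)) := by unfold yv; fun_prop

lemma pt_updL0 : PT (fun q : ℕ × St × Bool × ℕ × ℕ × ℕ × ℤ × ℕ =>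
    updL q.1 q.2.1 q.2.2.1 q.2.2.2.1 q.2.2.2.2.1 q.2.2.2.2.2.1 q.2.2.2.2.2.2.1 q.2.2.2.2.2.2.2) := by
  unfold updL build
  fun_prop

@[fun_prop] lemma pt_updL {n : α → ℕ} {st : α → St} {b : α → Bool} {a a' e : α → ℕ} {w : α → ℤ}
    {k : α → ℕ} (hn : PT n) (hs : PT st) (hb : PT b) (ha : PT a) (ha' : PT a') (he : PT e)
    (hw : PT w) (hk : PT k) :
    PT (fun q => updL (n q) (st q) (b q) (a q) (a' q) (e q) (w q) (k q)) :=
  pt_updL0.comp (f := fun q => (n q, st q, b q, a q, a' q, e q, w q, k q)) (by fun_prop)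

lemma dt_Good0 : DT (fun q : In × St × Bool × ℕ × ℕ =>
    Good q.1 q.2.1 q.2.2.1 q.2.2.2.1 q.2.2.2.2) := by
  unfold Good
  fun_prop

@[fun_prop] lemma dt_Good {x : α → In} {st : α → St} {b : α → Bool} {a a' : α → ℕ} (hx : PT x)
    (hs : PT st) (hb : PT b) (ha : PT a) (ha' : PT a') :
    DT (fun q => Good (x q) (st q) (b q) (a q) (a' q)) :=
  dt_Good0.comp (f := fun q => (x q, st q, b q, a q, a' q)) (by fun_prop)

@[fun_prop] lemma pt_sb {x : α → In} {st : α → St} (hx : PT x) (hs : PT st) :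
    PT (fun q => sb (x q) (st q)) := by unfold sb; fun_prop

@[fun_prop] lemma pt_sa {x : α → In} {st : α → St} (hx : PT x) (hs : PT st) :
    PT (fun q => sa (x q) (st q)) := by unfold sa; fun_prop

@[fun_prop] lemma pt_sa' {x : α → In} {st : α → St} (hx : PT x) (hs : PT st) :
    PT (fun q => sa' (x q) (st q)) := by unfold sa'; fun_prop

@[fun_prop] lemma pt_se {x : α → In} {st : α → St} (hx : PT x) (hs : PT st) :
    PT (fun q => se (x q) (st q)) := by unfold se; fun_prop

@[fun_prop] lemma pt_sw {x : α → In} {st : α → St} (hx : PT x) (hs : PT st) :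
    PT (fun q => sw (x q) (st q)) := by unfold sw; fun_prop

@[fun_prop] lemma pt_step {x : α → In} {st : α → St} (hx : PT x) (hs : PT st) :
    PT (fun q => step (x q) (st q)) := by
  have h1 : DT (fun q => sa (x q) (st q) < (x q).1) :=
    DT.lt (BT.ofPT (pt_sa hx hs)) (BT.ofPT hx.fst)
  unfold step
  exact PT.iteD h1 (by fun_prop) hs

end

lemma pt_st0 : PT st0 := by
  unfold st0 build
  fun_prop

lemma pt_run : PT (fun x : In => run x (2 * x.1 + 1)) := by
  have h1 : PT (fun x : In => 2 * x.1 + 1) := by fun_prop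
  have h2 : PT (fun p : In × ℕ × St => step p.1 p.2.2) := pt_step (by fun_prop) (by fun_prop)
  have h3 : PB (fun x : In => 100000 * (sz x + 1) ^ 2) :=
    (PB.const 100000).mul ((PB.size.add (PB.const 1)).pow 2)
  exact PT.natRec (g := fun x : In => 2 * x.1 + 1) (z := st0) (s := fun x _ st => step x st)
    h1 pt_st0 h2 h3 (fun x i _ => sz_ok (run_spec x i).1)

end KR

theorem KR_proof : KrStmt := by
  refine ⟨fun x => (KR.run x (2 * x.1 + 1)).1, KR.pt_run.fst, fun n T s₀ s₁ c hT => ⟨?_, ?_⟩⟩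
  · exact (KR.run_spec (n, T, s₀, s₁, c) _).1.fst
  · have h := KR.kspec (KR.run_spec (n, T, s₀, s₁, c) _).1 (KR.stuck_run (n, T, s₀, s₁, c))
    have e : KR.Tv (n, T, s₀, s₁, c) = T := max_eq_left hT
    rw [e] at h
    exact h

end Crest.Agent.R302
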