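import Crest.Agent.R302.DefsA
import Crest.Agent.R309.SCH

set_option autoImplicit false
set_option linter.unusedSectionVars false

namespace Crest.Agent.R302

open Finset Crest.Agent.R309

namespace POT

theorem psd_fib {V K : Type} [Fintype V] [Fintype K] [DecidableEq K] (f : V → K) (z : V → ℝ) :
    0 ≤ ∑ a, ∑ b, z a * z b * (if f a = f b then 1 else 0) := by
  have h : ∑ a, ∑ b, z a * z b * (if f a = f b then 1 else 0) =
      ∑ k, (∑ a, z a * (if f a = k then 1 else 0)) ^ 2 := by
    simp only [sq, sum_mul_sum]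
    rw [Finset.sum_comm (s := (univ : Finset K))]
    refine sum_congr rfl fun a _ => ?_
    rw [Finset.sum_comm (s := (univ : Finset K))]
    refine sum_congr rfl fun b _ => ?_
    rw [Finset.sum_eq_single (f a)]
    · by_cases h : f a = f b
      · simp [h]
      · have h' : ¬ f b = f a := fun h' => h h'.symm
        simp [h, h']
    · intro k _ hk
      have : ¬ f a = k := fun h => hk h.symm
      simp [this]
    · simp
  rw [h]
  exact sum_nonneg fun _ _ => sq_nonneg _

open Classical in
theorem psd_per {V : Type} [Fintype V] (r : V → V → Prop) (hs : ∀ a b, r a b → r b a)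
    (ht : ∀ a b c, r a b → r b c → r a c) (y : V → ℝ) :
    0 ≤ ∑ a, ∑ b, y a * y b * (if r a b then 1 else 0) := by
  have h := psd_fib (fun a => (univ.filter (fun c => r a c) : Finset V))
    (fun a => if r a a then y a else 0)
  refine h.trans_eq (sum_congr rfl fun a _ => sum_congr rfl fun b _ => ?_)
  by_cases hab : r a b
  · have haa : r a a := ht _ _ _ hab (hs _ _ hab)
    have hbb : r b b := ht _ _ _ (hs _ _ hab) hab
    have : (univ.filter (fun c => r a c) : Finset V) = univ.filter (fun c => r b c) := by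
      ext c
      simp only [mem_filter, mem_univ, true_and]
      exact ⟨fun h => ht _ _ _ (hs _ _ hab) h, fun h => ht _ _ _ hab h⟩
    simp [haa, hbb, hab, this]
  · by_cases hbb : r b b
    · have : ¬ (univ.filter (fun c => r a c) : Finset V) = univ.filter (fun c => r b c) := by
        intro h
        have : b ∈ (univ.filter (fun c => r a c) : Finset V) := by rw [h]; simp [hbb]
        exact hab (by simpa using this)
      simp [hab, this]
    · simp [hab, hbb]

variable {V E : Type} [Fintype V] [DecidableEq V] [Fintype E] [DecidableEq E]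

/-- is the slot outside `U`? -/
def out (sl : V → Option E) (a : V) (U : Finset E) : ℤ :=
  match sl a with | none => 0 | some e => if e ∈ U then 0 else 1

/-- the value of a set -/
def val (c : Finset E → ℤ) (sl : V → Option E) (α : V → ℕ) (U : Finset E) : ℤ :=
  c U + ∑ v, out sl v U * α v

theorem out_cases (sl : V → Option E) (a : V) (U : Finset E) : out sl a U = 0 ∨ out sl a U = 1 := by
  unfold out
  cases sl a with
  | none => simp
  | some e => by_cases h : e ∈ U <;> simp [h]

theorem out_mod (sl : V → Option E) (a : V) (U U' : Finset E) :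
    out sl a (U ∪ U') + out sl a (U ∩ U') = out sl a U + out sl a U' := by
  unfold out
  cases sl a with
  | none => simp
  | some e => by_cases h : e ∈ U <;> by_cases h' : e ∈ U' <;> simp [h, h']

theorem out_union (sl : V → Option E) (a : V) (U U' : Finset E) :
    out sl a (U ∪ U') ≤ out sl a U ∧ out sl a (U ∪ U') ≤ out sl a U' := by
  unfold out
  cases sl a with
  | none => simp
  | some e => by_cases h : e ∈ U <;> by_cases h' : e ∈ U' <;> simp [h, h']

theorem prk_eq (c : Finset E → ℤ) (sl : V → Option E) (α : V → ℕ) :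
    prk c sl α = (univ : Finset (Finset E)).inf' ⟨∅, mem_univ _⟩ (val c sl α) := by
  unfold prk val
  congr 1
  funext U
  congr 1
  refine sum_congr rfl fun v _ => ?_
  unfold out
  cases sl v with
  | none => simp
  | some e => by_cases h : e ∈ U <;> simp [h]

theorem prk_le (c : Finset E → ℤ) (sl : V → Option E) (α : V → ℕ) (U : Finset E) :
    prk c sl α ≤ val c sl α U := by
  rw [prk_eq]; exact inf'_le _ (mem_univ U)

theorem prk_ex (c : Finset E → ℤ) (sl : V → Option E) (α : V → ℕ) :
    ∃ U, prk c sl α = val c sl α U := by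
  rw [prk_eq]
  obtain ⟨U, -, h⟩ := exists_mem_eq_inf' (s := (univ : Finset (Finset E))) ⟨∅, mem_univ _⟩ (val c sl α)
  exact ⟨U, h⟩

theorem val_add (c : Finset E → ℤ) (sl : V → Option E) (α : V → ℕ) (a : V) (U : Finset E) :
    val c sl (α + ev a) U = val c sl α U + out sl a U := by
  unfold val
  have : ∑ v, out sl v U * ((α + ev a) v : ℕ) =
      ∑ v, out sl v U * α v + ∑ v, out sl v U * ((ev a v : ℕ) : ℤ) := by
    rw [← sum_add_distrib]
    exact sum_congr rfl fun v _ => by simp [mul_add]
  rw [this, Finset.sum_eq_single a (f := fun v => out sl v U * ((ev a v : ℕ) : ℤ))]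
  · simp [ev, add_assoc]
  · intro v _ hv
    simp [ev, hv]
  · simp

theorem val_sub (c : Finset E → ℤ) (hc : Sub c) (sl : V → Option E) (α : V → ℕ) (U U' : Finset E) :
    val c sl α (U ∪ U') + val c sl α (U ∩ U') ≤ val c sl α U + val c sl α U' := by
  unfold val
  have h1 := hc U U'
  have h2 : ∑ v, out sl v (U ∪ U') * α v + ∑ v, out sl v (U ∩ U') * α v =
      ∑ v, out sl v U * α v + ∑ v, out sl v U' * α v := by
    rw [← sum_add_distrib, ← sum_add_distrib]
    exact sum_congr rfl fun v _ => by rw [← add_mul, ← add_mul, out_mod]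
  linarith

/-- the parallelism relation at `γ` -/
def par (c : Finset E → ℤ) (sl : V → Option E) (γ : V → ℕ) (a b : V) : Prop :=
  prk c sl (γ + ev a) = prk c sl γ + 1 ∧ prk c sl (γ + ev b) = prk c sl γ + 1 ∧
    ∃ U, val c sl γ U = prk c sl γ + 1 ∧ out sl a U = 0 ∧ out sl b U = 0

theorem par_symm (c : Finset E → ℤ) (sl : V → Option E) (γ : V → ℕ) (a b : V)
    (h : par c sl γ a b) : par c sl γ b a :=
  ⟨h.2.1, h.1, let ⟨U, h1, h2, h3⟩ := h.2.2; ⟨U, h1, h3, h2⟩⟩

theorem par_trans (c : Finset E → ℤ) (hc : Sub c) (sl : V → Option E) (γ : V → ℕ) (a b d : V)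
    (h : par c sl γ a b) (h' : par c sl γ b d) : par c sl γ a d := by
  obtain ⟨ha, hb, U, h1, h2, h3⟩ := h
  obtain ⟨-, hd, U', h1', h2', h3'⟩ := h'
  refine ⟨ha, hd, U ∪ U', ?_, ?_, ?_⟩
  · have e1 := val_sub c hc sl γ U U'
    have e2 := prk_le c sl (γ + ev b) (U ∩ U')
    have e3 := prk_le c sl (γ + ev a) (U ∪ U')
    rw [val_add] at e2 e3
    have e4 := out_mod sl b U U'
    have e5 := out_union sl a U U'
    rcases out_cases sl b (U ∪ U') with h | h <;> rcases out_cases sl a (U ∪ U') with h'' | h'' <;>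
      omega
  · have e5 := out_union sl a U U'
    rcases out_cases sl a (U ∪ U') with h'' | h'' <;> omega
  · have e5 := out_union sl d U U'
    rcases out_cases sl d (U ∪ U') with h'' | h'' <;> omega

theorem step_cases (c : Finset E → ℤ) (sl : V → Option E) (γ : V → ℕ) (a : V) :
    prk c sl (γ + ev a) = prk c sl γ ∨ prk c sl (γ + ev a) = prk c sl γ + 1 := by
  obtain ⟨U, hU⟩ := prk_ex c sl γ
  obtain ⟨U', hU'⟩ := prk_ex c sl (γ + ev a)
  have e1 := prk_le c sl (γ + ev a) U
  have e2 := prk_le c sl γ U'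
  rw [val_add] at e1 hU'
  rcases out_cases sl a U with h | h <;> rcases out_cases sl a U' with h' | h' <;> omega

theorem loop (c : Finset E → ℤ) (hc : Sub c) (sl : V → Option E) (γ : V → ℕ) (a b : V)
    (ha : prk c sl (γ + ev a) = prk c sl γ) : prk c sl (γ + ev a + ev b) = prk c sl (γ + ev b) := by
  obtain ⟨U₀, hU₀⟩ := prk_ex c sl (γ + ev a)
  obtain ⟨U, hU⟩ := prk_ex c sl (γ + ev b)
  obtain ⟨U', hU'⟩ := prk_ex c sl (γ + ev a + ev b)
  have e1 := prk_le c sl (γ + ev a + ev b) (U ∪ U₀)
  have e2 := prk_le c sl (γ + ev b) U'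
  have e3 := prk_le c sl γ U₀
  have e4 := prk_le c sl γ (U ∩ U₀)
  have e5 := val_sub c hc sl γ U U₀
  have e6 := out_union sl a U U₀
  have e7 := out_union sl b U U₀
  simp only [val_add] at e1 e2 hU₀ hU hU'
  rcases out_cases sl a U₀ with h | h <;> rcases out_cases sl a U' with h' | h' <;> omega

open Classical in
theorem second (c : Finset E → ℤ) (hc : Sub c) (sl : V → Option E) (γ : V → ℕ) (a b : V) :
    prk c sl (γ + ev a + ev b) + prk c sl γ + (if par c sl γ a b then 1 else 0) =
      prk c sl (γ + ev a) + prk c sl (γ + ev b) := by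
  rcases step_cases c sl γ a with ha | ha
  · have hp : ¬ par c sl γ a b := fun h => by have := h.1; omega
    rw [if_neg hp, loop c hc sl γ a b ha, ha]; ring
  rcases step_cases c sl γ b with hb | hb
  · have hp : ¬ par c sl γ a b := fun h => by have := h.2.1; omega
    rw [if_neg hp, add_right_comm γ, loop c hc sl γ b a hb, hb]; ring
  obtain ⟨U₀, hU₀⟩ := prk_ex c sl γ
  obtain ⟨U', hU'⟩ := prk_ex c sl (γ + ev a + ev b)
  have e1 := prk_le c sl (γ + ev a + ev b) U₀
  have e2 := prk_le c sl (γ + ev a) U'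
  have e3 := prk_le c sl (γ + ev b) U'
  simp only [val_add] at e1 e2 e3 hU'
  split_ifs with hp
  · obtain ⟨-, -, U, h1, h2, h3⟩ := hp
    have e4 := prk_le c sl (γ + ev a + ev b) U
    simp only [val_add] at e4
    rcases out_cases sl b U' with h | h <;> omega
  · have : prk c sl (γ + ev a + ev b) ≠ prk c sl γ + 1 := by
      intro h
      apply hp
      refine ⟨ha, hb, U', ?_, ?_, ?_⟩ <;>
      rcases out_cases sl b U' with h | h <;> rcases out_cases sl a U' with h' | h' <;> omega
    rcases out_cases sl b U' with h | h <;> rcases out_cases sl a U₀ with h' | h' <;>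
      rcases out_cases sl b U₀ with h'' | h'' <;> omega

end POT

open POT in
theorem POT_proof : PotStmt := by
  classical
  intro V E _ _ _ _ c sl q hc hq hq1
  rw [SCH_proof]
  refine ⟨fun γ => zpow_pos hq _, fun γ x => ?_⟩
  have hq0 : q ≠ 0 := hq.ne'
  have key : ∀ a b, q ^ (-prk c sl (γ + ev a + ev b)) * q ^ (-prk c sl γ) =
      q ^ (-prk c sl (γ + ev a)) * q ^ (-prk c sl (γ + ev b)) *
        (1 - (1 - q) * (if par c sl γ a b then 1 else 0)) := by
    intro a b
    have h := second c hc sl γ a b
    rw [← zpow_add₀ hq0, ← zpow_add₀ hq0]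
    split_ifs at h ⊢ with hp
    · have : -prk c sl (γ + ev a + ev b) + -prk c sl γ =
          (-prk c sl (γ + ev a) + -prk c sl (γ + ev b)) + 1 := by omega
      rw [this, zpow_add₀ hq0]; simp
    · have : -prk c sl (γ + ev a + ev b) + -prk c sl γ =
          (-prk c sl (γ + ev a) + -prk c sl (γ + ev b)) := by omega
      rw [this]; simp
  have hp := psd_per (par c sl γ) (par_symm c sl γ) (par_trans c hc sl γ)
    (fun a => x a * q ^ (-prk c sl (γ + ev a)))
  have h1 : Qv (fun α => q ^ (-prk c sl α)) γ x * q ^ (-prk c sl γ) =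
      Dv (fun α => q ^ (-prk c sl α)) γ x ^ 2 - (1 - q) * ∑ a, ∑ b,
        (x a * q ^ (-prk c sl (γ + ev a))) * (x b * q ^ (-prk c sl (γ + ev b))) *
          (if par c sl γ a b then 1 else 0) := by
    unfold Qv Dv
    rw [sq, sum_mul_sum, sum_mul, mul_sum, ← sum_sub_distrib]
    refine sum_congr rfl fun a _ => ?_
    rw [sum_mul, mul_sum, ← sum_sub_distrib]
    refine sum_congr rfl fun b _ => ?_
    rw [mul_assoc, key]
    ring
  rw [h1]
  nlinarith [mul_nonneg (sub_nonneg.2 hq1) hp]

end Crest.Agent.R302
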