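import Crest.Agent.R302.LAPc
import Crest.Agent.R302.POT

/-! Row 302, task LAP: the family of `L`-functions of the model. -/

set_option autoImplicit false

namespace Crest.Agent.R302

open Finset Crest.Agent.R309

namespace LAP

variable {n m : ℕ} {f : Bool → Finset (Fin n) → ℤ} {P : Pre}

/-- the Potts factor of a side -/
noncomputable def pot (n m : ℕ) (f : Bool → Finset (Fin n) → ℤ) (P : Pre) (ε : ℝ) (b : Bool)
    (α : VV n → ℕ) : ℝ :=
  ε ^ ((∑ v, if (slot n P b v).isSome then (α v : ℤ) else 0) + cc n m f P b univ -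
    2 * prk (cc n m f P b) (slot n P b) α)

theorem pot_isL (hRep : RepStmt) (hS : Spec n m f P) {ε : ℝ} (h0 : 0 < ε) (h1 : ε ≤ 1) (b : Bool) :
    IsL (pot n m f P ε b) := by
  have h := (CLO_proof (VV n)).2.2.2.2.2.2 _ (ε ^ cc n m f P b univ)
    (fun v => if (slot n P b v).isSome then ε else 1)
    (POT_proof (VV n) (Fin n) (cc n m f P b) (slot n P b) (ε ^ 2)
      ((hRep n m f P hS).2.2.2.2.2.2.2.1 b) (by positivity) (pow_le_one₀ h0.le h1))
    (zpow_pos h0 _) (fun v => by split_ifs <;> positivity)
  convert h using 1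
  funext α
  unfold pot
  have e : ∏ v, (if (slot n P b v).isSome then ε else 1) ^ α v =
      ε ^ (∑ v, if (slot n P b v).isSome then (α v : ℤ) else 0) := by
    have : (∑ v, if (slot n P b v).isSome then (α v : ℤ) else 0) =
        ((∑ v, if (slot n P b v).isSome then α v else 0 : ℕ) : ℤ) := by push_cast; rfl
    rw [this, zpow_natCast, ← prod_pow_eq_pow_sum]
    exact prod_congr rfl (fun v _ => by split_ifs <;> simp)
  rw [e, ← zpow_natCast ε 2, ← zpow_mul, ← zpow_add₀ h0.ne', ← zpow_add₀ h0.ne']
  congr 1; push_cast; ring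

theorem pot_dep (ε : ℝ) (b : Bool) :
    DepOn (pot n m f P ε b) (univ.filter (fun v => (slot n P b v).isSome)) := by
  intro α β h
  have h' : ∀ v, (slot n P b v).isSome → α v = β v := fun v hv => h v (by simp [hv])
  unfold pot prk
  congr 2
  · congr 1
    exact sum_congr rfl (fun v _ => by split_ifs with hv; rw [h' v hv]; rfl)
  · congr 2
    funext U
    congr 1
    refine sum_congr rfl (fun v _ => ?_)
    cases hs : slot n P b v with
    | none => rfl
    | some e => simp only; rw [h' v (by simp [hs])]

theorem slot_some {b : Bool} {v : VV n} (h : (slot n P b v).isSome) :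
    ∃ e : Fin n, v = .inl ((e, b), false) ∧ isF P e = true := by
  rcases v with ⟨⟨e, b'⟩, c⟩ | v
  · simp only [slot] at h
    split_ifs at h with h1
    · obtain ⟨rfl, rfl, h3⟩ := h1; exact ⟨e, rfl, h3⟩
    · simp at h
    · simp at h
  · simp [slot] at h

theorem psi0_eq (hS : Spec n m f P) (ω : Fin n × Bool → ℕ) (x : List ℤ) :
    psi0 n m f P ω x = Real.exp (-∑ i : Fin n, U0 P m f i ω x) := by
  have hm : (0 : ℝ) < m := by have := hS.big; exact_mod_cast (by omega : 0 < m)
  have hH : (0 : ℝ) < 1 + 1 / (qH m : ℝ) := by positivity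
  have h4 : (0 : ℝ) < 1 + 1 / (m : ℝ) ^ 4 := by positivity
  unfold psi0 U0
  rw [sum_add_distrib, neg_add, Real.exp_add, mul_comm]
  congr 1
  · rw [Fintype.prod_prod_type, ← sum_neg_distrib, Real.exp_sum]
    refine prod_congr rfl (fun i _ => ?_)
    rw [mul_sum, ← sum_neg_distrib, Real.exp_sum]
    refine prod_congr rfl (fun b _ => ?_)
    rw [Real.rpow_def_of_pos h4]; congr 1; ring
  · have e : ∑ i : Fin n, ∑ j ∈ univ.filter (fun j : Fin n => nd P j ∧ cp P j = i),
        (dF n P x j : ℝ) ^ 2 = ∑ j : Fin n, if nd P j then (dF n P x j : ℝ) ^ 2 else 0 := by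
      simp only [sum_filter]
      rw [sum_comm]
      refine sum_congr rfl (fun j _ => ?_)
      rw [sum_eq_single (⟨cp P j, hS.cpl j j.2⟩ : Fin n)]
      · simp
      · intro i _ hi
        rw [if_neg]
        exact fun h => hi (Fin.ext h.2.symm)
      · simp
    rw [← mul_sum, e, mul_sum, ← sum_neg_distrib, Real.exp_sum]
    refine prod_congr rfl (fun j _ => ?_)
    split_ifs
    · rw [← Real.rpow_intCast, Real.rpow_def_of_pos hH]; congr 1; push_cast; ring
    · simp

end LAP

open LAP in
theorem LAP_proof (hRep : RepStmt) (hRho : RhoStmt) : LapStmt := by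
  intro n m f P hS
  choose U hU1 hU2 hU3 hU4 using comp hRep hRho hS
  have hm2 : (2000 : ℝ) ≤ m := by exact_mod_cast hS.big
  have hm : (0 : ℝ) < m := by linarith
  have hn : (n : ℝ) ≤ m := by exact_mod_cast hS.le
  refine ⟨fun α => Real.exp (-∑ i, U i α), fun α => Real.exp_pos _, ?_, ?_, ?_⟩
  · intro ε χ o χ' h0 h1 hχ hχ'
    obtain ⟨-, c2, c3, -, -, c6, -⟩ := CLO_proof (VV n)
    have hB : ∀ i : Fin n, IsL (fun α => Real.exp (-U i α) *
        χ i ((∑ v ∈ SS n P i, (α v : ℤ)) - o i)) := fun i =>
      c2 _ _ _ _ (hU1 i) (fun α β h => by simp only [hU2 i α β h]) (hχ i)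
    have hP := c6 (Bool ⊕ Fin n) univ
      (Sum.elim (pot n m f P ε) (fun i α => Real.exp (-U i α) *
        χ i ((∑ v ∈ SS n P i, (α v : ℤ)) - o i)))
      (Sum.elim (fun b => univ.filter (fun v => (slot n P b v).isSome)) (fun i => SS n P i))
      (by
        rintro (b | i) _
        · exact pot_isL hRep hS h0 h1 b
        · exact hB i)
      (by
        rintro (b | i) _
        · exact pot_dep ε b
        · intro α β h
          simp only [Sum.elim_inr] at h ⊢
          rw [hU2 i α β h, sum_congr rfl (fun v hv => by rw [h v hv])])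
      (by
        have key : ∀ (b : Bool) (i : Fin n),
            Disjoint (univ.filter (fun v => (slot n P b v).isSome)) (SS n P i) := by
          intro b i
          rw [disjoint_left]
          intro v hv hv'
          obtain ⟨e, rfl, he⟩ := slot_some (mem_filter.1 hv).2
          have := (mem_filter.1 hv').2
          simp [vc, he] at this
        rintro (b | i) _ (b' | i') _ hne
        · simp only [Sum.elim_inl]
          rw [disjoint_left]
          intro v hv hv'
          obtain ⟨e, rfl, -⟩ := slot_some (mem_filter.1 hv).2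
          obtain ⟨e', h, -⟩ := slot_some (mem_filter.1 hv').2
          simp only [Sum.inl.injEq, Prod.mk.injEq] at h
          exact hne (by rw [h.1.2])
        · exact key b i'
        · exact (key b' i).symm
        · simp only [Sum.elim_inr]
          rw [disjoint_left]
          intro v hv hv'
          have h := (mem_filter.1 hv).2.symm.trans (mem_filter.1 hv').2
          exact hne (by rw [Fin.ext (Option.some.inj h)]))
    have hQ := c3 _ (Sum.elim (fun c : (Fin n × Bool) × Bool =>
        if c.2 = true then (fun _ => 1) else χ' c.1) (fun _ _ => 1))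
      (Sum.elim (fun c : (Fin n × Bool) × Bool => (hK n m P c.1 : ℤ)) (fun _ => 0)) hP
      (by
        have h1 : LC (fun _ => 1) := ⟨fun _ => one_pos, fun _ => by norm_num⟩
        rintro (c | v)
        · simp only [Sum.elim_inl]; split_ifs
          · exact h1
          · exact hχ' _
        · exact h1)
    convert hQ using 1
    funext α
    unfold FL
    congr 1
    · rw [Fintype.prod_sum_type]
      simp only [Sum.elim_inl, Sum.elim_inr]
      rw [prod_mul_distrib, ← mul_assoc, ← Real.exp_sum, sum_neg_distrib]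
      congr 2
      unfold dfc pot
      rw [Fintype.sum_bool, Fintype.prod_bool, zpow_add₀ h0.ne']
    · rw [Fintype.prod_sum_type, Fintype.prod_prod_type (α₁ := Fin n × Bool)]
      simp
  · intro y hy ω z hω
    have h : |∑ i, U i (emb n m P y ω z) - ∑ i, U0 P m f i ω (st n m P y)| ≤ 1 / (m : ℝ) ^ 2 := by
      rw [← sum_sub_distrib]
      refine (abs_sum_le_sum_abs _ _).trans ((sum_le_sum (fun i _ => hU3 i y hy ω z hω)).trans ?_)
      rw [sum_const, card_univ, Fintype.card_fin, nsmul_eq_mul]
      calc _ ≤ (m : ℝ) * (1 / (m : ℝ) ^ 3) := by gcongr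
        _ = _ := by field_simp
    rw [psi0_eq hS, ← Real.exp_add, ← Real.exp_add]
    rw [abs_le] at h
    constructor <;> exact Real.exp_le_exp.2 (by linarith [h.1, h.2])
  · intro k α hα
    have h : |∑ i, U i (α + ev (.inl (k, true))) - ∑ i, U i α| ≤ 1 / 2 := by
      rw [← sum_sub_distrib]
      refine (abs_sum_le_sum_abs _ _).trans ((sum_le_sum (fun i _ => hU4 i α _ hα)).trans ?_)
      rw [sum_const, card_univ, Fintype.card_fin, nsmul_eq_mul]
      calc _ ≤ (m : ℝ) * (1 / (2 * (m : ℝ))) := by gcongr
        _ = _ := by field_simp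
    have h2 : Real.exp (1 / 2) ≤ 2 := by
      have := Real.exp_bound_div_one_sub_of_interval (x := 1 / 2) (by norm_num) (by norm_num)
      linarith
    rw [abs_le] at h
    constructor
    · refine le_trans ?_ (mul_le_mul_of_nonneg_right h2 (Real.exp_pos _).le)
      rw [← Real.exp_add]; exact Real.exp_le_exp.2 (by linarith [h.1, h.2])
    · refine le_trans ?_ (mul_le_mul_of_nonneg_right h2 (Real.exp_pos _).le)
      rw [← Real.exp_add]; exact Real.exp_le_exp.2 (by linarith [h.1, h.2])

end Crest.Agent.R302
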