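import Crest.Agent.R302.DefsC

/-! Row 302, task MEM: the deep state, deep states are accepted, accepted states have level zero. -/

set_option autoImplicit false

namespace Crest.Agent.R302

open Finset Crest.Agent.PT Crest.Agent.QC Crest.Agent.R317 Crest.Agent.R300U Crest.Agent.R309

namespace MEM

variable {n m : ℕ} {f : Bool → Finset (Fin n) → ℤ} {P : Pre}

/-- combination of cycles -/
def oc (n : ℕ) (P : Pre) (c : ℕ → ℤ) (j : ℕ) : ℤ :=
  ∑ e ∈ range n, if isF P e = true then 0 else c e * cyc P e j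

theorem oc_smul (s : ℤ) (c : ℕ → ℤ) (j : ℕ) : s * oc n P c j = oc n P (fun e => s * c e) j := by
  unfold oc
  rw [mul_sum]
  refine sum_congr rfl fun e _ => ?_
  split_ifs <;> ring

theorem sum_oc (c : ℕ → ℤ) (A : Finset (Fin n)) : ∑ j ∈ A, oc n P c j =
    ∑ e : Fin n, if isF P e = true then 0 else c e * ∑ j ∈ A, cyc P e j := by
  unfold oc
  rw [sum_comm, ← Fin.sum_univ_eq_sum_range
    (fun e => ∑ j ∈ A, if isF P e = true then 0 else c e * cyc P e j) n]
  refine sum_congr rfl fun e _ => ?_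
  split_ifs
  · simp
  · rw [mul_sum]

theorem getD_mem {E : Eds} {i : ℕ} (hi : i < E.length) : E.getD i (0, 0, 0) ∈ E := by
  simp [List.getD_eq_getElem?_getD, hi]

theorem zeta_nn (hS : Spec n m f P) (b : Bool) (A : Finset (Fin n)) : 0 ≤ zeta P b A := by
  unfold zeta zetaL
  refine sum_nonneg fun i hi => ?_
  split_ifs
  · exact le_rfl
  · exact (hS.edg b _ (getD_mem (mem_range.1 hi))).2.2.1

theorem oc_bd (hS : Spec n m f P) (b : Bool) {c : ℕ → ℤ} (hc : ∀ e, |c e| ≤ 2 ^ he P e)
    (A : Finset (Fin n)) : (qT m : ℤ) * |∑ j ∈ A, oc n P c j| ≤ m ^ 2 * zeta P b A := by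
  have hz := zeta_nn hS b A
  have hT : (0 : ℤ) ≤ qT m := by positivity
  have hn : (n : ℤ) ≤ m := by exact_mod_cast hS.le
  rw [sum_oc]
  refine (mul_le_mul_of_nonneg_left (abs_sum_le_sum_abs _ _) hT).trans ?_
  rw [mul_sum]
  refine (sum_le_sum (g := fun _ => (m : ℤ) * zeta P b A) fun e _ => ?_).trans ?_
  · by_cases hF : isF P e = true
    · rw [if_pos hF, abs_zero, mul_zero]; positivity
    rw [if_neg hF]
    have hF' : isF P e = false := by simpa using hF
    by_cases h0 : ∑ j ∈ A, cyc P e j = 0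
    · rw [h0, mul_zero, abs_zero, mul_zero]; positivity
    have h1 := hS.cy2 e hF' b A h0
    have h2 : |∑ j ∈ A, cyc P e j| ≤ m := by
      refine (abs_sum_le_sum_abs _ _).trans ((sum_le_sum (g := fun _ => (1 : ℤ))
        fun j _ => (hS.cy1 e j hF').1).trans ?_)
      have : A.card ≤ n := (card_le_univ A).trans (by simp)
      simp only [sum_const, nsmul_eq_mul, mul_one]
      exact le_trans (by exact_mod_cast this) hn
    rw [abs_mul]
    calc (qT m : ℤ) * (|c e| * |∑ j ∈ A, cyc P e j|) ≤ qT m * (2 ^ he P e * m) := by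
          have := hc e
          gcongr
      _ = m * (qT m * 2 ^ he P e) := by ring
      _ ≤ _ := mul_le_mul_of_nonneg_left h1 (by positivity)
  · simp only [sum_const, card_univ, Fintype.card_fin, nsmul_eq_mul]
    calc (n : ℤ) * (m * zeta P b A) ≤ m * (m * zeta P b A) :=
          mul_le_mul_of_nonneg_right hn (by positivity)
      _ = _ := by ring

/-- unions of classes -/
def Cl (P : Pre) (b : Bool) (A : Finset (Fin n)) : Prop :=
  ∀ a a' : Fin n, cl P b a = cl P b a' → a ∈ A → a' ∈ A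

theorem bit (S : Finset (Fin n)) {i : ℕ} (h : i < n) :
    (bitsOf S).getD i false = decide ((⟨i, h⟩ : Fin n) ∈ S) :=
  getD_ofFn (fun j : Fin n => decide (j ∈ S)) ⟨i, h⟩ false

theorem cu_of (hS : Spec n m f P) {b : Bool} {A : Finset (Fin n)} (h : Cl P b A) :
    ∃ L, cu n P b L = A := by
  refine ⟨univ.filter (fun l : Fin n => ∃ a ∈ A, cl P b a = l), ?_⟩
  ext j
  simp only [cu, mem_filter, mem_univ, true_and, bit _ (hS.cll b j j.2), decide_eq_true_eq]
  exact ⟨fun ⟨a, ha, e⟩ => h a j e ha, fun hj => ⟨j, hj, rfl⟩⟩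

theorem cl_low (hS : Spec n m f P) (b : Bool) (i : ℕ) : Cl P b (low n P i) := by
  intro a a' e h
  simp only [low, mem_filter, mem_univ, true_and] at h ⊢
  rwa [← hS.clc b a a' e]

theorem cl_univ (b : Bool) : Cl P b (univ : Finset (Fin n)) := fun _ _ _ _ => mem_univ _

theorem Cl.union {b : Bool} {A B : Finset (Fin n)} (hA : Cl P b A) (hB : Cl P b B) :
    Cl P b (A ∪ B) := fun a a' e h =>
  mem_union.2 ((mem_union.1 h).imp (hA a a' e) (hB a a' e))

theorem oc_cl (hRep : RepStmt) (hS : Spec n m f P) {b : Bool} {A : Finset (Fin n)} (h : Cl P b A)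
    (c : ℕ → ℤ) : ∑ j ∈ A, oc n P c j = 0 := by
  obtain ⟨L, rfl⟩ := cu_of hS h
  rw [sum_oc]
  refine sum_eq_zero fun e _ => ?_
  split_ifs with hF
  · rfl
  · rw [((hRep n m f P hS).2.2.2.2.2.2.2.2.2.2 b L).2 e (by simpa using hF), mul_zero]

theorem cl_cu (b : Bool) (L : Finset (Fin n)) : Cl P b (cu n P b L) := by
  intro a a' e h
  simp only [cu, mem_filter, mem_univ, true_and] at h ⊢
  rwa [← e]

theorem zeta_low (hS : Spec n m f P) (b : Bool) (i : ℕ) (A : Finset (Fin n)) :
    zeta P b (A ∩ kap n P i ∪ low n P i) = zeta P b (A ∩ kap n P i) := by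
  unfold zeta zetaL
  refine sum_congr rfl fun k hk => ?_
  obtain ⟨h1, h2, -, -, h3⟩ := hS.edg b _ (getD_mem (mem_range.1 hk))
  generalize (ed P b).getD k (0, 0, 0) = ε at h1 h2 h3
  have h4 : cp P ε.1 = cp P ε.2.1 := hS.clc b ⟨_, h1⟩ ⟨_, h2⟩ h3
  refine if_congr ?_ rfl rfl
  rw [bit _ h1, bit _ h2, bit _ h1, bit _ h2]
  simp only [kap, low, mem_union, mem_inter, mem_filter, mem_univ, true_and, decide_eq_decide, h4]
  rcases lt_trichotomy (cp P ε.2.1) i with h5 | h5 | h5
  · simp [h5, h5.ne]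
  · simp [h5]
  · simp [h5.ne', h5.not_gt]

theorem sum_low (y : Fin n → ℤ) (i : ℕ) (A : Finset (Fin n)) :
    ∑ j ∈ A ∩ kap n P i ∪ low n P i, y j = ∑ j ∈ A ∩ kap n P i, y j + ∑ j ∈ low n P i, y j := by
  refine sum_union (disjoint_left.2 fun j h1 h2 => ?_)
  simp only [kap, low, mem_inter, mem_filter, mem_univ, true_and] at h1 h2
  omega

theorem den_nn (hS : Spec n m f P) (b : Bool) (i : ℕ) (A : Finset (Fin n)) :
    0 ≤ den n m P b i A := by
  unfold den
  have := zeta_nn hS b (A ∩ kap n P i)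
  positivity

theorem rho_zero (hRep : RepStmt) (hRho : RhoStmt) (hS : Spec n m f P) {x : List ℤ}
    (hx : x ∈ Sec n m f P) (b : Bool) (i : ℕ) {c : ℕ → ℤ} (hc : ∀ e, |c e| ≤ 2 ^ he P e)
    {K ω : ℤ} (hK : ∀ A, K * zeta P b A ≤
      qT m * (f b A - ∑ j ∈ A, (zv n P b x j + oc n P c j))) (hω : (m : ℤ) ^ 2 ≤ ω + K) :
    rho n m f P b i ω (zv n P b x) = 0 := by
  obtain ⟨h0, -, -, -, -, -, -, -, h5⟩ := hRho n m f P hS b i
  refine le_antisymm ?_ (h0 _ _)
  unfold rho
  refine sup'_le _ _ fun A _ => div_nonpos_of_nonpos_of_nonneg ?_ (by exact_mod_cast den_nn hS b i A)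
  have h1 := hK (A ∩ kap n P i ∪ low n P i)
  rw [zeta_low hS, sum_low, sum_add_distrib, sum_add_distrib, oc_cl hRep hS (cl_low hS b i)] at h1
  have h2 := (abs_le.1 (h5 x hx).1).1
  have h3 := oc_bd hS b hc (A ∩ kap n P i)
  have hT : (0 : ℤ) ≤ qT m := by positivity
  have h4 := mul_le_mul_of_nonneg_left (neg_le_abs (∑ j ∈ A ∩ kap n P i, oc n P c j)) hT
  have h6 := mul_le_mul_of_nonneg_left h2 hT
  have h7 := mul_le_mul_of_nonneg_right hω (zeta_nn hS b (A ∩ kap n P i))
  have : num n m f P b i ω (zv n P b x) A ≤ 0 := by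
    unfold num
    linarith
  exact_mod_cast this

theorem tele (hS : Spec n m f P) (b : Bool) (y : Fin n → ℤ) (w : ℕ → ℤ) (A : Finset (Fin n))
    (h : ∀ i < n, ∑ j ∈ A ∩ kap n P i, y j ≤ f b (A ∩ kap n P i ∪ low n P i) + w i) :
    ∑ j ∈ A, y j ≤ f b A + ∑ i ∈ range n, (w i + m ^ 2 * qt m) := by
  have key : ∀ k ≤ n, ∑ j ∈ A ∩ low n P k, y j ≤
      f b (A ∩ low n P k) + ∑ i ∈ range k, (w i + m ^ 2 * qt m) := by
    intro k
    induction k with
    | zero =>
      intro _
      have : A ∩ low n P 0 = ∅ := by ext j; simp [low]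
      rw [this, hS.empty]; simp
    | succ k ih =>
      intro hk
      have h1 := ih (by omega)
      have h2 := h k (by omega)
      have h3 := hS.sub b (A ∩ low n P (k + 1)) (low n P k)
      have e1 : A ∩ low n P (k + 1) ∪ low n P k = A ∩ kap n P k ∪ low n P k := by
        ext j
        simp only [kap, low, mem_union, mem_inter, mem_filter, mem_univ, true_and]
        by_cases a : j ∈ A <;> simp only [a, true_and, false_and, false_or]
        omega
      have e2 : A ∩ low n P (k + 1) ∩ low n P k = A ∩ low n P k := by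
        ext j
        simp only [low, mem_inter, mem_filter, mem_univ, true_and]
        by_cases a : j ∈ A <;> simp only [a, true_and, false_and]
        omega
      have e3 : A ∩ low n P (k + 1) = A ∩ low n P k ∪ A ∩ kap n P k := by
        ext j
        simp only [kap, low, mem_union, mem_inter, mem_filter, mem_univ, true_and]
        by_cases a : j ∈ A <;> simp only [a, true_and, false_and, false_or]
        omega
      have e4 : ∑ j ∈ A ∩ low n P (k + 1), y j =
          ∑ j ∈ A ∩ low n P k, y j + ∑ j ∈ A ∩ kap n P k, y j := by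
        rw [e3]
        refine sum_union (disjoint_left.2 fun j h1 h2 => ?_)
        simp only [kap, low, mem_inter, mem_filter, mem_univ, true_and] at h1 h2
        omega
      rw [e1, e2] at h3
      rw [e4, sum_range_succ]
      linarith [hS.clo b k]
  have e : A ∩ low n P n = A := by
    ext j
    simp [low, hS.cpl j j.2]
  have := key n le_rfl
  rwa [e] at this

theorem mem_Sec (hRep : RepStmt) (hS : Spec n m f P) (x : List ℤ) : x ∈ Sec n m f P ↔
    (inB n m P x ∧ HB n f P false x ∧ HB n f P true x) ∧ ∀ i < n, dc n P x i = 0 := by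
  unfold Sec
  rw [mem_filter, (hRep n m f P hS).2.2.2.1]

theorem off_eq (u : ℕ) (b : Bool) (j : ℕ) : sgn b * off n m P u j =
    oc n P (fun e => sgn b * bz (fld u (e * m) (he P e))) j := oc_smul _ _ _

theorem abs_sgn (b : Bool) : |sgn b| = 1 := by cases b <;> simp [sgn]

theorem off_bd (u : ℕ) (b : Bool) (e : ℕ) : |sgn b * bz (fld u (e * m) (he P e))| ≤ 2 ^ he P e := by
  rw [abs_mul, abs_sgn, one_mul]
  have : fld u (e * m) (he P e) < 2 ^ he P e := Nat.mod_lt _ (by positivity)
  unfold bz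
  rw [abs_of_nonneg (by positivity)]
  exact_mod_cast this.le

theorem part3 (hRep : RepStmt) (hRho : RhoStmt) (hS : Spec n m f P) (x : List ℤ)
    (hx : inB n m P x) (u : ℕ) (h : (mdlM n m f P).acc x u = true) :
    x ∈ Sec n m f P ∧ ∀ b, ∀ i < n, rho n m f P b i (m ^ 2) (zv n P b x) = 0 := by
  simp only [mdlM, decide_eq_true_eq, off_eq] at h
  obtain ⟨h1, h2⟩ := h
  have hb : ∀ b, HB n f P b x := by
    intro b
    obtain ⟨k1, k2⟩ := h2 b
    refine ⟨?_, fun L => ?_⟩
    · rwa [sum_add_distrib, oc_cl hRep hS (cl_univ b), add_zero] at k1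
    · have := k2 (cu n P b L)
      rwa [sum_add_distrib, oc_cl hRep hS (cl_cu b L), add_zero] at this
  have hs : x ∈ Sec n m f P := (mem_Sec hRep hS x).2 ⟨⟨hx, hb false, hb true⟩, h1.1⟩
  refine ⟨hs, fun b i _ => rho_zero hRep hRho hS hs b i (off_bd (m := m) u b) (K := 0)
    (fun A => ?_) (by simp)⟩
  rw [zero_mul]
  exact mul_nonneg (by positivity) (sub_nonneg.2 ((h2 b).2 A))

theorem part2 (hRep : RepStmt) (hRho : RhoStmt) (hS : Spec n m f P) (x : List ℤ)
    (hx : x ∈ Sec n m f P)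
    (h : ∀ b, ∀ i < n, rho n m f P b i (m ^ 2 - m ^ 126) (zv n P b x) ≤ 1 / (m : ℝ) ^ 12)
    (u : ℕ) (b : Bool) : Bs (f b) (fun j : Fin n => zv n P b x j + sgn b * off n m P u j) := by
  simp only [off_eq]
  obtain ⟨c, ec, hc⟩ : ∃ c : ℕ → ℤ, (fun e => sgn b * bz (fld u (e * m) (he P e))) = c ∧
      ∀ e, |c e| ≤ 2 ^ he P e := ⟨_, rfl, off_bd (m := m) (P := P) u b⟩
  rw [ec]
  have hb : HB n f P b x := by
    have := ((mem_Sec hRep hS x).1 hx).1.2
    cases b
    · exact this.1
    · exact this.2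
  have hcl : ∀ A, Cl P b A → ∑ j ∈ A, (zv n P b x j + oc n P c j) ≤ f b A := by
    intro A hA
    rw [sum_add_distrib, oc_cl hRep hS hA, add_zero]
    obtain ⟨L, rfl⟩ := cu_of hS hA
    exact hb.2 L
  have hm : (2000 : ℤ) ≤ m := by exact_mod_cast hS.big
  have hn : (n : ℤ) ≤ m := by exact_mod_cast hS.le
  have hT : (qT m : ℤ) = (m : ℤ) ^ 136 := by simp [qT]
  have ht : (qt m : ℤ) = (m : ℤ) ^ 81 := by simp [qt]
  have hT0 : (0 : ℤ) < qT m := by rw [hT]; positivity
  have c1 : ∀ i (A : Finset (Fin n)), Cl P b (A ∩ kap n P i) →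
      ∑ j ∈ A ∩ kap n P i, (zv n P b x j + oc n P c j) ≤
        f b (A ∩ kap n P i ∪ low n P i) + m ^ 2 * qt m := by
    intro i A hA
    have h1 := hcl _ (hA.union (cl_low hS b i))
    rw [sum_low, sum_add_distrib (s := low n P i), oc_cl hRep hS (cl_low hS b i)] at h1
    have h2 := (abs_le.1 ((hRho n m f P hS b i).2.2.2.2.2.2.2.2 x hx).1).1
    linarith
  have c2 : ∀ i < n, ∀ (A : Finset (Fin n)), ¬ Cl P b (A ∩ kap n P i) →
      ∑ j ∈ A ∩ kap n P i, (zv n P b x j + oc n P c j) ≤
        f b (A ∩ kap n P i ∪ low n P i) + (m ^ 2 * qt m - 2 * m ^ 84) := by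
    intro i hi A hA
    unfold Cl at hA
    push Not at hA
    obtain ⟨a, a', e, ha, ha'⟩ := hA
    have h1 := hS.spl b _ a a' e ha ha'
    have h2 : (num n m f P b i (m ^ 2 - m ^ 126) (zv n P b x) A : ℝ) / den n m P b i A ≤
        1 / (m : ℝ) ^ 12 := le_trans (le_sup' (fun A =>
          (num n m f P b i (m ^ 2 - m ^ 126) (zv n P b x) A : ℝ) / den n m P b i A) (mem_univ A))
          (h b i hi)
    have hcard : ((A ∩ kap n P i).card : ℤ) ≤ m := by
      have : (A ∩ kap n P i).card ≤ n := (card_le_univ _).trans (by simp)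
      exact le_trans (by exact_mod_cast this) hn
    have hd0 : 0 < den n m P b i A := by
      unfold den
      have : 0 < zeta P b (A ∩ kap n P i) := hT0.trans_le h1
      positivity
    have hm0 : (0 : ℝ) < m := by have := hS.big; positivity
    rw [div_le_div_iff₀ (by exact_mod_cast hd0) (by positivity), one_mul] at h2
    have h3 : num n m f P b i (m ^ 2 - m ^ 126) (zv n P b x) A * (m : ℤ) ^ 12 ≤ den n m P b i A := by
      exact_mod_cast h2
    have h4 := oc_bd hS b hc (A ∩ kap n P i)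
    have h5 := mul_le_mul_of_nonneg_left (le_abs_self (∑ j ∈ A ∩ kap n P i, oc n P c j)) hT0.le
    rw [sum_add_distrib]
    unfold num den at h3
    generalize ∑ j ∈ A ∩ kap n P i, zv n P b x j = Z at *
    generalize ∑ j ∈ A ∩ kap n P i, oc n P c j = O at *
    generalize zeta P b (A ∩ kap n P i) = ζ at *
    generalize f b (A ∩ kap n P i ∪ low n P i) = F at *
    generalize ((A ∩ kap n P i).card : ℤ) = C at *
    have hζ : 0 ≤ ζ := hT0.le.trans h1
    have d1 : (qT m : ℤ) * C ≤ m * ζ := by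
      calc (qT m : ℤ) * C ≤ qT m * m := mul_le_mul_of_nonneg_left hcard hT0.le
        _ = m * qT m := mul_comm _ _
        _ ≤ m * ζ := mul_le_mul_of_nonneg_left h1 (by positivity)
    have d2 : (qT m : ℤ) * (ζ + qT m * C) ≤ (m ^ 124 * (m + 1) * ζ) * m ^ 12 := by
      calc (qT m : ℤ) * (ζ + qT m * C) ≤ qT m * (ζ + m * ζ) :=
            mul_le_mul_of_nonneg_left (by linarith) hT0.le
        _ = _ := by rw [hT]; ring
    have d3 := le_of_mul_le_mul_right (h3.trans d2) (by positivity)
    have p : ∀ k ≤ 125, (m : ℤ) ^ k ≤ m ^ 125 := fun k hk => pow_le_pow_right₀ (by linarith) hk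
    have d4 : (m : ℤ) ^ 124 * (m + 1) + 2 * m ^ 2 + 2 * m ^ 84 ≤ m ^ 126 := by
      have e1 : (m : ℤ) ^ 124 * (m + 1) = m ^ 125 + m ^ 124 := by ring
      have e2 : (m : ℤ) ^ 126 = m * m ^ 125 := by ring
      have e3 : 6 * (m : ℤ) ^ 125 ≤ m * m ^ 125 :=
        mul_le_mul_of_nonneg_right (by linarith) (by positivity)
      linarith [p 124 (by norm_num), p 2 (by norm_num), p 84 (by norm_num)]
    have d5 := mul_le_mul_of_nonneg_right d4 hζ
    have d6 : 2 * (m : ℤ) ^ 84 * qT m ≤ 2 * m ^ 84 * ζ :=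
      mul_le_mul_of_nonneg_left h1 (by positivity)
    have d7 : (qT m : ℤ) * (Z + O) ≤ qT m * (F + (m ^ 2 * qt m - 2 * m ^ 84)) := by
      linarith
    exact le_of_mul_le_mul_left d7 hT0
  refine ⟨?_, fun A => ?_⟩
  · rw [sum_add_distrib, oc_cl hRep hS (cl_univ b), add_zero]
    exact hb.1
  by_cases hA : Cl P b A
  · exact hcl A hA
  have : ∃ i₀ < n, ¬ Cl P b (A ∩ kap n P i₀) := by
    unfold Cl at hA
    push Not at hA
    obtain ⟨a, a', e, ha, ha'⟩ := hA
    refine ⟨cp P a, hS.cpl a a.2, fun h1 => ha' (mem_inter.1 (h1 a a' e ?_)).1⟩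
    simp [kap, ha]
  obtain ⟨i₀, hi₀, h0⟩ := this
  have h1 := tele hS b (fun j => zv n P b x j + oc n P c j)
    (fun i => m ^ 2 * qt m - if i = i₀ then 2 * (m : ℤ) ^ 84 else 0) A fun i hi => by
      split_ifs with h2
      · subst h2; exact c2 i hi A h0
      · rw [sub_zero]
        by_cases h3 : Cl P b (A ∩ kap n P i)
        · exact c1 i A h3
        · have := c2 i hi A h3
          have : (0 : ℤ) ≤ 2 * (m : ℤ) ^ 84 := by positivity
          linarith
  rw [sum_add_distrib (s := range n), sum_sub_distrib, sum_ite_eq', if_pos (mem_range.2 hi₀)] at h1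
  simp only [sum_const, card_range, nsmul_eq_mul] at h1
  have h2 : (n : ℤ) * (m ^ 2 * qt m) ≤ m ^ 84 := by
    calc (n : ℤ) * (m ^ 2 * qt m) ≤ m * (m ^ 2 * qt m) :=
          mul_le_mul_of_nonneg_right hn (by positivity)
      _ = _ := by rw [ht]; ring
  linarith

theorem part1 (hRep : RepStmt) (hRho : RhoStmt) (hS : Spec n m f P) :
    ∃ x ∈ Sec n m f P, ∀ ω, psi0 n m f P ω x = 1 := by
  obtain ⟨z, z0, z1, hz⟩ := hS.deep
  obtain ⟨a, ha, hb⟩ := hS.rng z (-z) z0 z1 (by simp)
  let a' : ℕ → ℤ := fun e => if h : e < n then a ⟨e, h⟩ else 0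
  have ea : ∀ e : Fin n, a' e = a e := fun e => dif_pos e.2
  let x : List ℤ := mkL (2 * n) (fun k => if k < n then
    (if isF P k = true then a' k else a' k / 2 ^ he P k)
    else (if isF P (k - n) = true then -a' (k - n) else 0))
  have x0 : ∀ e < n, xv n x e false = if isF P e = true then a' e else a' e / 2 ^ he P e := by
    intro e he'
    show x.getD e 0 = _
    rw [getD_mkL _ _ (by omega), if_pos he']
  have x1 : ∀ e < n, xv n x e true = if isF P e = true then -a' e else 0 := by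
    intro e he'
    show x.getD (n + e) 0 = _
    rw [getD_mkL _ _ (by omega), if_neg (by omega), Nat.add_sub_cancel_left]
  have hm : (2000 : ℤ) ≤ m := by exact_mod_cast hS.big
  have hT : (qT m : ℤ) = (m : ℤ) ^ 136 := by simp [qT]
  have hu : (m : ℤ) ^ 4 * qT m ≤ qu m := by
    have : (qu m : ℤ) = (m : ℤ) ^ 141 := by simp [qu]
    rw [this, hT, ← pow_add]
    exact pow_le_pow_right₀ (by linarith) (by norm_num)
  have hin : inB n m P x := by
    refine ⟨length_mkL _ _, fun e he' => ?_⟩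
    have h1 := hb ⟨e, he'⟩
    rw [← ea] at h1
    simp only at h1 ⊢
    rw [x0 e he', x1 e he']
    split_ifs at h1 ⊢
    · rw [abs_neg]
      exact ⟨by linarith, by linarith⟩
    · refine ⟨le_trans ?_ hu, by simp⟩
      obtain ⟨k1, k2⟩ := abs_le.1 h1
      have hp : (0 : ℤ) < 2 ^ he P e := by positivity
      rw [abs_le]
      exact ⟨Int.le_ediv_of_mul_le hp (by linarith), Int.ediv_le_of_le_mul hp k2⟩
  have hy : ∀ b (j : Fin n), zv n P b x j + oc n P (fun e => sgn b * (a' e % 2 ^ he P e)) j =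
      sgn b * z j := by
    intro b j
    have e1 : z j = (if isF P j = true then a' j else 0) + oc n P a' j := by
      rw [← ha]
      unfold comb oc bv
      have : (if isF P j = true then a' j else 0) =
          ∑ e : Fin n, if e = j then (if isF P j = true then a' j else 0) else 0 := by simp
      rw [this, ← Fin.sum_univ_eq_sum_range
        (fun e => if isF P e = true then 0 else a' e * cyc P e j) n, ← sum_add_distrib]
      refine sum_congr rfl fun e _ => ?_
      rw [ea e]
      by_cases h1 : e = j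
      · subst h1
        by_cases h2 : isF P e = true <;> simp [h2, ea]
      · have h3 : (j : ℕ) ≠ e := fun h4 => h1 (Fin.ext h4.symm)
        by_cases h2 : isF P e = true <;> simp [h1, h2, h3]
    have e2 : (if isF P j = true then xv n x j b else 0) =
        sgn b * (if isF P j = true then a' j else 0) := by
      cases b
      · rw [x0 j j.2]; split_ifs <;> simp [sgn]
      · rw [x1 j j.2]; split_ifs <;> simp [sgn]
    rw [e1, ← oc_smul]
    unfold zv
    rw [e2, add_assoc, mul_add, ← mul_add]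
    congr 2
    unfold oc
    rw [← sum_add_distrib]
    refine sum_congr rfl fun e he' => ?_
    rw [x0 e (mem_range.1 he')]
    split_ifs
    · rfl
    · rw [← add_mul, Int.mul_ediv_add_emod]
  have hc : ∀ b e, |sgn b * (a' e % 2 ^ he P e)| ≤ 2 ^ he P e := by
    intro b e
    have hp : (0 : ℤ) < 2 ^ he P e := by positivity
    rw [abs_mul, abs_sgn, one_mul, abs_of_nonneg (Int.emod_nonneg _ hp.ne')]
    exact (Int.emod_lt_of_pos _ hp).le
  have hbs : ∀ b, Bs (f b) (fun j => sgn b * z j) := by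
    intro b
    cases b
    · simpa [sgn] using z0
    · have : (fun j => sgn true * z j) = -z := by funext j; simp [sgn]
      rw [this]; exact z1
  have hHB : ∀ b, HB n f P b x := by
    intro b
    obtain ⟨k1, k2⟩ := hbs b
    simp only [← hy b] at k1 k2
    refine ⟨?_, fun L => ?_⟩
    · rwa [sum_add_distrib, oc_cl hRep hS (cl_univ b), add_zero] at k1
    · have := k2 (cu n P b L)
      rwa [sum_add_distrib, oc_cl hRep hS (cl_cu b L), add_zero] at this
  have hdF : ∀ j < n, dF n P x j = 0 := by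
    intro j hj
    unfold dF
    rw [x0 j hj, x1 j hj]
    split_ifs <;> simp
  have hs : x ∈ Sec n m f P := by
    refine (mem_Sec hRep hS x).2 ⟨⟨hin, hHB false, hHB true⟩, fun i _ => ?_⟩
    unfold dc
    refine sum_eq_zero fun j hj => ?_
    rw [hdF j (mem_range.1 hj), ite_self]
  refine ⟨x, hs, fun ω => ?_⟩
  have hr : ∀ c : Fin n × Bool, rho n m f P c.2 c.1 (m ^ 2 + ω c - qO m) (zv n P c.2 x) = 0 := by
    intro c
    refine rho_zero hRep hRho hS hs c.2 c.1 (hc c.2) (K := (m : ℤ) ^ 132) (fun A => ?_) ?_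
    · simp only [hy]
      have h1 : zeta P c.2 A ≤ m ^ 4 * (f c.2 A - ∑ j ∈ A, sgn c.2 * z j) := by
        cases c.2
        · simpa [sgn] using (hz A).1
        · simpa [sgn] using (hz A).2
      calc (m : ℤ) ^ 132 * zeta P c.2 A ≤ m ^ 132 * (m ^ 4 * (f c.2 A - ∑ j ∈ A, sgn c.2 * z j)) :=
            mul_le_mul_of_nonneg_left h1 (by positivity)
        _ = _ := by rw [hT]; ring
    · have h1 : (qO m : ℤ) = (m : ℤ) ^ 131 := by simp [qO]
      have h2 : (m : ℤ) ^ 131 ≤ m ^ 132 := pow_le_pow_right₀ (by linarith) (by norm_num)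
      have h3 : (0 : ℤ) ≤ ω c := by positivity
      linarith
  unfold psi0
  rw [prod_eq_one, prod_eq_one, mul_one]
  · intro c _
    rw [hr c]; simp
  · intro j _
    rw [hdF j j.2]; simp

end MEM

open MEM in
theorem MEM_proof (hRep : RepStmt) (hRho : RhoStmt) : MemStmt := fun _ _ _ _ hS =>
  ⟨part1 hRep hRho hS, part2 hRep hRho hS, part3 hRep hRho hS⟩

end Crest.Agent.R302
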