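import Crest.Agent.R302.MG2

/-! Row 302, MG1: the marginal of the mismatch of a component is nearly log-concave. -/

set_option autoImplicit false

namespace Crest.Agent.R302

open Finset Filter Topology Crest.Agent.R309

namespace MG1

theorem rev_cs1 {V : Type} [Fintype V] [DecidableEq V] (G : (V → ℕ) → ℝ) (hG : IsL G)
    (γ : V → ℕ) (a : V) : G (γ + ev a + ev a) * G γ ≤ G (γ + ev a) ^ 2 := by
  have := ((SCH_proof V G).1 hG).2 γ (Pi.single a 1)
  simpa [Qv, Dv, Pi.single_apply] using this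

theorem LC_geo (A L : ℝ) (q : ℤ) (hA : 1 ≤ A) (hL : 0 < L) :
    LC (fun t => A ^ (-|t|) * L ^ (q * -t)) := by
  have hA0 : 0 < A := by linarith
  refine ⟨fun z => by positivity, fun z => ?_⟩
  have e1 : L ^ (q * -(z - 1)) * L ^ (q * -(z + 1)) = (L ^ (q * -z)) ^ 2 := by
    rw [sq, ← zpow_add₀ hL.ne', ← zpow_add₀ hL.ne']; congr 1; ring
  have e2 : A ^ (-|z - 1|) * A ^ (-|z + 1|) ≤ (A ^ (-|z|)) ^ 2 := by
    rw [sq, ← zpow_add₀ hA0.ne', ← zpow_add₀ hA0.ne']
    refine zpow_le_zpow_right₀ hA ?_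
    simp only [abs_eq_max_neg]
    omega
  calc _ = (A ^ (-|z - 1|) * A ^ (-|z + 1|)) * (L ^ (q * -(z - 1)) * L ^ (q * -(z + 1))) := by ring
    _ ≤ (A ^ (-|z|)) ^ 2 * (L ^ (q * -z)) ^ 2 := by
      rw [e1]; exact mul_le_mul_of_nonneg_right e2 (by positivity)
    _ = _ := by ring

theorem qJ_le (m : ℕ) (hm : 2000 ≤ m) : qJ m - qN m = 0 := by
  have h1 : m.size ≤ m := Nat.size_le.2 Nat.lt_two_pow_self
  have h2 : qJ m ≤ m ^ 145 := by
    calc qJ m = 4 * m ^ 143 * m.size := rfl
      _ ≤ m * m ^ 143 * m := by gcongr; omega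
      _ = m ^ 145 := by ring
  have h3 : m ^ 145 ≤ qN m := Nat.pow_le_pow_right (by omega) (by norm_num)
  omega

theorem xv_zero (n e : ℕ) (b : Bool) : xv n (List.replicate (2 * n) 0) e b = 0 := by
  unfold xv
  rw [List.getD_eq_getElem?_getD, List.getElem?_replicate]
  split_ifs <;> rfl

theorem exp_le_two (m : ℕ) (hm : 2000 ≤ m) : Real.exp (3 / (m : ℝ) ^ 2) ≤ 2 := by
  rw [← Real.le_log_iff_exp_le (by norm_num)]
  have h : (2000 : ℝ) ≤ m := by exact_mod_cast hm
  have := Real.log_two_gt_d9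
  rw [div_le_iff₀ (by positivity)]
  nlinarith

end MG1

open MG1 MG2 in
theorem MG1_proof (hRep : RepStmt) (hLap : LapStmt) (hWf : WfStmt) : Mg1Stmt := by
  classical
  intro n m f P hS p hp i hi
  obtain ⟨-, hsurj, -, hmem, hsum, hd0, -, -, hemb, hbd, -⟩ := hRep n m f P hS
  obtain ⟨Ψ, hΨ, hL, hcmp, -⟩ := hLap n m f P hS
  have hm := hS.big
  have hmR : (2000 : ℝ) ≤ m := by exact_mod_cast hm
  set I : Fin n := ⟨i, hi⟩ with hI
  set D : ℕ := 2 * m * qu m with hD
  set L : ℝ := 1 + 1 / (qM m : ℝ) with hLdef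
  have hL0 : 0 < L := by positivity
  set A : ℝ := (m : ℝ) ^ 2 with hA
  have hA1 : 1 ≤ A := by nlinarith
  have hA0 : 0 < A := by linarith
  set κ : ℝ := Real.exp (-(2 / (m : ℝ) ^ 2)) with hκ
  have hκ0 : 0 < κ := Real.exp_pos _
  set w : Fin n × Bool → ℕ := fun _ => qO m with hw
  set o : Fin n → ℤ := fun j => 2 * qu m * (kap n P j).card + qO m + qO m +
    (Pi.single I D : Fin n → ℕ) j with ho
  set z : ℤ → Fin n → ℕ := fun d => Pi.single I (D + d).toNat with hz
  set B := R309.box (fun k => 2 * hK n m P k) with hB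
  set χ : ℝ → Fin n → ℤ → ℝ := fun ε j t =>
    if j = I then ε ^ t.natAbs else A ^ (-|t|) * L ^ (p.getD j 0 * -t) with hχ
  set F : ℝ → (VV n → ℕ) → ℝ := fun ε => FL n m f P Ψ ε (χ ε) o (fun _ _ => 1) with hF
  set R : (Fin n × Bool → ℕ) → ℝ := fun y => ∏ j ∈ univ.erase I,
    A ^ (-|dc n P (st n m P y) j|) * L ^ (p.getD j 0 * dc n P (st n m P y) j) with hR
  have hR0 : ∀ y, 0 < R y := fun y => prod_pos fun j _ => by positivity
  have hval : ∀ (ε : ℝ) (d : ℤ), -(D : ℤ) ≤ d → ∀ y ∈ B,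
      ∏ j : Fin n, χ ε j ((∑ v ∈ SS n P j, (emb n m P y w (z d) v : ℤ)) - o j) =
        ε ^ (d - dc n P (st n m P y) i).natAbs * R y := by
    intro ε d hd y hy
    rw [← mul_prod_erase univ _ (mem_univ I)]
    congr 1
    · rw [(hemb y hy _ _).2 I]
      simp only [hχ, if_true, ho, hw, hz, Pi.single_eq_same]
      congr 2
      have : (I : ℕ) = i := rfl
      rw [this]
      omega
    · refine prod_congr rfl fun j hj => ?_
      have hj' : j ≠ I := (mem_erase.1 hj).1
      have : (∑ v ∈ SS n P j, (emb n m P y w (z d) v : ℤ)) - o j = -dc n P (st n m P y) j := by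
        rw [(hemb y hy _ _).2 j]
        simp only [ho, hw, hz, Pi.single_eq_of_ne hj']
        omega
      simp only [this, hχ, if_neg hj', abs_neg, neg_neg]
  set g : ℤ → ℝ := fun d => κ * L ^ (p.getD i 0 * d) * ∑ y ∈ B,
    (if dfc n m f P (emb n m P y w (z d)) = 0 then 1 else 0) * Ψ (emb n m P y w (z d)) *
      ((if d - dc n P (st n m P y) i = 0 then 1 else 0) * R y) with hg
  have hG := LIM_proof (fun ε d => κ * L ^ (p.getD i 0 * d) * ∑ y ∈ B, F ε (emb n m P y w (z d)))
    g (-D) D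
    (fun ε p0 p1 => by
      have hJ := mg_isL n m P _ (hL ε (χ ε) o (fun _ _ => 1) p0 p1
        (fun j => by
          by_cases h : j = I
          · simp only [hχ, if_pos h]; exact MAR.LC_eps ε p0 p1
          · simp only [hχ, if_neg h]; exact LC_geo A L _ hA1 hL0) (fun _ => LC_one))
      refine ⟨fun d _ _ => ?_, fun d h0 h1 => ?_⟩
      · refine mul_pos (by positivity) ?_
        rw [← mg_bas n m P _ _ _ _ rfl]; exact hJ.1 _
      · have := rev_cs1 _ hJ (bas w (z d)) (.inr (.inr I))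
        rw [mg_bas n m P _ _ w (z (d + 2)), mg_bas n m P _ _ w (z d) rfl,
          mg_bas n m P _ _ w (z (d + 1))] at this
        · have e1 : L ^ (p.getD i 0 * d) * L ^ (p.getD i 0 * (d + 2)) =
              (L ^ (p.getD i 0 * (d + 1))) ^ 2 := by
            rw [sq, ← zpow_add₀ hL0.ne', ← zpow_add₀ hL0.ne']; congr 1; ring
          calc _ = κ ^ 2 * (L ^ (p.getD i 0 * d) * L ^ (p.getD i 0 * (d + 2))) *
                ((∑ y ∈ B, F ε (emb n m P y w (z (d + 2)))) *
                  ∑ y ∈ B, F ε (emb n m P y w (z d))) := by ring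
            _ ≤ κ ^ 2 * (L ^ (p.getD i 0 * (d + 1))) ^ 2 *
                (∑ y ∈ B, F ε (emb n m P y w (z (d + 1)))) ^ 2 := by
              rw [e1]; exact mul_le_mul_of_nonneg_left this (by positivity)
            _ = _ := by ring
        all_goals
          funext v
          rcases v with k | k | j <;>
            simp only [bas, ev, hw, hz, Pi.add_apply, Pi.single_apply, Sum.elim_inl, Sum.elim_inr,
              Pi.zero_apply, Sum.inr.injEq, reduceCtorEq, if_false] <;>
            (try split_ifs) <;> omega)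
    (fun d h0 h1 => by
      refine Tendsto.const_mul _ (tendsto_finsetSum _ fun y hy => ?_)
      simp only [hF, FL, hval _ d h0 y hy, prod_const_one, mul_one]
      exact ((lim_z _ (hd0 _)).mul_const _).mul ((lim_n _).mul_const _))
  refine ⟨_, hG, ?_, fun d => ?_⟩
  · have h0 : -(D : ℤ) ≤ 0 ∧ (0 : ℤ) ≤ D := by omega
    simp only [if_pos h0, hg]
    refine mul_pos (by positivity) ?_
    have hin : inB n m P (List.replicate (2 * n) 0) := by
      refine ⟨by simp, fun e _ => ?_⟩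
      simp only [xv_zero, abs_zero]
      refine ⟨by positivity, ?_⟩
      split_ifs <;> positivity
    have hzv : ∀ b j, zv n P b (List.replicate (2 * n) 0) j = 0 := by
      intro b j
      simp [zv, xv_zero]
    have hHB : ∀ b, HB n f P b (List.replicate (2 * n) 0) := fun b =>
      ⟨by simp [hzv], fun L => by simpa [hzv] using hS.nonneg _ _⟩
    obtain ⟨y, hy, hst⟩ := hsurj _ hin
    have hOm : st n m P y ∈ Om n m f P := by rw [hst]; exact (hmem _).2 ⟨hin, hHB _, hHB _⟩
    have hdc : dc n P (st n m P y) i = 0 := by rw [hst]; simp [dc, dF, xv_zero]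
    refine sum_pos' (fun y _ => ?_) ⟨y, hy, ?_⟩
    · have := hΨ (emb n m P y w (z 0))
      have := hR0 y
      split_ifs <;> positivity
    · rw [if_pos ((hemb y hy _ _).1.2 hOm), if_pos (by rw [hdc]; rfl)]
      have := hΨ (emb n m P y w (z 0))
      have := hR0 y
      positivity
  by_cases hd : -(D : ℤ) ≤ d ∧ d ≤ D
  swap
  · have : (Om n m f P).filter (fun x => dc n P x i = d) = ∅ := by
      refine filter_eq_empty_iff.2 fun x hx h => hd ?_
      have := (hbd x ((hmem x).1 hx).1).1 i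
      rw [h, abs_le] at this
      simp only [hD]
      push_cast
      exact this
    simp [if_neg hd, this]
  simp only [if_pos hd, hg]
  rw [sum_filter, hsum, sum_mul, mul_sum, mul_sum]
  have hwT : ∀ c, w c ≤ qT m := fun _ => Nat.pow_le_pow_right (by omega) (by norm_num)
  have key : ∀ y ∈ B, st n m P y ∈ Om n m f P → dc n P (st n m P y) i = d →
      ∃ c : ℝ, Real.exp (-(2 / (m : ℝ) ^ 3)) ≤ c ∧ c ≤ 1 ∧
        ((mdlM n m f P).W (qN m) p (st n m P y) : ℝ) * A ^ d.natAbs =
          c * psi0 n m f P w (st n m P y) * (L ^ (p.getD i 0 * d) * R y) := by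
    intro y _ hx hdc
    obtain ⟨c, c1, c2, c3⟩ := hWf n m f P hS (qN m) p hp _ hx
    refine ⟨c, c1, c2, ?_⟩
    rw [c3, qJ_le m hm, ← mul_prod_erase univ _ (mem_univ I)]
    have e : (I : ℕ) = i := rfl
    have e2 : A ^ (-|d|) * A ^ d.natAbs = 1 := by
      rw [← zpow_natCast, ← zpow_add₀ hA0.ne', Int.natCast_natAbs]; simp
    simp only [Nat.cast_zero, zero_mul, neg_zero, zpow_zero, prod_const_one, mul_one, e, hdc]
    calc _ = c * psi0 n m f P w (st n m P y) * (L ^ (p.getD i 0 * d) * R y) *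
          (A ^ (-|d|) * A ^ d.natAbs) := by ring
      _ = _ := by rw [e2, mul_one]
  have hx1 : κ * Real.exp (1 / (m : ℝ) ^ 2) ≤ Real.exp (-(2 / (m : ℝ) ^ 3)) := by
    rw [hκ, ← Real.exp_add, Real.exp_le_exp]
    have : 2 / (m : ℝ) ^ 3 ≤ 1 / (m : ℝ) ^ 2 := by
      rw [div_le_div_iff₀ (by positivity) (by positivity)]; nlinarith
    have e : 2 / (m : ℝ) ^ 2 = 2 * (1 / (m : ℝ) ^ 2) := by ring
    linarith
  have hx2 : 1 ≤ 2 * κ * Real.exp (-(1 / (m : ℝ) ^ 2)) := by
    have := exp_le_two m hm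
    have e : κ * Real.exp (-(1 / (m : ℝ) ^ 2)) * Real.exp (3 / (m : ℝ) ^ 2) = 1 := by
      rw [hκ, ← Real.exp_add, ← Real.exp_add, Real.exp_eq_one_iff]; ring
    have : 0 < κ * Real.exp (-(1 / (m : ℝ) ^ 2)) := by positivity
    nlinarith
  refine ⟨sum_le_sum fun y hy => ?_, sum_le_sum fun y hy => ?_⟩
  all_goals
    simp only [(hemb y hy _ _).1, sub_eq_zero, eq_comm (a := d)]
    by_cases h1 : st n m P y ∈ Om n m f P
    swap
    · simp [h1]
    by_cases h2 : dc n P (st n m P y) i = d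
    swap
    · simp [h1, h2]
    obtain ⟨c, c1, c2, c3⟩ := key y hy h1 h2
    obtain ⟨l1, l2⟩ := hcmp y hy w (z d) hwT
    have q0 := psi0_pos n m f P w (st n m P y)
    have q1 : 0 < L ^ (p.getD i 0 * d) * R y := mul_pos (zpow_pos hL0 _) (hR0 y)
    simp only [if_pos h1, if_pos h2, one_mul, c3]
  · calc _ = κ * Ψ (emb n m P y w (z d)) * (L ^ (p.getD i 0 * d) * R y) := by ring
      _ ≤ _ := by
        refine mul_le_mul_of_nonneg_right ?_ q1.le
        calc _ ≤ κ * (Real.exp (1 / (m : ℝ) ^ 2) * psi0 n m f P w (st n m P y)) := by gcongr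
          _ = κ * Real.exp (1 / (m : ℝ) ^ 2) * psi0 n m f P w (st n m P y) := by ring
          _ ≤ _ := by gcongr; exact hx1.trans c1
  · calc _ ≤ 2 * κ * Ψ (emb n m P y w (z d)) * (L ^ (p.getD i 0 * d) * R y) := by
          refine mul_le_mul_of_nonneg_right ?_ q1.le
          calc _ ≤ (2 * κ * Real.exp (-(1 / (m : ℝ) ^ 2))) * psi0 n m f P w (st n m P y) := by
                gcongr; exact c2.trans hx2
            _ = 2 * κ * (Real.exp (-(1 / (m : ℝ) ^ 2)) * psi0 n m f P w (st n m P y)) := by ring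
            _ ≤ _ := by gcongr
      _ = _ := by ring

end Crest.Agent.R302
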