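import Crest.Agent.R302.DefsA
import Crest.Agent.R309.MAR

/-! Row 302, task LIM: limits of log-concave sequences. -/

set_option autoImplicit false

namespace Crest.Agent.R302

open Finset Crest.Agent.R309

theorem LIM_proof : LimStmt := by
  intro G g lo hi hG hlim
  have hev : ∀ᶠ ε in nhdsWithin (0 : ℝ) (Set.Ioi 0), ε ∈ Set.Ioc (0 : ℝ) 1 :=
    Ioc_mem_nhdsGT one_pos
  have hn : ∀ d, 0 ≤ (if lo ≤ d ∧ d ≤ hi then g d else 0) := by
    intro d
    split_ifs with h
    · exact ge_of_tendsto (hlim d h.1 h.2)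
        (hev.mono fun ε hε => ((hG ε hε.1 hε.2).1 d h.1 h.2).le)
    · exact le_rfl
  refine ⟨hn, fun a b hab => ?_⟩
  by_cases ha : lo ≤ a ∧ a ≤ hi
  swap
  · simp only [if_neg ha, zero_mul]; exact mul_nonneg (hn _) (hn _)
  by_cases hb : lo ≤ b ∧ b ≤ hi
  swap
  · simp only [if_neg hb, mul_zero]; exact mul_nonneg (hn _) (hn _)
  have ha1 : lo ≤ a + 1 ∧ a + 1 ≤ hi := by omega
  have hb1 : lo ≤ b - 1 ∧ b - 1 ≤ hi := by omega
  simp only [if_pos ha, if_pos hb, if_pos ha1, if_pos hb1]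
  refine le_of_tendsto_of_tendsto ((hlim a ha.1 ha.2).mul (hlim b hb.1 hb.2))
    ((hlim _ ha1.1 ha1.2).mul (hlim _ hb1.1 hb1.2)) (hev.mono fun ε hε => ?_)
  obtain ⟨hp, hc⟩ := hG ε hε.1 hε.2
  obtain ⟨D, hD⟩ : ∃ D : ℕ, b = a + D + 1 := ⟨(b - a - 1).toNat, by omega⟩
  have h := MAR.seq_global (fun i : ℕ => if a + i ≤ hi then G ε (a + i) else 1) D
    (fun i => by
      split_ifs with h
      · exact hp _ (by omega) h
      · exact one_pos)
    (fun i hi' => by
      have := hc (a + i) (by omega) (by omega)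
      rw [if_pos (by push_cast; omega), if_pos (by omega), if_pos (by push_cast; omega)]
      push_cast
      rw [← add_assoc, ← add_assoc]
      linarith)
  rw [if_pos (by push_cast; omega), if_pos (by push_cast; omega), if_pos (by omega),
    if_pos (by push_cast; omega)] at h
  push_cast at h
  rw [add_zero, ← add_assoc, ← hD, show a + (D : ℤ) = b - 1 by omega] at h
  show G ε a * G ε b ≤ G ε (a + 1) * G ε (b - 1)
  linarith

end Crest.Agent.R302
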