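import Crest.Agent.R302.DefsC
import Crest.Agent.R302.LIM
import Crest.Agent.R309.MAR
import Crest.Agent.R309.MRG
import Crest.Agent.R309.SCH
import Crest.Agent.R309.SMB

/-! Row 302, MG2: the partition function of the sector is nearly log-concave in each relaxation. -/

set_option autoImplicit false

namespace Crest.Agent.R302

open Finset Filter Topology Crest.Agent.R309

namespace MG2

/-- the base with given extra variables -/
def bas {n : ℕ} (ω : Fin n × Bool → ℕ) (z : Fin n → ℕ) : VV n → ℕ := Sum.elim 0 (Sum.elim ω z)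

/-- the merged function -/
noncomputable def mg (n m : ℕ) (P : Pre) (F : (VV n → ℕ) → ℝ) (γ : VV n → ℕ) : ℝ :=
  Sm ((blocks (fun k => 2 * hK n m P k)).map
    (fun B => ((Sum.inl B.1 : VV n), (Sum.inl B.2.1 : VV n), B.2.2))) γ F

theorem mg_isL (n m : ℕ) (P : Pre) (F : (VV n → ℕ) → ℝ) (hF : IsL F) : IsL (mg n m P F) :=
  MRG_proof SCH_proof _ _ hF _

theorem mg_bas (n m : ℕ) (P : Pre) (F : (VV n → ℕ) → ℝ) (γ : VV n → ℕ) (ω : Fin n × Bool → ℕ)
    (z : Fin n → ℕ) (h : γ = bas ω z) :
    mg n m P F γ = ∑ y ∈ R309.box (fun k => 2 * hK n m P k), F (emb n m P y ω z) := by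
  rw [h, mg, SMB_proof _ _ _ Sum.inl]
  refine sum_congr rfl fun y _ => ?_
  congr 1
  funext v
  rcases v with c | c | i
  · simp [bas, emb, Finset.sum_apply, Pi.single_apply]
  · simp [bas, emb, Finset.sum_apply]
  · simp [bas, emb, Finset.sum_apply]

theorem lim_z (k : ℤ) (hk : 0 ≤ k) :
    Tendsto (fun ε : ℝ => ε ^ k) (𝓝[>] 0) (𝓝 (if k = 0 then 1 else 0)) := by
  obtain ⟨j, rfl⟩ := Int.eq_ofNat_of_zero_le hk
  simp only [zpow_natCast, Nat.cast_eq_zero]
  have : (if j = 0 then (1 : ℝ) else 0) = 0 ^ j := by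
    split_ifs with h
    · simp [h]
    · simp [h]
  rw [this]
  exact ((continuous_pow j).tendsto 0).mono_left nhdsWithin_le_nhds

theorem lim_n (t : ℤ) :
    Tendsto (fun ε : ℝ => ε ^ t.natAbs) (𝓝[>] 0) (𝓝 (if t = 0 then 1 else 0)) := by
  have := lim_z (t.natAbs : ℤ) (by omega)
  simpa only [zpow_natCast, Nat.cast_eq_zero, Int.natAbs_eq_zero] using this

theorem LC_one : LC (fun _ => 1) := ⟨fun _ => one_pos, fun _ => by simp⟩

theorem psi0_pos (n m : ℕ) (f : Bool → Finset (Fin n) → ℤ) (P : Pre) (ω : Fin n × Bool → ℕ)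
    (x : List ℤ) : 0 < psi0 n m f P ω x := by
  unfold psi0
  refine mul_pos (prod_pos fun j _ => ?_) (prod_pos fun c _ => ?_)
  · split_ifs
    · exact zpow_pos (by positivity) _
    · exact one_pos
  · exact Real.rpow_pos_of_pos (by positivity) _

end MG2

open MG2 in
theorem MG2_proof (hRep : RepStmt) (hLap : LapStmt) : Mg2Stmt := by
  classical
  intro n m f P hS ω c hω
  obtain ⟨-, -, -, -, hsum, hd0, -, -, hemb, -, -⟩ := hRep n m f P hS
  obtain ⟨Ψ, hΨ, hL, hcmp, -⟩ := hLap n m f P hS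
  set T := qT m with hT
  set o : Fin n → ℤ := fun i => 2 * qu m * (kap n P i).card + Function.update ω c 0 (i, false) +
    Function.update ω c 0 (i, true) + (Pi.single c.1 T : Fin n → ℕ) i with ho
  set w : ℕ → Fin n × Bool → ℕ := fun j => Function.update ω c j with hw
  set z : ℕ → Fin n → ℕ := fun j => Pi.single c.1 (T - j) with hz
  set B := R309.box (fun k => 2 * hK n m P k) with hB
  set F : ℝ → (VV n → ℕ) → ℝ := fun ε =>
    FL n m f P Ψ ε (fun _ t => ε ^ t.natAbs) o (fun _ _ => 1) with hF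
  have hval : ∀ j ≤ T, ∀ y ∈ B, ∀ i : Fin n,
      (∑ v ∈ SS n P i, (emb n m P y (w j) (z j) v : ℤ)) - o i = -dc n P (st n m P y) i := by
    intro j hj y hy i
    rw [(hemb y hy _ _).2 i]
    obtain ⟨c1, c2⟩ := c
    simp only [ho, hw, hz, Function.update_apply, Pi.single_apply, Prod.mk.injEq]
    by_cases h : i = c1
    · cases c2 <;> simp [h] <;> omega
    · simp [h]
  set g : ℤ → ℝ := fun d => ∑ y ∈ B,
    (if dfc n m f P (emb n m P y (w d.toNat) (z d.toNat)) = 0 then 1 else 0) *
      Ψ (emb n m P y (w d.toNat) (z d.toNat)) *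
      (∏ i : Fin n, if -dc n P (st n m P y) i = 0 then 1 else 0) with hg
  have hG := LIM_proof (fun ε d => ∑ y ∈ B, F ε (emb n m P y (w d.toNat) (z d.toNat))) g 0 T
    (fun ε p0 p1 => by
      have hI := mg_isL n m P _ (hL ε (fun _ t => ε ^ t.natAbs) o (fun _ _ => 1) p0 p1
        (fun _ => MAR.LC_eps ε p0 p1) (fun _ => LC_one))
      refine ⟨fun d _ _ => ?_, fun d h0 h1 => ?_⟩
      · rw [← mg_bas n m P _ _ _ _ rfl]; exact hI.1 _
      · have := MAR.rev_cs _ hI (bas (w d.toNat) (z (d.toNat + 2))) (.inr (.inr c.1))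
          (.inr (.inl c))
        rw [mg_bas n m P _ _ (w d.toNat) (z d.toNat), mg_bas n m P _ _ (w (d + 2).toNat)
          (z (d + 2).toNat), mg_bas n m P _ _ (w (d + 1).toNat) (z (d + 1).toNat)] at this
        · exact this
        all_goals
          funext v
          rcases v with k | k | i <;>
            simp only [bas, ev, hw, hz, Pi.add_apply, Pi.single_apply, Sum.elim_inl, Sum.elim_inr,
              Function.update_apply, Pi.zero_apply, Sum.inr.injEq, Sum.inl.injEq, reduceCtorEq,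
              if_false] <;> (try split_ifs) <;> omega)
    (fun d h0 h1 => by
      refine tendsto_finsetSum _ fun y hy => ?_
      simp only [hF, FL, hval d.toNat (by omega) y hy, prod_const_one, mul_one]
      exact ((lim_z _ (hd0 _)).mul_const _).mul (tendsto_finsetProd _ fun i _ => lim_n _))
  refine ⟨_, hG, fun j hj => ?_⟩
  have hj' : (0 : ℤ) ≤ j ∧ (j : ℤ) ≤ T := by omega
  simp only [if_pos hj', hg, Int.toNat_natCast]
  have hfs : fs n m f P (w j) = ∑ y ∈ B,
      (if dfc n m f P (emb n m P y (w j) (z j)) = 0 then 1 else 0) *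
      psi0 n m f P (w j) (st n m P y) *
      (∏ i : Fin n, if -dc n P (st n m P y) i = 0 then 1 else 0) := by
    rw [fs, Sec, sum_filter, hsum]
    refine sum_congr rfl fun y hy => ?_
    rw [prod_boole]
    simp only [(hemb y hy _ _).1, mem_univ, true_imp_iff, neg_eq_zero, Fin.forall_iff]
    split_ifs <;> simp
  have hwT : ∀ c', w j c' ≤ qT m := by
    intro c'
    simp only [hw, Function.update_apply]
    split_ifs
    · exact hj
    · exact hω c'
  have hnn : ∀ y, (0 : ℝ) ≤ ∏ i : Fin n, if -dc n P (st n m P y) i = 0 then 1 else 0 :=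
    fun y => prod_nonneg fun i _ => by split_ifs <;> norm_num
  change _ * fs n m f P (w j) ≤ _ ∧ _ ≤ _ * fs n m f P (w j)
  rw [hfs, mul_sum, mul_sum]
  refine ⟨sum_le_sum fun y hy => ?_, sum_le_sum fun y hy => ?_⟩
  · have := mul_le_mul_of_nonneg_right (hcmp y hy (w j) (z j) hwT).1 (hnn y)
    split_ifs
    · simpa only [one_mul, mul_assoc] using this
    · simp
  · have := mul_le_mul_of_nonneg_right (hcmp y hy (w j) (z j) hwT).2 (hnn y)
    split_ifs
    · simpa only [one_mul, mul_assoc] using this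
    · simp

end Crest.Agent.R302
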