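import Crest.Agent.R302.DefsB

/-! Row 302, task NRM: normalisation at a common base. -/

set_option autoImplicit false

namespace Crest.Agent.R302

open Finset Crest.Polymatroid

namespace NRM

theorem base_nonneg {n R : ℕ} {r : Finset (Fin n) → ℕ} (hr : IsPolymatroidRank r) (hR : r univ = R)
    {y : Fin n → ℤ} (hy : ∑ j, y j = R) (h : ∀ A : Finset (Fin n), ∑ j ∈ A, y j ≤ r A) (e : Fin n) :
    0 ≤ y e := by
  have h1 := h (univ.erase e)
  have h2 := hr.2.1 (univ.erase e) univ (subset_univ _)
  have h3 := add_sum_erase univ y (mem_univ e)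
  omega

theorem sum_compl' {n : ℕ} (y : Fin n → ℤ) (A : Finset (Fin n)) :
    ∑ j ∈ Aᶜ, y j = ∑ j, y j - ∑ j ∈ A, y j := by
  rw [← sum_add_sum_compl A y]; ring

end NRM

open NRM in
theorem NRM_proof : NrmStmt := by
  intro n m R r x hm hn hR hr hx hb
  have hx0 : ∀ e, 0 ≤ x e := base_nonneg (hr false).1 (hr false).2 hx (hb false)
  have hle : ∀ b A, (r b A : ℤ) ≤ 2 ^ m := fun b A => by
    have := (hr b).1.2.1 A univ (subset_univ _)
    have h2 := (hr b).2
    exact_mod_cast (show r b A ≤ 2 ^ m by omega)
  have hsub : ∀ b, Sub (fun A => (r b A : ℤ) - ∑ j ∈ A, x j) := fun b A B => by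
    have h1 := (hr b).1.2.2 A B
    have h2 := sum_union_inter (s₁ := A) (s₂ := B) (f := x)
    simp only
    omega
  refine ⟨⟨hm, hn, fun b => ?_, fun b A => ?_, fun b A => ?_, fun b => ?_, fun b => ?_⟩, ?_⟩
  · cases b
    · exact hsub false
    · intro A B
      have := hsub true Aᶜ Bᶜ
      simp only [nrm, if_true, compl_union, compl_inter] at this ⊢
      omega
  · cases b
    · have := hb false A; simp only [nrm, Bool.false_eq_true, if_false]; omega
    · have := hb true Aᶜ; simp only [nrm, if_true]; omega
  · cases b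
    · have := hle false A
      have : 0 ≤ ∑ j ∈ A, x j := sum_nonneg fun j _ => hx0 j
      simp only [nrm, Bool.false_eq_true, if_false]; omega
    · have := hle true Aᶜ
      have : 0 ≤ ∑ j ∈ Aᶜ, x j := sum_nonneg fun j _ => hx0 j
      simp only [nrm, if_true]; omega
  · cases b
    · simp [nrm, (hr false).1.1]
    · simp [nrm, (hr true).2, hx]
  · cases b
    · simp [nrm, (hr false).2, hx]
    · simp [nrm, (hr true).1.1]
  · unfold Zd numCommonIntBases
    have hinj : Function.Injective (fun (y : Fin n → Fin (R + 1)) (j : Fin n) => ((y j : ℕ) : ℤ) - x j) := by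
      intro y y' h
      funext j
      have := congrFun h j
      simp only at this
      exact Fin.ext (by omega)
    rw [← card_image_of_injective _ hinj, ← Set.ncard_coe_finset]
    congr 1
    ext z
    simp only [Set.mem_ofPred_eq, coe_image, Set.mem_image, mem_coe, mem_filter, mem_univ, true_and,
      Bs, nrm, Bool.false_eq_true, if_false, if_true, Pi.sub_apply, Pi.zero_apply, zero_sub,
      sum_neg_distrib]
    constructor
    · rintro ⟨⟨h1, h2⟩, -, h3⟩
      have hy : ∑ j, (z j + x j) = R := by rw [sum_add_distrib, h1, hx, zero_add]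
      have hA : ∀ b (A : Finset (Fin n)), ∑ j ∈ A, (z j + x j) ≤ r b A := by
        intro b A
        rw [sum_add_distrib]
        cases b
        · have := h2 A; omega
        · have := h3 Aᶜ
          rw [compl_compl, sum_compl', h1] at this
          omega
      have h0 := base_nonneg (hr false).1 (hr false).2 hy (hA false)
      have hub : ∀ j, z j + x j ≤ R := fun j => by
        rw [← hy]; exact single_le_sum (f := fun j => z j + x j) (fun i _ => h0 i) (mem_univ j)
      have hc : ∀ A : Finset (Fin n), ((∑ j ∈ A, (z j + x j).toNat : ℕ) : ℤ) =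
          ∑ j ∈ A, (z j + x j) := fun A => by
        push_cast
        exact sum_congr rfl fun j _ => Int.toNat_of_nonneg (h0 j)
      refine ⟨fun j => ⟨(z j + x j).toNat, by have := hub j; have := h0 j; omega⟩,
        ⟨?_, fun A => ⟨?_, ?_⟩⟩, ?_⟩
      · have := hc univ; simp only; omega
      · have := hc A; have := hA false A; simp only; omega
      · have := hc A; have := hA true A; simp only; omega
      · funext j
        have := h0 j
        simp only; omega
    · rintro ⟨y, ⟨h1, h2⟩, rfl⟩
      have hc : ∀ A : Finset (Fin n), ∑ j ∈ A, (((y j : ℕ) : ℤ) - x j) =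
          ((∑ j ∈ A, (y j : ℕ) : ℕ) : ℤ) - ∑ j ∈ A, x j := fun A => by
        rw [sum_sub_distrib]; push_cast; rfl
      have h0 : ∑ j, (((y j : ℕ) : ℤ) - x j) = 0 := by rw [hc, h1, hx, sub_self]
      refine ⟨⟨h0, fun A => ?_⟩, by rw [h0, neg_zero], fun A => ?_⟩
      · have := (h2 A).1; rw [hc]; omega
      · have h3 := (h2 Aᶜ).2
        have h4 := sum_compl' (fun j => ((y j : ℕ) : ℤ) - x j) A
        rw [h0, hc Aᶜ] at h4
        simp only
        omega

end Crest.Agent.R302
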