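import Crest.Agent.R302.DefsB

/-! Row 302, task PRE: the preprocessing. -/

set_option autoImplicit false

namespace Crest.Agent.R302

open Finset Crest.Agent.PT Crest.Agent.QC Crest.Agent.R317 Crest.Agent.R300U

@[fun_prop] theorem pt_qt {α : Type} [Enc α] {m : α → ℕ} (hm : PT m) : PT (fun a => qt (m a)) := by
  unfold qt; fun_prop

@[fun_prop] theorem pt_qT {α : Type} [Enc α] {m : α → ℕ} (hm : PT m) : PT (fun a => qT (m a)) := by
  unfold qT; fun_prop

theorem PRE_proof (hCap : CapStmt) (hScl : SclStmt) (hKr : KrStmt) (hSpc : SpcStmt) : PreStmt := by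
  intro α _ fo n m hn hm hfo
  obtain ⟨cm, hcm, hcm'⟩ := hCap α fo n m hn hm hfo
  obtain ⟨sc, hsc, hsc'⟩ := hScl
  obtain ⟨kr, hkr, hkr'⟩ := hKr
  have h1 : PT (fun p : α × List (List ℤ) × List (List ℤ) =>
      sc (n p.1, bz (qt (m p.1)), p.2.1, p.2.2)) := hsc.comp (by fun_prop)
  refine ⟨fun O x => kr (n x, bz (qT (m x)), (sc (n x, bz (qt (m x)), (cm O x).1, (cm O x).2)).1,
    (sc (n x, bz (qt (m x)), (cm O x).1, (cm O x).2)).2.1,
    (sc (n x, bz (qt (m x)), (cm O x).1, (cm O x).2)).2.2), ?_, fun O x f hf hr => ?_⟩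
  · refine hcm.post₂ (g := fun x c => kr (n x, bz (qT (m x)), (sc (n x, bz (qt (m x)), c.1, c.2)).1,
      (sc (n x, bz (qt (m x)), c.1, c.2)).2.1, (sc (n x, bz (qt (m x)), c.1, c.2)).2.2)) ?_
    exact hkr.comp (PT.pair (by fun_prop) (PT.pair (by fun_prop)
      (PT.pair h1.fst (PT.pair h1.snd.fst h1.snd.snd))))
  · have e1 := hsc' (n x) (bz (qt (m x))) (cm O x).1 (cm O x).2 f hf.nonneg (hcm' O x f hf hr)
    have hT : (1 : ℤ) ≤ bz (qT (m x)) := by
      have := hf.big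
      unfold bz qT
      exact_mod_cast Nat.one_le_pow _ _ (by omega)
    obtain ⟨e2, e3⟩ := hkr' (n x) (bz (qT (m x)))
      (sc (n x, bz (qt (m x)), (cm O x).1, (cm O x).2)).1
      (sc (n x, bz (qt (m x)), (cm O x).1, (cm O x).2)).2.1
      (sc (n x, bz (qt (m x)), (cm O x).1, (cm O x).2)).2.2 hT
    refine hSpc _ _ f _ _ hf ?_ e3
    unfold cp
    simp only [e2]
    exact e1

end Crest.Agent.R302
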