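import Crest.Agent.R302.DefsB
import Crest.Agent.R287.Lib

/-! Row 302, task SCL: scale matrices and component labels. -/

set_option autoImplicit false

namespace Crest.Agent.R302.SCL

open Finset Crest.Agent.PT Crest.Agent.QC Crest.Agent.R317 Crest.Agent.R287 Crest.Agent.R302

abbrev Mat : Type := List (List ℤ)

def b0 (c₀ c₁ : Mat) (i j : ℕ) : ℤ := max (gz c₀ i j) (gz c₁ i j)

def stp (n : ℕ) (c₀ c₁ : Mat) (θ : ℤ) (S : List Bool) : List Bool :=
  mkL n (fun j => S.getD j false ||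
    (List.range n).any (fun i => S.getD i false && (decide (i ≠ j) && decide (θ < b0 c₀ c₁ i j))))

def rch (n : ℕ) (c₀ c₁ : Mat) (θ : ℤ) (a a' : ℕ) : Bool :=
  ((stp n c₀ c₁ θ)^[n + 1] (mkL n (fun j => decide (j = a)))).getD a' false

def beta (n : ℕ) (c₀ c₁ : Mat) (a a' : ℕ) : ℤ :=
  maxTo n (fun k => maxTo n (fun l =>
    if rch n c₀ c₁ (b0 c₀ c₁ k l - 1) a a' = true then b0 c₀ c₁ k l else 0))

def cnt (n : ℕ) (p : ℕ → Bool) : ℕ := (List.range n).countP p

def key (n : ℕ) (c₀ c₁ : Mat) (t : ℤ) (a : ℕ) : ℕ :=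
  cnt n (fun a' => rch n c₀ c₁ t a a') * n +
    fnd n (fun a' => rch n c₀ c₁ t a a' && rch n c₀ c₁ t a' a)

def cpf (n : ℕ) (c₀ c₁ : Mat) (t : ℤ) (a : ℕ) : ℕ :=
  cnt n (fun a' => decide (key n c₀ c₁ t a' < key n c₀ c₁ t a))

def sm (n : ℕ) (c₀ c₁ c : Mat) : Mat :=
  mkL n (fun a => mkL n (fun a' => min (gz c a a') (beta n c₀ c₁ a' a)))

def sc (q : ℕ × ℤ × Mat × Mat) : Mat × Mat × List ℕ :=
  (sm q.1 q.2.2.1 q.2.2.2 q.2.2.1, sm q.1 q.2.2.1 q.2.2.2 q.2.2.2,
    mkL q.1 (cpf q.1 q.2.2.1 q.2.2.2 q.2.1))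

section PTs

variable {α : Type} [Enc α]

@[fun_prop] theorem pt_gz {c : α → Mat} {i j : α → ℕ} (hc : PT c) (hi : PT i) (hj : PT j) :
    PT (fun a => gz (c a) (i a) (j a)) := by
  unfold gz; fun_prop

@[fun_prop] theorem pt_b0 {c d : α → Mat} {i j : α → ℕ} (hc : PT c) (hd : PT d) (hi : PT i)
    (hj : PT j) : PT (fun a => b0 (c a) (d a) (i a) (j a)) := by
  unfold b0; fun_prop

@[fun_prop] theorem pt_stp {n : α → ℕ} {c d : α → Mat} {θ : α → ℤ} {S : α → List Bool} (hn : PT n)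
    (hc : PT c) (hd : PT d) (hθ : PT θ) (hS : PT S) :
    PT (fun a => stp (n a) (c a) (d a) (θ a) (S a)) := by
  unfold stp; fun_prop

theorem sz_bools (l : List Bool) : sz l ≤ 3 * l.length := by
  induction l with
  | nil => simp
  | cons b l ih =>
    have : sz b = 1 := by cases b <;> rfl
    simp only [sz_cons, List.length_cons]; omega

@[fun_prop] theorem pt_rch {n : α → ℕ} {c d : α → Mat} {θ : α → ℤ} {x y : α → ℕ} (hn : PT n)
    (hc : PT c) (hd : PT d) (hθ : PT θ) (hx : PT x) (hy : PT y) :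
    PT (fun a => rch (n a) (c a) (d a) (θ a) (x a) (y a)) := by
  unfold rch
  refine pt_getD ?_ hy (PT.const _)
  refine pt_iterate (f := fun a S => stp (n a) (c a) (d a) (θ a) S) (n := fun a => n a + 1)
    (by fun_prop) (by fun_prop) (by fun_prop) (B := fun a => 3 * n a) (PT.pbNat (by fun_prop)) ?_
  intro a i _
  refine (sz_bools _).trans ?_
  cases i with
  | zero => simp
  | succ i => rw [Function.iterate_succ_apply']; simp [stp]

@[fun_prop] theorem pt_beta {n : α → ℕ} {c d : α → Mat} {x y : α → ℕ} (hn : PT n)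
    (hc : PT c) (hd : PT d) (hx : PT x) (hy : PT y) :
    PT (fun a => beta (n a) (c a) (d a) (x a) (y a)) := by
  unfold beta
  refine pt_maxTo hn (pt_maxTo (by fun_prop) ?_)
  exact PT.iteD (dt_true (by fun_prop)) (by fun_prop) (PT.const _)

@[fun_prop] theorem pt_cnt' {n : α → ℕ} {p : α → ℕ → Bool} (hn : PT n)
    (hp : PT (fun q : α × ℕ => p q.1 q.2)) : PT (fun a => cnt (n a) (p a)) :=
  pt_countP (pt_range hn) hp

@[fun_prop] theorem pt_key {n : α → ℕ} {c d : α → Mat} {θ : α → ℤ} {x : α → ℕ} (hn : PT n)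
    (hc : PT c) (hd : PT d) (hθ : PT θ) (hx : PT x) :
    PT (fun a => key (n a) (c a) (d a) (θ a) (x a)) := by
  unfold key; fun_prop

@[fun_prop] theorem pt_cpf {n : α → ℕ} {c d : α → Mat} {θ : α → ℤ} {x : α → ℕ} (hn : PT n)
    (hc : PT c) (hd : PT d) (hθ : PT θ) (hx : PT x) :
    PT (fun a => cpf (n a) (c a) (d a) (θ a) (x a)) := by
  unfold cpf; fun_prop

@[fun_prop] theorem pt_sm {n : α → ℕ} {c d e : α → Mat} (hn : PT n)
    (hc : PT c) (hd : PT d) (he : PT e) : PT (fun a => sm (n a) (c a) (d a) (e a)) := by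
  unfold sm; fun_prop

theorem pt_sc : PT sc := by
  unfold sc; fun_prop

end PTs

section Spec

theorem iter_fix {n : ℕ} (F : Finset (Fin n) → Finset (Fin n)) (hF : ∀ S, S ⊆ F S)
    (S : Finset (Fin n)) : F (F^[n + 1] S) = F^[n + 1] S := by
  have h : ∀ k, F (F^[k] S) = F^[k] S ∨ k ≤ (F^[k] S).card := by
    intro k
    induction k with
    | zero => right; omega
    | succ k ih =>
      rw [Function.iterate_succ_apply']
      by_cases e : F (F^[k] S) = F^[k] S
      · left; rw [e, e]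
      · right
        have h1 := ih.resolve_left e
        have h2 : (F^[k] S).card < (F (F^[k] S)).card :=
          card_lt_card (Finset.ssubset_iff_subset_ne.2 ⟨hF _, fun h => e h.symm⟩)
        omega
  refine (h (n + 1)).resolve_right (fun h1 => ?_)
  have := card_le_univ (F^[n + 1] S)
  rw [Fintype.card_fin] at this
  omega

variable {n : ℕ} {c₀ c₁ : Mat} {f : Bool → Finset (Fin n) → ℤ}

theorem arc_iff (hc : CapSpec f (fun b => gz (if b then c₁ else c₀))) (θ : ℤ) {a a' : Fin n}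
    (h : a ≠ a') : θ < b0 c₀ c₁ a a' ↔ Arc (f false) θ a a' ∨ Arc (f true) θ a a' := by
  rw [← hc false a a' h θ, ← hc true a a' h θ]
  simp [b0]

theorem arc_mono {g : Finset (Fin n) → ℤ} {θ θ' : ℤ} (h : θ' ≤ θ) {a a' : Fin n}
    (ha : Arc g θ a a') : Arc g θ' a a' := fun A h1 h2 => h.trans_lt (ha A h1 h2)

theorem reach_mono {θ θ' : ℤ} (h : θ' ≤ θ) {a a' : Fin n} (ha : Reach f θ a a') :
    Reach f θ' a a' := by
  induction ha with
  | refl => exact Relation.ReflTransGen.refl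
  | tail _ h2 ih => exact ih.tail (h2.imp (arc_mono h) (arc_mono h))

theorem rch_iff (hc : CapSpec f (fun b => gz (if b then c₁ else c₀))) (θ : ℤ) (a a' : Fin n) :
    rch n c₀ c₁ θ a a' = true ↔ Reach f θ a a' := by
  classical
  let F : Finset (Fin n) → Finset (Fin n) := fun S =>
    univ.filter (fun j => j ∈ S ∨ ∃ i ∈ S, i ≠ j ∧ θ < b0 c₀ c₁ i j)
  have hF : ∀ S, S ⊆ F S := fun S j hj => by simp [F, hj]
  have hk : ∀ k, ∀ j : Fin n,
      ((stp n c₀ c₁ θ)^[k] (mkL n (fun j => decide (j = a)))).getD j false = true ↔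
        j ∈ F^[k] {a} := by
    intro k
    induction k with
    | zero => intro j; rw [Function.iterate_zero_apply, getD_mkL _ _ j.2]; simp [Fin.ext_iff]
    | succ k ih =>
      intro j
      rw [Function.iterate_succ_apply', Function.iterate_succ_apply', stp, getD_mkL _ _ j.2]
      simp only [Bool.or_eq_true, List.any_eq_true, List.mem_range, Bool.and_eq_true,
        decide_eq_true_eq, F, mem_filter, mem_univ, true_and]
      refine or_congr (ih j) ⟨fun ⟨i, hi, h1, h2, h3⟩ => ⟨⟨i, hi⟩, (ih ⟨i, hi⟩).1 h1,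
        fun e => h2 (congrArg Fin.val e), h3⟩, fun ⟨i, h1, h2, h3⟩ =>
          ⟨i, i.2, (ih i).2 h1, fun e => h2 (Fin.ext e), h3⟩⟩
  rw [rch, hk]
  constructor
  · have : ∀ k, ∀ j ∈ F^[k] {a}, Reach f θ a j := by
      intro k
      induction k with
      | zero =>
        intro j hj
        rw [Function.iterate_zero_apply, mem_singleton] at hj
        subst hj; exact Relation.ReflTransGen.refl
      | succ k ih =>
        intro j hj
        rw [Function.iterate_succ_apply'] at hj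
        simp only [F, mem_filter, mem_univ, true_and] at hj
        rcases hj with hj | ⟨i, h1, h2, h3⟩
        · exact ih j hj
        · exact (ih i h1).tail ((arc_iff hc θ h2).1 h3)
    exact this _ _
  · intro h
    have hfix := iter_fix F hF {a}
    have h0 : ∀ k, a ∈ F^[k] {a} := by
      intro k
      induction k with
      | zero => simp
      | succ k ih => rw [Function.iterate_succ_apply']; exact hF _ ih
    induction h with
    | refl => exact h0 _
    | @tail x y _ h2 ih =>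
      by_cases e : x = y
      · exact e ▸ ih
      · rw [← hfix]
        simp only [F, mem_filter, mem_univ, true_and]
        exact Or.inr ⟨x, ih, e, (arc_iff hc θ e).2 h2⟩

theorem lt_maxTo (m : ℕ) (g : ℕ → ℤ) (θ : ℤ) : θ < maxTo m g ↔ θ < 0 ∨ ∃ i < m, θ < g i := by
  induction m with
  | zero => simp [maxTo]
  | succ m ih =>
    show θ < max (maxTo m g) (g m) ↔ _
    rw [lt_max_iff, ih]
    constructor
    · rintro ((h | ⟨i, hi, h⟩) | h)
      · exact Or.inl h
      · exact Or.inr ⟨i, by omega, h⟩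
      · exact Or.inr ⟨m, by omega, h⟩
    · rintro (h | ⟨i, hi, h⟩)
      · exact Or.inl (Or.inl h)
      · by_cases e : i = m
        · exact Or.inr (e ▸ h)
        · exact Or.inl (Or.inr ⟨i, by omega, h⟩)

theorem beta_iff (hf : ∀ b A, 0 ≤ f b A) (hc : CapSpec f (fun b => gz (if b then c₁ else c₀)))
    (θ : ℤ) {a a' : Fin n} (h : a ≠ a') : θ < beta n c₀ c₁ a a' ↔ Reach f θ a a' := by
  have neg : θ < 0 → Reach f θ a a' := fun h0 =>
    Relation.ReflTransGen.single (Or.inl fun A _ _ => h0.trans_le (hf _ _))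
  rw [beta, lt_maxTo]
  constructor
  · rintro (h0 | ⟨k, _, h1⟩)
    · exact neg h0
    rw [lt_maxTo] at h1
    rcases h1 with h0 | ⟨l, _, h1⟩
    · exact neg h0
    split_ifs at h1 with h2
    · exact reach_mono (by omega) ((rch_iff hc _ _ _).1 h2)
    · exact neg h1
  · intro hr
    have key : ∀ y, Reach f θ a y → a = y ∨ ∃ k l : Fin n, θ < b0 c₀ c₁ k l ∧
        Reach f (b0 c₀ c₁ k l - 1) a y := by
      intro y hy
      induction hy with
      | refl => exact Or.inl rfl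
      | @tail x y _ h2 ih =>
        by_cases e : x = y
        · exact e ▸ ih
        have h3 := (arc_iff hc θ e).2 h2
        have h4 : ∀ θ', θ' < b0 c₀ c₁ x y → Arc (f false) θ' x y ∨ Arc (f true) θ' x y :=
          fun θ' => (arc_iff hc θ' e).1
        right
        rcases ih with rfl | ⟨k, l, h5, h6⟩
        · exact ⟨a, y, h3, Relation.ReflTransGen.single (h4 _ (by omega))⟩
        · rcases le_total (b0 c₀ c₁ k l) (b0 c₀ c₁ x y) with h7 | h7
          · exact ⟨k, l, h5, h6.tail (h4 _ (by omega))⟩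
          · exact ⟨x, y, h3, (reach_mono (by omega) h6).tail (h4 _ (by omega))⟩
    obtain ⟨k, l, h1, h2⟩ := (key a' hr).resolve_left h
    refine Or.inr ⟨k, k.2, ?_⟩
    rw [lt_maxTo]
    refine Or.inr ⟨l, l.2, ?_⟩
    rw [if_pos ((rch_iff hc _ _ _).2 h2)]
    exact h1

theorem cnt_eq (m : ℕ) (p : ℕ → Bool) : cnt m p = ((range m).filter (fun i => p i = true)).card := by
  induction m with
  | zero => simp [cnt]
  | succ m ih =>
    rw [cnt, List.range_succ, List.countP_append, ← cnt, ih, Finset.range_add_one, filter_insert]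
    by_cases h : p m = true
    · rw [if_pos h, card_insert_of_notMem (by simp)]; simp [h]
    · rw [if_neg h]; simp [h]

theorem cnt_le {m : ℕ} {p q : ℕ → Bool} (h : ∀ i < m, p i = true → q i = true) :
    cnt m p ≤ cnt m q := by
  rw [cnt_eq, cnt_eq]
  refine card_le_card (fun i hi => ?_)
  simp only [mem_filter, mem_range] at hi ⊢
  exact ⟨hi.1, h i hi.1 hi.2⟩

theorem cnt_lt {m : ℕ} {p q : ℕ → Bool} (h : ∀ i < m, p i = true → q i = true) {j : ℕ} (hj : j < m)
    (h1 : q j = true) (h2 : ¬ p j = true) : cnt m p < cnt m q := by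
  rw [cnt_eq, cnt_eq]
  refine card_lt_card ⟨fun i hi => ?_, fun hs => h2 ?_⟩
  · simp only [mem_filter, mem_range] at hi ⊢
    exact ⟨hi.1, h i hi.1 hi.2⟩
  · have := hs (mem_filter.2 ⟨mem_range.2 hj, h1⟩)
    exact (mem_filter.1 this).2

theorem fnd_congr {m : ℕ} {p q : ℕ → Bool} (h : ∀ i < m, p i = q i) : fnd m p = fnd m q := by
  obtain ⟨p1, p2, p3⟩ := fnd_spec m p
  obtain ⟨q1, q2, q3⟩ := fnd_spec m q
  rcases lt_trichotomy (fnd m p) (fnd m q) with e | e | e
  · have a1 := p3 (by omega)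
    have a2 := q2 _ e
    rw [← h _ (by omega), a1] at a2; cases a2
  · exact e
  · have a1 := q3 (by omega)
    have a2 := p2 _ e
    rw [h _ (by omega), a1] at a2; cases a2

section Key

variable (hc : CapSpec f (fun b => gz (if b then c₁ else c₀))) (t : ℤ)
include hc

theorem rep_spec (a : Fin n) :
    ∃ r : Fin n, fnd n (fun a' => rch n c₀ c₁ t a a' && rch n c₀ c₁ t a' a) = r ∧
      Reach f t a r ∧ Reach f t r a := by
  have h1 : fnd n (fun a' => rch n c₀ c₁ t a a' && rch n c₀ c₁ t a' a) < n :=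
    (fnd_lt_iff _ _).2 ⟨a, a.2, by
      have := (rch_iff hc t a a).2 Relation.ReflTransGen.refl
      simp [this]⟩
  have h2 := (fnd_spec n _).2.2 h1
  simp only [Bool.and_eq_true] at h2
  exact ⟨⟨_, h1⟩, rfl, (rch_iff hc t a ⟨_, h1⟩).1 h2.1, (rch_iff hc t ⟨_, h1⟩ a).1 h2.2⟩

theorem key_eq {a a' : Fin n} (h1 : Reach f t a a') (h2 : Reach f t a' a) :
    key n c₀ c₁ t a = key n c₀ c₁ t a' := by
  have e1 : ∀ i < n, rch n c₀ c₁ t a i = rch n c₀ c₁ t a' i := fun i hi => by
    rw [Bool.eq_iff_iff, rch_iff hc t a ⟨i, hi⟩, rch_iff hc t a' ⟨i, hi⟩]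
    exact ⟨fun h => h2.trans h, fun h => h1.trans h⟩
  have e2 : ∀ i < n, rch n c₀ c₁ t i a = rch n c₀ c₁ t i a' := fun i hi => by
    rw [Bool.eq_iff_iff, rch_iff hc t ⟨i, hi⟩ a, rch_iff hc t ⟨i, hi⟩ a']
    exact ⟨fun h => h.trans h1, fun h => h.trans h2⟩
  unfold key
  congr 1
  · congr 1
    exact le_antisymm (cnt_le fun i hi h => by rw [← e1 i hi]; exact h)
      (cnt_le fun i hi h => by rw [e1 i hi]; exact h)
  · exact fnd_congr fun i hi => by rw [e1 i hi, e2 i hi]

theorem key_lt {a a' : Fin n} (h1 : Reach f t a a') (h2 : ¬ Reach f t a' a) :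
    key n c₀ c₁ t a' < key n c₀ c₁ t a := by
  have h3 : cnt n (fun i => rch n c₀ c₁ t a' i) < cnt n (fun i => rch n c₀ c₁ t a i) :=
    cnt_lt (fun i hi h => (rch_iff hc t a ⟨i, hi⟩).2 (h1.trans ((rch_iff hc t a' ⟨i, hi⟩).1 h)))
      a.2 ((rch_iff hc t a a).2 Relation.ReflTransGen.refl) (fun h => h2 ((rch_iff hc t a' a).1 h))
  obtain ⟨r, hr, -⟩ := rep_spec hc t a'
  unfold key
  rw [hr]
  have h4 := Nat.mul_le_mul_right n (Nat.succ_le_of_lt h3)
  rw [Nat.succ_mul] at h4
  have := r.2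
  omega

theorem of_key_eq {a a' : Fin n} (h : key n c₀ c₁ t a = key n c₀ c₁ t a') :
    Reach f t a a' ∧ Reach f t a' a := by
  obtain ⟨r, hr, h1, h2⟩ := rep_spec hc t a
  obtain ⟨r', hr', h3, h4⟩ := rep_spec hc t a'
  unfold key at h
  rw [hr, hr'] at h
  have h5 := congrArg (· % n) h
  simp only [Nat.mul_add_mod_of_lt r.2, Nat.mul_add_mod_of_lt r'.2] at h5
  obtain rfl : r = r' := Fin.ext h5
  exact ⟨h1.trans h4, h3.trans h2⟩

end Key

theorem cpf_le (t : ℤ) {a a' : ℕ} (h : key n c₀ c₁ t a ≤ key n c₀ c₁ t a') :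
    cpf n c₀ c₁ t a ≤ cpf n c₀ c₁ t a' :=
  cnt_le fun i _ h1 => by simp only [decide_eq_true_eq] at h1 ⊢; omega

theorem cpf_lt (t : ℤ) {a a' : ℕ} (ha : a < n) (h : key n c₀ c₁ t a < key n c₀ c₁ t a') :
    cpf n c₀ c₁ t a < cpf n c₀ c₁ t a' :=
  cnt_lt (fun i _ h1 => by simp only [decide_eq_true_eq] at h1 ⊢; omega) ha (by simpa using h)
    (by simp)

theorem cpf_lt_n (t : ℤ) {a : ℕ} (ha : a < n) : cpf n c₀ c₁ t a < n := by
  have h1 : cpf n c₀ c₁ t a < cnt n (fun _ => true) :=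
    cnt_lt (fun _ _ _ => rfl) ha rfl (by simp)
  rw [cnt_eq] at h1
  simpa using h1

end Spec

end Crest.Agent.R302.SCL

namespace Crest.Agent.R302

open SCL Crest.Agent.R317

theorem SCL_proof : SclStmt := by
  refine ⟨sc, pt_sc, fun n t c₀ c₁ f hf hc => ?_⟩
  have hcp : ∀ a : Fin n, (sc (n, t, c₀, c₁)).2.2.getD a 0 = cpf n c₀ c₁ t a := fun a =>
    getD_mkL _ _ a.2
  have hs : ∀ (c : Mat) (a a' : Fin n), gz (sm n c₀ c₁ c) a a' =
      min (gz c a a') (beta n c₀ c₁ a' a) := fun c a a' => by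
    rw [gz, sm, getD_mkL _ _ a.2, getD_mkL _ _ a'.2]
  refine ⟨fun b a a' h θ => ?_, fun a => ?_, fun a a' => ?_, fun a a' h => ?_⟩
  · rw [← hc b a a' h θ, ← beta_iff hf hc θ h.symm, ← lt_min_iff]
    cases b
    · exact iff_of_eq (congrArg _ (hs c₀ a a'))
    · exact iff_of_eq (congrArg _ (hs c₁ a a'))
  · simp only [hcp]; exact cpf_lt_n t a.2
  · simp only [hcp]
    refine ⟨fun h => of_key_eq hc t ?_, fun h => ?_⟩
    · rcases lt_trichotomy (key n c₀ c₁ t a) (key n c₀ c₁ t a') with e | e | e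
      · have := cpf_lt t a.2 e; omega
      · exact e
      · have := cpf_lt t a'.2 e; omega
    · have e := key_eq hc t h.1 h.2
      exact le_antisymm (cpf_le t e.le) (cpf_le t e.ge)
  · simp only [hcp]
    by_cases h2 : Reach f t a' a
    · exact cpf_le t (key_eq hc t h h2).ge
    · exact cpf_le t (key_lt hc t h h2).le

end Crest.Agent.R302
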