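import Crest.Agent.R302.DefsA
import Crest.Agent.R309.DES

/-! Row 302, task DES2: robust descent. -/

set_option autoImplicit false

namespace Crest.Agent.R302

open Finset Crest.Agent.R309

open DES in
theorem DES2_proof : Des2Stmt := by
  intro g g' D M η l hg h0 hgg hM hη hη1 hl hlη hyp
  obtain ⟨hn, hc⟩ := hg
  have hM' : (1 : ℝ) ≤ M := by exact_mod_cast hM
  have hMpos : (0 : ℝ) < M := by linarith
  rw [sum_sym, sum_pos] at hyp
  rw [sum_sym, sum_sym]
  have e1 : ∀ i : ℕ, ((i : ℤ) + 1).natAbs = i + 1 := fun i => by omega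
  have e2 : ∀ i : ℕ, (-((i : ℤ) + 1)).natAbs = i + 1 := fun i => by omega
  simp only [e1, e2, Int.natAbs_zero, pow_zero, mul_one, neg_zero, zpow_zero, neg_neg] at hyp ⊢
  have hn' : ∀ d, 0 ≤ g' d := fun d => (hn d).trans (hgg d).1
  set P := ∑ i ∈ range D, g' ((i : ℤ) + 1) * l ^ (i + 1) with hP
  set N := ∑ i ∈ range D, g' (-((i : ℤ) + 1)) * l ^ (i + 1) with hN
  have hP0 : 0 ≤ P := sum_nonneg fun i _ => mul_nonneg (hn' _) (pow_nonneg hl.le _)
  have hN0 : 0 ≤ N := sum_nonneg fun i _ => mul_nonneg (hn' _) (pow_nonneg hl.le _)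
  have h00 := (hgg 0).1
  have hs : η / 4 * g 0 ≤ g 1 * l := by
    by_contra hlt
    push Not at hlt
    set s := g 1 * l / g 0 with hsdef
    have hs0 : 0 ≤ s := div_nonneg (mul_nonneg (hn _) hl.le) h0.le
    have hs1 : s < η / 4 := by rw [hsdef, div_lt_iff₀ h0]; exact hlt
    have hq : ∀ i : ℕ, g (i : ℤ) * l ^ i ≤ g 0 * s ^ i := by
      intro i
      induction i with
      | zero => simp
      | succ i ih =>
        have h1 := hc 0 ((i : ℤ) + 1) (by omega)
        simp only [zero_add, add_sub_cancel_right] at h1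
        have h2 : g ((i : ℤ) + 1) ≤ g 1 / g 0 * g i := by
          rw [div_mul_eq_mul_div, le_div_iff₀ h0]; linarith
        push_cast
        calc g ((i : ℤ) + 1) * l ^ (i + 1) ≤ g 1 / g 0 * g i * l ^ (i + 1) :=
              mul_le_mul_of_nonneg_right h2 (pow_nonneg hl.le _)
          _ = s * (g i * l ^ i) := by rw [hsdef]; ring
          _ ≤ s * (g 0 * s ^ i) := mul_le_mul_of_nonneg_left ih hs0
          _ = g 0 * s ^ (i + 1) := by ring
    have hPle : P ≤ 2 * g 0 * (2 * s) := by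
      calc P ≤ ∑ i ∈ range D, 2 * g 0 * s ^ (i + 1) := sum_le_sum fun i _ => by
              have := hq (i + 1); push_cast at this
              have h5 := mul_le_mul_of_nonneg_right (hgg ((i : ℤ) + 1)).2 (pow_nonneg hl.le (i + 1))
              linarith
        _ = 2 * g 0 * ∑ i ∈ range D, s ^ (i + 1) := by rw [mul_sum]
        _ ≤ 2 * g 0 * (2 * s) := by
              apply mul_le_mul_of_nonneg_left _ (by linarith)
              have := geom s hs0 (by linarith) D
              have h3 : 0 ≤ s ^ (D + 1) := pow_nonneg hs0 _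
              linarith
    have : 2 * g 0 * (2 * s) < η * g 0 := by nlinarith
    have h6 := mul_le_mul_of_nonneg_left h00 hη.le
    have h7 := mul_nonneg hη.le hP0
    have h8 := mul_nonneg hη.le hN0
    nlinarith
  have hg1 : 0 < g 1 := by
    by_contra h
    have : g 1 = 0 := le_antisymm (not_lt.mp h) (hn _)
    rw [this] at hs
    nlinarith
  have hm1 : g (-1) * l ≤ η / 36 * g 0 := by
    have h1 := hc (-1) 1 (by norm_num)
    norm_num at h1
    have h2 : g 0 ≤ g 1 / 3 := by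
      have : η / 4 * g 0 ≤ g 1 * (η / 24) := hs.trans (mul_le_mul_of_nonneg_left hlη hg1.le)
      nlinarith
    have h3 : g (-1) ≤ g 0 / 3 := by
      have : g (-1) * g 1 ≤ g 0 / 3 * g 1 := by nlinarith
      exact le_of_mul_le_mul_right this hg1
    have := hn (-1)
    nlinarith
  have hq : ∀ i : ℕ, g (-(i : ℤ)) * l ^ i ≤ g 0 * (η / 36) ^ i := by
    intro i
    induction i with
    | zero => simp
    | succ i ih =>
      have h1 := hc (-((i : ℤ) + 1)) 0 (by omega)
      have e3 : -((i : ℤ) + 1) + 1 = -(i : ℤ) := by ring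
      rw [e3, zero_sub] at h1
      have h2 : g (-((i : ℤ) + 1)) * l ≤ η / 36 * g (-(i : ℤ)) := by
        have h3 : g (-((i : ℤ) + 1)) * l * g 0 ≤ η / 36 * g (-(i : ℤ)) * g 0 := by
          have := hn (-(i : ℤ))
          calc g (-((i : ℤ) + 1)) * l * g 0 = g (-((i : ℤ) + 1)) * g 0 * l := by ring
            _ ≤ g (-(i : ℤ)) * g (-1) * l := mul_le_mul_of_nonneg_right h1 hl.le
            _ = g (-(i : ℤ)) * (g (-1) * l) := by ring
            _ ≤ g (-(i : ℤ)) * (η / 36 * g 0) := mul_le_mul_of_nonneg_left hm1 this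
            _ = _ := by ring
        exact le_of_mul_le_mul_right h3 h0
      push_cast
      calc g (-((i : ℤ) + 1)) * l ^ (i + 1) = g (-((i : ℤ) + 1)) * l * l ^ i := by ring
        _ ≤ η / 36 * g (-(i : ℤ)) * l ^ i := mul_le_mul_of_nonneg_right h2 (pow_nonneg hl.le _)
        _ = η / 36 * (g (-(i : ℤ)) * l ^ i) := by ring
        _ ≤ η / 36 * (g 0 * (η / 36) ^ i) := mul_le_mul_of_nonneg_left ih (by positivity)
        _ = _ := by ring
  have hρ : 1 ≤ 1 + 1 / (M : ℝ) := by have : 0 ≤ 1 / (M : ℝ) := by positivity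
                                      linarith
  -- gain
  have hgain : ∑ i ∈ range D, g' ((i : ℤ) + 1) * l ^ (i + 1) * (1 + 1 / (M : ℝ)) ^ (-((i : ℤ) + 1)) ≤
      P * (1 - 1 / (2 * M)) := by
    rw [hP, sum_mul]
    refine sum_le_sum fun i _ => mul_le_mul_of_nonneg_left ?_ (mul_nonneg (hn' _) (pow_nonneg hl.le _))
    calc (1 + 1 / (M : ℝ)) ^ (-((i : ℤ) + 1)) ≤ (1 + 1 / (M : ℝ)) ^ (-1 : ℤ) :=
          zpow_le_zpow_right₀ hρ (by omega)
      _ ≤ 1 - 1 / (2 * M) := by
          rw [zpow_neg_one, inv_eq_one_div, div_le_iff₀ (by linarith)]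
          have : (1 - 1 / (2 * (M : ℝ))) * (1 + 1 / M) = 1 + (M - 1) / (2 * M ^ 2) := by
            field_simp; ring
          rw [this]
          have : 0 ≤ ((M : ℝ) - 1) / (2 * M ^ 2) := div_nonneg (by linarith) (by positivity)
          linarith
  -- loss
  have hloss : ∑ i ∈ range D, g' (-((i : ℤ) + 1)) * l ^ (i + 1) * (1 + 1 / (M : ℝ)) ^ ((i : ℤ) + 1) ≤
      N + g 0 * (η / (4 * M)) := by
    have h1 : ∀ i ∈ range D, g' (-((i : ℤ) + 1)) * l ^ (i + 1) * (1 + 1 / (M : ℝ)) ^ ((i : ℤ) + 1) ≤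
        g' (-((i : ℤ) + 1)) * l ^ (i + 1) + 2 * g 0 / M * (η / 18) ^ (i + 1) := by
      intro i _
      have e4 : (1 + 1 / (M : ℝ)) ^ ((i : ℤ) + 1) = (1 + 1 / (M : ℝ)) ^ (i + 1) := by
        rw [← zpow_natCast]; push_cast; rfl
      rw [e4]
      have h2 := pow_sub_one M hM (i + 1)
      have h3' := hq (i + 1)
      push_cast at h3'
      have h3 : g' (-((i : ℤ) + 1)) * l ^ (i + 1) ≤ 2 * g 0 * (η / 36) ^ (i + 1) := by
        have h5 := mul_le_mul_of_nonneg_right (hgg (-((i : ℤ) + 1))).2 (pow_nonneg hl.le (i + 1))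
        linarith
      have h4 : 0 ≤ g' (-((i : ℤ) + 1)) * l ^ (i + 1) := mul_nonneg (hn' _) (pow_nonneg hl.le _)
      have h5 : (1 + 1 / (M : ℝ)) ^ (i + 1) - 1 ≤ 2 ^ (i + 1) / M := by
        refine h2.trans (div_le_div_of_nonneg_right (by linarith) hMpos.le)
      have h6 : g' (-((i : ℤ) + 1)) * l ^ (i + 1) * ((1 + 1 / (M : ℝ)) ^ (i + 1) - 1) ≤
          2 * g 0 * (η / 36) ^ (i + 1) * (2 ^ (i + 1) / M) :=
        (mul_le_mul_of_nonneg_left h5 h4).trans
          (mul_le_mul_of_nonneg_right h3 (by positivity))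
      have e5 : 2 * g 0 * (η / 36) ^ (i + 1) * (2 ^ (i + 1) / M) =
          2 * g 0 / M * (η / 18) ^ (i + 1) := by
        have : (η / 18) = (η / 36) * 2 := by ring
        rw [this, mul_pow]; ring
      linarith
    refine (sum_le_sum h1).trans ?_
    rw [sum_add_distrib, ← mul_sum, ← hN]
    have h2 := geom (η / 18) (by positivity) (by linarith) D
    have h3 : 0 ≤ (η / 18) ^ (D + 1) := by positivity
    have h4 : ∑ i ∈ range D, (η / 18) ^ (i + 1) ≤ η / 8 := by linarith
    have h5 : 2 * g 0 / M * ∑ i ∈ range D, (η / 18) ^ (i + 1) ≤ 2 * g 0 / M * (η / 8) :=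
      mul_le_mul_of_nonneg_left h4 (by positivity)
    have e6 : 2 * g 0 / M * (η / 8) = g 0 * (η / (4 * M)) := by field_simp; ring
    linarith
  have hk : 0 < 1 / (4 * (M : ℝ)) := by positivity
  have e7 : η / (4 * (M : ℝ)) = η * (1 / (4 * M)) := by ring
  have e8 : 1 / (2 * (M : ℝ)) = 2 * (1 / (4 * M)) := by field_simp; ring
  rw [e7] at hloss ⊢
  rw [e8] at hgain
  set k := 1 / (4 * (M : ℝ))
  have h9 : k * (η * (g' 0 + P + N)) ≤ k * P := mul_le_mul_of_nonneg_left hyp hk.le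
  have h10 : 0 ≤ k * η * (P + N) := by positivity
  have h11 : k * η * g 0 ≤ k * η * g' 0 := mul_le_mul_of_nonneg_left h00 (by positivity)
  nlinarith

end Crest.Agent.R302
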