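import Crest.Agent.R302.REP
import Crest.Agent.R302.DES2
import Crest.Agent.R309.ACC

/-!
Row 302, SEC: at a near-critical tilt most of the weight lies in the sector without mismatch.
-/

set_option autoImplicit false

namespace Crest.Agent.R302

open Finset Crest.Agent.PT Crest.Agent.QC Crest.Agent.R317 Crest.Agent.R300U Crest.Agent.R309

namespace SEC

theorem zcl_eq {L : ℕ} {z : ℤ} (h : |z| ≤ L) : zcl L z = z := by
  have := abs_le.1 h
  unfold zcl; omega

theorem wgt_nonneg (n m : ℕ) (hm : 1 ≤ m) (P : Pre) (hb : Bool) (jv : Bool → ℕ → ℕ) (s : ℕ)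
    (p x : List ℤ) : 0 ≤ wgt n m P hb jv s p x := by
  have hm' : (0 : ℚ) < m := by exact_mod_cast hm
  unfold wgt
  split_ifs
  · refine mul_nonneg (mul_nonneg (mul_nonneg ?_ ?_) ?_) ?_
    · exact prod_nonneg fun _ _ => by positivity
    · exact prod_nonneg fun _ _ => by positivity
    · exact prod_nonneg fun _ _ => by split_ifs <;> positivity
    · exact prod_nonneg fun _ _ => by positivity
  · exact le_rfl

theorem le_qN {m : ℕ} (hm : 1 ≤ m) : m ≤ qN m := Nat.le_self_pow (by norm_num) m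

theorem wgt_bump {n m : ℕ} (hm : 2 ≤ m) (hn : n ≤ m) (P : Pre) (hb : Bool) (jv : Bool → ℕ → ℕ)
    (s : ℕ) (p x : List ℤ) (hp : ∀ v, |p.getD v 0| < eTt (qN m)) {i : ℕ} (hi : i < n) {δ : ℤ}
    (hδ : |δ| ≤ 1) (hd : |dc n P x i| ≤ 2 * m * qu m) :
    wgt n m P hb jv s (bump (qN m) p i δ) x =
      wgt n m P hb jv s p x * (1 + 1 / (qM m : ℚ)) ^ (δ * dc n P x i) := by
  have hM : |dc n P x i| ≤ (qM m : ℕ) := by
    refine hd.trans ?_
    have : 2 * m * qu m ≤ qM m := by
      unfold qu qM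
      calc 2 * m * m ^ 141 ≤ m * m * m ^ 141 := by gcongr
        _ = m ^ 143 := by ring
    exact_mod_cast this
  have hpos : (1 + 1 / (qM m : ℚ)) ≠ 0 := by positivity
  have key : ∏ j ∈ range n, ((m : ℚ) ^ 2) ^ (-|zcl (qM m) (dc n P x j)|) *
      (1 + 1 / (qM m : ℚ)) ^
        (zcl (eTt (qN m)) ((bump (qN m) p i δ).getD j 0) * zcl (qM m) (dc n P x j)) =
      (∏ j ∈ range n, ((m : ℚ) ^ 2) ^ (-|zcl (qM m) (dc n P x j)|) *
        (1 + 1 / (qM m : ℚ)) ^ (zcl (eTt (qN m)) (p.getD j 0) * zcl (qM m) (dc n P x j))) *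
        (1 + 1 / (qM m : ℚ)) ^ (δ * dc n P x i) := by
    have e : (1 + 1 / (qM m : ℚ)) ^ (δ * dc n P x i) =
        ∏ j ∈ range n, if j = i then (1 + 1 / (qM m : ℚ)) ^ (δ * dc n P x i) else 1 := by
      rw [prod_ite_eq' (range n) i, if_pos (mem_range.2 hi)]
    rw [e, ← prod_mul_distrib]
    refine prod_congr rfl fun j hj => ?_
    have hj' : j < qN m := lt_of_lt_of_le (mem_range.1 hj) (hn.trans (le_qN (by omega)))
    rw [ACC.bump_getD, if_pos hj']
    have h1 := hp j
    split_ifs with h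
    · subst h
      have h2 : |p.getD j 0 + δ| ≤ (eTt (qN m) : ℕ) := (abs_add_le _ _).trans (by omega)
      rw [zcl_eq h2, zcl_eq h1.le, zcl_eq hM, mul_assoc, ← zpow_add₀ hpos]
      congr 2
      ring
    · rw [add_zero, mul_one]
  unfold wgt
  split_ifs
  · rw [key]; ring
  · rw [zero_mul]

theorem root_bound {X : Type} (Ω : Finset X) (E : X → ℤ) (w : X → ℝ) (g : ℤ → ℝ) (D M : ℕ)
    (η q : ℝ) (hG : GLC g) (h0 : 0 < g 0) (hq : 0 < q)
    (hg : ∀ d, g d ≤ ACC.mg Ω E w d * q ^ d.natAbs ∧ ACC.mg Ω E w d * q ^ d.natAbs ≤ 2 * g d)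
    (hM : 1 ≤ M) (hη : 0 < η) (hη1 : η ≤ 1) (hlη : q⁻¹ ≤ η / 24) (hE : ∀ x ∈ Ω, |E x| ≤ D)
    (hyp : (1 - η / (4 * M)) * ∑ x ∈ Ω, w x < ∑ x ∈ Ω, w x * (1 + 1 / (M : ℝ)) ^ (-E x)) :
    ∑ x ∈ Ω.filter (fun x => 1 ≤ E x), w x ≤ η * ∑ x ∈ Ω, w x := by
  have hall : Ω.filter (fun x => E x ∈ Icc (-(D : ℤ)) D) = Ω := by
    refine Finset.filter_true_of_mem (fun x hx => ?_)
    exact Finset.mem_Icc.2 (abs_le.1 (hE x hx))
  have hpos : Ω.filter (fun x => E x ∈ Icc (1 : ℤ) D) = Ω.filter (fun x => 1 ≤ E x) := by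
    refine Finset.filter_congr (fun x hx => ?_)
    have := abs_le.1 (hE x hx)
    simp [Finset.mem_Icc, this.2]
  have e1 := ACC.fib Ω E w (Icc (-(D : ℤ)) D) (fun _ => 1)
  have e2 := ACC.fib Ω E w (Icc (1 : ℤ) D) (fun _ => 1)
  have e3 := ACC.fib Ω E w (Icc (-(D : ℤ)) D) (fun d => (1 + 1 / (M : ℝ)) ^ (-d))
  rw [hall] at e1 e3
  rw [hpos] at e2
  simp only [mul_one] at e1 e2
  have hc : ∀ d : ℤ, ACC.mg Ω E w d * q ^ d.natAbs * q⁻¹ ^ d.natAbs = ACC.mg Ω E w d := by
    intro d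
    rw [mul_assoc, ← mul_pow, mul_inv_cancel₀ hq.ne', one_pow, mul_one]
  by_contra hcon
  rw [not_le] at hcon
  have := DES2_proof g (fun d => ACC.mg Ω E w d * q ^ d.natAbs) D M η q⁻¹ hG h0 hg hM hη hη1
    (inv_pos.2 hq) hlη (by simp only [hc]; rw [e1, e2]; exact hcon.le)
  simp only [hc] at this
  rw [e1, e3] at this
  linarith

end SEC

open SEC in
theorem SEC_proof (hMg1 : Mg1Stmt) : SecStmt := by
  classical
  intro n m f P S p hp hyp
  have hm : 2000 ≤ m := S.big
  have hm' : (2000 : ℝ) ≤ m := by exact_mod_cast hm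
  have hn : n ≤ m := S.le
  set w : List ℤ → ℝ := fun x => ((mdlM n m f P).W (qN m) p x : ℝ) with hw
  have hw0 : ∀ x, 0 ≤ w x := fun x => by
    simp only [hw]
    exact_mod_cast wgt_nonneg n m (by omega) P _ _ _ _ _
  have hval : (mdlM n m f P).Valid (qN m) p := ⟨le_rfl, fun v => (hp v).le⟩
  have hdc : ∀ x ∈ Om n m f P, ∀ i, |dc n P x i| ≤ 2 * m * qu m := fun x hx i =>
    REP.dc_le S ((REP.mem_Om x).1 hx).1 i
  have hM1 : 1 ≤ qM m := Nat.one_le_pow _ _ (by omega)
  have hZ0 : 0 ≤ ∑ x ∈ Om n m f P, w x := sum_nonneg fun x _ => hw0 x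
  have hη : (1 / (qN m : ℝ)) ≤ 1 / (16 * m) / (4 * qM m) := by
    rw [div_div]
    refine one_div_le_one_div_of_le (by positivity) ?_
    have : 16 * m * (4 * qM m) ≤ qN m := by
      unfold qM qN
      calc 16 * m * (4 * m ^ 143) = 64 * m ^ 144 := by ring
        _ ≤ m * m ^ 144 := by gcongr; omega
        _ = m ^ 145 := by ring
        _ ≤ m ^ 600 := Nat.pow_le_pow_right (by omega) (by norm_num)
    exact_mod_cast this
  have hroot : ∀ i < n, ∀ σ : ℤ, σ = 1 ∨ σ = -1 →
      ∑ x ∈ (Om n m f P).filter (fun x => 1 ≤ σ * dc n P x i), w x ≤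
        1 / (16 * m) * ∑ x ∈ Om n m f P, w x := by
    intro i hi σ hσ
    obtain ⟨g, hg1, hg2, hg3⟩ := hMg1 n m f P S p hval i hi
    have hσ2 : σ * σ = 1 := by rcases hσ with rfl | rfl <;> rfl
    have hσa : |σ| = 1 := by rcases hσ with rfl | rfl <;> rfl
    refine root_bound (Om n m f P) (fun x => σ * dc n P x i) w (fun d => g (σ * d))
      (2 * m * qu m) (qM m) (1 / (16 * m)) ((m : ℝ) ^ 2) ?_ (by simpa using hg2) (by positivity)
      (fun d => ?_) hM1 (by positivity) ?_ ?_ (fun x hx => ?_) ?_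
    · rcases hσ with rfl | rfl
      · simpa using hg1
      · simpa using ACC.glc_neg hg1
    · have e : ACC.mg (Om n m f P) (fun x => σ * dc n P x i) w d =
          ∑ x ∈ (Om n m f P).filter (fun x => dc n P x i = σ * d), w x := by
        unfold ACC.mg
        refine sum_congr (filter_congr fun x _ => ?_) fun _ _ => rfl
        rcases hσ with rfl | rfl <;> constructor <;> intro h <;> linarith
      have e' : (σ * d).natAbs = d.natAbs := by rcases hσ with rfl | rfl <;> simp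
      have := hg3 (σ * d)
      rw [e'] at this
      rw [e]
      exact this
    · rw [div_le_one (by positivity)]; linarith
    · rw [div_div, ← one_div]
      exact one_div_le_one_div_of_le (by positivity) (by nlinarith)
    · rw [abs_mul, hσa, one_mul]
      have := hdc x hx i
      push_cast
      exact this
    · have h1 := hyp i (lt_of_lt_of_le hi (hn.trans (le_qN (by omega)))) (-σ)
        (by rcases hσ with rfl | rfl <;> simp)
      have e : (mdlM n m f P).Z (Om n m f P) (qN m) (bump (qN m) p i (-σ)) =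
          ∑ x ∈ Om n m f P, w x * (1 + 1 / (qM m : ℝ)) ^ (-(σ * dc n P x i)) := by
        refine sum_congr rfl fun x hx => ?_
        have := wgt_bump (by omega) hn P (decide (HB n f P false x ∧ HB n f P true x))
          (jvm n m f P x) (qN m) p x hp hi (δ := -σ) (by rw [abs_neg, hσa]) (hdc x hx i)
        simp only [hw, mdlM]
        rw [this, neg_mul]
        push_cast
        rfl
      rw [e] at h1
      refine lt_of_le_of_lt ?_ h1
      exact mul_le_mul_of_nonneg_right (by linarith) hZ0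
  have hsplit : ∑ x ∈ Om n m f P, w x = ∑ x ∈ Sec n m f P, w x +
      ∑ x ∈ (Om n m f P).filter (fun x => ¬ ∀ i < n, dc n P x i = 0), w x := by
    rw [Sec, ← sum_filter_add_sum_filter_not (Om n m f P) (fun x => ∀ i < n, dc n P x i = 0)]
  have hbad : ∑ x ∈ (Om n m f P).filter (fun x => ¬ ∀ i < n, dc n P x i = 0), w x ≤
      ∑ i ∈ range n, (∑ x ∈ (Om n m f P).filter (fun x => 1 ≤ 1 * dc n P x i), w x +
        ∑ x ∈ (Om n m f P).filter (fun x => 1 ≤ -1 * dc n P x i), w x) := by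
    simp only [sum_filter]
    rw [← sum_congr rfl fun i _ => sum_add_distrib, sum_comm]
    refine sum_le_sum fun x _ => ?_
    have hnn : ∀ i ∈ range n, 0 ≤ (if 1 ≤ 1 * dc n P x i then w x else 0) +
        (if 1 ≤ -1 * dc n P x i then w x else 0) := fun i _ => by
      have := hw0 x
      split_ifs <;> linarith
    split_ifs with h
    · exact sum_nonneg hnn
    · push Not at h
      obtain ⟨i, hi, h⟩ := h
      refine le_trans ?_ (single_le_sum hnn (mem_range.2 hi))
      have := hw0 x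
      split_ifs with h1 h2 h2
      · linarith
      · linarith
      · linarith
      · omega
  have hsum : ∑ i ∈ range n, (∑ x ∈ (Om n m f P).filter (fun x => 1 ≤ 1 * dc n P x i), w x +
        ∑ x ∈ (Om n m f P).filter (fun x => 1 ≤ -1 * dc n P x i), w x) ≤
      1 / 8 * ∑ x ∈ Om n m f P, w x := by
    refine (sum_le_card_nsmul _ _ (2 * (1 / (16 * m) * ∑ x ∈ Om n m f P, w x)) fun i hi => ?_).trans ?_
    · have h1 := hroot i (mem_range.1 hi) 1 (Or.inl rfl)
      have h2 := hroot i (mem_range.1 hi) (-1) (Or.inr rfl)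
      linarith
    · rw [card_range, nsmul_eq_mul, ← mul_assoc, ← mul_assoc]
      refine mul_le_mul_of_nonneg_right ?_ hZ0
      have : (n : ℝ) ≤ m := by exact_mod_cast hn
      rw [mul_one_div, div_le_iff₀ (by positivity)]
      linarith
  show 7 * ∑ x ∈ Om n m f P, w x ≤ 8 * ∑ x ∈ Sec n m f P, w x
  linarith

end Crest.Agent.R302
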