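import Crest.Agent.R302.DefsB
import Crest.Agent.R302.DEEP

/-!
Row 302, task SPC: the specification of the preprocessing.
-/

set_option autoImplicit false

namespace Crest.Agent.R302

open Finset Crest.Agent.PT Crest.Agent.QC Crest.Agent.R317 Crest.Agent.R300U

namespace SPC

theorem le_zeta {n : ℕ} (P : Pre) (b : Bool) (h0 : ∀ ε ∈ ed P b, 0 ≤ ε.2.2) (A : Finset (Fin n))
    {ε : ℕ × ℕ × ℤ} (hε : ε ∈ ed P b) (hc : Cross ε A) : ε.2.2 ≤ zeta P b A := by
  obtain ⟨i, hi, rfl⟩ := List.getElem_of_mem hε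
  unfold zeta zetaL
  have e : ∀ j (hj : j < (ed P b).length), (ed P b).getD j (0, 0, 0) = (ed P b)[j] :=
    fun j hj => List.getD_eq_getElem _ _ hj
  refine le_trans (le_of_eq ?_) (single_le_sum (f := fun i =>
    if (bitsOf A).getD ((ed P b).getD i (0, 0, 0)).1 false =
      (bitsOf A).getD ((ed P b).getD i (0, 0, 0)).2.1 false then 0
    else ((ed P b).getD i (0, 0, 0)).2.2) (fun j hj => ?_) (mem_range.2 hi))
  · simp only [e i hi]
    rw [if_neg hc]
  · split_ifs
    · exact le_rfl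
    · rw [e j (mem_range.1 hj)]
      exact h0 _ (List.getElem_mem _)

theorem reach_cut {n : ℕ} {f : Bool → Finset (Fin n) → ℤ} {θ : ℤ} {a a' : Fin n}
    (h : Reach f θ a a') (A : Finset (Fin n)) (ha : a ∈ A) (ha' : a' ∉ A) :
    θ < f false A ∨ θ < f true A := by
  unfold Reach at h
  induction h with
  | refl => exact absurd ha ha'
  | @tail x y _ hr ih =>
    by_cases hx : x ∈ A
    · exact hr.imp (fun h => h A hx ha') (fun h => h A hx ha')
    · exact ih hx

theorem arc_reach {n : ℕ} {f : Bool → Finset (Fin n) → ℤ} {θ : ℤ} {a a' : Fin n} {b : Bool}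
    (h : Arc (f b) θ a a') : Reach f θ a a' := by
  refine Relation.ReflTransGen.single ?_
  cases b
  · exact Or.inl h
  · exact Or.inr h

theorem sum_comb {n : ℕ} (P : Pre) (a : Fin n → ℤ) (X : Finset (Fin n)) :
    ∑ j ∈ X, comb P a j = ∑ e : Fin n, a e * ∑ j ∈ X, bv P e j := by
  unfold comb
  rw [sum_comm]
  simp only [mul_sum]

end SPC

open SPC in
theorem SPC_proof (hCls : ClsStmt) (hDeep : DeepStmt) : SpcStmt := by
  intro n m f s P hP hS hK
  have hm : (2000 : ℤ) ≤ m := by exact_mod_cast hP.big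
  have hnm : (n : ℤ) ≤ m := by exact_mod_cast hP.le
  have hm1 : 1 ≤ m := by have := hP.big; omega
  have hT1 : (1 : ℤ) ≤ (qT m : ℤ) := by
    have : 1 ≤ qT m := Nat.one_le_pow _ _ hm1
    exact_mod_cast this
  have htT : (qt m : ℤ) ≤ (qT m : ℤ) := by
    have : qt m ≤ qT m := Nat.pow_le_pow_right hm1 (by norm_num)
    exact_mod_cast this
  have hw0 : ∀ b, ∀ ε ∈ ed P b, 0 ≤ ε.2.2 := fun b ε hε => by
    have := (hK.edg b ε hε).2.2.2.2.1; omega
  have hE : ∀ b, ∀ ε ∈ ed P b, ∃ a a' : Fin n, ε.1 = a ∧ ε.2.1 = a' ∧ a ≠ a' ∧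
      ∀ θ, θ < ε.2.2 → Arc (f b) θ a a' ∧ Reach f θ a' a := by
    intro b ε hε
    obtain ⟨h1, h2, h3, h4, -, -⟩ := hK.edg b ε hε
    have hne : (⟨ε.1, h1⟩ : Fin n) ≠ ⟨ε.2.1, h2⟩ := fun h => h3 (congrArg Fin.val h)
    exact ⟨⟨ε.1, h1⟩, ⟨ε.2.1, h2⟩, rfl, rfl, hne, fun θ hθ =>
      (hS.sc b _ _ hne θ).1 (by rw [h4] at hθ; exact hθ)⟩
  have hwm : ∀ b, ∀ ε ∈ ed P b, ε.2.2 ≤ 2 ^ m := by
    intro b ε hε
    obtain ⟨a, a', -, -, h3, h4⟩ := hE b ε hε
    have h5 := (h4 (ε.2.2 - 1) (by omega)).1 {a} (mem_singleton_self a)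
      (by simpa using h3.symm)
    have := hP.bd b {a}
    omega
  have hnc : ∀ (i : ℕ) b, ∀ ε ∈ ed P b, ¬ Cross ε (kap n P i) := by
    intro i b ε hε hc
    obtain ⟨a, a', h1, h2, -, h4⟩ := hE b ε hε
    obtain ⟨h5, h6⟩ := h4 (qt m) (by have := (hK.edg b ε hε).2.2.2.2.1; omega)
    have h7 : cp P a = cp P a' := (hS.eq a a').2 ⟨arc_reach h5, h6⟩
    apply hc
    rw [h1, h2, DEEP.bits_getD, DEEP.bits_getD]
    simp [kap, h7]
  choose X σ hσ hX hD using hK.dual
  have hL : ∀ (a : Fin n → ℤ) e,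
      σ e * (∑ j ∈ X e false, comb P a j - ∑ j ∈ X e true, comb P a j) = a e := by
    intro a e
    rw [sum_comb, sum_comb, ← sum_sub_distrib, mul_sum]
    have : ∀ e' ∈ (univ : Finset (Fin n)),
        σ e * (a e' * ∑ j ∈ X e false, bv P e' j - a e' * ∑ j ∈ X e true, bv P e' j) =
          if e' = e then a e' else 0 := by
      intro e' _
      have := hD e e'
      rw [← mul_sub, mul_left_comm, this]
      split_ifs <;> simp
    rw [sum_congr rfl this, sum_ite_eq']
    simp
  refine { toPair := hP, cpl := fun e he => hS.lt ⟨e, he⟩, clo := fun b i => ?_, scc := ?_,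
           cll := hK.lt, clc := ?_, len := hK.len, edg := ?_, spl := ?_, cy1 := ?_, cy2 := ?_,
           inj := ?_, rng := ?_, deep := ?_ }
  · have h1 := hCls.1 n (f b) (qt m) (low n P i) (hP.sub b) (hP.nonneg b) (hP.empty b) (hP.full b)
      (by positivity) (fun a ha a' hr => by
        have := hS.mono a a' (arc_reach hr)
        simp only [low, mem_filter, mem_univ, true_and] at ha ⊢
        omega)
    refine h1.trans ?_
    gcongr
  · intro A a a' h ha ha'
    have h1 := reach_cut ((hS.eq a a').1 h).1 A ha ha'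
    have := hP.nonneg false A
    have := hP.nonneg true A
    omega
  · intro b a a' h
    by_contra hc
    obtain ⟨ε, hε, hx⟩ := hK.con b (kap n P (cp P a)) a a' h (by simp [kap])
      (by simpa [kap] using fun h => hc h.symm)
    exact hnc _ b ε hε hx
  · intro b ε hε
    obtain ⟨h1, h2, -, -, -, h6⟩ := hK.edg b ε hε
    exact ⟨h1, h2, hw0 b ε hε, hwm b ε hε, h6⟩
  · intro b A a a' h ha ha'
    obtain ⟨ε, hε, hx⟩ := hK.con b A a a' h ha ha'
    have := le_zeta P b (hw0 b) A hε hx
    have := (hK.edg b ε hε).2.2.2.2.1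
    omega
  · intro e j he
    refine ⟨hK.cy1 e j he, fun h => ?_, ?_⟩
    · have := hK.cy3 e he (kap n P (cp P e)) (hnc _) (by simp [kap]) j h
      simpa [kap] using this
    · obtain ⟨b, ε, hε, h⟩ := hK.cy4 e he
      have h1 := hwm b ε hε
      have h2 : (2 : ℤ) ^ R302.he P e ≤ 2 ^ m := by
        have : (0 : ℤ) < 2 ^ R302.he P e := by positivity
        nlinarith
      exact (pow_le_pow_iff_right₀ (by norm_num)).1 h2
  · intro e he b A h
    obtain ⟨ε, hε, hx, h1⟩ := hK.cy2 e he b A h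
    exact h1.trans (le_zeta P b (hw0 b) A hε hx)
  · intro a a' h
    funext e
    rw [← hL a e, ← hL a' e, h]
  · intro z₀ z₁ h0 h1 hd
    let B : Matrix (Fin n) (Fin n) ℤ := fun j e => bv P e j
    let D : Matrix (Fin n) (Fin n) ℤ := fun e j =>
      σ e * ((if j ∈ X e false then 1 else 0) - (if j ∈ X e true then 1 else 0))
    have hDv : ∀ (v : Fin n → ℤ) e, ∑ j, D e j * v j =
        σ e * (∑ j ∈ X e false, v j - ∑ j ∈ X e true, v j) := by
      intro v e
      simp only [D, mul_assoc, ← mul_sum, sub_mul, ite_mul, one_mul, zero_mul, sum_sub_distrib,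
        sum_ite_mem, univ_inter]
    have hDB : D * B = 1 := by
      ext e e'
      rw [Matrix.mul_apply, hDv (fun j => B j e') e, Matrix.one_apply]
      simp only [B]
      rw [hD e e']
      simp only [eq_comm]
    have hBD : B * D = 1 := mul_eq_one_comm.1 hDB
    refine ⟨D.mulVec z₀, ?_, fun e => ?_⟩
    · have : comb P (D.mulVec z₀) = B.mulVec (D.mulVec z₀) := by
        funext j
        simp only [comb, Matrix.mulVec, dotProduct, B]
        exact sum_congr rfl fun e _ => mul_comm _ _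
      rw [this, Matrix.mulVec_mulVec, hBD, Matrix.one_mulVec]
    · have e1 : D.mulVec z₀ e = σ e * (∑ j ∈ X e false, z₀ j - ∑ j ∈ X e true, z₀ j) := hDv z₀ e
      set h : ℤ := (if isF P e = true then 1 else 2 ^ R302.he P e) with hh
      have hh1 : 1 ≤ h := by
        rw [hh]; split_ifs
        · exact le_rfl
        · exact one_le_pow₀ (by norm_num)
      have hc : ∀ b, |∑ j ∈ X e b, (if b = true then z₁ else z₀) j| ≤
          n * (2 * n ^ 2 * (2 * qT m * h) + qT m) := by
        intro b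
        have := hCls.2 n m f (2 * qT m * h) b (X e b) (fun c => if c = true then z₁ else z₀) hP
          (by positivity) (fun c => by cases c <;> simpa) (fun a a' k1 k2 => by
            by_cases hne : a = a'
            · rw [hne]
            · exact hX e b a a' hne ((hS.sc b a a' hne _).2 ⟨k1, k2⟩))
        refine this.trans ?_
        simp only [Bool.false_eq_true, if_false, if_true]
        gcongr
      have c0 := hc false
      have c1 := hc true
      simp only [Bool.false_eq_true, if_false, if_true] at c0 c1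
      have c2 : |∑ j ∈ X e true, (z₀ j + z₁ j)| ≤ qT m :=
        (abs_sum_le_sum_abs _ _).trans ((sum_le_sum_of_subset_of_nonneg (subset_univ _)
          (fun _ _ _ => abs_nonneg _)).trans hd)
      rw [sum_add_distrib] at c2
      rw [e1, abs_mul, hσ e, one_mul]
      have c3 : |∑ j ∈ X e false, z₀ j - ∑ j ∈ X e true, z₀ j| ≤
          2 * (n * (2 * n ^ 2 * (2 * qT m * h) + qT m)) + qT m := by
        rw [abs_le] at c0 c1 c2 ⊢
        constructor <;> linarith [c0.1, c0.2, c1.1, c1.2, c2.1, c2.2]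
      refine c3.trans ?_
      have c4 : (qT m : ℤ) ≤ qT m * h := le_mul_of_one_le_right (by positivity) hh1
      have c5 : (0 : ℤ) ≤ qT m * h := by positivity
      calc 2 * (n * (2 * n ^ 2 * (2 * qT m * h) + qT m)) + (qT m : ℤ)
          ≤ 2 * (m * (2 * m ^ 2 * (2 * qT m * h) + qT m * h)) + qT m * h := by gcongr
        _ = (8 * m ^ 3 + 2 * m + 1) * (qT m * h) := by ring
        _ ≤ (m : ℤ) ^ 4 * (qT m * h) := by
          refine mul_le_mul_of_nonneg_right ?_ c5
          have k1 : (m : ℤ) ≤ m ^ 3 := le_self_pow₀ (by omega) (by norm_num)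
          have k2 : (m : ℤ) ^ 4 = m * m ^ 3 := by ring
          nlinarith
        _ = _ := by ring
  · refine hDeep n m f P hP hK.len fun b ε hε => ?_
    obtain ⟨a, a', h1, h2, -, h4⟩ := hE b ε hε
    refine ⟨a, a', h1, h2, ?_, h4 _ (by omega)⟩
    have h5 := (hK.edg b ε hε).2.2.2.2.1
    have h6 : (8 : ℤ) * n ^ 2 ≤ (qT m : ℤ) := by
      have : 8 * n ^ 2 ≤ qT m := by
        have := hP.big
        have := hP.le
        calc 8 * n ^ 2 ≤ m * m ^ 2 := by gcongr; omega
          _ = m ^ 3 := by ring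
          _ ≤ m ^ 136 := Nat.pow_le_pow_right hm1 (by norm_num)
      exact_mod_cast this
    omega

end Crest.Agent.R302
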