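import Crest.Agent.R302.DefsE

/-! Row 302, task SUB: substitution of an oracle computation for the oracle. -/

set_option autoImplicit false
set_option linter.unusedSectionVars false

namespace Crest.Agent.R302

open Finset Crest.Agent.PT Crest.Agent.QC Crest.Agent.R317 Crest.Agent.R300U

namespace SUB

variable {α β γ : Type} [Enc α] [Enc β] [Enc γ]

theorem pt_getR {s : α → β ⊕ γ} (hs : PT s) (d : γ) : PT (fun a => (s a).elim (fun _ => d) id) :=
  (PT.cond (pt_isRight hs) (PT.tail (PT.toRaw.comp hs))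
    (PT.toRaw.comp (PT.const d))).of_enc_eq (fun a => by cases s a <;> rfl)

theorem pt_getL {s : α → β ⊕ γ} (hs : PT s) (d : β) : PT (fun a => (s a).elim id (fun _ => d)) :=
  (PT.cond (pt_isRight hs) (PT.toRaw.comp (PT.const d))
    (PT.tail (PT.toRaw.comp hs))).of_enc_eq (fun a => by cases s a <;> rfl)

theorem proto_len (O : Orc) (ctl : Tab × α → Q ⊕ β) (x : α) (k : ℕ) :
    (proto O ctl x k).length ≤ k := by
  induction k with
  | zero => exact le_rfl
  | succ k ih =>
    cases h : ctl (proto O ctl x k, x) with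
    | inl q => simp only [proto, h, List.length_cons]; omega
    | inr b => simp only [proto, h]; omega

/-- one round -/
def rnd (O : Orc) (ctl : Tab × α → Q ⊕ β) (x : α) (tb : Tab) : Tab :=
  bif (ctl (tb, x)).isRight then tb else
    ((ctl (tb, x)).elim id (fun _ => (false, [])),
      ⟨O ((ctl (tb, x)).elim id (fun _ => (false, [])))⟩) :: tb

theorem rnd_iter (O : Orc) (ctl : Tab × α → Q ⊕ β) (x : α) (k : ℕ) :
    (rnd O ctl x)^[k] [] = proto O ctl x k := by
  induction k with
  | zero => rfl
  | succ k ih =>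
    rw [Function.iterate_succ_apply', ih]
    cases h : ctl (proto O ctl x k, x) with
    | inl q => simp [rnd, proto, h]
    | inr b => simp [rnd, proto, h]

end SUB

open SUB in
theorem SUB_proof : SubStmt := by
  intro α β _ _ F G hF hG
  by_cases hne : Nonempty β
  swap
  · have : ∀ a : α, False := fun a => hne ⟨F (fun _ => 0) a⟩
    exact hF.congr (fun O a => (this a).elim)
  obtain ⟨d⟩ := hne
  obtain ⟨ctl, k, hc, h1, h2⟩ := hF.controller'
  obtain ⟨B, hB, hB'⟩ := hG.pb
  obtain ⟨l, hl⟩ := hB.exists_mono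
  have hK : PT (fun x : α => (sz x + 2) ^ k) := by
    have := (PT.id' (α := α)).len
    fun_prop
  have hc' : PT (fun p : α × Tab => ctl (p.2, p.1)) := hc.comp (by fun_prop)
  have hq : PT (fun p : α × Tab => (ctl (p.2, p.1)).elim id (fun _ => ((false, []) : Q))) :=
    pt_getL hc' _
  have hS : OPT (fun O (p : α × Tab) => rnd (fun q => (G O p.1 q).toNat) ctl p.1 p.2) := by
    have h3 := hG.pre (f := fun p : α × Tab =>
      (p.1, (ctl (p.2, p.1)).elim id (fun _ => ((false, []) : Q)))) (PT.pair (by fun_prop) hq)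
    refine h3.post₂ (g := fun p (v : ℤ) => bif (ctl (p.2, p.1)).isRight then p.2 else
      ((ctl (p.2, p.1)).elim id (fun _ => ((false, []) : Q)), (⟨v.toNat⟩ : Bin)) :: p.2) ?_
    exact PT.cond ((pt_isRight hc').comp PT.id'.fst) (by fun_prop)
      (pt_cons (PT.pair (hq.comp PT.id'.fst) (BT.mk (bt_toNat PT.id'.snd))) (by fun_prop))
  have hI := OPT.iter (g := fun x : α => (sz x + 2) ^ k) (Z := fun _ _ => ([] : Tab))
    (S := fun O x tb => rnd (fun q => (G O x q).toNat) ctl x tb) hK (OPT.pt (PT.const _)) hS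
    (B := fun x => (sz x + 2) ^ k *
      (2 * (2 * (sz x + 2) ^ k + (2 * sz x + (sz x + 2) ^ k + 1 + 2) ^ l + 1) + 1))
    (hK.pbNat.mul (((PB.const 2).mul ((((PB.const 2).mul hK.pbNat).add
      (((((PB.const 2).mul PB.size).add hK.pbNat).add (PB.const 1)).add (PB.const 2) |>.pow l)).add
      (PB.const 1))).add (PB.const 1)))
    (fun O x i hi => by
      rw [rnd_iter]
      refine (sz_list_le _ _ (fun e he => ?_)).trans
        (Nat.mul_le_mul_right _ ((proto_len _ _ _ _).trans hi))
      obtain ⟨e1, e2⟩ := h2 _ x i e he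
      obtain ⟨q, v⟩ := e
      have e3 := (hB' O (x, q)).trans (hl _ (2 * sz x + (sz x + 2) ^ k + 1)
        (by simp only [sz_pair] at e2 ⊢; omega))
      have e4 : sz v ≤ sz (G O x q) := by
        rw [sz_bin, sz_int]
        simp only at e1
        rw [e1]; omega
      simp only [sz_pair] at e2 e3 ⊢
      omega)
  refine (hI.post₂ (g := fun x tb => (ctl (tb, x)).elim (fun _ => d) id)
    (pt_getR hc' d)).congr (fun O x => ?_)
  rw [rnd_iter, h1 _ x _ le_rfl]
  rfl

end Crest.Agent.R302
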