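import Crest.Agent.R302.RHO
import Crest.Agent.R309.REP

/-!
Row 302, task WF: the weight on the state space.
-/

set_option autoImplicit false

namespace Crest.Agent.R302

open Finset Crest.Agent.PT Crest.Agent.QC Crest.Agent.R317 Crest.Agent.R300U Crest.Agent.R309

namespace WF

theorem prod_two {n : ℕ} (x : List ℤ) (g : ℤ → ℝ) :
    ∏ k ∈ range (2 * n), g (x.getD k 0) = ∏ k : Fin n × Bool, g (xv n x k.1 k.2) := by
  rw [two_mul, prod_range_add, Fintype.prod_prod_type, prod_range, prod_range, ← prod_mul_distrib]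
  refine prod_congr rfl fun e _ => ?_
  rw [Fintype.prod_bool, mul_comm]
  simp [xv]

theorem xv_abs {n m : ℕ} {P : Pre} {x : List ℤ} (hx : inB n m P x) (k : Fin n × Bool) :
    |xv n x k.1 k.2| ≤ qu m := by
  obtain ⟨e, b⟩ := k
  obtain ⟨h1, h2⟩ := hx.2 e e.2
  cases b
  · exact h1
  · refine h2.trans ?_
    split_ifs
    · exact le_rfl
    · positivity

end WF

open WF in
theorem WF_proof (hRep : RepStmt) (hRho : RhoStmt) : WfStmt := by
  intro n m f P hS s p hv x hx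
  obtain ⟨hB, hH⟩ := ((hRep n m f P hS).2.2.2.1 x).1 hx
  obtain ⟨hdc, hdF, -⟩ := (hRep n m f P hS).2.2.2.2.2.2.2.2.2.1 x hB
  have hm : (2000 : ℤ) ≤ m := by exact_mod_cast hS.big
  have hmR : (2000 : ℝ) ≤ m := by exact_mod_cast hS.big
  have hM : 2 * (m : ℤ) * qu m ≤ qM m := by
    have e1 : ((qu m : ℕ) : ℤ) = (m : ℤ) ^ 141 := by unfold qu; push_cast; ring
    have e2 : ((qM m : ℕ) : ℤ) = m * m * (m : ℤ) ^ 141 := by unfold qM; push_cast; ring
    rw [e1, e2]
    gcongr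
    omega
  have hu : (0 : ℤ) ≤ qu m := by positivity
  have hM' : 2 * (qu m : ℤ) ≤ qM m := le_trans (by nlinarith) hM
  set q : ℝ := 1 + 1 / (m : ℝ) ^ 4 with hq
  have hq1 : 1 ≤ q := by rw [hq]; have : (0 : ℝ) ≤ 1 / (m : ℝ) ^ 4 := by positivity
                         linarith
  have hq0 : 0 < q := by linarith
  let r : Fin n × Bool → ℝ := fun c => qV m * rho n m f P c.2 c.1 (m ^ 2) (zv n P c.2 x)
  let jj : Fin n × Bool → ℝ := fun c => jvm n m f P x c.2 c.1
  have hr : ∀ c, r c ≤ jj c ∧ jj c ≤ r c + 1 := fun c => by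
    have := (hRho n m f P hS c.2 c.1).2.2.2.2.2.2.2.1 x hB
    exact ⟨this.1, this.2.1⟩
  refine ⟨∏ c : Fin n × Bool, q ^ (-(jj c - r c)), ?_, ?_, ?_⟩
  · have h1 : ∀ c : Fin n × Bool, Real.exp (-(1 / (m : ℝ) ^ 4)) ≤ q ^ (-(jj c - r c)) := by
      intro c
      calc Real.exp (-(1 / (m : ℝ) ^ 4)) ≤ q ^ (-1 : ℝ) := by
            rw [Real.rpow_neg_one, Real.exp_neg]
            refine inv_anti₀ hq0 ?_
            rw [hq, add_comm]; exact Real.add_one_le_exp _
        _ ≤ _ := Real.rpow_le_rpow_of_exponent_le hq1 (by linarith [(hr c).2])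
    refine le_trans ?_ (prod_le_prod (fun c _ => (Real.exp_pos _).le) fun c _ => h1 c)
    rw [prod_const, ← Real.exp_nat_mul, card_univ, Fintype.card_prod, Fintype.card_fin,
      Fintype.card_bool, Real.exp_le_exp]
    have hn : (n : ℝ) ≤ m := by exact_mod_cast hS.le
    have e : (2 : ℝ) / (m : ℝ) ^ 3 = m * 2 * (1 / (m : ℝ) ^ 4) := by field_simp
    rw [e]
    push_cast
    have : (n : ℝ) * 2 * (1 / (m : ℝ) ^ 4) ≤ m * 2 * (1 / (m : ℝ) ^ 4) := by gcongr
    linarith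
  · refine prod_le_one (fun c _ => (Real.rpow_pos_of_pos hq0 _).le) fun c _ => ?_
    exact Real.rpow_le_one_of_one_le_of_nonpos hq1 (by linarith [(hr c).1])
  · show ((wgt n m P _ (jvm n m f P x) s p x : ℚ) : ℝ) = _
    unfold wgt psi0
    rw [if_pos ⟨hB, by simpa using hH⟩]
    push_cast
    have e1 : ∏ k ∈ range (2 * n), (1 + 1 / (qM m : ℝ)) ^
        (-(((qJ m - s : ℕ) : ℤ) * |zcl (qu m) (x.getD k 0)|)) =
        ∏ k : Fin n × Bool, (1 + 1 / (qM m : ℝ)) ^
          (-(((qJ m - s : ℕ) : ℤ) * |xv n x k.1 k.2|)) := by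
      rw [prod_two x (fun z => (1 + 1 / (qM m : ℝ)) ^ (-(((qJ m - s : ℕ) : ℤ) * |zcl (qu m) z|)))]
      exact prod_congr rfl fun k _ => by rw [REP.zcl_eq (xv_abs hB k)]
    have e2 : ∏ i ∈ range n, ((m : ℝ) ^ 2) ^ (-|zcl (qM m) (dc n P x i)|) *
        (1 + 1 / (qM m : ℝ)) ^ (zcl (eTt (qN m)) (p.getD i 0) * zcl (qM m) (dc n P x i)) =
        ∏ i : Fin n, ((m : ℝ) ^ 2) ^ (-|dc n P x i|) *
          (1 + 1 / (qM m : ℝ)) ^ (p.getD i 0 * dc n P x i) := by
      rw [prod_range]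
      exact prod_congr rfl fun i _ => by
        rw [REP.zcl_eq ((hdc i).trans hM), REP.zcl_eq (L := eTt (qN m)) (hv.2 i)]
    have e3 : ∏ j ∈ range n, (((if nd P j then (1 + 1 / (qH m : ℚ)) ^
        (-(zcl (qM m) (dF n P x j) * zcl (qM m) (dF n P x j))) else 1 : ℚ)) : ℝ) =
        ∏ j : Fin n, if nd P j then (1 + 1 / (qH m : ℝ)) ^ (-(dF n P x j * dF n P x j)) else 1 := by
      rw [prod_range]
      refine prod_congr rfl fun j _ => ?_
      rw [REP.zcl_eq ((hdF j).trans hM')]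
      split_ifs
      · push_cast; rfl
      · simp
    have e4 : ∏ i ∈ range n, q ^ (-((jvm n m f P x false i : ℤ) + jvm n m f P x true i)) =
        (∏ c : Fin n × Bool, q ^ (-(jj c - r c))) * ∏ c : Fin n × Bool, q ^ (-r c) := by
      rw [← prod_mul_distrib, Fintype.prod_prod_type, prod_range]
      refine prod_congr rfl fun i _ => ?_
      rw [Fintype.prod_bool, ← Real.rpow_add hq0, ← Real.rpow_add hq0, ← Real.rpow_add hq0,
        ← Real.rpow_intCast]
      congr 1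
      simp only [jj]
      push_cast
      ring
    have e5 : ((m : ℤ) ^ 2 + (qO m : ℤ) - qO m) = m ^ 2 := by ring
    rw [e1, e2, e3, e4, e5]
    ring

end Crest.Agent.R302
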