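import Crest.Agent.R302.DefsB

/-! Row 302, task XS: a common integer base of two polymatroids by submodular minimisation. -/

set_option autoImplicit false

namespace Crest.Agent.R302

open Finset Crest.Agent.PT Crest.Agent.QC Crest.Agent.R317 Crest.Agent.R300U

namespace XS

section Pure

variable {n : ℕ}

/-- partial sums over the fixed elements -/
def sx (e : ℕ) (x : ℕ → ℤ) (A : Finset (Fin n)) : ℤ :=
  ∑ j : Fin n, if (j : ℕ) < e ∧ j ∈ A then x j else 0

theorem sx_mod (e : ℕ) (x : ℕ → ℤ) (A B : Finset (Fin n)) :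
    sx e x (A ∪ B) + sx e x (A ∩ B) = sx e x A + sx e x B := by
  unfold sx
  rw [← sum_add_distrib, ← sum_add_distrib]
  refine sum_congr rfl fun j _ => ?_
  by_cases h : (j : ℕ) < e <;> by_cases a : j ∈ A <;> by_cases b : j ∈ B <;> simp [h, a, b]

theorem sx_succ (E : Fin n) (x x' : ℕ → ℤ) (h : ∀ j < (E : ℕ), x' j = x j) (A : Finset (Fin n)) :
    sx (E + 1) x' A = sx E x A + if E ∈ A then x' E else 0 := by
  unfold sx
  have : (if E ∈ A then x' E else 0) = ∑ j : Fin n, if j = E then (if E ∈ A then x' E else 0) else 0 := by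
    simp
  rw [this, ← sum_add_distrib]
  refine sum_congr rfl fun j _ => ?_
  rcases lt_trichotomy (j : ℕ) E with h1 | h1 | h1
  · have : j ≠ E := fun h2 => by rw [h2] at h1; omega
    have h3 : (j : ℕ) < E + 1 := by omega
    simp [h1, h3, this, h j h1]
  · have : j = E := Fin.ext h1
    subst this
    simp
  · have : j ≠ E := fun h2 => by rw [h2] at h1; omega
    have h3 : ¬ (j : ℕ) < E + 1 := by omega
    have h4 : ¬ (j : ℕ) < E := by omega
    simp [h3, h4, this]

theorem sx_full (x : ℕ → ℤ) (A : Finset (Fin n)) : sx n x A = ∑ j ∈ A, x j := by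
  unfold sx
  simp

theorem sx_empty (e : ℕ) (x : ℕ → ℤ) : sx e x (∅ : Finset (Fin n)) = 0 := by simp [sx]

theorem sx_zero (x : ℕ → ℤ) (A : Finset (Fin n)) : sx 0 x A = 0 := by simp [sx]

theorem sx_congr (e : ℕ) (x : ℕ → ℤ) {A B : Finset (Fin n)}
    (h : ∀ j : Fin n, (j : ℕ) < e → (j ∈ A ↔ j ∈ B)) : sx e x A = sx e x B := by
  unfold sx
  refine sum_congr rfl fun j _ => ?_
  by_cases h1 : (j : ℕ) < e
  · simp [h1, h j h1]
  · simp [h1]

theorem sx_bd (e : ℕ) {x : ℕ → ℤ} {M : ℤ} (h : ∀ j, 0 ≤ x j ∧ x j ≤ M) (A : Finset (Fin n)) :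
    0 ≤ sx e x A ∧ sx e x A ≤ n * M := by
  have hM : 0 ≤ M := (h 0).1.trans (h 0).2
  unfold sx
  refine ⟨sum_nonneg fun j _ => ?_, (sum_le_sum (g := fun _ => M) fun j _ => ?_).trans (by simp)⟩
  · split_ifs
    · exact (h j).1
    · exact le_rfl
  · split_ifs
    · exact (h j).2
    · exact hM

/-- the gap function -/
def gap (b p : Finset (Fin n) → ℤ) (e : ℕ) (x : ℕ → ℤ) (A B : Finset (Fin n)) : ℤ :=
  b A - sx e x A - p B + sx e x B

theorem gap_sub {b p : Finset (Fin n) → ℤ} (hb : Sub b)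
    (hp : ∀ A B, p A + p B ≤ p (A ∪ B) + p (A ∩ B)) (e : ℕ) (x : ℕ → ℤ) (A B A' B' : Finset (Fin n)) :
    gap b p e x (A ∪ A') (B ∪ B') + gap b p e x (A ∩ A') (B ∩ B') ≤
      gap b p e x A B + gap b p e x A' B' := by
  unfold gap
  have := hb A A'
  have := hp B B'
  have := sx_mod e x A A'
  have := sx_mod e x B B'
  linarith

/-- the invariant -/
def Inv (b p : Finset (Fin n) → ℤ) (e : ℕ) (x : ℕ → ℤ) : Prop :=
  ∀ A B : Finset (Fin n), (∀ j : Fin n, e ≤ (j : ℕ) → (j ∈ A ↔ j ∈ B)) → 0 ≤ gap b p e x A B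

/-- admissible pairs at `E` -/
def Adm (E : Fin n) (A B : Finset (Fin n)) : Prop :=
  E ∉ A ∧ E ∈ B ∧ ∀ j : Fin n, (E : ℕ) + 1 ≤ j → (j ∈ A ↔ j ∈ B)

theorem step {b p : Finset (Fin n) → ℤ} (hb : Sub b)
    (hp : ∀ A B, p A + p B ≤ p (A ∪ B) + p (A ∩ B)) (E : Fin n) {x x' : ℕ → ℤ}
    (hI : Inv b p E x) (h : ∀ j < (E : ℕ), x' j = x j)
    (h1 : ∀ A B, Adm E A B → -x' E ≤ gap b p E x A B)
    (h2 : ∃ A B, Adm E A B ∧ -x' E = gap b p E x A B) : Inv b p (E + 1) x' := by
  intro A B hAB
  have e : gap b p (E + 1) x' A B =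
      gap b p E x A B - (if E ∈ A then x' E else 0) + if E ∈ B then x' E else 0 := by
    unfold gap
    rw [sx_succ E x x' h, sx_succ E x x' h]
    ring
  have ext : ∀ {A B : Finset (Fin n)}, (∀ j : Fin n, (E : ℕ) + 1 ≤ j → (j ∈ A ↔ j ∈ B)) →
      (E ∈ A ↔ E ∈ B) → 0 ≤ gap b p E x A B := by
    intro A B h3 h4
    refine hI A B fun j hj => ?_
    rcases hj.eq_or_lt with h5 | h5
    · rw [← Fin.ext h5]; exact h4
    · exact h3 j h5
  rw [e]
  by_cases a : E ∈ A <;> by_cases c : E ∈ B
  · have := ext hAB (by simp [a, c])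
    simp only [a, c, if_true]; linarith
  · obtain ⟨A', B', ⟨k1, k2, k3⟩, k4⟩ := h2
    have s := gap_sub hb hp E x A B A' B'
    have u := ext (A := A ∪ A') (B := B ∪ B')
      (fun j hj => by simp only [mem_union, hAB j hj, k3 j hj]) (by simp [a, k2])
    have i := ext (A := A ∩ A') (B := B ∩ B')
      (fun j hj => by simp only [mem_inter, hAB j hj, k3 j hj]) (by simp [c, k1])
    simp only [a, c, if_true, if_false]; linarith
  · have := h1 A B ⟨a, c, hAB⟩
    simp only [a, c, if_true, if_false]; linarith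
  · have := ext hAB (by simp [a, c])
    simp only [a, c, if_false]; linarith

end Pure

/-! ### The algorithm -/

def aL (n e : ℕ) (l : List Bool) : List Bool :=
  mkL n (fun j => decide (j ≠ e ∧ l.getD j false = true))

def cL (n e : ℕ) (l : List Bool) : List Bool :=
  mkL n (fun j => decide (¬ ((j < e ∧ l.getD (n + j) false = true) ∨ j = e ∨
    (e < j ∧ l.getD j false = true))))

def sL (o e : ℕ) (x : List ℤ) (l : List Bool) : ℤ :=
  ∑ j ∈ range e, if l.getD (o + j) false = true then x.getD j 0 else 0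

def graw (ro : Bool → List Bool → ℤ) (n : ℕ) (R : ℤ) (e : ℕ) (x : List ℤ) (l : List Bool) : ℤ :=
  ro false (aL n e l) + ro true (cL n e l) + (sL n e x l - sL 0 e x l - R)

def clamp (m : ℕ) (v : ℤ) : ℤ := max 0 (min (2 ^ m) v)

noncomputable def val (ro : Bool → List Bool → ℤ) (n m : ℕ) (R : ℤ) (e : ℕ) (x : List ℤ) : ℤ :=
  -(sfm (fun l => graw ro n R e x l - graw ro n R e x []) (n + n) (2 * m + 1) + graw ro n R e x [])

def upd (n m e : ℕ) (x : List ℤ) (v : ℤ) : List ℤ :=
  mkL n (fun j => clamp m (if j = e then v else x.getD j 0))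

noncomputable def run (ro : Bool → List Bool → ℤ) (n m : ℕ) (R : ℤ) (i : ℕ) : List ℤ :=
  Nat.rec [] (fun e x => upd n m e x (val ro n m R e x)) i

def hraw (ro : Bool → List Bool → ℤ) (n : ℕ) (R : ℤ) (l : List Bool) : ℤ :=
  ro false (mkL n (fun j => l.getD j false)) + ro true (mkL n (fun j => !l.getD j false)) - R

noncomputable def ok (ro : Bool → List Bool → ℤ) (n m : ℕ) (R : ℤ) : Bool :=
  decide (0 ≤ sfm (hraw ro n R) n m)

theorem clamp_bd (m : ℕ) (v : ℤ) : 0 ≤ clamp m v ∧ clamp m v ≤ 2 ^ m :=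
  ⟨le_max_left _ _, max_le (by positivity) (min_le_left _ _)⟩

theorem clamp_eq {m : ℕ} {v : ℤ} (h0 : 0 ≤ v) (h1 : v ≤ 2 ^ m) : clamp m v = v := by
  unfold clamp
  rw [min_eq_right h1, max_eq_right h0]

section Time

variable {α : Type} [Enc α]

@[fun_prop] theorem pt_aL {n e : α → ℕ} {l : α → List Bool} (hn : PT n) (he : PT e) (hl : PT l) :
    PT (fun a => aL (n a) (e a) (l a)) := by
  unfold aL; fun_prop

@[fun_prop] theorem pt_cL {n e : α → ℕ} {l : α → List Bool} (hn : PT n) (he : PT e) (hl : PT l) :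
    PT (fun a => cL (n a) (e a) (l a)) := by
  unfold cL; fun_prop

@[fun_prop] theorem pt_sL {o e : α → ℕ} {x : α → List ℤ} {l : α → List Bool} (ho : PT o)
    (he : PT e) (hx : PT x) (hl : PT l) : PT (fun a => sL (o a) (e a) (x a) (l a)) := by
  unfold sL; fun_prop

@[fun_prop] theorem pt_clamp {m : α → ℕ} {v : α → ℤ} (hm : PT m) (hv : PT v) :
    PT (fun a => clamp (m a) (v a)) := by
  unfold clamp; fun_prop

@[fun_prop] theorem pt_upd {n m e : α → ℕ} {x : α → List ℤ} {v : α → ℤ} (hn : PT n) (hm : PT m)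
    (he : PT e) (hx : PT x) (hv : PT v) : PT (fun a => upd (n a) (m a) (e a) (x a) (v a)) := by
  unfold upd; fun_prop

variable {ro : Orc → α → Bool → List Bool → ℤ} {n m : α → ℕ} {R : α → ℤ}

theorem opt_graw (hn : PT n) (hR : PT R)
    (hro : OPT (fun O (q : α × Bool × List Bool) => ro O q.1 q.2.1 q.2.2)) :
    OPT (fun O (p : (α × ℕ × List ℤ) × List Bool) =>
      graw (ro O p.1.1) (n p.1.1) (R p.1.1) p.1.2.1 p.1.2.2 p.2) := by
  unfold graw
  exact ((hro.pre (f := fun p : (α × ℕ × List ℤ) × List Bool =>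
      (p.1.1, false, aL (n p.1.1) p.1.2.1 p.2)) (by fun_prop)).pair
    (hro.pre (f := fun p : (α × ℕ × List ℤ) × List Bool =>
      (p.1.1, true, cL (n p.1.1) p.1.2.1 p.2)) (by fun_prop))).post₂
    (g := fun (p : (α × ℕ × List ℤ) × List Bool) (r : ℤ × ℤ) => r.1 + r.2 +
      (sL (n p.1.1) p.1.2.1 p.1.2.2 p.2 - sL 0 p.1.2.1 p.1.2.2 p.2 - R p.1.1)) (by fun_prop)

theorem opt_val (hn : PT n) (hm : PT m) (hR : PT R)
    (hro : OPT (fun O (q : α × Bool × List Bool) => ro O q.1 q.2.1 q.2.2)) :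
    OPT (fun O (p : α × ℕ × List ℤ) => val (ro O p.1) (n p.1) (m p.1) (R p.1) p.2.1 p.2.2) := by
  have hg := opt_graw hn hR hro
  have h0 : OPT (fun O (p : α × ℕ × List ℤ) => graw (ro O p.1) (n p.1) (R p.1) p.2.1 p.2.2 []) :=
    hg.pre (f := fun p : α × ℕ × List ℤ => (p, ([] : List Bool))) (by fun_prop)
  have h1 : OPT (fun O (p : (α × ℕ × List ℤ) × List Bool) =>
      graw (ro O p.1.1) (n p.1.1) (R p.1.1) p.1.2.1 p.1.2.2 p.2 -
        graw (ro O p.1.1) (n p.1.1) (R p.1.1) p.1.2.1 p.1.2.2 []) :=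
    (hg.pair (h0.pre (f := fun p : (α × ℕ × List ℤ) × List Bool => p.1) (by fun_prop))).post
      (g := fun r : ℤ × ℤ => r.1 - r.2) (by fun_prop)
  have h2 := opt_sfm (g := fun O (p : α × ℕ × List ℤ) l =>
      graw (ro O p.1) (n p.1) (R p.1) p.2.1 p.2.2 l - graw (ro O p.1) (n p.1) (R p.1) p.2.1 p.2.2 [])
    (n := fun p => n p.1 + n p.1) (m := fun p => 2 * m p.1 + 1) h1 (by fun_prop) (by fun_prop)
  exact (h2.pair h0).post (g := fun r : ℤ × ℤ => -(r.1 + r.2)) (by fun_prop)

theorem opt_run (hn : PT n) (hm : PT m) (hR : PT R)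
    (hro : OPT (fun O (q : α × Bool × List Bool) => ro O q.1 q.2.1 q.2.2)) :
    OPT (fun O a => run (ro O a) (n a) (m a) (R a) (n a)) := by
  unfold run
  refine OPT.natRec (Z := fun _ _ => ([] : List ℤ))
    (S := fun O a e x => upd (n a) (m a) e x (val (ro O a) (n a) (m a) (R a) e x)) hn
    (OPT.pt (PT.const _)) ?_ (B := fun a => n a * (2 * (3 * (m a + 1) + 1) + 1)) ?_ ?_
  · exact (opt_val hn hm hR hro).post₂
      (g := fun (p : α × ℕ × List ℤ) v => upd (n p.1) (m p.1) p.2.1 p.2.2 v) (by fun_prop)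
  · exact hn.pbNat.mul (((PB.const 2).mul (((PB.const 3).mul (hm.pbNat.add (PB.const 1))).add
      (PB.const 1))).add (PB.const 1))
  · intro O a i _
    cases i with
    | zero => exact Nat.zero_le _
    | succ i =>
      show sz (upd _ _ _ _ _) ≤ _
      unfold upd
      refine (sz_list_le _ (3 * (m a + 1) + 1) fun y hy => ?_).trans (by simp)
      obtain ⟨j, -, rfl⟩ := Sfm.mem_mkL.1 hy
      refine Sfm.sz_int_of_le (clamp_bd _ _).1 ((clamp_bd _ _).2.trans_lt ?_)
      exact pow_lt_pow_right₀ (by norm_num) (by omega)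

theorem opt_ok (hn : PT n) (hm : PT m) (hR : PT R)
    (hro : OPT (fun O (q : α × Bool × List Bool) => ro O q.1 q.2.1 q.2.2)) :
    OPT (fun O a => ok (ro O a) (n a) (m a) (R a)) := by
  have h1 : OPT (fun O (p : α × List Bool) => hraw (ro O p.1) (n p.1) (R p.1) p.2) := by
    unfold hraw
    exact ((hro.pre (f := fun p : α × List Bool =>
        (p.1, false, mkL (n p.1) (fun j => p.2.getD j false))) (by fun_prop)).pair
      (hro.pre (f := fun p : α × List Bool =>
        (p.1, true, mkL (n p.1) (fun j => !p.2.getD j false))) (by fun_prop))).post₂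
      (g := fun (p : α × List Bool) (r : ℤ × ℤ) => r.1 + r.2 - R p.1) (by fun_prop)
  have h2 := opt_sfm (g := fun O a l => hraw (ro O a) (n a) (R a) l) h1 hn hm
  exact h2.post (g := fun r : ℤ => decide (0 ≤ r)) (by fun_prop)

end Time

section Correct

theorem bit_iff {N : ℕ} (S : Finset (Fin N)) (i : ℕ) :
    (bitsOf S).getD i false = true ↔ ∃ h : i < N, (⟨i, h⟩ : Fin N) ∈ S := by
  by_cases h : i < N
  · have : (bitsOf S).getD i false = decide ((⟨i, h⟩ : Fin N) ∈ S) :=
      getD_ofFn (fun j : Fin N => decide (j ∈ S)) ⟨i, h⟩ false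
    rw [this]
    simp [h]
  · simp [bitsOf, List.getD_eq_getElem?_getD, h]

theorem bit_union {N : ℕ} (S T : Finset (Fin N)) (i : ℕ) : (bitsOf (S ∪ T)).getD i false = true ↔
    (bitsOf S).getD i false = true ∨ (bitsOf T).getD i false = true := by
  simp only [bit_iff, mem_union, exists_or]

theorem bit_inter {N : ℕ} (S T : Finset (Fin N)) (i : ℕ) : (bitsOf (S ∩ T)).getD i false = true ↔
    (bitsOf S).getD i false = true ∧ (bitsOf T).getD i false = true := by
  simp only [bit_iff, mem_inter]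
  exact ⟨fun ⟨h, a, b⟩ => ⟨⟨h, a⟩, h, b⟩, fun ⟨⟨h, a⟩, _, b⟩ => ⟨h, a, b⟩⟩

variable {n : ℕ}

def aS (n e : ℕ) (l : List Bool) : Finset (Fin n) :=
  univ.filter (fun j : Fin n => (j : ℕ) ≠ e ∧ l.getD j false = true)

def bS (n e : ℕ) (l : List Bool) : Finset (Fin n) :=
  univ.filter (fun j : Fin n => ((j : ℕ) < e ∧ l.getD (n + j) false = true) ∨ (j : ℕ) = e ∨
    (e < j ∧ l.getD j false = true))

theorem sL_eq {o e : ℕ} (he : e ≤ n) (x : List ℤ) (l : List Bool) (A : Finset (Fin n))
    (h : ∀ j : Fin n, (j : ℕ) < e → (j ∈ A ↔ l.getD (o + j) false = true)) :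
    sL o e x l = sx e (fun j => x.getD j 0) A := by
  unfold sL sx
  have : ∑ j : Fin n, (if (j : ℕ) < e ∧ j ∈ A then x.getD j 0 else 0) =
      ∑ j : Fin n, (fun i : ℕ => if i < e then
        (if l.getD (o + i) false = true then x.getD i 0 else 0) else 0) j := by
    refine sum_congr rfl fun j _ => ?_
    by_cases h1 : (j : ℕ) < e
    · simp only [h1, true_and, if_true, h j h1]
    · simp only [h1, false_and, if_false]
  rw [this, Fin.sum_univ_eq_sum_range (fun i : ℕ => if i < e then
    (if l.getD (o + i) false = true then x.getD i 0 else 0) else 0) n]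
  symm
  rw [← sum_filter]
  refine sum_congr ?_ fun _ _ => rfl
  ext i
  simp only [mem_range, mem_filter]
  omega

variable {ro : Bool → List Bool → ℤ} {r : Bool → Finset (Fin n) → ℤ} {R : ℤ}

theorem graw_eq (hr : Reads ro r) {e : ℕ} (he : e ≤ n) (x : List ℤ) (l : List Bool) :
    graw ro n R e x l = gap (r false) (fun B => R - r true Bᶜ) e (fun j => x.getD j 0)
      (aS n e l) (bS n e l) := by
  have e1 : aL n e l = bitsOf (aS n e l) :=
    mkL_eq_ofFn _ _ fun j => by simp [aS]
  have e2 : cL n e l = bitsOf (bS n e l)ᶜ :=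
    mkL_eq_ofFn _ _ fun j => by simp only [bS, mem_compl, mem_filter, mem_univ, true_and]
  have e3 := sL_eq (o := 0) he x l (aS n e l) fun j hj => by
    have : (j : ℕ) ≠ e := by omega
    simp [aS, this]
  have e4 := sL_eq (o := n) he x l (bS n e l) fun j hj => by
    have a1 : (j : ℕ) ≠ e := by omega
    have a2 : ¬ e < (j : ℕ) := by omega
    simp only [bS, mem_filter, mem_univ, true_and, hj, a1, a2, false_and, or_false]
  unfold graw gap
  rw [e1, e2, e3, e4, hr, hr]
  ring

theorem adm_S (E : Fin n) (l : List Bool) : Adm E (aS n E l) (bS n E l) := by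
  refine ⟨by simp [aS], by simp [bS], fun j hj => ?_⟩
  have a1 : (j : ℕ) ≠ E := by omega
  have a2 : (E : ℕ) < j := by omega
  have a3 : ¬ (j : ℕ) < E := by omega
  simp only [aS, bS, mem_filter, mem_univ, true_and, a1, a2, a3, false_and, false_or, ne_eq,
    not_false_eq_true]

theorem adm_surj (E : Fin n) {A B : Finset (Fin n)} (h : Adm E A B) :
    ∃ S : Finset (Fin (n + n)), aS n E (bitsOf S) = A ∧ bS n E (bitsOf S) = B := by
  let S : Finset (Fin (n + n)) := univ.filter (fun i : Fin (n + n) =>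
    ∃ j : Fin n, ((i : ℕ) = j ∧ j ∈ A) ∨ ((i : ℕ) = n + j ∧ j ∈ B))
  have k1 : ∀ j : Fin n, (bitsOf S).getD j false = true ↔ j ∈ A := by
    intro j
    rw [bit_iff]
    constructor
    · rintro ⟨h1, h2⟩
      obtain ⟨j', h3 | h3⟩ := (mem_filter.1 h2).2
      · rw [Fin.ext (show (j : ℕ) = j' from h3.1)]; exact h3.2
      · have := h3.1
        have := j.2
        simp only at *
        omega
    · intro h1
      exact ⟨by omega, mem_filter.2 ⟨mem_univ _, j, Or.inl ⟨rfl, h1⟩⟩⟩
  have k2 : ∀ j : Fin n, (bitsOf S).getD (n + j) false = true ↔ j ∈ B := by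
    intro j
    rw [bit_iff]
    constructor
    · rintro ⟨h1, h2⟩
      obtain ⟨j', h3 | h3⟩ := (mem_filter.1 h2).2
      · have := h3.1
        have := j'.2
        simp only at *
        omega
      · have : (j : ℕ) = j' := by
          have := h3.1
          simp only at this
          omega
        rw [Fin.ext this]; exact h3.2
    · intro h1
      exact ⟨by omega, mem_filter.2 ⟨mem_univ _, j, Or.inr ⟨rfl, h1⟩⟩⟩
  refine ⟨S, ?_, ?_⟩
  · ext j
    simp only [aS, mem_filter, mem_univ, true_and, k1]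
    refine ⟨fun h1 => h1.2, fun h1 => ⟨fun h2 => h.1 ?_, h1⟩⟩
    rwa [← Fin.ext h2]
  · ext j
    simp only [bS, mem_filter, mem_univ, true_and, k1, k2]
    rcases lt_trichotomy (j : ℕ) E with h1 | h1 | h1
    · have a1 : (j : ℕ) ≠ E := by omega
      have a2 : ¬ (E : ℕ) < j := by omega
      simp [h1, a1, a2]
    · rw [Fin.ext h1]
      simp [h.2.1]
    · have a1 : (j : ℕ) ≠ E := by omega
      have a2 : ¬ (j : ℕ) < E := by omega
      simp [h1, a1, a2, h.2.2 j h1]

theorem sup_p (h1 : Sub (r true)) (A B : Finset (Fin n)) :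
    (R - r true Aᶜ) + (R - r true Bᶜ) ≤ (R - r true (A ∪ B)ᶜ) + (R - r true (A ∩ B)ᶜ) := by
  have := h1 Aᶜ Bᶜ
  rw [compl_union, compl_inter]
  linarith

theorem val_spec {m : ℕ} (hr : Reads ro r) (hs : ∀ b, Sub (r b)) (hb : ∀ b A, 0 ≤ r b A ∧ r b A ≤ R)
    (hnm : n ≤ m) (hR : R ≤ 2 ^ m) (E : Fin n) (x : List ℤ)
    (hx : ∀ j, 0 ≤ x.getD j 0 ∧ x.getD j 0 ≤ 2 ^ m) :
    (∀ A B, Adm E A B → -val ro n m R E x ≤
      gap (r false) (fun B => R - r true Bᶜ) E (fun j => x.getD j 0) A B) ∧
    ∃ A B, Adm E A B ∧ -val ro n m R E x =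
      gap (r false) (fun B => R - r true Bᶜ) E (fun j => x.getD j 0) A B := by
  have hE : (E : ℕ) ≤ n := E.2.le
  have bd : ∀ l, |graw ro n R E x l| ≤ (n + 1) * 2 ^ m := by
    intro l
    rw [graw_eq hr hE, abs_le]
    unfold gap
    have a1 := sx_bd E hx (aS n E l)
    have a2 := sx_bd E hx (bS n E l)
    have a3 := hb false (aS n E l)
    have a4 := hb true (bS n E l)ᶜ
    constructor <;> linarith [a1.1, a1.2, a2.1, a2.2, a3.1, a3.2, a4.1, a4.2]
  have e0 : graw ro n R E x (bitsOf (∅ : Finset (Fin (n + n)))) = graw ro n R E x [] := by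
    have : ∀ i, (bitsOf (∅ : Finset (Fin (n + n)))).getD i false = ([] : List Bool).getD i false := by
      intro i
      have := bit_iff (∅ : Finset (Fin (n + n))) i
      simp only [notMem_empty, exists_false, iff_false, Bool.not_eq_true] at this
      rw [this]; rfl
    unfold graw aL cL sL
    simp only [this]
  obtain ⟨⟨S, hS⟩, hmin⟩ := sfm_spec (n := n + n) (m := 2 * m + 1)
    (g := fun l => graw ro n R E x l - graw ro n R E x [])
    (fun S => graw ro n R E x (bitsOf S) - graw ro n R E x []) (fun _ => rfl)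
    (by simp only [e0, sub_self]) (fun S T => by
      have u1 : aS n E (bitsOf (S ∪ T)) = aS n E (bitsOf S) ∪ aS n E (bitsOf T) := by
        ext j; simp only [aS, mem_filter, mem_univ, true_and, mem_union, bit_union]; tauto
      have u2 : bS n E (bitsOf (S ∪ T)) = bS n E (bitsOf S) ∪ bS n E (bitsOf T) := by
        ext j; simp only [bS, mem_filter, mem_univ, true_and, mem_union, bit_union]; tauto
      have u3 : aS n E (bitsOf (S ∩ T)) = aS n E (bitsOf S) ∩ aS n E (bitsOf T) := by
        ext j; simp only [aS, mem_filter, mem_univ, true_and, mem_inter, bit_inter]; tauto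
      have u4 : bS n E (bitsOf (S ∩ T)) = bS n E (bitsOf S) ∩ bS n E (bitsOf T) := by
        ext j
        simp only [bS, mem_filter, mem_univ, true_and, mem_inter, bit_inter]
        rcases lt_trichotomy (j : ℕ) E with h1 | h1 | h1
        · have a1 : (j : ℕ) ≠ E := by omega
          have a2 : ¬ (E : ℕ) < j := by omega
          simp only [h1, a1, a2, true_and, false_and, or_false]
        · simp only [h1, true_or, or_true, and_self]
        · have a1 : (j : ℕ) ≠ E := by omega
          have a2 : ¬ (j : ℕ) < E := by omega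
          simp only [h1, a1, a2, true_and, false_and, false_or]
      have := gap_sub (hs false) (p := fun B => R - r true Bᶜ) (sup_p (hs true)) E
        (fun j => x.getD j 0) (aS n E (bitsOf S)) (bS n E (bitsOf S)) (aS n E (bitsOf T))
        (bS n E (bitsOf T))
      simp only [graw_eq hr hE x (bitsOf _), u1, u2, u3, u4]
      linarith)
    (fun S => by
      have a1 := bd (bitsOf S)
      have a2 := bd []
      have a3 : ((n : ℤ) + 1) ≤ 2 ^ m := by
        have : n + 1 ≤ 2 ^ m := (Nat.succ_le_of_lt Nat.lt_two_pow_self).trans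
          (Nat.pow_le_pow_right (by norm_num) hnm)
        exact_mod_cast this
      have a4 : ((n : ℤ) + 1) * 2 ^ m ≤ 2 ^ m * 2 ^ m :=
        mul_le_mul_of_nonneg_right a3 (by positivity)
      have a5 : (2 : ℤ) ^ (2 * m + 1) = 2 * (2 ^ m * 2 ^ m) := by ring
      have a6 := abs_sub (graw ro n R E x (bitsOf S)) (graw ro n R E x [])
      linarith)
  unfold val
  rw [neg_neg]
  refine ⟨fun A B hAB => ?_, aS n E (bitsOf S), bS n E (bitsOf S), adm_S E _, ?_⟩
  · obtain ⟨T, rfl, hT⟩ := adm_surj E hAB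
    have := hmin T
    rw [graw_eq hr hE x (bitsOf T), hT] at this
    linarith
  · rw [hS, ← graw_eq hr hE]
    ring

theorem run_inv {m : ℕ} (hr : Reads ro r) (hs : ∀ b, Sub (r b)) (hb : ∀ b A, 0 ≤ r b A ∧ r b A ≤ R)
    (h0 : ∀ b, r b ∅ = 0) (h1 : ∀ b, r b univ = R) (hnm : n ≤ m) (hR : R ≤ 2 ^ m)
    (hok : ∀ A, R - r true Aᶜ ≤ r false A) (i : ℕ) (hi : i ≤ n) :
    (∀ j, 0 ≤ (run ro n m R i).getD j 0 ∧ (run ro n m R i).getD j 0 ≤ 2 ^ m) ∧
      Inv (r false) (fun B => R - r true Bᶜ) i (fun j => (run ro n m R i).getD j 0) := by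
  induction i with
  | zero =>
    refine ⟨fun j => by simp [run], fun A B h => ?_⟩
    have : A = B := by ext j; exact h j (Nat.zero_le _)
    subst this
    unfold gap
    have := hok A
    simp only [sx_zero]
    linarith
  | succ i ih =>
    obtain ⟨hx, hI⟩ := ih (by omega)
    have e : run ro n m R (i + 1) = upd n m i (run ro n m R i) (val ro n m R i (run ro n m R i)) := rfl
    rw [e]
    generalize run ro n m R i = x at hx hI
    let E : Fin n := ⟨i, by omega⟩
    obtain ⟨v1, v2⟩ := val_spec hr hs hb hnm hR E x hx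
    have hE : (E : ℕ) = i := rfl
    rw [hE] at v1 v2
    generalize val ro n m R i x = v at v1 v2
    have hI' := step (hs false) (p := fun B => R - r true Bᶜ) (sup_p (hs true)) E
      (x := fun j => x.getD j 0) (x' := fun j => if j = i then v else x.getD j 0) hI
      (fun j hj => by have : j ≠ i := by rw [hE] at hj; omega
                      simp only [this, if_false])
      (by simpa only [hE, if_true] using v1) (by simpa only [hE, if_true] using v2)
    have hsx := sx_succ E (fun j => x.getD j 0) (fun j => if j = i then v else x.getD j 0)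
      (fun j hj => by have : j ≠ i := by rw [hE] at hj; omega
                      simp only [this, if_false])
    have up : v ≤ 2 ^ m := by
      have := hI' {E} ∅ fun j hj => by
        have : j ≠ E := fun h2 => by rw [h2] at hj; omega
        simp [this]
      unfold gap at this
      rw [hsx, sx_empty, sx_congr E _ (A := {E}) (B := ∅) (fun j hj => by
        have : j ≠ E := fun h2 => by rw [h2] at hj; omega
        simp [this]), sx_empty] at this
      simp only [mem_singleton, if_true, hE, compl_empty, h1] at this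
      linarith [(hb false {E}).2]
    have lo : 0 ≤ v := by
      have := hI' {E}ᶜ univ fun j hj => by
        have : j ≠ E := fun h2 => by rw [h2] at hj; omega
        simp [this]
      unfold gap at this
      rw [hsx, hsx, sx_congr E _ (A := {E}ᶜ) (B := univ) (fun j hj => by
        have : j ≠ E := fun h2 => by rw [h2] at hj; omega
        simp [this])] at this
      simp only [mem_compl, mem_singleton, not_true, if_false, mem_univ, if_true, hE, compl_univ,
        h0] at this
      linarith [(hb false {E}ᶜ).2]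
    refine ⟨fun j => ?_, fun A B hAB => ?_⟩
    · unfold upd
      rw [Sfm.getD_mkL']
      split_ifs
      · exact clamp_bd _ _
      · exact clamp_bd _ _
      · exact ⟨le_rfl, by positivity⟩
    · have h2 := hI' A B hAB
      have h3 : ∀ C : Finset (Fin n), sx (i + 1) (fun j => (upd n m i x v).getD j 0) C =
          sx (i + 1) (fun j => if j = i then v else x.getD j 0) C := by
        intro C
        unfold sx upd
        refine sum_congr rfl fun j _ => ?_
        beta_reduce
        rw [getD_mkL _ _ j.2]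
        by_cases h4 : (j : ℕ) = i
        · simp only [h4, if_true, clamp_eq lo up]
        · simp only [h4, if_false, clamp_eq (hx j).1 (hx j).2]
      unfold gap at h2 ⊢
      rw [h3, h3]
      exact h2

theorem ok_spec {m : ℕ} (hr : Reads ro r) (hs : ∀ b, Sub (r b)) (hb : ∀ b A, 0 ≤ r b A ∧ r b A ≤ R)
    (h0 : ∀ b, r b ∅ = 0) (h1 : ∀ b, r b univ = R) (hR : R ≤ 2 ^ m) :
    ok ro n m R = true ↔ ∀ A, R - r true Aᶜ ≤ r false A := by
  obtain ⟨⟨S, hS⟩, hmin⟩ := sfm_spec (n := n) (m := m) (g := hraw ro n R)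
    (fun A => r false A + r true Aᶜ - R) (fun A => by
      have e1 : mkL n (fun j => (bitsOf A).getD j false) = bitsOf A :=
        mkL_eq_ofFn _ _ fun j => by unfold bitsOf; rw [getD_ofFn]
      have e2 : mkL n (fun j => !(bitsOf A).getD j false) = bitsOf Aᶜ :=
        mkL_eq_ofFn _ _ fun j => by unfold bitsOf; rw [getD_ofFn]; simp
      unfold hraw
      rw [e1, e2, hr, hr])
    (by simp [h0, h1]) (fun A B => by
      have := hs false A B
      have := sup_p (R := R) (hs true) A B
      linarith)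
    (fun A => by
      rw [abs_le]
      constructor <;> linarith [(hb false A).1, (hb false A).2, (hb true Aᶜ).1, (hb true Aᶜ).2])
  unfold ok
  rw [decide_eq_true_iff]
  refine ⟨fun h A => by linarith [hmin A], fun h => ?_⟩
  rw [hS]
  linarith [h S]

end Correct

end XS

open XS in
theorem XS_proof : XsStmt := by
  intro α _ ro n m R hn hm hR hro
  refine ⟨fun O a => (ok (ro O a) (n a) (m a) (R a), run (ro O a) (n a) (m a) (R a) (n a)),
    (opt_ok hn hm hR hro).pair (opt_run hn hm hR hro), fun O a r hnm hRm hr hread => ?_⟩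
  have hs : ∀ b, Sub (fun A => (r b A : ℤ)) := fun b A B => by
    beta_reduce
    exact_mod_cast (hr b).1.2.2 A B
  have hb : ∀ b A, (0 : ℤ) ≤ r b A ∧ (r b A : ℤ) ≤ R a := fun b A =>
    ⟨by positivity, by rw [← (hr b).2]; exact_mod_cast (hr b).1.2.1 A univ (subset_univ _)⟩
  have h0 : ∀ b, (r b ∅ : ℤ) = 0 := fun b => by exact_mod_cast (hr b).1.1
  have h1 : ∀ b, (r b univ : ℤ) = R a := fun b => (hr b).2
  have hok := ok_spec (r := fun b A => (r b A : ℤ)) hread hs hb h0 h1 hRm
  refine ⟨fun h => ?_, fun h => ?_⟩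
  · obtain ⟨-, hI⟩ := run_inv (r := fun b A => (r b A : ℤ)) hread hs hb h0 h1 hnm hRm (hok.1 h)
      (n a) le_rfl
    have key : ∀ A B : Finset (Fin (n a)), 0 ≤ (r false A : ℤ) -
        ∑ j ∈ A, (run (ro O a) (n a) (m a) (R a) (n a)).getD j 0 - (R a - r true Bᶜ) +
        ∑ j ∈ B, (run (ro O a) (n a) (m a) (R a) (n a)).getD j 0 := by
      intro A B
      have := hI A B fun j hj => absurd j.2 (by omega)
      unfold gap at this
      rwa [sx_full, sx_full] at this
    show ∑ j : Fin (n a), (run (ro O a) (n a) (m a) (R a) (n a)).getD j 0 = R a ∧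
      ∀ b (A : Finset (Fin (n a))), ∑ j ∈ A, (run (ro O a) (n a) (m a) (R a) (n a)).getD j 0 ≤ r b A
    generalize run (ro O a) (n a) (m a) (R a) (n a) = x at key
    have tot : ∑ j : Fin (n a), x.getD j 0 = R a := by
      have k1 := key univ ∅
      have k2 := key ∅ univ
      simp only [sum_empty, compl_empty, compl_univ, h0, h1] at k1 k2
      linarith
    refine ⟨tot, fun b A => ?_⟩
    cases b
    · have k1 := key A ∅
      simp only [sum_empty, compl_empty, h1] at k1
      linarith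
    · have k1 := key ∅ Aᶜ
      have k2 := sum_add_sum_compl A (fun j : Fin (n a) => x.getD j 0)
      simp only [sum_empty, compl_compl, h0] at k1
      linarith
  · have h' : ¬ ∀ A, R a - (r true Aᶜ : ℤ) ≤ r false A := fun h2 => by
      have := hok.2 h2
      simp only at h
      rw [h] at this
      exact absurd this (by decide)
    obtain ⟨A, hA⟩ := not_forall.1 h'
    unfold Crest.Polymatroid.numCommonIntBases
    rw [card_eq_zero, filter_eq_empty_iff]
    rintro y - ⟨k1, k2⟩
    have k3 := sum_add_sum_compl A (fun j : Fin (n a) => (y j : ℕ))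
    have k4 := (k2 A).1
    have k5 := (k2 Aᶜ).2
    have k6 : (0 : ℤ) ≤ R a := (hb false ∅).1.trans (hb false ∅).2
    omega

end Crest.Agent.R302
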