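import Crest.Agent.R302.DefsA
import Crest.Agent.R309.MAR
import Crest.Agent.R309.MRG
import Crest.Agent.R309.SCH
import Crest.Agent.R309.SMB
import Crest.Agent.R302.POT

/-! Row 302, ZLC: the number of pairs of bases is log-concave along exchange directions. -/

set_option autoImplicit false

namespace Crest.Agent.R302

open Finset Crest.Agent.R309

namespace ZLC

variable {E : Type} [Fintype E] [DecidableEq E]

/-- one layer of a set of variables -/
def lay (U : Finset (E × Bool)) (b : Bool) : Finset E := univ.filter (fun e => (e, b) ∈ U)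

/-- the set function on the doubled ground set -/
def cc (f₀ f₁ : Finset E → ℤ) (M : ℕ) (U : Finset (E × Bool)) : ℤ :=
  f₀ (lay U false) + f₁ (lay U true) + ∑ _v ∈ U, (M : ℤ)

theorem lay_union (A B : Finset (E × Bool)) (b : Bool) : lay (A ∪ B) b = lay A b ∪ lay B b := by
  ext e; simp [lay]

theorem lay_inter (A B : Finset (E × Bool)) (b : Bool) : lay (A ∩ B) b = lay A b ∩ lay B b := by
  ext e; simp [lay]

theorem cc_sub (f₀ f₁ : Finset E → ℤ) (M : ℕ) (h0 : Sub f₀) (h1 : Sub f₁) : Sub (cc f₀ f₁ M) := by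
  intro A B
  unfold cc
  rw [lay_union, lay_union, lay_inter, lay_inter]
  have e0 := h0 (lay A false) (lay B false)
  have e1 := h1 (lay A true) (lay B true)
  have e2 := sum_union_inter (s₁ := A) (s₂ := B) (f := fun _ => (M : ℤ))
  omega

theorem sum_lay (g : E × Bool → ℤ) (U : Finset (E × Bool)) :
    ∑ v ∈ U, g v = ∑ e ∈ lay U false, g (e, false) + ∑ e ∈ lay U true, g (e, true) := by
  have : ∑ v ∈ U, g v = ∑ v, if v ∈ U then g v else 0 := by
    rw [← sum_filter]; simp
  rw [this, Fintype.sum_prod_type_right, Fintype.sum_bool, lay, lay, sum_filter, sum_filter,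
    add_comm]

theorem prk_le (f₀ f₁ : Finset E → ℤ) (M : ℕ) (e0 : f₀ ∅ = 0) (e1 : f₁ ∅ = 0)
    (α : E × Bool → ℕ) : prk (cc f₀ f₁ M) some α ≤ ∑ v, (α v : ℤ) := by
  unfold prk
  refine (inf'_le _ (mem_univ (∅ : Finset (E × Bool)))).trans ?_
  simp [cc, lay, e0, e1]

theorem le_prk (c : Finset (E × Bool) → ℤ) (α : E × Bool → ℕ) :
    ∑ v, (α v : ℤ) ≤ prk c some α ↔ ∀ U, ∑ v ∈ U, (α v : ℤ) ≤ c U := by
  unfold prk
  rw [le_inf'_iff]
  have : ∀ U : Finset (E × Bool), ∑ v, (α v : ℤ) =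
      ∑ v ∈ U, (α v : ℤ) + ∑ v, (if v ∈ U then 0 else (α v : ℤ)) := by
    intro U
    have : ∑ v ∈ U, (α v : ℤ) = ∑ v, if v ∈ U then (α v : ℤ) else 0 := by
      rw [← sum_filter]; simp
    rw [this, ← sum_add_distrib]
    exact sum_congr rfl fun v _ => by split_ifs <;> simp
  constructor
  · intro h U
    have h1 := h U (mem_univ _)
    have h2 := this U
    simp only at h1
    omega
  · intro h U _
    have h1 := h U
    have h2 := this U
    simp only
    omega

theorem bs_iff (f₀ f₁ : Finset E → ℤ) (M : ℕ) (e0 : f₀ ∅ = 0) (e1 : f₁ ∅ = 0)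
    (u0 : f₀ univ = 0) (u1 : f₁ univ = 0) (α : E × Bool → ℕ) (z z' : E → ℤ)
    (hz : ∀ e, (α (e, false) : ℤ) = z e + M) (hz' : ∀ e, (α (e, true) : ℤ) = z' e + M)
    (hs : ∑ e, z e + ∑ e, z' e = 0) :
    (∀ U, ∑ v ∈ U, (α v : ℤ) ≤ cc f₀ f₁ M U) ↔ Bs f₀ z ∧ Bs f₁ z' := by
  have key : ∀ U : Finset (E × Bool), (∑ v ∈ U, (α v : ℤ) ≤ cc f₀ f₁ M U ↔
      ∑ e ∈ lay U false, z e + ∑ e ∈ lay U true, z' e ≤ f₀ (lay U false) + f₁ (lay U true)) := by
    intro U
    unfold cc
    rw [sum_lay (fun v => (α v : ℤ)), sum_lay (fun _ => (M : ℤ))]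
    simp only [hz, hz', sum_add_distrib]
    omega
  simp only [key]
  constructor
  · intro h
    have a0 : ∀ A, ∑ e ∈ A, z e ≤ f₀ A := by
      intro A
      have := h (A ×ˢ {false})
      have l0 : lay (A ×ˢ {false}) false = A := by ext e; simp [lay]
      have l1 : lay (A ×ˢ {false}) true = ∅ := by ext e; simp [lay]
      rw [l0, l1, e1] at this
      simpa using this
    have a1 : ∀ A, ∑ e ∈ A, z' e ≤ f₁ A := by
      intro A
      have := h (A ×ˢ {true})
      have l0 : lay (A ×ˢ {true}) false = ∅ := by ext e; simp [lay]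
      have l1 : lay (A ×ˢ {true}) true = A := by ext e; simp [lay]
      rw [l0, l1, e0] at this
      simpa using this
    have b0 := a0 univ
    have b1 := a1 univ
    exact ⟨⟨by omega, a0⟩, ⟨by omega, a1⟩⟩
  · rintro ⟨h0, h1⟩ U
    exact add_le_add (h0.2 _) (h1.2 _)

theorem bs_lower (f : Finset E → ℤ) (z : E → ℤ) (h : Bs f z) (e : E) :
    -f (univ.erase e) ≤ z e := by
  have h1 := h.2 (univ.erase e)
  have h2 := add_sum_erase univ z (mem_univ e)
  have := h.1
  omega

/-- the state attached to a point of the box -/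
def st (u δ x : E → ℕ) : E × Bool → ℕ := fun p => if p.2 = true then u p.1 - x p.1 else δ p.1 + x p.1

theorem st_sum (u δ x : E → ℕ) (hx : x ∈ box u) :
    ∑ v, (st u δ x v : ℤ) = ∑ e, ((u e : ℤ) + δ e) := by
  rw [Fintype.sum_prod_type]
  refine sum_congr rfl fun e _ => ?_
  have : x e < u e + 1 := by simpa [R309.box] using (Fintype.mem_piFinset.1 hx) e
  simp only [Fintype.sum_bool, st, if_true, Bool.false_eq_true, if_false]
  omega

theorem count (f₀ f₁ : Finset E → ℤ) (M : ℕ) (e0 : f₀ ∅ = 0) (e1 : f₁ ∅ = 0)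
    (u0 : f₀ univ = 0) (u1 : f₁ univ = 0) (d : E → ℤ) (hd : ∑ e, d e = 0) (u δ : E → ℕ)
    (hu : ∀ e, d e + 2 * M = u e + δ e) (b0 : ∀ e, f₀ (univ.erase e) + δ e ≤ M)
    (b1 : ∀ e, f₁ (univ.erase e) ≤ M) :
    Zd f₀ f₁ d = ((box u).filter (fun x =>
      ∑ e, ((u e : ℤ) + δ e) ≤ prk (cc f₀ f₁ M) some (st u δ x))).card := by
  have hP : ∀ x ∈ box u, (∑ e, ((u e : ℤ) + δ e) ≤ prk (cc f₀ f₁ M) some (st u δ x) ↔
      Bs f₀ (fun e => (δ e : ℤ) + x e - M) ∧ Bs f₁ (d - fun e => (δ e : ℤ) + x e - M)) := by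
    intro x hx
    rw [← st_sum u δ x hx, le_prk]
    refine bs_iff f₀ f₁ M e0 e1 u0 u1 _ _ _ (fun e => ?_) (fun e => ?_) ?_
    · simp [st]
    · have : x e < u e + 1 := by simpa [R309.box] using (Fintype.mem_piFinset.1 hx) e
      have := hu e
      simp only [st, if_true, Pi.sub_apply]
      omega
    · rw [← sum_add_distrib, ← hd]
      exact sum_congr rfl fun e _ => by simp
  have hinj : Function.Injective (fun (x : E → ℕ) (e : E) => (δ e : ℤ) + x e - M) := by
    intro x y h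
    funext e
    have := congrFun h e
    simp only at this
    omega
  rw [← card_image_of_injective _ hinj, ← Set.ncard_coe_finset, Zd]
  congr 1
  ext z
  simp only [Set.mem_ofPred_eq, coe_image, Set.mem_image, mem_coe, mem_filter]
  constructor
  · rintro ⟨h0, h1⟩
    have l0 := bs_lower _ _ h0
    have l1 := bs_lower _ _ h1
    have hx : (fun e => (z e + M - δ e).toNat) ∈ box u := by
      refine Fintype.mem_piFinset.2 fun e => mem_range.2 ?_
      have := l1 e
      have := b1 e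
      have := hu e
      simp only [Pi.sub_apply] at *
      omega
    have hz : (fun e => (δ e : ℤ) + ((z e + M - δ e).toNat : ℕ) - M) = z := by
      funext e
      have := l0 e
      have := b0 e
      omega
    refine ⟨_, ⟨hx, (hP _ hx).2 ?_⟩, hz⟩
    rw [hz]; exact ⟨h0, h1⟩
  · rintro ⟨x, ⟨hx, h⟩, rfl⟩
    exact (hP x hx).1 h

end ZLC

open ZLC in
theorem ZLC_of (hPot : PotStmt) : ZlcStmt := by
  intro E _ _ f₀ f₁ d a b h0 h1 e0 e1 u0 u1
  refine ⟨fun j => Nat.cast_nonneg _, fun lo hi hlt => ?_⟩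
  have hsum : ∀ j : ℤ, ∑ e, (d + Pi.single a j - Pi.single b j : E → ℤ) e = ∑ e, d e := by
    intro j
    simp [sum_add_distrib, sum_sub_distrib]
  by_cases hd : ∑ e, d e = 0
  swap
  · have : Zd f₀ f₁ (d + Pi.single a lo - Pi.single b lo) = 0 := by
      unfold Zd
      convert Set.ncard_empty (E → ℤ)
      ext z
      simp only [Set.mem_ofPred_eq, Set.mem_empty_iff_false, iff_false]
      rintro ⟨p0, p1⟩
      apply hd
      rw [← hsum lo]
      have q0 := p0.1
      have q1 := p1.1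
      simp only [Pi.sub_apply (d + Pi.single a lo - Pi.single b lo) z, sum_sub_distrib] at q1
      omega
    simp only [this, Nat.cast_zero, zero_mul]
    positivity
  obtain ⟨D, hD⟩ : ∃ D : ℕ, hi = lo + (D + 1 : ℕ) := ⟨(hi - lo - 1).toNat, by omega⟩
  obtain ⟨M, hM⟩ : ∃ M : ℕ, ∀ e, f₀ (univ.erase e) + (D + 1 : ℕ) ≤ M ∧ f₁ (univ.erase e) ≤ M ∧
      (d e).natAbs + lo.natAbs + hi.natAbs ≤ M := by
    obtain ⟨M, hM⟩ := Finite.exists_le (fun e => (f₀ (univ.erase e)).natAbs + (D + 1) +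
      (f₁ (univ.erase e)).natAbs + (d e).natAbs + lo.natAbs + hi.natAbs)
    refine ⟨M, fun e => ?_⟩
    have := hM e
    omega
  set u : E → ℕ := fun e => (d e + (Pi.single a lo : E → ℤ) e - (Pi.single b hi : E → ℤ) e
    + 2 * M).toNat with hu
  have hu' : ∀ e, (u e : ℤ) = d e + (Pi.single a lo : E → ℤ) e - (Pi.single b hi : E → ℤ) e
      + 2 * M := by
    intro e
    have := (hM e).2.2
    simp only [hu, Pi.single_apply]
    split_ifs <;> omega
  set N : ℤ := ∑ e, (u e : ℤ) + (D + 1 : ℕ) with hN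
  have hN' : ∀ i j : ℕ, i + j = D + 1 → ∑ e, ((u e : ℤ) + pt a b i j e) = N := by
    intro i j hij
    simp only [hN, pt, Pi.add_apply, sum_add_distrib, Nat.cast_add, ← Nat.cast_sum, ← hij]
    simp
  set W : ℝ → ℕ → ℝ := fun ε i => ∑ x ∈ box u,
    ε ^ (N - prk (cc f₀ f₁ M) some (st u (pt a b i (D + 1 - i)) x)).toNat with hW
  have hmain : ∀ ε : ℝ, 0 < ε → ε ≤ 1 → W ε (D + 1) * W ε 0 ≤ W ε D * W ε 1 := by
    intro ε p0 p1
    have hF := hPot (E × Bool) (E × Bool) (cc f₀ f₁ M) some ε (cc_sub _ _ _ h0 h1) p0 p1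
    have hG := MRG_proof SCH_proof _ _ hF ((blocks u).map (fun B => (id B.1, id B.2.1, B.2.2)))
    have hval : ∀ (δ : E × Bool → ℕ) (i : ℕ), i ≤ D + 1 →
        (∀ e, δ (e, true) = 0) → (∀ e, δ (e, false) = pt a b i (D + 1 - i) e) →
        W ε i = ε ^ N * Sm ((blocks u).map (fun B => (id B.1, id B.2.1, B.2.2))) δ
          (fun α => ε ^ (-prk (cc f₀ f₁ M) some α)) := by
      intro δ i hi ht hf
      rw [SMB_proof E _ u id δ, mul_sum]
      refine sum_congr rfl fun x hx => ?_
      have e1' : δ + ∑ p, Pi.single (id p) (node u x p) = st u (pt a b i (D + 1 - i)) x := by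
        simp only [id, univ_sum_single]
        funext ⟨e, c⟩
        cases c <;> simp [node, st, ht, hf]
      rw [e1', ← zpow_add₀ p0.ne', ← zpow_natCast]
      congr 1
      have := prk_le f₀ f₁ M e0 e1 (st u (pt a b i (D + 1 - i)) x)
      rw [st_sum _ _ _ hx, hN' _ _ (by omega)] at this
      omega
    have hpos : ∀ i, 0 < W ε i := by
      intro i
      refine sum_pos (fun x _ => pow_pos p0 _) ⟨0, ?_⟩
      simp [R309.box]
    refine MAR.seq_global (W ε) D hpos fun i hi => ?_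
    have := MAR.rev_cs _ hG (pt (a, false) (b, false) i (D - 1 - i)) (a, false) (b, false)
    rw [hval (pt (a, false) (b, false) i (D - 1 - i) + ev (a, false) + ev (a, false)) (i + 2) hi
        (by simp [pt, ev]) (fun e => ?_),
      hval (pt (a, false) (b, false) i (D - 1 - i) + ev (b, false) + ev (b, false)) i (by omega)
        (by simp [pt, ev]) (fun e => ?_),
      hval (pt (a, false) (b, false) i (D - 1 - i) + ev (a, false) + ev (b, false)) (i + 1)
        (by omega) (by simp [pt, ev]) (fun e => ?_)]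
    · have q := zpow_pos p0 N
      calc _ = (ε ^ N) ^ 2 * _ := by ring
        _ ≤ (ε ^ N) ^ 2 * _ := mul_le_mul_of_nonneg_left this (by positivity)
        _ = _ := by ring
    all_goals
      simp only [pt, ev, Pi.add_apply, Pi.single_apply, Prod.mk.injEq, and_true]
      split_ifs <;> omega
  have hcont : ∀ i, Continuous (fun ε => W ε i) := fun i => by
    simp only [hW]; fun_prop
  have hlim : W 0 (D + 1) * W 0 0 ≤ W 0 D * W 0 1 := by
    have t1 : Filter.Tendsto (fun ε => W ε (D + 1) * W ε 0) (nhdsWithin 0 (Set.Ioi 0))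
        (nhds (W 0 (D + 1) * W 0 0)) :=
      (((hcont _).mul (hcont _)).tendsto 0).mono_left nhdsWithin_le_nhds
    have t2 : Filter.Tendsto (fun ε => W ε D * W ε 1) (nhdsWithin 0 (Set.Ioi 0))
        (nhds (W 0 D * W 0 1)) :=
      (((hcont _).mul (hcont _)).tendsto 0).mono_left nhdsWithin_le_nhds
    refine le_of_tendsto_of_tendsto t1 t2 ?_
    filter_upwards [Ioc_mem_nhdsGT (zero_lt_one' ℝ)] with ε hε using hmain ε hε.1 hε.2
  have hzero : ∀ (i : ℕ) (j : ℤ), i ≤ D + 1 → j = lo + i →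
      W 0 i = (Zd f₀ f₁ (d + Pi.single a j - Pi.single b j) : ℝ) := by
    intro i j hi hj
    rw [count f₀ f₁ M e0 e1 u0 u1 _ (by rw [hsum, hd]) u (pt a b i (D + 1 - i)) (fun e => ?_)
      (fun e => ?_) (fun e => (hM e).2.1), card_filter, Nat.cast_sum]
    · refine sum_congr rfl fun x _ => ?_
      rw [hN' _ _ (by omega)]
      split_ifs with h
      · rw [Int.toNat_eq_zero.2 (by omega)]; simp
      · rw [zero_pow (by omega)]; simp
    · rw [hu']
      simp only [pt, Pi.add_apply, Pi.sub_apply, Pi.single_apply]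
      split_ifs <;> omega
    · have := (hM e).1
      simp only [pt, Pi.add_apply, Pi.single_apply]
      split_ifs <;> omega
  rw [hzero (D + 1) hi le_rfl hD, hzero 0 lo (by omega) (by simp),
    hzero D (hi - 1) (by omega) (by omega), hzero 1 (lo + 1) (by omega) (by simp)] at hlim
  simpa only [mul_comm] using hlim

theorem ZLC_proof (hPot : PotStmt) (_hClo : CloStmt) (_hLim : LimStmt) : ZlcStmt := ZLC_of hPot

theorem zlc : ZlcStmt := ZLC_of POT_proof

end Crest.Agent.R302
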