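import Crest.Agent.R302.DefsB

/-!
Row 302, task ZS: stability of the number of pairs of bases.
-/

set_option autoImplicit false

namespace Crest.Agent.R302

open Finset Crest.Agent.PT Crest.Agent.QC Crest.Agent.R317 Crest.Agent.R300U

namespace ZS

variable {n m : ℕ} {f : Bool → Finset (Fin n) → ℤ} {P : Pre}

theorem bs_abs {g : Finset (Fin n) → ℤ} {M : ℤ} (hM : ∀ A, g A ≤ M) {z : Fin n → ℤ} (h : Bs g z)
    (e : Fin n) : -M ≤ z e ∧ z e ≤ M := by
  have h1 := h.2 {e}
  have h2 := h.2 (univ.erase e)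
  have h3 := add_sum_erase univ z (mem_univ e)
  rw [sum_singleton] at h1
  have := hM {e}
  have := hM (univ.erase e)
  have := h.1
  constructor <;> omega

theorem sub_box (hP : Pair n m f) (d : Fin n → ℤ) :
    {z : Fin n → ℤ | Bs (f false) z ∧ Bs (f true) (d - z)} ⊆
      (Fintype.piFinset (fun _ : Fin n => Icc (-(2 : ℤ) ^ m) (2 ^ m)) : Finset (Fin n → ℤ)) := by
  intro z hz
  rw [mem_coe, Fintype.mem_piFinset]
  exact fun e => mem_Icc.2 (bs_abs (hP.bd false) hz.1 e)

theorem fin (hP : Pair n m f) (d : Fin n → ℤ) :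
    {z : Fin n → ℤ | Bs (f false) z ∧ Bs (f true) (d - z)}.Finite :=
  (Finset.finite_toSet _).subset (sub_box hP d)

theorem Zd_le (hP : Pair n m f) (d : Fin n → ℤ) :
    (Zd (f false) (f true) d : ℝ) ≤ Real.exp ((m : ℝ) ^ 3) := by
  have h1 : Zd (f false) (f true) d ≤ (2 ^ (m + 2)) ^ m := by
    unfold Zd
    refine (Set.ncard_le_ncard (sub_box hP d) (Finset.finite_toSet _)).trans ?_
    rw [Set.ncard_coe_finset, Fintype.card_piFinset]
    simp only [Int.card_Icc, prod_const, card_univ, Fintype.card_fin]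
    have h2 : ((2 : ℤ) ^ m + 1 - -(2 : ℤ) ^ m).toNat ≤ 2 ^ (m + 2) := by
      rw [Int.toNat_le]
      push_cast
      have : (0 : ℤ) < 2 ^ m := by positivity
      rw [pow_add]; omega
    calc _ ≤ (2 ^ (m + 2)) ^ n := Nat.pow_le_pow_left h2 n
      _ ≤ _ := Nat.pow_le_pow_right (by positivity) hP.le
  have h2 : (2 : ℝ) ≤ Real.exp 1 := by linarith [Real.add_one_le_exp (1 : ℝ)]
  have h3 : (m + 2) * m ≤ m ^ 3 := by
    have := hP.big
    calc (m + 2) * m ≤ (m * m) * m := Nat.mul_le_mul_right _ (by nlinarith)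
      _ = m ^ 3 := by ring
  calc (Zd (f false) (f true) d : ℝ) ≤ ((2 ^ (m + 2)) ^ m : ℕ) := by exact_mod_cast h1
    _ = (2 : ℝ) ^ ((m + 2) * m) := by push_cast; rw [← pow_mul]
    _ ≤ (2 : ℝ) ^ (m ^ 3) := pow_le_pow_right₀ (by norm_num) h3
    _ ≤ Real.exp 1 ^ (m ^ 3) := pow_le_pow_left₀ (by norm_num) h2 _
    _ = _ := by rw [← Real.exp_nat_mul]; push_cast; ring_nf

theorem sum_union_cp (hS : Spec n m f P) {d : Fin n → ℤ} (hd : ∀ i, ∑ j ∈ kap n P i, d j = 0)
    (A : Finset (Fin n)) (hA : ∀ a a' : Fin n, cp P a = cp P a' → a ∈ A → a' ∈ A) :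
    ∑ j ∈ A, d j = 0 := by
  rw [← sum_fiberwise_of_maps_to (s := A) (t := range n) (g := fun j : Fin n => cp P j)
    (fun j _ => mem_range.2 (hS.cpl j j.2))]
  refine sum_eq_zero fun i _ => ?_
  by_cases h : (A.filter (fun j : Fin n => cp P j = i)).Nonempty
  · obtain ⟨a, ha⟩ := h
    obtain ⟨ha1, ha2⟩ := mem_filter.1 ha
    have : A.filter (fun j : Fin n => cp P j = i) = kap n P i := by
      ext j
      simp only [kap, mem_filter, mem_univ, true_and]
      exact ⟨fun h => h.2, fun h => ⟨hA a j (by rw [ha2, h]) ha1, h⟩⟩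
    rw [this, hd]
  · rw [not_nonempty_iff_eq_empty.1 h, sum_empty]

theorem one_le_Zd (hFrk : FrkStmt) (hS : Spec n m f P) {d : Fin n → ℤ}
    (hd : ∀ i, ∑ j ∈ kap n P i, d j = 0) (h1 : ∑ j, |d j| ≤ qt m) :
    (1 : ℝ) ≤ Zd (f false) (f true) d := by
  obtain ⟨z, hz⟩ := hFrk (Fin n) (f false) (f true) d (hS.sub _) (hS.sub _) (hS.empty _)
    (hS.empty _) (hS.full _) (hS.full _) (sum_union_cp hS hd univ (by simp)) (fun A => by
      by_cases hA : ∀ a a' : Fin n, cp P a = cp P a' → a ∈ A → a' ∈ A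
      · rw [sum_union_cp hS hd A hA]
        exact add_nonneg (hS.nonneg _ _) (hS.nonneg _ _)
      · push Not at hA
        obtain ⟨a, a', h2, h3, h4⟩ := hA
        have h5 := hS.scc A a a' h2 h3 h4
        have h6 : ∑ j ∈ A, d j ≤ ∑ j, |d j| :=
          (sum_le_sum fun j _ => le_abs_self _).trans
            (sum_le_sum_of_subset_of_nonneg (subset_univ _) fun _ _ _ => abs_nonneg _)
        omega)
  have : 0 < Zd (f false) (f true) d := (Set.ncard_pos (fin hS.toPair d)).2 ⟨z, hz⟩
  exact_mod_cast this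

theorem tot_line {d : Fin n → ℤ} (hd : ∀ i, ∑ j ∈ kap n P i, d j = 0) {a b : Fin n}
    (hab : cp P a = cp P b) (k : ℤ) (i : ℕ) :
    ∑ j ∈ kap n P i, (d + Pi.single a k - Pi.single b k : Fin n → ℤ) j = 0 := by
  simp only [Pi.sub_apply, Pi.add_apply, sum_sub_distrib, sum_add_distrib, hd, sum_pi_single']
  simp only [kap, mem_filter, mem_univ, true_and, hab]
  ring

theorem abs_line (d : Fin n → ℤ) (a b : Fin n) (k : ℤ) :
    ∑ j, |(d + Pi.single a k - Pi.single b k : Fin n → ℤ) j| ≤ ∑ j, |d j| + 2 * |k| := by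
  have h : ∀ c : Fin n, ∑ j, |(Pi.single c k : Fin n → ℤ) j| = |k| := by
    intro c
    rw [sum_eq_single c]
    · simp
    · intro j _ hj; simp [Pi.single_eq_of_ne hj]
    · simp
  calc _ ≤ ∑ j, (|d j| + |(Pi.single a k : Fin n → ℤ) j| + |(Pi.single b k : Fin n → ℤ) j|) := by
        refine sum_le_sum fun j _ => ?_
        simp only [Pi.sub_apply, Pi.add_apply]
        exact (abs_sub _ _).trans (add_le_add_left (abs_add_le _ _) _)
    _ = _ := by rw [sum_add_distrib, sum_add_distrib, h, h]; ring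

theorem step (hFrk : FrkStmt) (hZlc : ZlcStmt) (hGro : GroStmt) (hS : Spec n m f P)
    {d : Fin n → ℤ} (hd : ∀ i, ∑ j ∈ kap n P i, d j = 0) (h1 : ∑ j, |d j| ≤ 2 * m ^ 76)
    {a b : Fin n} (hab : cp P a = cp P b) :
    (Zd (f false) (f true) (d + Pi.single a 1 - Pi.single b 1) : ℝ) ≤
      Real.exp (1 / (100 * (m : ℝ) ^ 77)) * Zd (f false) (f true) d := by
  have hm : (2000 : ℤ) ≤ m := by exact_mod_cast hS.big
  have hG := hZlc (Fin n) (f false) (f true) d a b (hS.sub _) (hS.sub _) (hS.empty _)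
    (hS.empty _) (hS.full _) (hS.full _)
  have hp : (0 : ℤ) < (m : ℤ) ^ 80 := by positivity
  have hq : 2 * (m : ℤ) ^ 76 + 200 * (m : ℤ) ^ 80 ≤ qt m := by
    have h2 : (m : ℤ) ^ 76 ≤ (m : ℤ) ^ 80 := pow_le_pow_right₀ (by omega) (by norm_num)
    have h3 : ((qt m : ℕ) : ℤ) = m * (m : ℤ) ^ 80 := by unfold qt; push_cast; ring
    rw [h3]; nlinarith
  have g0 : (1 : ℝ) ≤ Zd (f false) (f true)
      (d + Pi.single a (-(100 * (m : ℤ) ^ 80) : ℤ) - Pi.single b (-(100 * (m : ℤ) ^ 80) : ℤ)) := by
    refine one_le_Zd hFrk hS (tot_line hd hab _) ((abs_line d a b _).trans ?_)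
    rw [abs_neg, abs_of_pos (by positivity)]
    omega
  have e0 : d + Pi.single a (0 : ℤ) - Pi.single b (0 : ℤ) = d := by simp
  have g1 : (1 : ℝ) ≤ Zd (f false) (f true) d := one_le_Zd hFrk hS hd (by omega)
  have := hGro _ (-(100 * (m : ℤ) ^ 80)) 0 ((m : ℝ) ^ 3) 1 hG (by omega) (by positivity)
    (lt_of_lt_of_le one_pos g0) (by
      refine (Zd_le hS.toPair _).trans ?_
      exact le_mul_of_one_le_right (Real.exp_pos _).le g0)
    (by simp only [e0]; linarith)
  simp only [e0, Nat.cast_one, zero_add] at this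
  refine this.trans (le_of_eq ?_)
  congr 2
  have hm0 : (m : ℝ) ≠ 0 := by
    have := hS.big
    positivity
  push_cast
  field_simp
  ring

end ZS

open ZS in
theorem ZS_proof (hFrk : FrkStmt) (hZlc : ZlcStmt) (hGro : GroStmt) : ZsStmt := by
  intro n m f P hS
  set x : ℝ := 1 / (100 * (m : ℝ) ^ 77) with hx
  have hm : (2000 : ℝ) ≤ m := by exact_mod_cast hS.big
  have hx0 : 0 < x := by positivity
  have key : ∀ k : ℕ, (k : ℤ) ≤ 2 * m ^ 76 → ∀ d : Fin n → ℤ, (∀ i, ∑ j ∈ kap n P i, d j = 0) →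
      ∑ j, |d j| ≤ k →
      (Zd (f false) (f true) d : ℝ) ≤ Real.exp (k * x) * Zd (f false) (f true) 0 ∧
        (Zd (f false) (f true) 0 : ℝ) ≤ Real.exp (k * x) * Zd (f false) (f true) d := by
    intro k
    induction k with
    | zero =>
      intro _ d _ h1
      have : d = 0 := by
        funext j
        have h2 := single_le_sum (f := fun j => |d j|) (fun j _ => abs_nonneg _) (mem_univ j)
        have h3 : |d j| ≤ 0 := by simpa using h2.trans h1
        exact abs_nonpos_iff.1 h3
      simp [this]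
    | succ k ih =>
      intro hk d hd h1
      have hE : Real.exp ((k + 1 : ℕ) * x) = Real.exp x * Real.exp (k * x) := by
        rw [← Real.exp_add]; push_cast; ring_nf
      have hE1 : 1 ≤ Real.exp x := Real.one_le_exp hx0.le
      by_cases h0 : ∑ j, |d j| ≤ k
      · obtain ⟨i1, i2⟩ := ih (by push_cast at hk; omega) d hd h0
        rw [hE, mul_assoc, mul_assoc]
        exact ⟨i1.trans (le_mul_of_one_le_left (by positivity) hE1),
          i2.trans (le_mul_of_one_le_left (by positivity) hE1)⟩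
      · obtain ⟨c, hc⟩ : ∃ c, d c ≠ 0 := by
          by_contra hc
          push Not at hc
          simp [hc] at h0
        have hcm : c ∈ kap n P (cp P c) := by simp [kap]
        obtain ⟨a, ha, ha0⟩ : ∃ a ∈ kap n P (cp P c), 0 < d a := by
          by_contra hn
          push Not at hn
          exact hc ((sum_eq_zero_iff_of_nonpos hn).1 (hd _) c hcm)
        obtain ⟨b, hb, hb0⟩ : ∃ b ∈ kap n P (cp P c), d b < 0 := by
          by_contra hn
          push Not at hn
          exact hc ((sum_eq_zero_iff_of_nonneg hn).1 (hd _) c hcm)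
        have hab : cp P a = cp P b := by
          simp only [kap, mem_filter, mem_univ, true_and] at ha hb
          rw [ha, hb]
        have hne : a ≠ b := fun h => by rw [h] at ha0; omega
        set d' : Fin n → ℤ := d + Pi.single b 1 - Pi.single a 1 with hd'
        have e1 : d' + Pi.single a 1 - Pi.single b 1 = d := by rw [hd']; abel
        have t1 : ∀ i, ∑ j ∈ kap n P i, d' j = 0 := tot_line hd hab.symm 1
        have t2 : ∑ j, |d' j| < ∑ j, |d j| := by
          refine sum_lt_sum (fun j _ => ?_) ⟨a, mem_univ a, ?_⟩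
          · simp only [hd', Pi.sub_apply, Pi.add_apply]
            by_cases h2 : j = a
            · subst h2
              rw [Pi.single_eq_of_ne hne, Pi.single_eq_same, abs_of_pos ha0,
                abs_of_nonneg (by omega)]
              omega
            · by_cases h3 : j = b
              · subst h3
                rw [Pi.single_eq_of_ne h2, Pi.single_eq_same, abs_of_neg hb0,
                  abs_of_nonpos (by omega)]
                omega
              · rw [Pi.single_eq_of_ne h2, Pi.single_eq_of_ne h3]; simp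
          · simp only [hd', Pi.sub_apply, Pi.add_apply]
            rw [Pi.single_eq_of_ne hne, Pi.single_eq_same, abs_of_pos ha0,
              abs_of_nonneg (by omega)]
            omega
        push_cast at hk h1
        obtain ⟨i1, i2⟩ := ih (by omega) d' t1 (by omega)
        have s1 := step hFrk hZlc hGro hS t1 (by omega) hab
        have s2 := step hFrk hZlc hGro hS hd (by omega) hab.symm
        rw [e1] at s1
        rw [← hd'] at s2
        rw [hE]
        constructor
        · rw [mul_assoc]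
          exact s1.trans (mul_le_mul_of_nonneg_left i1 (by positivity))
        · rw [mul_comm (Real.exp x), mul_assoc]
          exact i2.trans (mul_le_mul_of_nonneg_left s2 (by positivity))
  intro d hd h1
  obtain ⟨k1, k2⟩ := key (2 * m ^ 76) (by push_cast; exact le_rfl) d hd (by push_cast; exact h1)
  have e : ((2 * m ^ 76 : ℕ) : ℝ) * x = 1 / (50 * m) := by
    rw [hx]; push_cast; field_simp; ring
  rw [e] at k1 k2
  set y : ℝ := 1 / (50 * (m : ℝ)) with hy
  have hy0 : 0 < y := by positivity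
  have hy1 : y ≤ 1 := by rw [hy, div_le_one (by positivity)]; linarith
  have b1 : Real.exp y ≤ 1 + 2 * y := by
    have := Real.abs_exp_sub_one_le (x := y) (by rw [abs_of_pos hy0]; exact hy1)
    rw [abs_of_pos hy0] at this
    linarith [(abs_le.1 this).2]
  set Z : ℝ := (Zd (f false) (f true) 0 : ℝ) with hZ
  set Z' : ℝ := (Zd (f false) (f true) d : ℝ) with hZ'
  have hZ0 : 0 ≤ Z := Nat.cast_nonneg _
  have hZ0' : 0 ≤ Z' := Nat.cast_nonneg _
  have b2 : Z' ≤ (1 + 2 * y) * Z := k1.trans (mul_le_mul_of_nonneg_right b1 hZ0)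
  have b3 : Z ≤ (1 + 2 * y) * Z' := k2.trans (mul_le_mul_of_nonneg_right b1 hZ0')
  have b4 : 2 * y * Z ≤ Z / (16 * m) := by
    rw [hy, le_div_iff₀ (by positivity)]
    have : 2 * (1 / (50 * (m : ℝ))) * Z * (16 * m) = (16 / 25) * Z := by field_simp; ring
    rw [this]; linarith
  rw [abs_le]
  constructor
  · by_cases h : Z ≤ Z'
    · have : 0 ≤ Z / (16 * m) := by positivity
      linarith
    · have : 2 * y * Z' ≤ 2 * y * Z := mul_le_mul_of_nonneg_left (by linarith) (by positivity)
      linarith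
  · linarith

end Crest.Agent.R302
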