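import Crest.Agent.R302.ACC
import Crest.Agent.R302.BAS
import Crest.Agent.R302.CAP
import Crest.Agent.R302.CLS
import Crest.Agent.R302.DEEP
import Crest.Agent.R302.ECNT
import Crest.Agent.R302.EOPT
import Crest.Agent.R302.FRK
import Crest.Agent.R302.GOOD
import Crest.Agent.R302.GRO
import Crest.Agent.R302.KR
import Crest.Agent.R302.LAP
import Crest.Agent.R302.MEM
import Crest.Agent.R302.MG1
import Crest.Agent.R302.MG2
import Crest.Agent.R302.NRM
import Crest.Agent.R302.PRE
import Crest.Agent.R302.REP
import Crest.Agent.R302.RHO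
import Crest.Agent.R302.SCL
import Crest.Agent.R302.SEC
import Crest.Agent.R302.SPC
import Crest.Agent.R302.SUB
import Crest.Agent.R302.UP2
import Crest.Agent.R302.WF
import Crest.Agent.R302.XS
import Crest.Agent.R302.ZLC
import Crest.Agent.R302.ZS

/-! Row 302: hypothesis-free forms of the tasks, first part. -/

set_option autoImplicit false

namespace Crest.Agent.R302.All

theorem rho : RhoStmt := RHO_proof REP_proof
theorem lap : LapStmt := LAP_proof REP_proof rho
theorem wf : WfStmt := WF_proof REP_proof rho
theorem mg1 : Mg1Stmt := MG1_proof REP_proof lap wf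
theorem mg2 : Mg2Stmt := MG2_proof REP_proof lap
theorem mem : MemStmt := MEM_proof REP_proof rho
theorem sec : SecStmt := SEC_proof mg1
theorem acc : AccStmt := ACC_proof rho wf mg2 mem BAS_proof
theorem spc : SpcStmt := SPC_proof CLS_proof DEEP_proof
theorem pre : PreStmt := PRE_proof CAP_proof SCL_proof KR_proof spc
theorem zs : ZsStmt := ZS_proof FRK_proof zlc GRO_proof
theorem good (hP : PoiStmt) (hG : AlgStmt) : GoodStmt := GOOD_proof BAS_proof hP sec acc hG

end Crest.Agent.R302.All
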