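import Crest.Agent.R302.DefsC
import Crest.Agent.R302.DEEP

/-!
Row 302, task RHO: properties of the gauge of the walls.
-/

set_option autoImplicit false

namespace Crest.Agent.R302

open Finset Crest.Agent.PT Crest.Agent.QC Crest.Agent.R317 Crest.Agent.R300U Crest.Agent.R309

namespace RHO

variable {n m : ℕ} {f : Bool → Finset (Fin n) → ℤ} {P : Pre}

theorem zeta_nonneg (hS : Spec n m f P) (b : Bool) (A : Finset (Fin n)) : 0 ≤ zeta P b A := by
  unfold zeta zetaL
  refine sum_nonneg fun i hi => ?_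
  split_ifs
  · exact le_rfl
  · rw [List.getD_eq_getElem _ _ (mem_range.1 hi)]
    exact (hS.edg b _ (List.getElem_mem _)).2.2.1

theorem bits_empty (k : ℕ) : (bitsOf (∅ : Finset (Fin n))).getD k false = false := by
  by_cases hk : k < n
  · have := DEEP.bits_getD (∅ : Finset (Fin n)) ⟨k, hk⟩
    simpa using this
  · rw [List.getD_eq_default]
    simp [bitsOf]; omega

theorem zeta_empty (P : Pre) (b : Bool) : zeta P b (∅ : Finset (Fin n)) = 0 := by
  unfold zeta zetaL
  refine sum_eq_zero fun i _ => ?_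
  rw [bits_empty, bits_empty, if_pos rfl]

theorem T_pos (hS : Spec n m f P) : (0 : ℤ) < qT m := by
  have := hS.big
  have : 0 < qT m := by unfold qT; positivity
  exact_mod_cast this

theorem den_nonneg (hS : Spec n m f P) (b : Bool) (i : ℕ) (A : Finset (Fin n)) :
    0 ≤ den n m P b i A := by
  unfold den
  have := zeta_nonneg hS b (A ∩ kap n P i)
  positivity

theorem den_pos (hS : Spec n m f P) (b : Bool) (i : ℕ) {A : Finset (Fin n)}
    (h : (A ∩ kap n P i).Nonempty) : 0 < den n m P b i A := by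
  unfold den
  have := zeta_nonneg hS b (A ∩ kap n P i)
  have := T_pos hS
  have : (0 : ℤ) < (A ∩ kap n P i).card := by exact_mod_cast card_pos.2 h
  positivity

theorem den_zero (b : Bool) (i : ℕ) {A : Finset (Fin n)} (h : A ∩ kap n P i = ∅) :
    den n m P b i A = 0 := by
  unfold den
  rw [h, zeta_empty]; simp

theorem le_rho (b : Bool) (i : ℕ) (ω : ℤ) (z : ℕ → ℤ) (A : Finset (Fin n)) :
    (num n m f P b i ω z A : ℝ) / den n m P b i A ≤ rho n m f P b i ω z :=
  le_sup' (fun A => (num n m f P b i ω z A : ℝ) / den n m P b i A) (mem_univ A)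

theorem rho_le {b : Bool} {i : ℕ} {ω : ℤ} {z : ℕ → ℤ} {c : ℝ}
    (h : ∀ A, (num n m f P b i ω z A : ℝ) / den n m P b i A ≤ c) : rho n m f P b i ω z ≤ c :=
  sup'_le _ _ fun A _ => h A

theorem rho_nonneg (b : Bool) (i : ℕ) (ω : ℤ) (z : ℕ → ℤ) : 0 ≤ rho n m f P b i ω z := by
  have := le_rho (m := m) (f := f) (P := P) b i ω z ∅
  rw [den_zero b i (empty_inter _)] at this
  simpa using this

/-- `rho ≤ c` in multiplied form -/
theorem rho_le' (hS : Spec n m f P) {b : Bool} {i : ℕ} {ω : ℤ} {z : ℕ → ℤ} {c : ℝ} (hc : 0 ≤ c)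
    (h : ∀ A, (A ∩ kap n P i).Nonempty → (num n m f P b i ω z A : ℝ) ≤ c * den n m P b i A) :
    rho n m f P b i ω z ≤ c := by
  refine rho_le fun A => ?_
  by_cases hA : (A ∩ kap n P i).Nonempty
  · rw [div_le_iff₀ (by exact_mod_cast den_pos hS b i hA)]
    exact h A hA
  · rw [den_zero b i (not_nonempty_iff_eq_empty.1 hA)]
    simpa using hc

theorem num_le (hS : Spec n m f P) (b : Bool) (i : ℕ) (ω : ℤ) (z : ℕ → ℤ) {A : Finset (Fin n)}
    (hA : (A ∩ kap n P i).Nonempty) :
    (num n m f P b i ω z A : ℝ) ≤ rho n m f P b i ω z * den n m P b i A := by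
  rw [← div_le_iff₀ (by exact_mod_cast den_pos hS b i hA)]
  exact le_rho b i ω z A

theorem lip1 (hS : Spec n m f P) {b : Bool} {i : ℕ} {ω ω' : ℤ} {z z' : ℕ → ℤ} {c : ℤ} (hc : 0 ≤ c)
    (h : ∀ A, qT m * (num n m f P b i ω' z' A - num n m f P b i ω z A) ≤ c * den n m P b i A) :
    rho n m f P b i ω' z' ≤ rho n m f P b i ω z + c / qT m := by
  have hT : (0 : ℝ) < qT m := by exact_mod_cast T_pos hS
  have hc' : (0 : ℝ) ≤ c := by exact_mod_cast hc
  refine rho_le' hS (add_nonneg (rho_nonneg ..) (by positivity)) fun A hA => ?_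
  have h1 := num_le hS b i ω z hA
  have h2 : (qT m : ℝ) * ((num n m f P b i ω' z' A : ℝ) - num n m f P b i ω z A) ≤
      c * den n m P b i A := by exact_mod_cast h A
  have h3 : (num n m f P b i ω' z' A : ℝ) - num n m f P b i ω z A ≤ c / qT m * den n m P b i A := by
    rw [div_mul_eq_mul_div, le_div_iff₀ hT]; linarith
  linarith

theorem lip (hS : Spec n m f P) {b : Bool} {i : ℕ} {ω ω' : ℤ} {z z' : ℕ → ℤ} {c : ℤ} (hc : 0 ≤ c)
    (h : ∀ A, qT m * |num n m f P b i ω' z' A - num n m f P b i ω z A| ≤ c * den n m P b i A) :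
    |rho n m f P b i ω' z' - rho n m f P b i ω z| ≤ c / qT m := by
  have hT := T_pos hS
  have h1 := lip1 hS (b := b) (i := i) (ω := ω) (ω' := ω') (z := z) (z' := z') hc fun A =>
    le_trans (mul_le_mul_of_nonneg_left (le_abs_self _) hT.le) (h A)
  have h2 := lip1 hS (b := b) (i := i) (ω := ω') (ω' := ω) (z := z') (z' := z) hc fun A =>
    le_trans (mul_le_mul_of_nonneg_left (by rw [abs_sub_comm]; exact le_abs_self _) hT.le) (h A)
  rw [abs_le]
  constructor <;> linarith

theorem cyc_bd (hS : Spec n m f P) (b : Bool) {e : Fin n} (he' : isF P e = false)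
    (B : Finset (Fin n)) : qT m * (2 ^ he P e * |∑ j ∈ B, cyc P e j|) ≤ m * zeta P b B := by
  have hz := zeta_nonneg hS b B
  by_cases h : ∑ j ∈ B, cyc P e j = 0
  · rw [h]; simp only [abs_zero, mul_zero]; positivity
  · have h1 := hS.cy2 e he' b B h
    have h2 : |∑ j ∈ B, cyc P e j| ≤ m := by
      refine (abs_sum_le_sum_abs _ _).trans ?_
      have := sum_le_card_nsmul B _ 1 (fun j _ => (hS.cy1 e j he').1)
      rw [nsmul_eq_mul, mul_one] at this
      refine this.trans ?_
      have h3 : B.card ≤ m := (card_le_univ B).trans (by rw [Fintype.card_fin]; exact hS.le)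
      exact_mod_cast h3
    calc qT m * (2 ^ he P e * |∑ j ∈ B, cyc P e j|) = |∑ j ∈ B, cyc P e j| * (qT m * 2 ^ he P e) := by
          ring
      _ ≤ m * zeta P b B := mul_le_mul h2 h1 (by positivity) (by positivity)

theorem abs_sgn (b : Bool) : |sgn b| = 1 := by cases b <;> simp [sgn]

/-- the total of the point seen by side `b` -/
theorem sum_zv (b : Bool) (x : List ℤ) (B : Finset (Fin n)) :
    ∑ j ∈ B, zv n P b x j = ∑ j ∈ B, (if isF P j = true then xv n x j b else 0) +
      sgn b * ∑ e : Fin n, if isF P e = true then 0 else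
        xv n x e false * (2 ^ he P e * ∑ j ∈ B, cyc P e j) := by
  unfold zv
  rw [sum_add_distrib, ← mul_sum, sum_comm, sum_range]
  congr 2
  refine sum_congr rfl fun e _ => ?_
  split_ifs
  · simp
  · rw [mul_sum, mul_sum]
    exact sum_congr rfl fun j _ => by ring

theorem zv_bd (hS : Spec n m f P) (b : Bool) {x : List ℤ} (hx : inB n m P x) (B : Finset (Fin n)) :
    qT m * |∑ j ∈ B, zv n P b x j| ≤ qu m * (qT m * B.card + m ^ 2 * zeta P b B) := by
  have hT := T_pos hS
  have hz := zeta_nonneg hS b B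
  have h1 : |∑ j ∈ B, (if isF P j = true then xv n x j b else 0)| ≤ qu m * B.card := by
    refine (abs_sum_le_sum_abs _ _).trans ?_
    have := sum_le_card_nsmul B (fun j : Fin n => |if isF P j = true then xv n x j b else 0|)
      (qu m : ℤ) (fun j _ => by
        obtain ⟨k1, k2⟩ := hx.2 j j.2
        split_ifs with h
        · cases b
          · exact k1
          · rw [if_pos h] at k2; exact k2
        · simp)
    rw [nsmul_eq_mul, mul_comm] at this
    exact this
  have h2 : qT m * |∑ e : Fin n, if isF P e = true then 0 else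
      xv n x e false * (2 ^ he P e * ∑ j ∈ B, cyc P e j)| ≤ qu m * (m ^ 2 * zeta P b B) := by
    refine (mul_le_mul_of_nonneg_left (abs_sum_le_sum_abs _ _) hT.le).trans ?_
    rw [mul_sum]
    have := sum_le_card_nsmul univ (fun e : Fin n => (qT m : ℤ) * |if isF P e = true then 0 else
        xv n x e false * (2 ^ he P e * ∑ j ∈ B, cyc P e j)|) (qu m * (m * zeta P b B)) (fun e _ => by
      split_ifs with h
      · simp only [abs_zero, mul_zero]; positivity
      · have k1 := (hx.2 e e.2).1
        have k2 := cyc_bd hS b (by simpa using h) B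
        rw [abs_mul, abs_mul, abs_of_pos (by positivity : (0 : ℤ) < 2 ^ he P e), mul_left_comm]
        exact mul_le_mul k1 k2 (by positivity) (by positivity))
    rw [nsmul_eq_mul, card_univ, Fintype.card_fin] at this
    refine this.trans ?_
    have hn : (n : ℤ) ≤ m := by exact_mod_cast hS.le
    calc (n : ℤ) * (qu m * (m * zeta P b B)) ≤ m * (qu m * (m * zeta P b B)) := by gcongr
      _ = _ := by ring
  rw [sum_zv]
  refine (mul_le_mul_of_nonneg_left (abs_add_le _ _) hT.le).trans ?_
  rw [abs_mul, abs_sgn, one_mul, mul_add, mul_add]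
  refine add_le_add ?_ h2
  calc (qT m : ℤ) * _ ≤ qT m * (qu m * B.card) := mul_le_mul_of_nonneg_left h1 hT.le
    _ = _ := by ring

theorem rho_box (hS : Spec n m f P) (b : Bool) (i : ℕ) {ω : ℤ} (hω : 0 ≤ ω) {x : List ℤ}
    (hx : inB n m P x) : rho n m f P b i ω (zv n P b x) ≤ (m : ℝ) ^ 7 := by
  refine rho_le' hS (by positivity) fun A _ => ?_
  have h1 := zv_bd hS b hx (A ∩ kap n P i)
  have hT := T_pos hS
  have hz := zeta_nonneg hS b (A ∩ kap n P i)
  have hf := hS.nonneg b (A ∩ kap n P i ∪ low n P i)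
  have hm : (1 : ℤ) ≤ m := by have := hS.big; omega
  have h2 : num n m f P b i ω (zv n P b x) A ≤ (m : ℤ) ^ 7 * den n m P b i A := by
    unfold num den
    have e : ((qu m : ℕ) : ℤ) = (m : ℤ) ^ 5 * qT m := by unfold qu qT; push_cast; ring
    have h3 : (0 : ℤ) ≤ m ^ 2 * qt m := by positivity
    have h4 : (qT m : ℤ) * ∑ j ∈ A ∩ kap n P i, zv n P b x j ≤
        qT m * |∑ j ∈ A ∩ kap n P i, zv n P b x j| :=
      mul_le_mul_of_nonneg_left (le_abs_self _) hT.le
    have h5 : (m : ℤ) ^ 5 ≤ m ^ 7 := pow_le_pow_right₀ hm (by norm_num)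
    have h6 : (m : ℤ) ^ 5 * (qT m * (qT m * (A ∩ kap n P i).card)) ≤
        m ^ 7 * (qT m * (qT m * (A ∩ kap n P i).card)) :=
      mul_le_mul_of_nonneg_right h5 (by positivity)
    have h7 : 0 ≤ ω * zeta P b (A ∩ kap n P i) := by positivity
    have h8 : 0 ≤ (qT m : ℤ) * (f b (A ∩ kap n P i ∪ low n P i) + m ^ 2 * qt m) := by positivity
    rw [e] at h1
    nlinarith
  exact_mod_cast h2

theorem num_empty (hS : Spec n m f P) (b : Bool) (i : ℕ) (ω : ℤ) (z : ℕ → ℤ) {A : Finset (Fin n)}
    (h : A ∩ kap n P i = ∅) : num n m f P b i ω z A ≤ 0 := by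
  unfold num
  rw [h, zeta_empty, sum_empty, mul_zero, sub_zero]
  have hf := hS.nonneg b (∅ ∪ low n P i)
  have h3 : (0 : ℤ) ≤ m ^ 2 * qt m := by positivity
  exact mul_nonpos_of_nonneg_of_nonpos (T_pos hS).le (by omega)

theorem jvm_eq (hS : Spec n m f P) (b : Bool) (i : ℕ) {x : List ℤ} (hx : inB n m P x) :
    jvm n m f P x b i = ⌈(qV m : ℝ) * rho n m f P b i (m ^ 2) (zv n P b x)⌉₊ := by
  classical
  have hm : 1 ≤ m := by have := hS.big; omega
  have hV : (0 : ℝ) < qV m := by unfold qV; positivity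
  set r := rho n m f P b i (m ^ 2) (zv n P b x) with hr
  have key : ∀ j : ℕ, (∀ A, qV m * num n m f P b i (m ^ 2) (zv n P b x) A ≤ j * den n m P b i A) ↔
      ⌈(qV m : ℝ) * r⌉₊ ≤ j := by
    intro j
    rw [Nat.ceil_le]
    constructor
    · intro h
      rw [mul_comm, ← le_div_iff₀ hV]
      refine rho_le' hS (by positivity) fun A _ => ?_
      have : (qV m : ℝ) * (num n m f P b i (m ^ 2) (zv n P b x) A : ℝ) ≤ j * den n m P b i A := by
        exact_mod_cast h A
      rw [div_mul_eq_mul_div, le_div_iff₀ hV]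
      linarith
    · intro h A
      by_cases hA : (A ∩ kap n P i).Nonempty
      · have h1 := num_le hS b i (m ^ 2) (zv n P b x) hA
        have h2 : (0 : ℝ) ≤ den n m P b i A := by exact_mod_cast den_nonneg hS b i A
        have h3 : (qV m : ℝ) * (num n m f P b i (m ^ 2) (zv n P b x) A : ℝ) ≤
            j * den n m P b i A := by
          calc _ ≤ (qV m : ℝ) * (r * den n m P b i A) := mul_le_mul_of_nonneg_left h1 hV.le
            _ = (qV m : ℝ) * r * den n m P b i A := by ring
            _ ≤ _ := mul_le_mul_of_nonneg_right h h2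
        exact_mod_cast h3
      · have h0 := not_nonempty_iff_eq_empty.1 hA
        rw [den_zero b i h0, mul_zero]
        exact mul_nonpos_of_nonneg_of_nonpos (by positivity) (num_empty hS b i _ _ h0)
  have hG : ⌈(qV m : ℝ) * r⌉₊ ≤ qG m := by
    rw [Nat.ceil_le]
    have h1 := rho_box hS b i (ω := m ^ 2) (by positivity) hx
    have hm' : (1 : ℝ) ≤ m := by exact_mod_cast hm
    calc (qV m : ℝ) * r ≤ qV m * (m : ℝ) ^ 7 := mul_le_mul_of_nonneg_left h1 hV.le
      _ = (m : ℝ) ^ 24 := by unfold qV; push_cast; ring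
      _ ≤ (m : ℝ) ^ 25 := pow_le_pow_right₀ hm' (by norm_num)
      _ = qG m := by unfold qG; push_cast; ring
  unfold jvm
  simp only [key]
  generalize ⌈(qV m : ℝ) * r⌉₊ = c at hG
  have e1 : ∑ k ∈ Ico c (qG m), (if c ≤ k then 0 else 1) = 0 :=
    sum_eq_zero fun j hj => if_pos (mem_Ico.1 hj).1
  have e2 : ∑ k ∈ range c, (if c ≤ k then 0 else 1) = ∑ k ∈ range c, 1 :=
    sum_congr rfl fun j hj => if_neg (not_le.2 (mem_range.1 hj))
  rw [← sum_range_add_sum_Ico _ hG, e1, e2]
  simp

/-- class unions -/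
theorem eq_cu (hS : Spec n m f P) (b : Bool) (Y : Finset (Fin n))
    (hY : ∀ a a' : Fin n, cl P b a = cl P b a' → a ∈ Y → a' ∈ Y) : ∃ L, Y = cu n P b L := by
  refine ⟨univ.filter (fun l : Fin n => ∃ a ∈ Y, cl P b a = l), ?_⟩
  ext j
  have h := DEEP.bits_getD (univ.filter (fun l : Fin n => ∃ a ∈ Y, cl P b a = l))
    ⟨cl P b j, hS.cll b j j.2⟩
  simp only [cu, mem_filter, mem_univ, true_and] at h ⊢
  rw [h, decide_eq_true_eq]
  exact ⟨fun hj => ⟨j, hj, rfl⟩, fun ⟨a, ha, e⟩ => hY a j e ha⟩

theorem HB_le (hS : Spec n m f P) {b : Bool} {x : List ℤ} (hx : HB n f P b x) (Y : Finset (Fin n))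
    (hY : ∀ a a' : Fin n, cl P b a = cl P b a' → a ∈ Y → a' ∈ Y) :
    ∑ j ∈ Y, zv n P b x j ≤ f b Y := by
  obtain ⟨L, rfl⟩ := eq_cu hS b Y hY
  exact hx.2 L

theorem low_cl (hS : Spec n m f P) (b : Bool) (i : ℕ) (a a' : Fin n) (h : cl P b a = cl P b a')
    (ha : a ∈ low n P i) : a' ∈ low n P i := by
  simp only [low, mem_filter, mem_univ, true_and] at ha ⊢
  rw [← hS.clc b a a' h]; exact ha

theorem dc_eq (x : List ℤ) (i : ℕ) : dc n P x i = ∑ j ∈ kap n P i, dF n P x j := by
  unfold dc kap
  rw [sum_filter, sum_range]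

theorem sum_low (x : List ℤ) (i : ℕ) :
    ∑ j ∈ low n P i, dF n P x j = ∑ i' ∈ range i, dc n P x i' := by
  rw [← sum_fiberwise_of_maps_to (s := low n P i) (t := range i) (g := fun j : Fin n => cp P j)
    (fun j hj => by simpa [low] using hj)]
  refine sum_congr rfl fun i' hi' => ?_
  rw [dc_eq]
  congr 1
  ext j
  simp only [low, kap, mem_filter, mem_univ, true_and]
  exact ⟨fun h => h.2, fun h => ⟨by rw [h]; exact mem_range.1 hi', h⟩⟩

theorem dc_zero (hS : Spec n m f P) {x : List ℤ} (hx : ∀ i < n, dc n P x i = 0) (i : ℕ) :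
    dc n P x i = 0 := by
  by_cases hi : i < n
  · exact hx i hi
  · unfold dc
    refine sum_eq_zero fun j hj => if_neg fun h => ?_
    have := hS.cpl j (mem_range.1 hj)
    omega

theorem mem_Sec (hRep : RepStmt) (hS : Spec n m f P) {x : List ℤ} :
    x ∈ Sec n m f P ↔ inB n m P x ∧ (∀ b, HB n f P b x) ∧ ∀ i, dc n P x i = 0 := by
  unfold Sec
  rw [mem_filter, (hRep n m f P hS).2.2.2.1 x]
  constructor
  · rintro ⟨⟨h1, h2, h3⟩, h4⟩
    exact ⟨h1, fun b => by cases b <;> assumption, dc_zero hS h4⟩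
  · rintro ⟨h1, h2, h3⟩
    exact ⟨⟨h1, h2 _, h2 _⟩, fun i _ => h3 i⟩

theorem low_abs (hRep : RepStmt) (hS : Spec n m f P) (b : Bool) (i : ℕ) {x : List ℤ}
    (hx : x ∈ Sec n m f P) : |∑ j ∈ low n P i, zv n P b x j| ≤ m ^ 2 * qt m := by
  obtain ⟨h1, h2, h3⟩ := (mem_Sec hRep hS).1 hx
  have k0 := (HB_le hS (h2 false) _ (low_cl hS false i)).trans (hS.clo false i)
  have k1 := (HB_le hS (h2 true) _ (low_cl hS true i)).trans (hS.clo true i)
  have k2 : ∑ j ∈ low n P i, zv n P false x j + ∑ j ∈ low n P i, zv n P true x j = 0 := by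
    rw [← sum_add_distrib, sum_congr rfl (fun (j : Fin n) _ =>
      ((hRep n m f P hS).2.2.2.2.2.2.2.2.2.1 x h1).2.2 j j.2), sum_low]
    exact sum_eq_zero fun i' _ => h3 i'
  rw [abs_le]
  cases b <;> constructor <;> omega

theorem disj (A : Finset (Fin n)) (i : ℕ) : Disjoint (A ∩ kap n P i) (low n P i) := by
  rw [disjoint_left]
  intro j h1 h2
  simp only [low, kap, mem_inter, mem_filter, mem_univ, true_and] at h1 h2
  omega

end RHO

open RHO in
theorem RHO_proof (hRep : RepStmt) : RhoStmt := by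
  intro n m f P hS b i
  have hT := T_pos hS
  refine ⟨rho_nonneg b i, fun ω ω' z h => ?_, fun ω z z' h => ?_, fun ω δ z w => ?_,
    fun ω z => ?_, fun ω z j σ hσ => ?_, fun ω z e σ hσ he' => ?_, fun x hx => ?_,
    fun x hx => ⟨low_abs hRep hS b i hx, fun ω Δ => ?_⟩⟩
  · have := lip1 hS (b := b) (i := i) (ω := ω) (ω' := ω') (z := z) (z' := z) le_rfl fun A => by
      have hz := zeta_nonneg hS b (A ∩ kap n P i)
      have : ω * zeta P b (A ∩ kap n P i) ≤ ω' * zeta P b (A ∩ kap n P i) :=
        mul_le_mul_of_nonneg_right h hz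
      rw [zero_mul]
      refine mul_nonpos_of_nonneg_of_nonpos hT.le ?_
      unfold num
      linarith
    simpa using this
  · unfold rho
    congr 1
    funext A
    unfold num
    rw [sum_congr rfl (fun (j : Fin n) hj => h j j.2 (by
      simpa [kap] using (mem_inter.1 hj).2))]
  · rw [mul_comm, ← le_div_iff₀ (by norm_num : (0 : ℝ) < 2)]
    refine rho_le fun A => ?_
    have h1 := le_rho (m := m) (f := f) (P := P) b i (ω + δ) (z + w) A
    have h2 := le_rho (m := m) (f := f) (P := P) b i (ω - δ) (z - w) A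
    have e : num n m f P b i (ω + δ) (z + w) A + num n m f P b i (ω - δ) (z - w) A =
        2 * num n m f P b i ω z A := by
      unfold num
      simp only [Pi.add_apply, Pi.sub_apply, sum_add_distrib, sum_sub_distrib]
      ring
    have e' : (num n m f P b i (ω + δ) (z + w) A : ℝ) + num n m f P b i (ω - δ) (z - w) A =
        2 * num n m f P b i ω z A := by exact_mod_cast e
    have e2 : (num n m f P b i (ω + δ) (z + w) A : ℝ) / den n m P b i A +
        num n m f P b i (ω - δ) (z - w) A / den n m P b i A =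
        2 * (num n m f P b i ω z A / den n m P b i A) := by
      rw [← add_div, e', mul_div_assoc]
    linarith
  · have := lip hS (b := b) (i := i) (ω := ω) (ω' := ω + 1) (z := z) (z' := z) zero_le_one
      fun A => by
        have hz := zeta_nonneg hS b (A ∩ kap n P i)
        have e : num n m f P b i (ω + 1) z A - num n m f P b i ω z A =
            -zeta P b (A ∩ kap n P i) := by unfold num; ring
        rw [e, abs_neg, abs_of_nonneg hz, one_mul]
        unfold den
        refine mul_le_mul_of_nonneg_left ?_ hT.le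
        have : (0 : ℤ) ≤ qT m * (A ∩ kap n P i).card := by positivity
        omega
    simpa using this
  · have := lip hS (b := b) (i := i) (ω := ω) (ω' := ω) (z := z) (z' := z + Pi.single j σ)
      zero_le_one fun A => by
        have hz := zeta_nonneg hS b (A ∩ kap n P i)
        have e : num n m f P b i ω (z + Pi.single j σ) A - num n m f P b i ω z A =
            qT m * ∑ k ∈ A ∩ kap n P i, (Pi.single j σ : ℕ → ℤ) k := by
          unfold num
          simp only [Pi.add_apply, sum_add_distrib]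
          ring
        have h1 : |∑ k ∈ A ∩ kap n P i, (Pi.single j σ : ℕ → ℤ) k| ≤ (A ∩ kap n P i).card := by
          refine (abs_sum_le_sum_abs _ _).trans ?_
          have := sum_le_card_nsmul (A ∩ kap n P i) (fun k : Fin n => |(Pi.single j σ : ℕ → ℤ) k|)
            1 (fun k _ => by
              by_cases hk : (k : ℕ) = j
              · rw [hk, Pi.single_eq_same]; exact hσ
              · rw [Pi.single_eq_of_ne hk]; simp)
          rwa [nsmul_eq_mul, mul_one] at this
        rw [e, abs_mul, abs_of_pos hT, one_mul]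
        unfold den
        refine mul_le_mul_of_nonneg_left ?_ hT.le
        have := mul_le_mul_of_nonneg_left h1 hT.le
        omega
    simpa using this
  · have := lip hS (b := b) (i := i) (ω := ω) (ω' := ω) (z := z)
      (z' := fun j => z j + σ * (2 ^ he P e * cyc P e j)) (c := m) (by positivity) fun A => by
        have hz := zeta_nonneg hS b (A ∩ kap n P i)
        have e1 : num n m f P b i ω (fun j => z j + σ * (2 ^ he P e * cyc P e j)) A -
            num n m f P b i ω z A =
            σ * (qT m * (2 ^ he P e * ∑ k ∈ A ∩ kap n P i, cyc P e k)) := by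
          unfold num
          simp only [sum_add_distrib, ← mul_sum]
          ring
        have h1 := cyc_bd hS b he' (A ∩ kap n P i)
        rw [e1, abs_mul, abs_mul, abs_mul, abs_of_pos hT,
          abs_of_pos (by positivity : (0 : ℤ) < 2 ^ he P e)]
        have h2 : |σ| * (qT m * (2 ^ he P e * |∑ k ∈ A ∩ kap n P i, cyc P e k|)) ≤
            1 * (m * zeta P b (A ∩ kap n P i)) :=
          mul_le_mul hσ h1 (by positivity) zero_le_one
        unfold den
        have h3 : (0 : ℤ) ≤ m * (qT m * (qT m * (A ∩ kap n P i).card)) := by positivity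
        have h4 := mul_le_mul_of_nonneg_left h2 hT.le
        nlinarith
    simpa using this
  · rw [jvm_eq hS b i hx]
    have h0 : 0 ≤ (qV m : ℝ) * rho n m f P b i (m ^ 2) (zv n P b x) :=
      mul_nonneg (by positivity) (rho_nonneg ..)
    refine ⟨Nat.le_ceil _, (Nat.ceil_lt_add_one h0).le, fun h => ?_⟩
    rw [h]; simp
  · obtain ⟨h1, h2, h3⟩ := (mem_Sec hRep hS).1 hx
    refine rho_le fun A => ?_
    by_cases hA : ∀ a a' : Fin n, cl P b a = cl P b a' → a ∈ A ∩ kap n P i → a' ∈ A ∩ kap n P i
    · refine le_trans ?_ (le_max_left _ _)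
      have k1 := HB_le hS (h2 b) (A ∩ kap n P i ∪ low n P i) (fun a a' h ha => by
        rw [mem_union] at ha ⊢
        exact ha.imp (hA a a' h) (low_cl hS b i a a' h))
      rw [sum_union (disj A i)] at k1
      have k2 := (abs_le.1 (low_abs hRep hS b i hx)).1
      have k3 : zeta P b (A ∩ kap n P i) = 0 := by
        obtain ⟨L, hL⟩ := eq_cu hS b _ hA
        rw [hL]
        exact ((hRep n m f P hS).2.2.2.2.2.2.2.2.2.2 b L).1
      have k4 : num n m f P b i (ω + Δ) (zv n P b x) A ≤ 0 := by
        unfold num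
        rw [k3, mul_zero, sub_zero]
        exact mul_nonpos_of_nonneg_of_nonpos hT.le (by omega)
      exact div_nonpos_of_nonpos_of_nonneg (by exact_mod_cast k4)
        (by exact_mod_cast den_nonneg hS b i A)
    · refine le_trans ?_ (le_max_right _ _)
      push Not at hA
      obtain ⟨a, a', k1, k2, k3⟩ := hA
      have k4 := hS.spl b _ a a' k1 k2 k3
      have k5 := den_pos hS b i ⟨a, k2⟩
      have k6 : den n m P b i A ≤ zeta P b (A ∩ kap n P i) * (qT m * (n + 1)) := by
        unfold den
        have c1 : ((A ∩ kap n P i).card : ℤ) ≤ n := by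
          have := card_le_univ (A ∩ kap n P i)
          rw [Fintype.card_fin] at this
          exact_mod_cast this
        have c2 : (qT m : ℤ) * (A ∩ kap n P i).card ≤ zeta P b (A ∩ kap n P i) * n :=
          mul_le_mul k4 c1 (by positivity) (by omega)
        nlinarith
      have k7 := le_rho (m := m) (f := f) (P := P) b i ω (zv n P b x) A
      have e : (num n m f P b i (ω + Δ) (zv n P b x) A : ℝ) =
          num n m f P b i ω (zv n P b x) A - Δ * zeta P b (A ∩ kap n P i) := by
        unfold num; push_cast; ring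
      have k5' : (0 : ℝ) < den n m P b i A := by exact_mod_cast k5
      have k6' : (den n m P b i A : ℝ) ≤ zeta P b (A ∩ kap n P i) * (qT m * (n + 1)) := by
        exact_mod_cast k6
      have hT' : (0 : ℝ) < qT m := by exact_mod_cast hT
      have k8 : (Δ : ℝ) / (qT m * (n + 1)) ≤ Δ * zeta P b (A ∩ kap n P i) / den n m P b i A := by
        rw [div_le_div_iff₀ (by positivity) k5', mul_assoc]
        exact mul_le_mul_of_nonneg_left k6' (by positivity)
      rw [e, sub_div]
      linarith

end Crest.Agent.R302
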