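import Crest.Agent.R302.MEM
import Crest.Agent.R302.REP
import Crest.Agent.R302.RHO
import Crest.Agent.R309.AV

set_option autoImplicit false

namespace Crest.Agent.R302

open Finset Crest.Agent.PT Crest.Agent.QC Crest.Agent.R317 Crest.Agent.R300U Crest.Agent.R309

namespace BIJ

theorem av_prod (m : ℕ) (k : ℕ → ℕ) (g : ℕ → ℕ → ℝ) (n : ℕ) (hk : ∀ e < n, k e ≤ m) :
    Av (n * m) (fun u => ∏ e ∈ range n, g e (fld u (e * m) (k e))) =
      ∏ e ∈ range n, Av (k e) (g e) := by
  induction n with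
  | zero => simp [Av_zero]
  | succ n ih =>
    have h1 := hk n (by omega)
    have e : (fun u => ∏ e ∈ range (n + 1), g e (fld u (e * m) (k e))) =
        fun u => (fun x y => (∏ e ∈ range n, g e (fld x (e * m) (k e))) * g n y)
          (u % 2 ^ (n * m)) (fld u (n * m) (k n)) := by
      funext u
      rw [prod_range_succ]
      congr 1
      refine prod_congr rfl fun e he' => ?_
      have h2 := mem_range.1 he'
      have h3 := hk e (by omega)
      rw [fld_mod]
      calc e * m + k e ≤ (e + 1) * m := by nlinarith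
        _ ≤ n * m := Nat.mul_le_mul_right _ h2
    rw [e, Av_mod_fld (by nlinarith)
      (fun x y => (∏ e ∈ range n, g e (fld x (e * m) (k e))) * g n y), prod_range_succ,
      ← ih (fun e he' => hk e (by omega)), ← Av_mul_const]
    exact Av_congr fun x _ => Av_const_mul _ _ _

theorem av_box (n m c : ℕ) (k : Fin n → ℕ) (hk : ∀ e, k e ≤ m) (hc : n * m ≤ c)
    (G : (Fin n → ℕ) → ℝ) :
    Av c (fun u => G (fun e => fld u (e * m) (k e))) * ∏ e, (2 : ℝ) ^ k e =
      ∑ o ∈ Fintype.piFinset (fun e => range (2 ^ k e)), G o := by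
  classical
  let k' : ℕ → ℕ := fun e => if h : e < n then k ⟨e, h⟩ else 0
  have ek : ∀ e : Fin n, k' e = k e := fun e => dif_pos e.2
  have h1 : ∀ o ∈ Fintype.piFinset (fun e => range (2 ^ k e)),
      Av c (fun u => if (fun e : Fin n => fld u (e * m) (k e)) = o then (1 : ℝ) else 0) *
        ∏ e, (2 : ℝ) ^ k e = 1 := by
    intro o ho
    let o' : ℕ → ℕ := fun e => if h : e < n then o ⟨e, h⟩ else 0
    have eo : ∀ e : Fin n, o' e = o e := fun e => dif_pos e.2
    have h2 := av_prod m k' (fun e v => if v = o' e then (1 : ℝ) else 0) n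
      (fun e he' => by rw [ek ⟨e, he'⟩]; exact hk _)
    rw [← Av_mod hc] at h2
    have h3 : Av c (fun u => if (fun e : Fin n => fld u (e * m) (k e)) = o then (1 : ℝ) else 0) =
        ∏ e ∈ range n, Av (k' e) (fun v => if v = o' e then (1 : ℝ) else 0) := by
      rw [← h2]
      refine Av_congr fun u _ => ?_
      rw [prod_range, Fintype.prod_boole]
      congr 1
      refine propext ⟨fun h e => ?_, fun h => funext fun e => ?_⟩
      · rw [fld_mod, ek, eo, ← h]
        have := hk e
        have h4 := e.2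
        rw [ek]
        nlinarith
      · have h5 := h e
        rw [fld_mod, ek, eo] at h5
        · exact h5
        · have := hk e
          have h4 := e.2
          rw [ek]
          nlinarith
    rw [h3, prod_range, ← prod_mul_distrib]
    refine prod_eq_one fun e _ => ?_
    rw [ek, eo]
    unfold Av
    rw [sum_ite_eq', if_pos (Fintype.mem_piFinset.1 ho e), div_mul_cancel₀]
    positivity
  have h4 : Av c (fun u => G (fun e => fld u (e * m) (k e))) =
      Av c (fun u => ∑ o ∈ Fintype.piFinset (fun e => range (2 ^ k e)),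
        G o * if (fun e : Fin n => fld u (e * m) (k e)) = o then (1 : ℝ) else 0) := by
    refine Av_congr fun u _ => ?_
    simp only [mul_ite, mul_one, mul_zero]
    rw [sum_ite_eq, if_pos]
    exact Fintype.mem_piFinset.2 fun e => mem_range.2 (fld_lt _ _ _)
  rw [h4, Av_sum, sum_mul]
  refine sum_congr rfl fun o ho => ?_
  rw [Av_const_mul, mul_assoc, h1 o ho, mul_one]

variable {n m : ℕ} {f : Bool → Finset (Fin n) → ℤ} {P : Pre}

/-- number of random bits of `e` -/
def kk (P : Pre) (e : Fin n) : ℕ := if isF P e = true then 0 else he P e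

/-- the offset of a digit vector -/
def ofs (P : Pre) (o : Fin n → ℕ) (j : ℕ) : ℤ :=
  ∑ e : Fin n, if isF P e = true then 0 else (o e : ℤ) * cyc P e j

/-- acceptance -/
def Acc (m : ℕ) (f : Bool → Finset (Fin n) → ℤ) (P : Pre) (x : List ℤ) (o : Fin n → ℕ) : Prop :=
  accS n m P x ∧ ∀ b, Bs (f b) (fun j : Fin n => zv n P b x j + sgn b * ofs P o j)

theorem off_eq (u j : ℕ) : off n m P u j = ofs P (fun e : Fin n => fld u (e * m) (kk P e)) j := by
  unfold off ofs
  rw [sum_range]
  refine sum_congr rfl fun e _ => ?_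
  by_cases hF : isF P e = true
  · simp only [hF, if_true]
  · simp only [kk, bz, hF, if_false]
    rfl

theorem acc_iff (x : List ℤ) (u : ℕ) : (mdlM n m f P).acc x u = true ↔
    Acc m f P x (fun e : Fin n => fld u (e * m) (kk P e)) := by
  simp only [mdlM, decide_eq_true_eq, off_eq, Acc]

/-- the mismatch vector -/
def dv (P : Pre) (x : List ℤ) : Fin n → ℤ := fun j => dF n P x j

theorem zcl_eq {L : ℕ} {z : ℤ} (h : |z| ≤ L) : zcl L z = z := by
  unfold zcl
  obtain ⟨h1, h2⟩ := abs_le.1 h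
  rw [min_eq_right h2, max_eq_right h1]

theorem qJ_le (hm : 2000 ≤ m) : qJ m ≤ qN m := by
  unfold qJ qM qN
  have h1 : m.size ≤ m := Nat.size_le.2 Nat.lt_two_pow_self
  have h2 : 4 ≤ m := by omega
  calc 4 * m ^ 143 * m.size ≤ m * m ^ 143 * m := by gcongr
    _ = m ^ 145 := by ring
    _ ≤ m ^ 600 := Nat.pow_le_pow_right (by omega) (by decide)

theorem W_acc (hRho : RhoStmt) (hM : MemStmt) (h : Spec n m f P) (x : List ℤ)
    (hx : x ∈ Om n m f P) (u : ℕ) (hu : (mdlM n m f P).acc x u = true) :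
    ((mdlM n m f P).W (qN m) [] x : ℝ) = Th n m P (dv P x) := by
  classical
  have hm := h.big
  obtain ⟨h1, h2, h3⟩ := (REP.mem_Om x).1 hx
  obtain ⟨-, h5⟩ := (hM n m f P h).2.2 x h1 u hu
  obtain ⟨⟨h6, h7⟩, -⟩ := (acc_iff x u).1 hu
  have hj : ∀ b, ∀ i < n, jvm n m f P x b i = 0 := fun b i hi =>
    ((hRho n m f P h b i).2.2.2.2.2.2.2.1 x h1).2.2 (h5 b i hi)
  have e0 : qJ m - qN m = 0 := Nat.sub_eq_zero_of_le (qJ_le hm)
  have hWM : (qW m : ℤ) ≤ qM m := by
    have : qW m ≤ qM m := Nat.pow_le_pow_right (by omega) (by decide)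
    exact_mod_cast this
  show ((wgt n m P (decide (HB n f P false x ∧ HB n f P true x)) (jvm n m f P x) (qN m) [] x : ℚ) : ℝ) = _
  unfold wgt
  rw [if_pos ⟨h1, decide_eq_true ⟨h2, h3⟩⟩, e0, prod_eq_one (fun k _ => by simp),
    prod_eq_one (s := range n) (fun i hi => by rw [h6 i (mem_range.1 hi)]; simp [zcl]),
    prod_eq_one (s := range n) (f := fun i => (1 + 1 / (m : ℚ) ^ 4) ^ _)
      (fun i hi => by rw [hj false i (mem_range.1 hi), hj true i (mem_range.1 hi)]; simp),
    one_mul, one_mul, mul_one, prod_range]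
  unfold Th
  push_cast
  refine prod_congr rfl fun j _ => ?_
  split_ifs with hn
  · rw [zcl_eq ((h7 j j.2 hn).trans hWM)]
    push_cast
    rfl
  · simp

/-- the coefficient vector -/
def cf (P : Pre) (x : List ℤ) (o : Fin n → ℕ) (e : Fin n) : ℤ :=
  if isF P e = true then xv n x e false else 2 ^ he P e * xv n x e false + o e

theorem comb_cf (x : List ℤ) (o : Fin n → ℕ) :
    comb P (cf P x o) = fun j : Fin n => zv n P false x j + sgn false * ofs P o j := by
  funext j
  unfold comb cf bv zv ofs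
  have : (if isF P j = true then xv n x j false else 0) =
      ∑ e : Fin n, if e = j then (if isF P j = true then xv n x j false else 0) else 0 := by simp
  rw [this, sum_range]
  simp only [sgn, Bool.false_eq_true, if_false, one_mul]
  rw [← sum_add_distrib, ← sum_add_distrib]
  refine sum_congr rfl fun e _ => ?_
  by_cases h1 : e = j
  · subst h1
    by_cases h2 : isF P e = true
    · simp [h2]
    · simp [h2]; ring
  · have h3 : (j : ℕ) ≠ e := fun h4 => h1 (Fin.ext h4.symm)
    by_cases h2 : isF P e = true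
    · simp [h1, h2, h3]
    · simp [h1, h2]; ring

theorem snd_eq (x : List ℤ) (o : Fin n → ℕ) :
    (fun j : Fin n => zv n P true x j + sgn true * ofs P o j) = dv P x - comb P (cf P x o) := by
  rw [comb_cf]
  funext j
  have := REP.zv_add (n := n) (P := P) x j
  simp only [Pi.sub_apply, dv, sgn, if_true, Bool.false_eq_true, if_false]
  linarith

theorem Acc_iff (x : List ℤ) (o : Fin n → ℕ) : Acc m f P x o ↔ accS n m P x ∧
    Bs (f false) (comb P (cf P x o)) ∧ Bs (f true) (dv P x - comb P (cf P x o)) := by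
  unfold Acc
  rw [Bool.forall_bool, snd_eq, comb_cf]

theorem mem_D (d : Fin n → ℤ) : d ∈ Dset n m P ↔ (∀ j, |d j| ≤ m * qW m) ∧
    (∀ j : Fin n, isF P j = false → d j = 0) ∧ (∀ i, ∑ j ∈ kap n P i, d j = 0) ∧
      ∀ j : Fin n, nd P j → |d j| ≤ qW m := by
  unfold Dset
  simp only [mem_filter, Fintype.mem_piFinset, mem_Icc, ← abs_le]

theorem dv_mem (h : Spec n m f P) (x : List ℤ) (hx : accS n m P x) : dv P x ∈ Dset n m P := by
  have hn : (n : ℤ) ≤ m := by exact_mod_cast h.le
  have hm : (1 : ℤ) ≤ m := by have := h.big; omega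
  have hW : (0 : ℤ) ≤ qW m := by positivity
  have h0 : ∀ j : Fin n, isF P j = false → dv P x j = 0 := fun j hj => by simp [dv, dF, hj]
  have h1 : ∀ i, ∑ j ∈ kap n P i, dv P x j = 0 := fun i => by
    have := RHO.dc_zero h hx.1 i
    rwa [RHO.dc_eq] at this
  have h2 : ∀ j : Fin n, nd P j → |dv P x j| ≤ qW m := fun j hj => hx.2 j j.2 hj
  refine (mem_D _).2 ⟨fun j => ?_, h0, h1, h2⟩
  by_cases hF : isF P j = true
  · by_cases hn' : nd P j
    · exact (h2 j hn').trans (by nlinarith)
    · have hj : j ∈ kap n P (cp P j) := by simp [kap]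
      have h3 := h1 (cp P j)
      rw [← add_sum_erase _ _ hj] at h3
      have h4 : ∀ j' ∈ (kap n P (cp P j)).erase j, |dv P x j'| ≤ qW m := by
        intro j' hj'
        obtain ⟨a1, a2⟩ := mem_erase.1 hj'
        have a3 : cp P j' = cp P j := by simpa [kap] using a2
        by_cases hF' : isF P j' = true
        · rcases lt_or_gt_of_ne (fun e : (j' : ℕ) = j => a1 (Fin.ext e)) with a4 | a4
          · exact absurd ⟨hF, j', a4, hF', a3⟩ hn'
          · exact h2 j' ⟨hF', j, a4, hF, a3.symm⟩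
        · rw [h0 j' (by simpa using hF')]; simpa using hW
      rw [eq_neg_of_add_eq_zero_left h3, abs_neg]
      refine (abs_sum_le_sum_abs _ _).trans ((sum_le_card_nsmul _ _ _ h4).trans ?_)
      rw [nsmul_eq_mul]
      have : (((kap n P (cp P j)).erase j).card : ℤ) ≤ n := by
        exact_mod_cast (card_le_univ _).trans (by simp)
      nlinarith
  · rw [h0 j (by simpa using hF)]; simp; positivity

theorem ofs_cu (h : Spec n m f P) (b : Bool) (L : Finset (Fin n)) (o : Fin n → ℕ) :
    ∑ j ∈ cu n P b L, sgn b * ofs P o j = 0 := by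
  rw [← mul_sum]
  unfold ofs
  rw [sum_comm, sum_eq_zero, mul_zero]
  intro e _
  split_ifs with hF
  · simp
  · rw [← mul_sum, REP.cyc_cu h b L e (by simpa using hF), mul_zero]

theorem mem_of_acc (h : Spec n m f P) (x : List ℤ) (hx : inB n m P x) (o : Fin n → ℕ)
    (ha : Acc m f P x o) : x ∈ Om n m f P := by
  have hb : ∀ b, HB n f P b x := by
    intro b
    obtain ⟨k1, k2⟩ := ha.2 b
    refine ⟨?_, fun L => ?_⟩
    · have := ofs_cu h b univ o
      rw [REP.cu_univ h] at this
      rwa [sum_add_distrib, this, add_zero] at k1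
    · have := k2 (cu n P b L)
      rwa [sum_add_distrib, ofs_cu h, add_zero] at this
  exact (REP.mem_Om x).2 ⟨hx, hb false, hb true⟩

theorem inj (h : Spec n m f P) {x x' : List ℤ} (hx : inB n m P x) (hx' : inB n m P x')
    {o o' : Fin n → ℕ} (ho : ∀ e, o e < 2 ^ kk P e) (ho' : ∀ e, o' e < 2 ^ kk P e)
    (hd : (dv P x : Fin n → ℤ) = dv P x') (hc : comb P (cf P x o) = comb P (cf P x' o')) :
    x = x' ∧ o = o' := by
  have ha := h.inj hc
  have h1 : ∀ e : Fin n, xv n x e false = xv n x' e false ∧ o e = o' e := by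
    intro e
    have a1 := congrFun ha e
    have a2 := ho e
    have a3 := ho' e
    unfold cf at a1
    unfold kk at a2 a3
    split_ifs at a1 a2 a3
    · exact ⟨a1, by omega⟩
    · have b2 : (o e : ℤ) < 2 ^ he P e := by exact_mod_cast a2
      have b3 : (o' e : ℤ) < 2 ^ he P e := by exact_mod_cast a3
      have b4 : (0 : ℤ) ≤ o e := by positivity
      have b5 : (0 : ℤ) ≤ o' e := by positivity
      have b6 : xv n x e false = xv n x' e false := by
        by_contra hne
        rcases lt_or_gt_of_ne hne with b7 | b7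
        · nlinarith [mul_le_mul_of_nonneg_left (Int.add_one_le_iff.2 b7)
            (by positivity : (0 : ℤ) ≤ 2 ^ he P e)]
        · nlinarith [mul_le_mul_of_nonneg_left (Int.add_one_le_iff.2 b7)
            (by positivity : (0 : ℤ) ≤ 2 ^ he P e)]
      rw [b6] at a1
      exact ⟨b6, by have := add_left_cancel a1; exact_mod_cast this⟩
  refine ⟨REP.ext_xv hx.1 hx'.1 fun k => ?_, funext fun e => (h1 e).2⟩
  obtain ⟨e, b⟩ := k
  cases b
  · exact (h1 e).1
  · have a1 := congrFun hd e
    have a2 := (hx.2 e e.2).2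
    have a3 := (hx'.2 e e.2).2
    have a4 := (h1 e).1
    simp only [dv, dF] at a1
    show xv n x e true = xv n x' e true
    split_ifs at a1 a2 a3
    · linarith
    · rw [abs_nonpos_iff.1 a2, abs_nonpos_iff.1 a3]

theorem surj (h : Spec n m f P) {d z : Fin n → ℤ} (hd : d ∈ Dset n m P) (z0 : Bs (f false) z)
    (z1 : Bs (f true) (d - z)) : ∃ x o, inB n m P x ∧ (∀ e, o e < 2 ^ kk P e) ∧ Acc m f P x o ∧
      dv P x = d ∧ comb P (cf P x o) = z := by
  obtain ⟨d1, d2, d3, d4⟩ := (mem_D d).1 hd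
  have hm : (2000 : ℤ) ≤ m := by exact_mod_cast h.big
  have hn : (n : ℤ) ≤ m := by exact_mod_cast h.le
  have hT : (qT m : ℤ) = (m : ℤ) ^ 136 := by simp [qT]
  have hW : (qW m : ℤ) = (m : ℤ) ^ 75 := by simp [qW]
  have hU : (qu m : ℤ) = (m : ℤ) ^ 141 := by simp [qu]
  obtain ⟨a, ha, hb⟩ := h.rng z (d - z) z0 z1 (by
    simp only [Pi.sub_apply, add_sub_cancel]
    refine (sum_le_card_nsmul _ _ _ fun j _ => d1 j).trans ?_
    rw [card_univ, Fintype.card_fin, nsmul_eq_mul, hT, hW]
    calc ((n : ℤ) * ((m : ℤ) * (m : ℤ) ^ 75) : ℤ) ≤ (m : ℤ) * ((m : ℤ) * (m : ℤ) ^ 75) := by gcongr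
      _ = (m : ℤ) ^ 77 := by ring
      _ ≤ _ := pow_le_pow_right₀ (by linarith) (by norm_num))
  let a' : ℕ → ℤ := fun e => if h : e < n then a ⟨e, h⟩ else 0
  have ea : ∀ e : Fin n, a' e = a e := fun e => dif_pos e.2
  let d' : ℕ → ℤ := fun e => if h : e < n then d ⟨e, h⟩ else 0
  have ed : ∀ e : Fin n, d' e = d e := fun e => dif_pos e.2
  let x : List ℤ := mkL (2 * n) (fun k => if k < n then
    (if isF P k = true then a' k else a' k / 2 ^ he P k)
    else (if isF P (k - n) = true then d' (k - n) - a' (k - n) else 0))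
  have x0 : ∀ e : Fin n, xv n x e false = if isF P e = true then a e else a e / 2 ^ he P e := by
    intro e
    have := e.2
    show x.getD e 0 = _
    rw [getD_mkL _ _ (by omega), if_pos e.2, ea]
  have x1 : ∀ e : Fin n, xv n x e true = if isF P e = true then d e - a e else 0 := by
    intro e
    have := e.2
    show x.getD (n + e) 0 = _
    rw [getD_mkL _ _ (by omega), if_neg (by omega), Nat.add_sub_cancel_left, ea, ed]
  have hu : (m : ℤ) * qW m + m ^ 4 * qT m ≤ qu m := by
    rw [hT, hW, hU]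
    have b1 : (m : ℤ) * (m : ℤ) ^ 75 ≤ (m : ℤ) ^ 140 := by
      rw [← pow_succ']; exact pow_le_pow_right₀ (by linarith) (by norm_num)
    have b2 : (0 : ℤ) ≤ (m : ℤ) ^ 140 := by positivity
    calc (m : ℤ) * (m : ℤ) ^ 75 + (m : ℤ) ^ 4 * (m : ℤ) ^ 136
        ≤ (m : ℤ) ^ 140 + (m : ℤ) ^ 140 := by
          have b3 : (m : ℤ) ^ 4 * (m : ℤ) ^ 136 = (m : ℤ) ^ 140 := by ring
          rw [b3]; linarith
      _ = 2 * (m : ℤ) ^ 140 := by ring
      _ ≤ (m : ℤ) * (m : ℤ) ^ 140 := by gcongr; linarith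
      _ = _ := by ring
  have hW0 : (0 : ℤ) ≤ m * qW m := by positivity
  have hin : inB n m P x := by
    refine ⟨length_mkL _ _, (all_iff _).2 fun e => ?_⟩
    have h1 := hb e
    have h2 := d1 e
    rw [x0 e, x1 e]
    split_ifs at h1 ⊢
    · exact ⟨by linarith, (abs_sub _ _).trans (by linarith)⟩
    · refine ⟨le_trans ?_ (by linarith : (m : ℤ) ^ 4 * qT m ≤ qu m), by simp⟩
      obtain ⟨k1, k2⟩ := abs_le.1 h1
      have hp : (0 : ℤ) < 2 ^ he P e := by positivity
      rw [abs_le]
      exact ⟨Int.le_ediv_of_mul_le hp (by linarith), Int.ediv_le_of_le_mul hp k2⟩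
  let o : Fin n → ℕ := fun e => if isF P e = true then 0 else (a e % 2 ^ he P e).toNat
  have hdv : dv P x = d := by
    funext j
    simp only [dv, dF, x0, x1]
    split_ifs with hF
    · ring
    · exact (d2 j (by simpa using hF)).symm
  have hcf : cf P x o = a := by
    funext e
    have hp : (0 : ℤ) < 2 ^ he P e := by positivity
    simp only [cf, x0, o]
    split_ifs
    · rfl
    · rw [Int.toNat_of_nonneg (Int.emod_nonneg _ hp.ne'), Int.mul_ediv_add_emod]
  refine ⟨x, o, hin, fun e => ?_, (Acc_iff x o).2 ⟨⟨fun i _ => ?_, (all_iff _).2 fun j hj => ?_⟩,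
    ?_, ?_⟩, hdv, by rw [hcf, ha]⟩
  · have hp : (0 : ℤ) < 2 ^ he P e := by positivity
    simp only [o, kk]
    split_ifs
    · norm_num
    · have := Int.emod_lt_of_pos (a e) hp
      have h2 := Int.emod_nonneg (a e) hp.ne'
      zify
      rwa [Int.toNat_of_nonneg h2]
  · show dc n P x i = 0
    rw [RHO.dc_eq, ← d3 i, ← hdv]; rfl
  · have := d4 j hj
    rw [← hdv] at this; exact this
  · rwa [hcf, ha]
  · rwa [hcf, ha, hdv]

end BIJ

open BIJ in
theorem BIJ_proof (hRho : RhoStmt) (hM : MemStmt) : BijStmt := by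
  classical
  intro n m f P h
  have hm := h.big
  set B := Fintype.piFinset (fun e : Fin n => range (2 ^ kk P e)) with hB
  have hk : ∀ e : Fin n, kk P e ≤ m := fun e => by
    unfold kk
    split_ifs with hF
    · omega
    · exact (h.cy1 e e (by simpa using hF)).2.2
  have hc : n * m ≤ qN m := by
    calc n * m ≤ m * m := Nat.mul_le_mul_right _ h.le
      _ = m ^ 2 := by ring
      _ ≤ m ^ 600 := Nat.pow_le_pow_right (by omega) (by decide)
  have e1 : ∏ e : Fin n, (if isF P e = true then (1 : ℝ) else 2 ^ he P e) =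
      ∏ e : Fin n, (2 : ℝ) ^ kk P e := by
    refine prod_congr rfl fun e _ => ?_
    unfold kk
    split_ifs <;> simp
  have e2 : amass n m f P * ∏ e : Fin n, (2 : ℝ) ^ kk P e =
      ∑ q ∈ (Om n m f P ×ˢ B).filter (fun q => Acc m f P q.1 q.2), Th n m P (dv P q.1) := by
    rw [sum_filter, sum_product]
    unfold amass
    rw [sum_mul]
    refine sum_congr rfl fun x hx => ?_
    rw [hB, ← av_box n m (qN m) (kk P) hk hc (fun o => if Acc m f P x o then Th n m P (dv P x) else 0)]
    congr 1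
    unfold Pb
    rw [← Av_const_mul]
    refine Av_congr fun u _ => ?_
    by_cases hu : (mdlM n m f P).acc x u = true
    · rw [if_pos hu, if_pos ((acc_iff x u).1 hu), mul_one, W_acc hRho hM h x hx u hu]
    · rw [if_neg hu, if_neg (fun h' => hu ((acc_iff x u).2 h')), mul_zero]
  rw [e1, e2, ← sum_fiberwise_of_maps_to (t := Dset n m P) (g := fun q => dv P q.1)
    (fun q hq => dv_mem h q.1 (mem_filter.1 hq).2.1)]
  refine sum_congr rfl fun d hd => ?_
  rw [sum_congr rfl (g := fun _ => Th n m P d) (fun q hq => by rw [(mem_filter.1 hq).2]),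
    sum_const, nsmul_eq_mul, mul_comm]
  congr 2
  unfold Zd
  rw [← Set.ncard_coe_finset]
  refine Set.ncard_congr (fun q _ => comb P (cf P q.1 q.2)) (fun q hq => ?_)
    (fun q q' hq hq' e => ?_) (fun z hz => ?_)
  · obtain ⟨a1, a2⟩ := mem_filter.1 (mem_coe.1 hq)
    rw [← a2]
    exact ((Acc_iff _ _).1 (mem_filter.1 a1).2).2
  · obtain ⟨a1, a2⟩ := mem_filter.1 (mem_coe.1 hq)
    obtain ⟨b1, b2⟩ := mem_filter.1 (mem_coe.1 hq')
    obtain ⟨a3, a4⟩ := mem_product.1 (mem_filter.1 a1).1
    obtain ⟨b3, b4⟩ := mem_product.1 (mem_filter.1 b1).1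
    have := inj h ((REP.mem_Om _).1 a3).1 ((REP.mem_Om _).1 b3).1
      (fun e => mem_range.1 (Fintype.mem_piFinset.1 a4 e))
      (fun e => mem_range.1 (Fintype.mem_piFinset.1 b4 e)) (a2.trans b2.symm) e
    exact Prod.ext this.1 this.2
  · obtain ⟨x, o, c1, c2, c3, c4, c5⟩ := surj h hd hz.1 hz.2
    exact ⟨(x, o), mem_coe.2 (mem_filter.2 ⟨mem_filter.2 ⟨mem_product.2 ⟨mem_of_acc h x c1 o c3,
      Fintype.mem_piFinset.2 fun e => mem_range.2 (c2 e)⟩, c3⟩, c4⟩), c5⟩

end Crest.Agent.R302
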