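import Crest.Agent.R309.DefsA

/-!
Row 302, part A: analytic and combinatorial lemmas that do not depend on the model.
All `R309` theorems (`SCH_proof`, `MRG_proof`, `KEY_proof`, `HAR_proof`, `SMB_proof`, `DES_proof`,
`MAR.rev_cs`, …) are landed and may be imported and used directly.
-/

set_option autoImplicit false

namespace Crest.Agent.R302

open Finset Crest.Agent.R309

section L

variable {V : Type} [Fintype V] [DecidableEq V]

/-- conductance: the weight of the endpoint with more units at the first variable -/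
def cF (F : (V → ℕ) → ℝ) (a _b : V) (U : V → ℕ) : ℝ := F (U + ev a)

/-- `v` is cheap: up to total degree `m`, one unit at `v` changes `F` by a factor at most `Λ`. -/
def Cheap (F : (V → ℕ) → ℝ) (Λ : ℝ) (m : ℕ) (v : V) : Prop :=
  ∀ α : V → ℕ, ∑ w, α w ≤ m → F (α + ev v) ≤ Λ * F α ∧ F α ≤ Λ * F (α + ev v)

/-- total size of a block list -/
def tsum (t : List (V × V × ℕ)) : ℕ := (t.map (fun B => B.2.2)).sum

/-- `F` only depends on the variables in `S` -/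
def DepOn (F : (V → ℕ) → ℝ) (S : Finset V) : Prop :=
  ∀ α β : V → ℕ, (∀ v ∈ S, α v = β v) → F α = F β

/-- second difference -/
def D2 {β : Type} [Add β] (U : β → ℝ) (γ a b : β) : ℝ := U (γ + a + b) - U (γ + a) - U (γ + b) + U γ

end L

/-- **SLI2** (copy `R309/SLI.lean`, with `κ = 1`). `g' U = g (U + ev b)`. KEY with
`x = τ (δ_b/Z_b - δ_a/Z_a)` gives `(E_a g' - E_b g')² ≤ P D`, `D = Dir (cX F) t β g' ≤
Λ² Dir (cF F) t (β + ev b) g` (`F(U+k+l) ≤ Λ F(U+k) ≤ Λ² F(U+k+b)`, `l` cheap),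
`P = -Qv (WS F t) β x₁ ≤ 2 WS F t (β+a+b)/(Z_a Z_b)` (drop the diagonal terms; `a = b` is trivial),
`WS F t δ ≤ (len/2) Λ Sm t δ F`, `Sm t (β+a+b) F ≤ Λ Z_a`; so `P ≤ len Λ²/Z_b`. The mean of `g` on
slice `b` is `E_b g'`; on slice `a` it differs from `E_a g'` by a quantity whose square is at most
`Sm t β (F(U+a)(g(U+a)-g(U+b))²)/Z_a`. The monotonicity lemmas for `Sm`, `WS`, `Dir` must be
restricted to states of total degree `∑ γ + tsum t` (resp. one less). -/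
def Sli2Stmt : Prop :=
  ∀ (V : Type) [Fintype V] [DecidableEq V] (F : (V → ℕ) → ℝ) (Λ : ℝ) (m : ℕ), IsL F → 1 ≤ Λ →
    ∀ (t : List (V × V × ℕ)), (∀ B ∈ t, Cheap F Λ m B.2.1) →
    ∀ (a b : V), Cheap F Λ m b → ∀ (β : V → ℕ) (g : (V → ℕ) → ℝ), ∑ w, β w + tsum t + 2 ≤ m →
      min (Sm t (β + ev a) F) (Sm t (β + ev b) F) *
          (Sm t (β + ev a) (fun U => F U * g U) / Sm t (β + ev a) F -
            Sm t (β + ev b) (fun U => F U * g U) / Sm t (β + ev b) F) ^ 2 ≤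
        2 * Sm t β (fun U => cF F a b U * (g (U + ev a) - g (U + ev b)) ^ 2) +
          2 * t.length * Λ ^ 4 * Dir (cF F) t (β + ev b) g

/-- **UP2** (uses SLI2; copy `R309/UP.lean`). `β_i + ev b = γ_i`. -/
def Up2Stmt : Prop :=
  ∀ (V : Type) [Fintype V] [DecidableEq V] (F : (V → ℕ) → ℝ) (Λ Ξ : ℝ) (m : ℕ), IsL F → 1 ≤ Λ →
    ∀ (t : List (V × V × ℕ)), (∀ B ∈ t, Cheap F Λ m B.2.1 ∧ (B.2.2 : ℝ) + 1 ≤ Ξ) →
    ∀ (γ : V → ℕ) (g : (V → ℕ) → ℝ), ∑ w, γ w + tsum t + 1 ≤ m →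
      Sm t γ (fun U => F U * g U ^ 2) - Sm t γ (fun U => F U * g U) ^ 2 / Sm t γ F ≤
        t.length * (2 + 2 * t.length * Λ ^ 4 * Ξ ^ 2) * Dir (cF F) t γ g

/-- **BUP2** (uses UP2; copy `R309/BUP.lean`). Box form. -/
def Bup2Stmt : Prop :=
  ∀ (κ : Type) [Fintype κ] [DecidableEq κ] (u : κ → ℕ) (F : (κ × Bool → ℕ) → ℝ) (Λ Ξ : ℝ) (m : ℕ),
    IsL F → 1 ≤ Λ → (∀ k, Cheap F Λ m (k, true) ∧ (u k : ℝ) + 1 ≤ Ξ) → ∑ k, u k + 1 ≤ m →
    ∀ g : (κ → ℕ) → ℝ, Var (box u) (fun x => F (node u x)) g ≤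
      Fintype.card κ * (2 + 2 * Fintype.card κ * Λ ^ 4 * Ξ ^ 2) * Ξ ^ 2 *
        ∑ k, ∑ x ∈ (box u).filter (fun x => x k + 1 ≤ u k),
          F (node u (x + Pi.single k 1)) * (g (x + Pi.single k 1) - g x) ^ 2

/-- **CLO** (uses SCH: `IsL F ↔ F > 0 ∧ ∀ γ x, Qv F γ x * F γ ≤ Dv F γ x ^ 2`; see `LAM.step`,
`LAM.P_tilt`). Closure properties. With `r_a = F(γ+a)/F γ`, `r_ab = F(γ+a+b)/F γ` the condition
reads `∑ x x (r_ab - r_a r_b) ≤ 0`. (1) products on disjoint variables: mixed terms vanish.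
(2) a log-concave factor of the total of a set `S` on which `F` depends: split `x` into the part in
`S` and the rest. (3) a log-concave factor of one variable: rescale `x_a`; the diagonal term drops.
(4) restriction along an injection, with a base. (5) finite products on pairwise disjoint sets.
(6) tilts and constants. -/
def CloStmt : Prop :=
  ∀ (V : Type) [Fintype V] [DecidableEq V],
    (∀ (F G : (V → ℕ) → ℝ) (S T : Finset V), IsL F → IsL G → DepOn F S → DepOn G T → Disjoint S T →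
      IsL (fun α => F α * G α)) ∧
    (∀ (F : (V → ℕ) → ℝ) (S : Finset V) (χ : ℤ → ℝ) (o : ℤ), IsL F → DepOn F S → LC χ →
      IsL (fun α => F α * χ ((∑ v ∈ S, (α v : ℤ)) - o))) ∧
    (∀ (F : (V → ℕ) → ℝ) (χ : V → ℤ → ℝ) (o : V → ℤ), IsL F → (∀ v, LC (χ v)) →
      IsL (fun α => F α * ∏ v, χ v ((α v : ℤ) - o v))) ∧
    (∀ (W : Type) [Fintype W] [DecidableEq W] (ι : W → V) (δ : V → ℕ) (F : (V → ℕ) → ℝ), IsL F →
      IsL (fun α : W → ℕ => F (δ + ∑ w, Pi.single (ι w) (α w)))) ∧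
    (∀ (W : Type) [Fintype W] [DecidableEq W] (ι : W → V) (F : (W → ℕ) → ℝ),
      Function.Injective ι → IsL F → IsL (fun α : V → ℕ => F (fun w => α (ι w)))) ∧
    (∀ (I : Type) (s : Finset I) (F : I → (V → ℕ) → ℝ) (S : I → Finset V), (∀ i ∈ s, IsL (F i)) →
      (∀ i ∈ s, DepOn (F i) (S i)) → (∀ i ∈ s, ∀ j ∈ s, i ≠ j → Disjoint (S i) (S j)) →
      IsL (fun α => ∏ i ∈ s, F i α)) ∧
    (∀ (F : (V → ℕ) → ℝ) (c : ℝ) (t : V → ℝ), IsL F → 0 < c → (∀ v, 0 < t v) →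
      IsL (fun α => c * F α * ∏ v, t v ^ α v))

/-- submodular on all subsets -/
def Sub {E : Type} [DecidableEq E] (f : Finset E → ℤ) : Prop :=
  ∀ A B, f (A ∪ B) + f (A ∩ B) ≤ f A + f B

/-- The rank of `α`: variable `v` sits in slot `sl v` (`none`: the variable is ignored). -/
noncomputable def prk {V E : Type} [Fintype V] [Fintype E] [DecidableEq E] (c : Finset E → ℤ)
    (sl : V → Option E) (α : V → ℕ) : ℤ :=
  (univ : Finset (Finset E)).inf' ⟨∅, mem_univ _⟩ (fun U => c U +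
    ∑ v, (match sl v with | none => 0 | some e => if e ∈ U then 0 else (α v : ℤ)))

/-- **POT** (uses SCH). Potts weights. `ρ = prk c sl`; minimisers at `α` are closed under `∪, ∩`;
`ρ(α+a) - ρ α ∈ {0,1}` (`0`: a loop, i.e. ignored or in the slot of some minimiser), slack
`σ U = value - ρ α ≥ 0` is submodular. If `a` is a loop then `ρ(α+a+b) = ρ(α+b)` (for `U` minimal at
`α+b`, `U₀ ∋ a` minimal at `α`, use `U ∪ U₀`). For non-loops `a ∼ b` iff `ρ(α+a+b) = ρ α + 1` iff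
some `U` with `σ U = 1` contains both slots; this is symmetric and transitive
(`σ(U∩U') ≥ 1`, so `σ(U∪U') ≤ 1`). So `1 - r_ab/(r_a r_b) = (1-q) [a ∼ b]`, a positive semidefinite
matrix (sum over the classes of the partial equivalence of squares). -/
def PotStmt : Prop :=
  ∀ (V E : Type) [Fintype V] [DecidableEq V] [Fintype E] [DecidableEq E] (c : Finset E → ℤ)
    (sl : V → Option E) (q : ℝ), Sub c → 0 < q → q ≤ 1 → IsL (fun α => q ^ (-prk c sl α))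

/-- **SML** (uses SCH). `|1 - e^(-D) - D| ≤ D²` for `|D| ≤ 1`, `(∑ |y|)² ≤ card ∑ y²`; substitute
`y_a = x_a exp(U γ - U(γ+a))`. -/
def SmlStmt : Prop :=
  ∀ (V : Type) [Fintype V] [DecidableEq V] (U : (V → ℕ) → ℝ) (δ μ : ℝ), δ ≤ 1 →
    (Fintype.card V : ℝ) * δ ^ 2 ≤ μ → (∀ γ a b, |D2 U γ (ev a) (ev b)| ≤ δ) →
    (∀ γ (y : V → ℝ), μ * ∑ a, y a ^ 2 ≤ ∑ a, ∑ b, y a * y b * D2 U γ (ev a) (ev b)) →
    IsL (fun α => Real.exp (-U α))

/-- **SMT**. Smoothing of a midpoint convex Lipschitz function by two box averages of width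
`ℓ = k²`: `W z = avg_{ξ, ξ' ∈ [0,ℓ)^V} Φ (z + ξ + ξ')`. A difference in direction `a` of a box
average telescopes (factor `2/ℓ` on the sup norm), so second differences are `≤ 2Λ/ℓ` and third
differences `≤ δ₃ = 4Λ/ℓ²`. `W` is midpoint convex. Let `q` be the quadratic polynomial with the
same differences of order `≤ 2` at `γ`; `R = W(γ+·) - q` has `|R z| ≤ δ₃ |z|₁³` (three times: a
function with unit differences `≤ B` on the `ℓ¹` ball changes by `≤ B |z|₁`), so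
`zᵀ D z ≥ -2 δ₃ |z|₁³` for integer `z`; for real `y` with `max |y_a| = 1` take `z = ⌊k y⌋`. -/
def SmtStmt : Prop :=
  ∀ (V : Type) [Fintype V] [DecidableEq V] (Φ : (V → ℤ) → ℝ) (Λ : ℝ) (k : ℕ), 1 ≤ k → 0 ≤ Λ →
    (∀ g z, 2 * Φ g ≤ Φ (g + z) + Φ (g - z)) → (∀ g a, |Φ (g + Pi.single a 1) - Φ g| ≤ Λ) →
    ∃ W : (V → ℤ) → ℝ, (∀ g, |W g - Φ g| ≤ 2 * Fintype.card V * (k : ℝ) ^ 2 * Λ) ∧
      (∀ g a, |W (g + Pi.single a 1) - W g| ≤ Λ) ∧
      (∀ g a b, |D2 W g (Pi.single a 1) (Pi.single b 1)| ≤ 2 * Λ / (k : ℝ) ^ 2) ∧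
      ∀ g (y : V → ℝ), -(100 * Λ * (Fintype.card V : ℝ) ^ 3 / (k : ℝ) ^ 3) * ∑ a, y a ^ 2 ≤
        ∑ a, ∑ b, y a * y b * D2 W g (Pi.single a 1) (Pi.single b 1)

/-- **DES2** (copy `R309/DES.lean`). Robust descent: `g ≤ g' ≤ 2 g`. With `q = g l^|d|`, `q' = g' l^|d|`:
`(η/2) ∑ q ≤ ∑_{d ≥ 1} q`, so `s = q 1/q 0 ≥ η/4`, `q(-d) ≤ q 0 (4 l²/η)^d`, `4l²/η ≤ η/144`;
loss `≤ 2 q 0 · η/(60 M)`, gain `≥ η/(2M) ∑ q'`, `q 0 ≤ ∑ q'`. -/
def Des2Stmt : Prop :=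
  ∀ (g g' : ℤ → ℝ) (D M : ℕ) (η l : ℝ), GLC g → 0 < g 0 → (∀ d, g d ≤ g' d ∧ g' d ≤ 2 * g d) →
    1 ≤ M → 0 < η → η ≤ 1 → 0 < l → l ≤ η / 24 →
    η * ∑ d ∈ Icc (-(D : ℤ)) D, g' d * l ^ d.natAbs ≤ ∑ d ∈ Icc (1 : ℤ) D, g' d * l ^ d.natAbs →
    ∑ d ∈ Icc (-(D : ℤ)) D, g' d * l ^ d.natAbs * (1 + 1 / (M : ℝ)) ^ (-d) ≤
      (1 - η / (4 * M)) * ∑ d ∈ Icc (-(D : ℤ)) D, g' d * l ^ d.natAbs

/-- **GRO**. Growth of a log-concave sequence: ratios decrease, so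
`(g(c+1)/g c)^(c-a) ≤ g c / g a ≤ B` and `g (c+j) ≤ g c · (g(c+1)/g c)^j`. -/
def GroStmt : Prop :=
  ∀ (g : ℤ → ℝ) (a c : ℤ) (L : ℝ) (j : ℕ), GLC g → a < c → 0 ≤ L → 0 < g a →
    g c ≤ Real.exp L * g a → 0 < g c → g (c + j) ≤ Real.exp (L * j / (c - a : ℤ)) * g c

/-- **LIM**. From `L`-functions to log-concave sequences: if for every `0 < ε ≤ 1` the sequence
`G ε` is positive and log-concave on `[lo, hi]` and `G ε d → g d` as `ε → 0⁺`, then `g` cut off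
outside `[lo, hi]` is `GLC` (first the global form for `G ε`, as in `MAR`, then the limit). -/
def LimStmt : Prop :=
  ∀ (G : ℝ → ℤ → ℝ) (g : ℤ → ℝ) (lo hi : ℤ),
    (∀ ε, 0 < ε → ε ≤ 1 → (∀ d, lo ≤ d → d ≤ hi → 0 < G ε d) ∧
      ∀ d, lo ≤ d → d + 2 ≤ hi → G ε d * G ε (d + 2) ≤ G ε (d + 1) ^ 2) →
    (∀ d, lo ≤ d → d ≤ hi → Filter.Tendsto (fun ε => G ε d) (nhdsWithin 0 (Set.Ioi 0)) (nhds (g d))) →
    GLC (fun d => if lo ≤ d ∧ d ≤ hi then g d else 0)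

/-- integer bases of a set function -/
def Bs {E : Type} [Fintype E] (f : Finset E → ℤ) (z : E → ℤ) : Prop :=
  ∑ e, z e = 0 ∧ ∀ A, ∑ e ∈ A, z e ≤ f A

/-- **FRK**. Frank's sandwich theorem: induction on the number of elements not yet fixed. To fix
`e` put `m_e = max_X (p (X+e) - b X)`; `p(X+e) + p Y ≤ p(X∪Y+e) + p(X∩Y) ≤ b(X∪Y+e) + b(X∩Y) ≤
b(Y+e) + b X`; replace `b X` by `min (b X) (b (X+e) - m_e)` and `p X` by
`max (p X) (p (X+e) - m_e)`. Here `b = f₀`, `p A = d(A) - f₁ A`. -/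
def FrkStmt : Prop :=
  ∀ (E : Type) [Fintype E] [DecidableEq E] (f₀ f₁ : Finset E → ℤ) (d : E → ℤ), Sub f₀ → Sub f₁ →
    f₀ ∅ = 0 → f₁ ∅ = 0 → f₀ univ = 0 → f₁ univ = 0 → ∑ e, d e = 0 →
    (∀ A, ∑ e ∈ A, d e ≤ f₀ A + f₁ A) → ∃ z, Bs f₀ z ∧ Bs f₁ (d - z)

/-- the number of pairs of bases with sum `d` -/
noncomputable def Zd {E : Type} [Fintype E] (f₀ f₁ : Finset E → ℤ) (d : E → ℤ) : ℕ :=
  Set.ncard {z : E → ℤ | Bs f₀ z ∧ Bs f₁ (d - z)}

/-- **ZLC** (uses POT, CLO, MRG, SMB, LIM, `MAR.rev_cs`). `Zd` is log-concave along exchange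
directions. Bases have entries in `[-M, M]` (`z e ≤ f {e}`, `-z e ≤ f (univ \ {e})`). Work on a
window `j ∈ [lo, hi]`, `J = hi - lo`, `M' = M + J + |…|` large. Variables `E × Bool`,
`α (e,b) = z_b e + M'`; `F_ε = ∏_b ε^(|α_b| + c_b univ - 2 prk c_b)` with `c_b U = f_b U + M' |U|`
(`q = ε²`, tilt `ε`) tends to the indicator of pairs of bases. `G_ε γ = Sm blocks γ F_ε` is `IsL`
(MRG) for the blocks `((e,false),(e,true), s e)`; take the bases `γ_j` with `j - lo` units at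
`(a,false)` and `hi - j` units at `(b,false)` and `s` such that the totals are `d_j e + 2M'`; the
splittings that are missed have `α (a,false) < J`, they are not bases. `MAR.rev_cs` and LIM. -/
def ZlcStmt : Prop :=
  ∀ (E : Type) [Fintype E] [DecidableEq E] (f₀ f₁ : Finset E → ℤ) (d : E → ℤ) (a b : E),
    Sub f₀ → Sub f₁ → f₀ ∅ = 0 → f₁ ∅ = 0 → f₀ univ = 0 → f₁ univ = 0 →
    GLC (fun j : ℤ => (Zd f₀ f₁ (d + Pi.single a j - Pi.single b j) : ℝ))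

theorem anchorA : True := by
  have := @cF.eq_1; have := @Cheap.eq_1; have := @tsum.eq_1; have := @DepOn.eq_1; have := @D2.eq_1
  have := @Sub.eq_1; have := @prk.eq_1; have := @Bs.eq_1; have := @Zd.eq_1
  trivial

end Crest.Agent.R302
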