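import Crest.Agent.R302.SfmB

/-!
Row 302: correctness of submodular function minimisation (`sfm_spec`, `sfm_fin`); the running
time is `opt_sfm`.
-/

set_option autoImplicit false

namespace Crest.Agent.R302

open Crest.Agent.PT Crest.Agent.QC Crest.Agent.R317 Finset

namespace Sfm

variable {n : ℕ} {f : Finset ℕ → ℤ} {D N : ℤ} {L : List Ent}

theorem Phi_nonneg : 0 ≤ Phi n L := by
  unfold Phi
  refine sum_nonneg (fun v _ => ?_)
  split_ifs
  · positivity
  · exact le_rfl

theorem Phi_le {B : ℤ} (hB : 0 ≤ B) (h : ∀ v < n, inW n L v → xv L v ≤ B) :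
    Phi n L ≤ n * B ^ 2 := by
  unfold Phi
  refine (sum_le_sum (g := fun _ => B ^ 2) (fun v hv => ?_)).trans (by simp)
  split_ifs with hW
  · exact pow_le_pow_left₀ (le_max_right _ _) (max_le (h v (mem_range.1 hv) hW) hB) 2
  · positivity

theorem eta_sq_le : eta n L ^ 2 ≤ Phi n L := by
  classical
  rcases maxTo_cases n (fun v => if inW n L v then xv L v else 0) with h | ⟨v, hv, h⟩
  · have : eta n L = 0 := h
    rw [this]; simpa using Phi_nonneg
  · have h' : eta n L = if inW n L v then xv L v else 0 := h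
    have h0 : 0 ≤ eta n L := eta_nonneg
    unfold Phi
    refine le_trans ?_ (single_le_sum (f := fun v => if inW n L v then (max (xv L v) 0) ^ 2 else 0)
      (fun v _ => by split_ifs; positivity; exact le_rfl) (mem_range.2 hv))
    split_ifs at h' ⊢
    · rw [max_eq_left (by omega), h']
    · rw [h']; simp

theorem Inv.xv_le {M : ℤ} (h : Inv n f D N L) (hM : ∀ S ⊆ range n, |f S| ≤ M) {v : ℕ}
    (hv : v < n) : xv L v ≤ D * (2 * M) := by
  rw [xv_eq, ← h.sum, ← sum_lam_mul]
  exact List.sum_le_sum (fun e he =>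
    mul_le_mul_of_nonneg_left ((h.gr e he).bound hM hv).2 (h.pos e he))

theorem step_spec {g : List Bool → ℤ} {m : ℕ} (hf : Sub n (gf g n))
    (hM : ∀ S ⊆ range n, |gf g n S| ≤ 2 ^ m) (h : Inv n (gf g n) (scale n m) N L)
    (ht : ¬ (n : ℤ) * eta n L < scale n m) :
    Inv n (gf g n) (scale n m) (step g n (scale n m) (N, L)).1 (step g n (scale n m) (N, L)).2 ∧
    ((Phi n (step g n (scale n m) (N, L)).2 ≤ Phi n L ∧
        Gam n (step g n (scale n m) (N, L)).2 + 1 ≤ Gam n L) ∨
      (2 * ((n : ℤ) + 1) * (4 * n + 4) ^ 2 * Phi n (step g n (scale n m) (N, L)).2 ≤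
          (2 * ((n : ℤ) + 1) * (4 * n + 4) ^ 2 - 1) * Phi n L ∧
        Gam n (step g n (scale n m) (N, L)).2 ≤ Gam n L + n * n)) := by
  have hp := par ht
  have hy := gr_greedy g (h.nkey_inj hp)
  have hperm := perm_rest hp.idx_lt
  have he := ent_mem hp.idx_lt
  have hM0 : (0 : ℤ) < 2 ^ m := by positivity
  have hst : step g n (scale n m) (N, L) = upd n (N, L) (greedy g n (nkey n (N, L))) := by
    unfold step; rw [if_neg ht]
  rw [hst]
  set y := greedy g n (nkey n (N, L)) with hydef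
  have hb0 : 0 ≤ beta n L y := maxTo_nonneg _ _
  have hdM := hp.dM
  have hrest : ∀ z ∈ rest n L, ∃ w ∈ L, z.2 = w.2 ∧ 0 ≤ lam z := fun z hz =>
    have hz' := hperm.symm.subset (List.mem_cons_of_mem _ hz)
    ⟨z, hz', rfl, h.pos z hz'⟩
  have hsum := (hperm.map lam).sum_eq
  have hxv : ∀ v, xv L v = lam (ent L (idx n L)) * yv (ent L (idx n L)) v + xv (rest n L) v := by
    intro v
    rw [xv_eq, xv_eq, (hperm.map _).sum_eq, List.map_cons, List.sum_cons]
  have hG : Gam n L = ∑ v ∈ range n, (n - lab (ent L (idx n L)) v) + Gam n (rest n L) := by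
    unfold Gam
    rw [(hperm.map _).sum_eq, List.map_cons, List.sum_cons]
  rw [h.sum, List.map_cons, List.sum_cons] at hsum
  have hl0 := h.pos _ he
  unfold upd
  simp only
  split_ifs with hc
  · obtain ⟨i1, i2⟩ := h.push hf hp hM0 hy hl0 hc
      (L' := (lam (ent L (idx n L)), nkey n (N, L), nlab n L, y) :: rest n L)
      (fun z hz => by
        rcases List.mem_cons.1 hz with rfl | hz
        · exact Or.inl rfl
        · exact Or.inr (hrest z hz))
      (by rw [List.map_cons, List.sum_cons, hsum]; rfl)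
      (fun v => by
        rw [hxv, xv_eq, xv_eq, List.map_cons, List.sum_cons]
        simp only [lam, yv]; ring)
    refine ⟨i1, Or.inl ⟨i2.trans ?_, ?_⟩⟩
    · have := mul_nonneg (show 0 ≤ del n L by omega) (mul_nonneg hl0 hb0)
      linarith
    · rw [hG]
      unfold Gam
      rw [List.map_cons, List.sum_cons]
      have : ∑ v ∈ range n, (n - (nlab n L).getD v 0) <
          ∑ v ∈ range n, (n - lab (ent L (idx n L)) v) := by
        refine sum_lt_sum (fun v hv => ?_) ?_
        · have := nlab_val (L := L) (mem_range.1 hv)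
          by_cases b : lab (ent L (idx n L)) v = ell n L ∧ mu n L < xv L v
          · rw [this.1 b]; omega
          · rw [this.2 b]
        · obtain ⟨v, hv, h1, h2⟩ := hp.ex
          refine ⟨v, mem_range.2 hv, ?_⟩
          have := hp.ell_lt
          rw [(nlab_val (L := L) hv).1 ⟨h2, h1⟩]; omega
      simp only [lab] at this ⊢
      omega
  · have hb : 0 < beta n L y := by
      rcases hb0.eq_or_lt with h' | h'
      · exfalso; apply hc; rw [← h']; omega
      · exact h'
    have hb4 : beta n L y ≤ 4 * 2 ^ m := by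
      rcases maxTo_cases n (fun v => max (y.getD v 0 - yv (ent L (idx n L)) v)
        (yv (ent L (idx n L)) v - y.getD v 0)) with h0 | ⟨v, hv, h0⟩
      · have : beta n L y = 0 := h0
        omega
      · have h0' : beta n L y = max (y.getD v 0 - yv (ent L (idx n L)) v)
          (yv (ent L (idx n L)) v - y.getD v 0) := h0
        have k1 := hy.bound hM hv
        have k2 := (h.gr _ he).bound hM hv
        omega
    have ha : pdiv (del n L) (beta n L y) = del n L / beta n L y := pdiv_eq (by omega) hb0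
    rw [ha]
    set a := del n L / beta n L y with hadef
    have a0 : 0 ≤ a := Int.ediv_nonneg (by omega) hb0
    have a1 : a * beta n L y ≤ del n L := Int.ediv_mul_le _ hb.ne'
    have a2 : del n L < (a + 1) * beta n L y := Int.lt_ediv_add_one_mul_self _ hb
    have a3 : a < lam (ent L (idx n L)) := Int.ediv_lt_of_lt_mul hb (not_le.1 hc)
    have a4 : 1 ≤ a := by
      by_contra h'
      have : a = 0 := by omega
      rw [this] at a2
      omega
    obtain ⟨i1, i2⟩ := h.push hf hp hM0 hy a0 a1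
      (L' := (a, nkey n (N, L), nlab n L, y) :: (lam (ent L (idx n L)) - a, (ent L (idx n L)).2) ::
        rest n L)
      (fun z hz => by
        rcases List.mem_cons.1 hz with rfl | hz
        · exact Or.inl rfl
        rcases List.mem_cons.1 hz with rfl | hz
        · exact Or.inr ⟨_, he, rfl, by show 0 ≤ _ - _; omega⟩
        · exact Or.inr (hrest z hz))
      (by
        rw [List.map_cons, List.sum_cons, List.map_cons, List.sum_cons, hsum]
        simp only [lam]; ring)
      (fun v => by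
        rw [hxv, xv_eq, xv_eq, List.map_cons, List.sum_cons, List.map_cons, List.sum_cons]
        simp only [lam, yv]; ring)
    refine ⟨i1, Or.inr ⟨?_, ?_⟩⟩
    · have b1 : Phi n L ≤ n * eta n L ^ 2 := Phi_le eta_nonneg (fun v hv hW => xv_le_eta hv hW)
      have hn : (0 : ℤ) ≤ n := by positivity
      have b2 : eta n L ≤ (4 * n + 4) * del n L := by
        have := hp.eta_lt
        nlinarith
      have b3 : eta n L ^ 2 ≤ ((4 * n + 4) * del n L) ^ 2 := pow_le_pow_left₀ eta_nonneg b2 2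
      have b4 : Phi n L ≤ ((n : ℤ) + 1) * (4 * n + 4) ^ 2 * del n L ^ 2 := by
        have := mul_le_mul_of_nonneg_left b3 hn
        nlinarith [sq_nonneg ((4 * (n : ℤ) + 4) * del n L)]
      have b5 : del n L ≤ 2 * (a * beta n L y) := by nlinarith
      have b6 : del n L ^ 2 ≤ 2 * (del n L * (a * beta n L y)) := by nlinarith
      have b7 : (0 : ℤ) ≤ ((n : ℤ) + 1) * (4 * n + 4) ^ 2 := by positivity
      have b8 := mul_le_mul_of_nonneg_left i2 b7
      have b9 := mul_le_mul_of_nonneg_left b6 b7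
      linarith
    · rw [hG]
      unfold Gam
      rw [List.map_cons, List.sum_cons, List.map_cons, List.sum_cons]
      have : ∑ v ∈ range n, (n - (nlab n L).getD v 0) ≤ n * n :=
        (sum_le_sum (g := fun _ => n) (fun v _ => Nat.sub_le _ _)).trans (by simp)
      simp only [lab] at this ⊢
      omega

theorem inv_init (g : List Bool → ℤ) (n : ℕ) {D : ℤ} (hD : 0 ≤ D) :
    Inv n (gf g n) D (init g n D).1 (init g n D).2 := by
  have hk : ∀ v < n, (mkL n (fun v => (v : ℤ))).getD v 0 = v := fun v hv => getD_mkL _ _ hv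
  have hl : ∀ v, (mkL n (fun _ => 0)).getD v 0 = 0 := fun v => by rw [getD_mkL']; simp
  unfold init
  refine ⟨?_, by simp [lam], ?_, ?_, ?_, ?_, ?_, ?_⟩
  · simp only [List.mem_singleton]; rintro e rfl; exact hD
  · simp only [List.mem_singleton]; rintro e rfl v hv
    simp only [key, hk v hv]; omega
  · simp only [List.mem_singleton]; rintro e rfl
    exact gr_greedy g (fun u hu v hv h => by rw [hk u hu, hk v hv] at h; omega)
  · simp only [List.mem_singleton]; rintro e rfl u hu v hv _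
    simp only [lab, hl]; exact le_rfl
  · simp only [List.mem_singleton]; rintro e rfl v hv
    simp only [lab, hl]; omega
  · simp only [List.mem_singleton]; rintro e rfl e' rfl v hv
    omega
  · simp only [List.mem_singleton]; rintro v hv _ e rfl
    simp only [lab, hl]

theorem two_mul_pow_le (d : ℕ) : 2 * (d : ℤ) ^ (d + 1) ≤ ((d : ℤ) + 1) ^ (d + 1) := by
  have h := pow_add_mul_le_add_pow (a := (d : ℤ)) (b := 1) (by positivity) (by positivity) (d + 1)
  simp only [Nat.add_sub_cancel, mul_one] at h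
  push_cast at h
  have : (0 : ℤ) ≤ (d : ℤ) ^ d := by positivity
  rw [pow_succ (d : ℤ) d] at h ⊢
  nlinarith

theorem pow_decay (d j k : ℕ) (hk : (d + 1) * j ≤ k) :
    2 ^ j * (d : ℤ) ^ k ≤ ((d : ℤ) + 1) ^ k := by
  obtain ⟨r, rfl⟩ := Nat.exists_eq_add_of_le hk
  rw [pow_add, pow_add, pow_mul, pow_mul, ← mul_assoc, ← mul_pow]
  exact mul_le_mul (pow_le_pow_left₀ (by positivity) (two_mul_pow_le d) j)
    (pow_le_pow_left₀ (by positivity) (by linarith) r) (by positivity) (by positivity)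

theorem final {g : List Bool → ℤ} {m : ℕ} (hf : Sub n (gf g n))
    (hM : ∀ S ⊆ range n, |gf g n S| ≤ 2 ^ m) :
    (∃ S ⊆ range n, sfm g n m = gf g n S) ∧ ∀ S ⊆ range n, sfm g n m ≤ gf g n S := by
  have hD : 0 < scale n m := by unfold scale; positivity
  set D := scale n m with hDdef
  obtain ⟨d, hd⟩ : ∃ d : ℕ, 2 * (n + 1) * (4 * n + 4) ^ 2 = d + 1 :=
    ⟨_, (Nat.sub_add_cancel (Nat.succ_le_of_lt (by positivity))).symm⟩
  have hd' : 2 * ((n : ℤ) + 1) * (4 * n + 4) ^ 2 = d + 1 := by exact_mod_cast hd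
  set s0 := init g n D with hs0
  have key : ∀ t, Inv n (gf g n) D ((step g n D)^[t] s0).1 ((step g n D)^[t] s0).2 ∧
      ((n : ℤ) * eta n ((step g n D)^[t] s0).2 < D ∨ ∃ k : ℕ,
        ((d : ℤ) + 1) ^ k * Phi n ((step g n D)^[t] s0).2 ≤ (d : ℤ) ^ k * Phi n s0.2 ∧
        Gam n ((step g n D)^[t] s0).2 + t ≤ n * n + (n * n + 1) * k) := by
    intro t
    induction t with
    | zero =>
      refine ⟨inv_init g n hD.le, Or.inr ⟨0, by simp, ?_⟩⟩
      simp only [Function.iterate_zero, id_eq, hs0, init, Gam, List.map_cons, List.map_nil,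
        List.sum_cons, List.sum_nil, add_zero, mul_zero]
      exact (sum_le_sum (g := fun _ => n) (fun v _ => Nat.sub_le _ _)).trans (by simp)
    | succ t ih =>
      rw [Function.iterate_succ_apply']
      generalize (step g n D)^[t] s0 = s at ih
      obtain ⟨N, L⟩ := s
      obtain ⟨h1, h2⟩ := ih
      by_cases ht : (n : ℤ) * eta n L < D
      · have : step g n D (N, L) = (N, L) := by unfold step; rw [if_pos ht]
        rw [this]
        exact ⟨h1, Or.inl ht⟩
      · obtain ⟨k, k1, k2⟩ := h2.resolve_left ht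
        obtain ⟨i1, i2⟩ := step_spec (N := N) (L := L) hf hM h1 ht
        refine ⟨i1, Or.inr ?_⟩
        simp only at k1 k2
        rcases i2 with ⟨j1, j2⟩ | ⟨j1, j2⟩
        · exact ⟨k, (mul_le_mul_of_nonneg_left j1 (by positivity)).trans k1, by
            rw [← hDdef] at j2; omega⟩
        · rw [hd', add_sub_cancel_right, ← hDdef] at j1
          refine ⟨k + 1, ?_, by rw [← hDdef] at j2; rw [Nat.mul_succ]; omega⟩
          have e1 := mul_le_mul_of_nonneg_left j1 (show (0 : ℤ) ≤ ((d : ℤ) + 1) ^ k by positivity)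
          have e2 := mul_le_mul_of_nonneg_left k1 (show (0 : ℤ) ≤ (d : ℤ) by positivity)
          rw [pow_succ, pow_succ]
          linarith
  obtain ⟨h1, h2⟩ := key (steps n m)
  have hs : sfm g n m = out n (((step g n D)^[steps n m] s0).1, ((step g n D)^[steps n m] s0).2) :=
    rfl
  rw [hs]
  refine h1.out_spec hf hD ?_
  by_contra ht
  obtain ⟨k, k1, k2⟩ := h2.resolve_left ht
  generalize ((step g n D)^[steps n m] s0).2 = L at *
  have hk : (d + 1) * (2 * m + 3 * n + 3) ≤ k := by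
    unfold steps at k2
    rw [hd] at k2
    have : (n * n + 1) * ((d + 1) * (2 * m + 3 * n + 3)) ≤ (n * n + 1) * k := by omega
    exact Nat.le_of_mul_le_mul_left this (by positivity)
  have p1 := pow_decay d _ k hk
  have p2 : Phi n s0.2 ≤ n * (D * (2 * 2 ^ m)) ^ 2 :=
    Phi_le (by positivity) (fun v hv _ => (inv_init g n hD.le).xv_le hM hv)
  have p3 : D ^ 2 ≤ (n : ℤ) ^ 2 * Phi n L := by
    have e1 : D ^ 2 ≤ ((n : ℤ) * eta n L) ^ 2 := pow_le_pow_left₀ hD.le (not_lt.1 ht) 2
    have e2 := mul_le_mul_of_nonneg_left (eta_sq_le (n := n) (L := L)) (sq_nonneg (n : ℤ))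
    rw [mul_pow] at e1
    linarith
  have p4 : (n : ℤ) ^ 3 < 2 ^ (3 * n + 1) := by
    have e1 : (n : ℤ) < 2 ^ n := by exact_mod_cast Nat.lt_two_pow_self
    have e2 : (n : ℤ) ^ 3 ≤ (2 ^ n) ^ 3 := pow_le_pow_left₀ (by positivity) e1.le 3
    have e3 : (2 : ℤ) ^ (3 * n + 1) = 2 * (2 ^ n) ^ 3 := by ring
    have e4 : (0 : ℤ) < (2 ^ n) ^ 3 := by positivity
    linarith
  have q0 : (0 : ℤ) < ((d : ℤ) + 1) ^ k := by positivity
  have q1 : ((d : ℤ) + 1) ^ k * D ^ 2 ≤ (n : ℤ) ^ 2 * ((d : ℤ) ^ k * (n * (D * (2 * 2 ^ m)) ^ 2)) := by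
    calc ((d : ℤ) + 1) ^ k * D ^ 2 ≤ ((d : ℤ) + 1) ^ k * ((n : ℤ) ^ 2 * Phi n L) :=
          mul_le_mul_of_nonneg_left p3 q0.le
      _ = (n : ℤ) ^ 2 * (((d : ℤ) + 1) ^ k * Phi n L) := by ring
      _ ≤ (n : ℤ) ^ 2 * ((d : ℤ) ^ k * Phi n s0.2) := mul_le_mul_of_nonneg_left k1 (by positivity)
      _ ≤ _ := by gcongr
  have q2 : 2 ^ (2 * m + 3 * n + 3) * (((d : ℤ) + 1) ^ k * D ^ 2) ≤
      (4 * (2 ^ m) ^ 2 * (n : ℤ) ^ 3) * (((d : ℤ) + 1) ^ k * D ^ 2) := by
    calc 2 ^ (2 * m + 3 * n + 3) * (((d : ℤ) + 1) ^ k * D ^ 2)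
        ≤ 2 ^ (2 * m + 3 * n + 3) *
          ((n : ℤ) ^ 2 * ((d : ℤ) ^ k * (n * (D * (2 * 2 ^ m)) ^ 2))) :=
          mul_le_mul_of_nonneg_left q1 (by positivity)
      _ = (4 * (2 ^ m) ^ 2 * (n : ℤ) ^ 3 * D ^ 2) * (2 ^ (2 * m + 3 * n + 3) * (d : ℤ) ^ k) := by ring
      _ ≤ (4 * (2 ^ m) ^ 2 * (n : ℤ) ^ 3 * D ^ 2) * ((d : ℤ) + 1) ^ k :=
          mul_le_mul_of_nonneg_left p1 (by positivity)
      _ = _ := by ring
  have q3 := le_of_mul_le_mul_right q2 (by positivity)
  have q4 : (2 : ℤ) ^ (2 * m + 3 * n + 3) = 4 * (2 ^ m) ^ 2 * 2 ^ (3 * n + 1) := by ring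
  have q5 : (0 : ℤ) < 4 * (2 ^ m) ^ 2 := by positivity
  rw [q4] at q3
  exact absurd (le_of_mul_le_mul_left q3 q5) (not_le.2 p4)

end Sfm

/-- The indicator list of a subset of `Fin n`. -/
def bitsOf {n : ℕ} (S : Finset (Fin n)) : List Bool := List.ofFn (fun j : Fin n => decide (j ∈ S))

/-- The subset of `Fin n` indicated by a list. -/
def setOfBits (n : ℕ) (l : List Bool) : Finset (Fin n) :=
  univ.filter (fun j : Fin n => l.getD j false = true)

@[simp] theorem setOfBits_bitsOf {n : ℕ} (S : Finset (Fin n)) : setOfBits n (bitsOf S) = S := by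
  ext j; simp only [setOfBits, bitsOf, mem_filter, mem_univ, true_and, getD_ofFn, decide_eq_true_eq]

/-- Correctness of the minimisation: if `g` reads the values of a normalised submodular function `F`
on subsets of `Fin n` bounded by `2 ^ m`, then `sfm g n m` is the minimum of `F`. -/
theorem sfm_spec {n m : ℕ} {g : List Bool → ℤ} (F : Finset (Fin n) → ℤ)
    (hg : ∀ S, g (bitsOf S) = F S) (h0 : F ∅ = 0)
    (hsub : ∀ A B, F (A ∪ B) + F (A ∩ B) ≤ F A + F B) (hM : ∀ S, |F S| ≤ 2 ^ m) :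
    (∃ S, sfm g n m = F S) ∧ ∀ S, sfm g n m ≤ F S := by
  let φ : Finset ℕ → Finset (Fin n) := fun S => univ.filter (fun j : Fin n => (j : ℕ) ∈ S)
  have hφ : ∀ S, Sfm.gf g n S = F (φ S) := by
    intro S
    rw [← hg]
    unfold Sfm.gf bitsOf
    congr 1
    exact mkL_eq_ofFn _ _ (fun i => by simp [φ])
  have hU : ∀ A B, φ (A ∪ B) = φ A ∪ φ B := fun A B => by ext j; simp [φ]
  have hI : ∀ A B, φ (A ∩ B) = φ A ∩ φ B := fun A B => by ext j; simp [φ]
  have hE : φ ∅ = ∅ := by ext j; simp [φ]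
  obtain ⟨⟨S, -, h1⟩, h2⟩ := Sfm.final (g := g) (n := n) (m := m)
    ⟨by rw [hφ, hE, h0], fun A B _ _ => by simp only [hφ, hU, hI]; exact hsub _ _⟩
    (fun S _ => by rw [hφ]; exact hM _)
  refine ⟨⟨φ S, by rw [h1, hφ]⟩, fun S => ?_⟩
  have := h2 (S.map Fin.valEmbedding) (fun x hx => by
    obtain ⟨j, -, rfl⟩ := mem_map.1 hx
    exact mem_range.2 j.2)
  rw [hφ] at this
  have e : φ (S.map Fin.valEmbedding) = S := by
    ext j; simp [φ, Fin.val_inj]
  rwa [e] at this

end Crest.Agent.R302
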