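import Crest.Agent.R302.SfmDefs

/-!
Row 302: the submodular minimisation routine runs in oracle polynomial time.
-/

set_option autoImplicit false

namespace Crest.Agent.R302

open Crest.Agent.PT Crest.Agent.QC Crest.Agent.R317

namespace Sfm

theorem ent_mem_or (L : List Ent) (i : ℕ) : ent L i ∈ L ∨ ent L i = (0, [], [], []) := by
  unfold ent
  by_cases h : i < L.length
  · left; simp [List.getD_eq_getElem?_getD, h]
  · right; simp [List.getD_eq_getElem?_getD, Nat.not_lt.1 h]

theorem mem_mkL {β : Type} {n : ℕ} {f : ℕ → β} {x : β} : x ∈ mkL n f ↔ ∃ i < n, f i = x := by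
  simp [mkL]

theorem getD_mkL' {β : Type} (n i : ℕ) (f : ℕ → β) (d : β) :
    (mkL n f).getD i d = if i < n then f i else d := by
  split_ifs with h
  · exact getD_mkL f d h
  · simp [List.getD_eq_getElem?_getD, Nat.not_lt.1 h]

theorem pdiv_nonneg (x y : ℤ) : 0 ≤ pdiv x y := Int.natCast_nonneg _

theorem maxTo_nonneg (n : ℕ) (f : ℕ → ℤ) : 0 ≤ maxTo n f := by rw [maxTo_eq]; positivity

/-- Size invariant of an entry. -/
def SzE (n : ℕ) (D N : ℤ) (B i : ℕ) (e : Ent) : Prop :=
  0 ≤ lam e ∧ lam e ≤ D ∧ (∀ v, 0 ≤ key e v ∧ key e v ≤ N) ∧ e.2.1.length ≤ n ∧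
    (∀ v, lab e v ≤ i) ∧ e.2.2.1.length ≤ n ∧ sz e.2.2.2 ≤ B

/-- Size invariant of a state. -/
def SzS (n : ℕ) (D : ℤ) (B i : ℕ) (s : St) : Prop :=
  0 ≤ s.1 ∧ s.1 ≤ n * 2 ^ i ∧ s.2.length ≤ i + 1 ∧ ∀ e ∈ s.2, SzE n D s.1 B i e

theorem SzE.mono {n : ℕ} {D N N' : ℤ} {B i i' : ℕ} {e : Ent} (h : SzE n D N B i e) (hN : N ≤ N')
    (hi : i ≤ i') : SzE n D N' B i' e := by
  obtain ⟨h1, h2, h3, h4, h5, h6, h7⟩ := h
  exact ⟨h1, h2, fun v => ⟨(h3 v).1, (h3 v).2.trans hN⟩, h4, fun v => (h5 v).trans hi, h6, h7⟩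

theorem SzS.entry {n : ℕ} {D : ℤ} {B i : ℕ} {s : St} (h : SzS n D B i s) (hD : 0 ≤ D) (j : ℕ) :
    SzE n D s.1 B i (ent s.2 j) := by
  rcases ent_mem_or s.2 j with h' | h'
  · exact h.2.2.2 _ h'
  · rw [h']
    exact ⟨le_rfl, hD, fun v => by simp [key, h.1], by simp, fun v => by simp [lab], by simp, by simp⟩

theorem sz_int_of_le {x : ℤ} {k : ℕ} (h0 : 0 ≤ x) (h : x < 2 ^ k) : sz x ≤ 3 * k + 1 := by
  refine (PT.sz_int_le _).trans ?_
  have : x.natAbs.size ≤ k := by
    rw [Nat.size_le]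
    zify
    rwa [abs_of_nonneg h0]
  omega

theorem nat_mul_lt (n i : ℕ) : (n : ℤ) * 2 ^ i < 2 ^ (n + i) := by
  rw [pow_add]
  have : (n : ℤ) < 2 ^ n := by exact_mod_cast Nat.lt_two_pow_self
  exact mul_lt_mul_of_pos_right this (by positivity)

theorem sz_keys {n i : ℕ} {k : List ℤ} (hl : k.length ≤ n)
    (h : ∀ v, 0 ≤ k.getD v 0 ∧ k.getD v 0 ≤ n * 2 ^ i) : sz k ≤ n * (2 * (3 * (n + i) + 1) + 1) := by
  refine (sz_list_le k (3 * (n + i) + 1) (fun x hx => ?_)).trans (Nat.mul_le_mul_right _ hl)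
  obtain ⟨j, hj, rfl⟩ := List.getElem_of_mem hx
  have := h j
  simp only [List.getD_eq_getElem?_getD, List.getElem?_eq_getElem hj, Option.getD_some] at this
  exact sz_int_of_le this.1 (this.2.trans_lt (nat_mul_lt n i))

theorem nkey_bound {n : ℕ} {D : ℤ} {B i : ℕ} {s : St} (h : SzS n D B i s) (hD : 0 ≤ D) (v : ℕ) :
    0 ≤ (nkey n s).getD v 0 ∧ (nkey n s).getD v 0 ≤ 2 * s.1 := by
  have h1 := (h.entry hD (idx n s.2)).2.2.1 v
  have h0 := h.1
  unfold nkey
  rw [getD_mkL']
  split_ifs <;> omega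

theorem SzS.push {n : ℕ} {D : ℤ} {B i : ℕ} {s : St} (h : SzS n D B i s) (hD : 0 ≤ D) {y : List ℤ}
    (hy : sz y ≤ B) : SzS n D B (i + 1) (upd n s y) := by
  have h0 := h.1
  have he := h.entry hD (idx n s.2)
  have hnew : ∀ l : ℤ, 0 ≤ l → l ≤ D → SzE n D (2 * s.1) B (i + 1) (l, nkey n s, nlab n s.2, y) := by
    intro l h1 h2
    refine ⟨h1, h2, fun v => nkey_bound h hD v, by simp [nkey], fun v => ?_, by simp [nlab], hy⟩
    have := he.2.2.2.2.1 v
    show (nlab n s.2).getD v 0 ≤ _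
    unfold nlab
    rw [getD_mkL']
    split_ifs <;> omega
  have hrest : ∀ e ∈ rest n s.2, SzE n D (2 * s.1) B (i + 1) e := by
    intro e he
    obtain ⟨j, -, rfl⟩ := mem_mkL.1 he
    split_ifs
    · exact (h.entry hD _).mono (by omega) (by omega)
    · exact (h.entry hD _).mono (by omega) (by omega)
  have hlen : (rest n s.2).length ≤ i := by
    have := h.2.2.1
    simp only [rest, length_mkL]; omega
  refine ⟨by show 0 ≤ 2 * s.1; omega, ?_, ?_, ?_⟩
  · show 2 * s.1 ≤ _
    have := h.2.1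
    rw [pow_succ]; linarith
  · unfold Sfm.upd
    simp only
    split_ifs <;> simp only [List.length_cons] <;> omega
  · unfold Sfm.upd
    simp only
    split_ifs with hc
    · intro e he'
      rcases List.mem_cons.1 he' with rfl | he'
      · exact hnew _ he.1 he.2.1
      · exact hrest e he'
    · have hb : 0 ≤ beta n s.2 y := maxTo_nonneg _ _
      have hd : 0 ≤ del n s.2 := pdiv_nonneg _ _
      have ha : pdiv (del n s.2) (beta n s.2 y) ≤ lam (ent s.2 (idx n s.2)) := by
        rw [pdiv_eq hd hb]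
        have hb' : 0 < beta n s.2 y := by
          rcases hb.eq_or_lt with h' | h'
          · exfalso; apply hc
            have : beta n s.2 y = 0 := h'.symm
            rw [this]; simpa using hd
          · exact h'
        exact (Int.ediv_lt_of_lt_mul hb' (not_le.1 hc)).le
      have ha0 := pdiv_nonneg (del n s.2) (beta n s.2 y)
      intro e he'
      rcases List.mem_cons.1 he' with rfl | he'
      · exact hnew _ ha0 (ha.trans he.2.1)
      rcases List.mem_cons.1 he' with rfl | he'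
      · have h3 := he.mono (show s.1 ≤ 2 * s.1 by omega) (Nat.le_succ i)
        have h1 := he.2.1
        exact ⟨by show 0 ≤ _ - _; omega, by show _ - _ ≤ D; omega, h3.2.2⟩
      · exact hrest e he'

theorem SzS.mono {n : ℕ} {D : ℤ} {B i : ℕ} {s : St} (h : SzS n D B i s) :
    SzS n D B (i + 1) s := by
  obtain ⟨h1, h2, h3, h4⟩ := h
  refine ⟨h1, h2.trans ?_, by omega, fun e he => (h4 e he).mono le_rfl (by omega)⟩
  rw [pow_succ]
  have : (0 : ℤ) ≤ n * 2 ^ i := by positivity
  linarith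

theorem SzS.sz_le {n : ℕ} {D : ℤ} {B i d : ℕ} {s : St} (h : SzS n D B i s) (hd : D < 2 ^ d) :
    sz s ≤ 2 * (3 * (n + i) + 1) + (i + 1) * (2 * (2 * (3 * d + 1) +
      (2 * (n * (2 * (3 * (n + i) + 1) + 1)) + (2 * (n * (2 * i + 1)) + B + 1) + 1) + 1) + 1) + 1 := by
  obtain ⟨N, L⟩ := s
  obtain ⟨h1, h2, h3, h4⟩ := h
  simp only at h1 h2 h3 h4
  have e1 : sz N ≤ 3 * (n + i) + 1 := sz_int_of_le h1 (h2.trans_lt (nat_mul_lt n i))
  have e2 := (sz_list_le L (2 * (3 * d + 1) +
      (2 * (n * (2 * (3 * (n + i) + 1) + 1)) + (2 * (n * (2 * i + 1)) + B + 1) + 1) + 1)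
    (fun e he => by
      obtain ⟨l, k, b, y⟩ := e
      obtain ⟨g1, g2, g3, g4, g5, g6, g7⟩ := h4 _ he
      have f1 : sz l ≤ 3 * d + 1 := sz_int_of_le g1 (g2.trans_lt hd)
      have f2 : sz k ≤ _ := sz_keys (i := i) g4 (fun v => ⟨(g3 v).1, (g3 v).2.trans h2⟩)
      have f3 : sz b ≤ n * (2 * i + 1) := by
        refine (sz_list_le b i (fun x hx => ?_)).trans (Nat.mul_le_mul_right _ g6)
        obtain ⟨j, hj, rfl⟩ := List.getElem_of_mem hx
        have := g5 j
        simpa [lab, List.getD_eq_getElem?_getD, hj] using this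
      simp only at g7
      simp only [sz_pair]
      omega)).trans (Nat.mul_le_mul_right _ h3)
  simp only [sz_pair]
  omega

theorem scale_lt (n m : ℕ) : scale n m < 2 ^ (2 * n + m + 5) := by
  unfold scale
  have h1 : ((n : ℤ) + 1) ≤ 2 ^ n := by exact_mod_cast Nat.lt_two_pow_self
  have h2 : ((n : ℤ) + 1) ^ 2 ≤ (2 ^ n) ^ 2 := pow_le_pow_left₀ (by positivity) h1 2
  have h3 : (2 : ℤ) ^ (2 * n + m + 5) = 32 * (2 ^ n) ^ 2 * 2 ^ m := by ring
  rw [h3]
  have h4 : (0 : ℤ) < 2 ^ m := by positivity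
  have h5 : (0 : ℤ) < (2 ^ n) ^ 2 := by positivity
  nlinarith

end Sfm

open Sfm in
/-- Submodular minimisation is an oracle polynomial-time computation. -/
theorem opt_sfm {α : Type} [Enc α] {g : Orc → α → List Bool → ℤ} {n m : α → ℕ}
    (hg : OPT (fun O (p : α × List Bool) => g O p.1 p.2)) (hn : PT n) (hm : PT m) :
    OPT (fun O a => sfm (g O a) (n a) (m a)) := by
  have hG := opt_greedy hg hn
  obtain ⟨B, hB, hB'⟩ := hG.pb
  obtain ⟨k, hk⟩ := hB.exists_mono
  have hT : PT (fun a => steps (n a) (m a)) := by fun_prop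
  have pn := hn.pbNat
  have pm := hm.pbNat
  have pT := hT.pbNat
  set T : α → ℕ := fun a => steps (n a) (m a) with hTdef
  let K : α → ℕ := fun a => n a * (2 * (3 * (n a + (T a + 1)) + 1) + 1)
  have pK : PB K := pn.mul ((((PB.const 2).mul (((PB.const 3).mul (pn.add (pT.add (PB.const 1)))).add
    (PB.const 1))).add (PB.const 1)))
  let C : α → ℕ := fun a => (2 * sz a + K a + 1 + 2) ^ k
  have pC : PB C := (((((PB.const 2).mul PB.size).add pK).add (PB.const 1)).add (PB.const 2)).pow k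
  have hgr : ∀ O a (l : List ℤ), sz l ≤ K a → sz (greedy (g O a) (n a) l) ≤ C a := by
    intro O a l hl
    exact (hB' O (a, l)).trans (hk _ _ (by simp only [sz_pair]; omega))
  have hD : ∀ a, 0 ≤ scale (n a) (m a) := fun a => by unfold scale; positivity
  have hinv : ∀ O a i, i ≤ T a → SzS (n a) (scale (n a) (m a)) (C a) i
      ((step (g O a) (n a) (scale (n a) (m a)))^[i] (init (g O a) (n a) (scale (n a) (m a)))) := by
    intro O a i
    induction i with
    | zero =>
      intro _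
      have hk0 : ∀ v, 0 ≤ (mkL (n a) (fun v => (v : ℤ))).getD v 0 ∧
          (mkL (n a) (fun v => (v : ℤ))).getD v 0 ≤ n a := by
        intro v
        rw [getD_mkL']
        split_ifs <;> omega
      refine ⟨by simp [init], by simp [init], by simp [init], fun e he => ?_⟩
      simp only [Function.iterate_zero, id_eq, init, List.mem_singleton] at he
      subst he
      refine ⟨hD a, le_rfl, hk0, by simp, fun v => ?_, by simp, hgr O a _ ?_⟩
      · show (mkL (n a) (fun _ => 0)).getD v 0 ≤ 0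
        rw [getD_mkL']; simp
      · refine sz_keys (by simp) (fun v => ⟨(hk0 v).1, (hk0 v).2.trans ?_⟩)
        exact le_mul_of_one_le_right (by positivity) (one_le_pow₀ (by norm_num))
    | succ i ih =>
      intro hi
      have ih := ih (by omega)
      rw [Function.iterate_succ_apply']
      unfold step
      split_ifs
      · exact ih.mono
      · refine ih.push (hD a) (hgr O a _ (sz_keys (by simp [nkey]) (fun v => ?_)))
        have h1 := nkey_bound ih (hD a) v
        refine ⟨h1.1, h1.2.trans ?_⟩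
        have h2 := ih.2.1
        have h3 : (n a : ℤ) * 2 ^ i ≤ n a * 2 ^ T a :=
          mul_le_mul_of_nonneg_left (pow_le_pow_right₀ (by norm_num) (by omega)) (by positivity)
        rw [pow_succ]
        linarith
  have hS : OPT (fun O (p : α × St) => step (g O p.1) (n p.1) (scale (n p.1) (m p.1)) p.2) := by
    unfold step
    refine OPT.ite (by fun_prop) (OPT.pt (by fun_prop)) ?_
    exact (hG.pre (f := fun p : α × St => (p.1, nkey (n p.1) p.2)) (by fun_prop)).post₂
      (g := fun (p : α × St) y => upd (n p.1) p.2 y) (by fun_prop)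
  have hZ : OPT (fun O a => init (g O a) (n a) (scale (n a) (m a))) := by
    unfold init
    exact (hG.pre (f := fun a : α => (a, mkL (n a) (fun v => (v : ℤ)))) (by fun_prop)).post₂
      (g := fun a y => (((n a : ℤ), [(scale (n a) (m a), mkL (n a) (fun v => (v : ℤ)),
        mkL (n a) (fun _ => 0), y)]) : St)) (by fun_prop)
  have hI := OPT.iter (S := fun O a => step (g O a) (n a) (scale (n a) (m a))) hT hZ hS
    (B := fun a => 2 * (3 * (n a + T a) + 1) + (T a + 1) * (2 * (2 * (3 * (2 * n a + m a + 5) + 1) +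
      (2 * (n a * (2 * (3 * (n a + T a) + 1) + 1)) + (2 * (n a * (2 * T a + 1)) + C a + 1) + 1) + 1)
        + 1) + 1) ?_ (fun O a i hi => ?_)
  · exact hI.post₂ (g := fun a s => out (n a) s) (by fun_prop)
  · have q1 : PB (fun a => 3 * (n a + T a) + 1) := ((PB.const 3).mul (pn.add pT)).add (PB.const 1)
    have q2 : PB (fun a => 3 * (2 * n a + m a + 5) + 1) :=
      ((PB.const 3).mul ((((PB.const 2).mul pn).add pm).add (PB.const 5))).add (PB.const 1)
    have q3 : PB (fun a => n a * (2 * (3 * (n a + T a) + 1) + 1)) :=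
      pn.mul (((PB.const 2).mul q1).add (PB.const 1))
    have q4 : PB (fun a => n a * (2 * T a + 1)) := pn.mul (((PB.const 2).mul pT).add (PB.const 1))
    exact (((PB.const 2).mul q1).add ((pT.add (PB.const 1)).mul (((PB.const 2).mul
      ((((PB.const 2).mul q2).add ((((PB.const 2).mul q3).add
        ((((PB.const 2).mul q4).add pC).add (PB.const 1))).add (PB.const 1))).add
          (PB.const 1))).add (PB.const 1)))).add (PB.const 1)
  · refine ((hinv O a i hi).sz_le (scale_lt _ _)).trans ?_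
    have hi' : i ≤ T a := hi
    gcongr

end Crest.Agent.R302
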