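import Crest.Agent.R302.DefsA
import Crest.Agent.R302.Sfm
import Crest.Agent.R302.SfmO
import Crest.Agent.R309.DefsC
import Crest.Prelude.Def_Polymatroid

/-!
Row 302, part B: preprocessing. The problem is normalised to a pair `f false, f true` of nonnegative
submodular functions vanishing on `∅` and `univ`; we count `z` with `z ∈ B(f false)`,
`-z ∈ B(f true)`, i.e. `Zd (f false) (f true) 0`.
-/

set_option autoImplicit false

namespace Crest.Agent.R302

open Finset Crest.Agent.PT Crest.Agent.QC Crest.Agent.R317 Crest.Agent.R300U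

/-! ### Parameters (powers of the size parameter `m ≥ 2000`; all are `< 2^m`) -/

def qt (m : ℕ) : ℕ := m ^ 81
def qT (m : ℕ) : ℕ := m ^ 136

/-- a normalised pair of set functions -/
structure Pair (n m : ℕ) (f : Bool → Finset (Fin n) → ℤ) : Prop where
  big : 2000 ≤ m
  le : n ≤ m
  sub : ∀ b, Sub (f b)
  nonneg : ∀ b A, 0 ≤ f b A
  bd : ∀ b A, f b A ≤ 2 ^ m
  empty : ∀ b, f b ∅ = 0
  full : ∀ b, f b univ = 0

/-- `fo` reads `f` on indicator lists -/
def Reads {n : ℕ} (fo : Bool → List Bool → ℤ) (f : Bool → Finset (Fin n) → ℤ) : Prop :=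
  ∀ b S, fo b (bitsOf S) = f b S

/-! ### Exchange capacities, components, scales -/

/-- exchange capacity from `a` to `a'` exceeds `θ` -/
def Arc {n : ℕ} (g : Finset (Fin n) → ℤ) (θ : ℤ) (a a' : Fin n) : Prop :=
  ∀ A, a ∈ A → a' ∉ A → θ < g A

/-- reachability in the digraph `D(θ)` -/
def Reach {n : ℕ} (f : Bool → Finset (Fin n) → ℤ) (θ : ℤ) : Fin n → Fin n → Prop :=
  Relation.ReflTransGen (fun a a' => Arc (f false) θ a a' ∨ Arc (f true) θ a a')

/-- entry of an integer matrix -/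
def gz (S : List (List ℤ)) (a a' : ℕ) : ℤ := (S.getD a []).getD a' 0

/-- capacity matrices -/
def CapSpec {n : ℕ} (f : Bool → Finset (Fin n) → ℤ) (c : Bool → ℕ → ℕ → ℤ) : Prop :=
  ∀ (b : Bool) (a a' : Fin n), a ≠ a' → ∀ θ : ℤ, θ < c b a a' ↔ Arc (f b) θ a a'

/-- scale matrices and component labels -/
structure ScSpec {n : ℕ} (f : Bool → Finset (Fin n) → ℤ) (t : ℤ) (s : Bool → ℕ → ℕ → ℤ)
    (cp : ℕ → ℕ) : Prop where
  sc : ∀ (b : Bool) (a a' : Fin n), a ≠ a' → ∀ θ : ℤ,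
    θ < s b a a' ↔ Arc (f b) θ a a' ∧ Reach f θ a' a
  lt : ∀ a : Fin n, cp a < n
  eq : ∀ a a' : Fin n, cp a = cp a' ↔ Reach f t a a' ∧ Reach f t a' a
  mono : ∀ a a' : Fin n, Reach f t a a' → cp a' ≤ cp a

/-- **CAP**. `c b a a' = min {f b A | a ∈ A, a' ∉ A}`: apply `sfm` (`sfm_spec`, `opt_sfm`, bit bound
`m + 1`) to `S ↦ f b ((S ∪ {a}) \ {a'}) - f b {a}`; `OPT.mkL` twice. -/
def CapStmt : Prop :=
  ∀ (α : Type) [Enc α] (fo : Orc → α → Bool → List Bool → ℤ) (n m : α → ℕ), PT n → PT m →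
    OPT (fun O (q : α × Bool × List Bool) => fo O q.1 q.2.1 q.2.2) →
    ∃ cm : Orc → α → List (List ℤ) × List (List ℤ), OPT cm ∧
      ∀ O x (f : Bool → Finset (Fin (n x)) → ℤ), Pair (n x) (m x) f → Reads (fo O x) f →
        CapSpec f (fun b => gz (if b then (cm O x).2 else (cm O x).1))

/-- **SCL**. `β₀ a a' = max (c false a a') (c true a a')`, `n` rounds of
`β a a' := max (β a a') (max_k min (β a k) (β₀ k a'))` over `k ≠ a, a'` (entries are `≥ 0` because
`f ≥ 0`, and every entry is an entry of `β₀`, or use the bound `∑` of all entries, for the size):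
for `a ≠ a'`, `θ < β a a' ↔ Reach θ a a'` (the sets reached in `k` steps increase strictly until
they are stable). `s b a a' = min (c b a a') (β a' a)`. With `R a = {a' | a' = a ∨ t < β a a'}`,
`key a = |R a| · n + min {a' ∈ R a | a ∈ R a'}`, `cp a = #{a' | key a' < key a}`. -/
def SclStmt : Prop :=
  ∃ sc : ℕ × ℤ × List (List ℤ) × List (List ℤ) → List (List ℤ) × List (List ℤ) × List ℕ, PT sc ∧
    ∀ (n : ℕ) (t : ℤ) (c₀ c₁ : List (List ℤ)) (f : Bool → Finset (Fin n) → ℤ), (∀ b A, 0 ≤ f b A) →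
      CapSpec f (fun b => gz (if b then c₁ else c₀)) →
      ScSpec f t (fun b => gz (if b then (sc (n, t, c₀, c₁)).2.1 else (sc (n, t, c₀, c₁)).1))
        (fun a => (sc (n, t, c₀, c₁)).2.2.getD a 0)

/-! ### The preprocessed data -/

/-- weighted edges -/
abbrev Eds : Type := List (ℕ × ℕ × ℤ)

/-- components, classes (two lists), forest, cycles, step exponents, edges (two lists) -/
abbrev Pre : Type := List ℕ × List ℕ × List ℕ × List Bool × List (List ℤ) × List ℕ × Eds × Eds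

def cp (P : Pre) (e : ℕ) : ℕ := P.1.getD e 0
def cl (P : Pre) (b : Bool) (e : ℕ) : ℕ := (if b then P.2.2.1 else P.2.1).getD e 0
def isF (P : Pre) (e : ℕ) : Bool := P.2.2.2.1.getD e false
def cyc (P : Pre) (e j : ℕ) : ℤ := gz P.2.2.2.2.1 e j
def he (P : Pre) (e : ℕ) : ℕ := P.2.2.2.2.2.1.getD e 0
def ed (P : Pre) (b : Bool) : Eds := if b then P.2.2.2.2.2.2.2 else P.2.2.2.2.2.2.1

/-- weight of the edges crossing the set indicated by `l` -/
def zetaL (E : Eds) (l : List Bool) : ℤ :=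
  ∑ i ∈ range E.length, if l.getD (E.getD i (0, 0, 0)).1 false = l.getD (E.getD i (0, 0, 0)).2.1 false
    then 0 else (E.getD i (0, 0, 0)).2.2

/-- the cut function of the merge tree -/
def zeta {n : ℕ} (P : Pre) (b : Bool) (A : Finset (Fin n)) : ℤ := zetaL (ed P b) (bitsOf A)

/-- the edge `ε` crosses `A` -/
def Cross {n : ℕ} (ε : ℕ × ℕ × ℤ) (A : Finset (Fin n)) : Prop :=
  (bitsOf A).getD ε.1 false ≠ (bitsOf A).getD ε.2.1 false

/-- the basis vector of `e`: a unit vector on the forest, a cycle otherwise -/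
def bv (P : Pre) (e j : ℕ) : ℤ := if isF P e = true then (if j = e then 1 else 0) else cyc P e j

/-- integer combinations of the basis vectors -/
def comb {n : ℕ} (P : Pre) (a : Fin n → ℤ) (j : Fin n) : ℤ := ∑ e : Fin n, a e * bv P e j

/-- the combinatorial specification of the merging process -/
structure KSpec (n : ℕ) (T : ℤ) (s : Bool → ℕ → ℕ → ℤ) (P : Pre) : Prop where
  lt : ∀ b, ∀ e < n, cl P b e < n
  len : ∀ b, (ed P b).length ≤ n
  edg : ∀ b, ∀ ε ∈ ed P b, ε.1 < n ∧ ε.2.1 < n ∧ ε.1 ≠ ε.2.1 ∧ ε.2.2 = s b ε.1 ε.2.1 ∧ T < ε.2.2 ∧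
    cl P b ε.1 = cl P b ε.2.1
  con : ∀ b (A : Finset (Fin n)) (a a' : Fin n), cl P b a = cl P b a' → a ∈ A → a' ∉ A →
    ∃ ε ∈ ed P b, Cross ε A
  cy1 : ∀ e j : Fin n, isF P e = false → |cyc P e j| ≤ 1
  cy2 : ∀ e : Fin n, isF P e = false → ∀ b (A : Finset (Fin n)), ∑ j ∈ A, cyc P e j ≠ 0 →
    ∃ ε ∈ ed P b, Cross ε A ∧ T * 2 ^ he P e ≤ ε.2.2
  cy3 : ∀ e : Fin n, isF P e = false → ∀ A : Finset (Fin n), (∀ b, ∀ ε ∈ ed P b, ¬ Cross ε A) →
    e ∈ A → ∀ j : Fin n, cyc P e j ≠ 0 → j ∈ A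
  cy4 : ∀ e : Fin n, isF P e = false → ∃ b, ∃ ε ∈ ed P b, T * 2 ^ he P e ≤ ε.2.2
  dual : ∀ e : Fin n, ∃ (X : Bool → Finset (Fin n)) (σ : ℤ), |σ| = 1 ∧
    (∀ (b : Bool) (a a' : Fin n), a ≠ a' →
      2 * T * (if isF P e = true then 1 else 2 ^ he P e) < s b a a' → (a ∈ X b ↔ a' ∈ X b)) ∧
    ∀ e' : Fin n, σ * (∑ j ∈ X false, bv P e' j - ∑ j ∈ X true, bv P e' j) = if e' = e then 1 else 0

/-- **KR** (big; may be split by its owner). Start with singleton classes, `F = everything`, no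
edges. Repeat `2n` times: among the triples `(b,a,a')` with `cl b a ≠ cl b a'` and `T < s b a a'`
take one with `w = s b a a'` maximal (none: stop). Search the bipartite multigraph `H` (nodes:
classes of both sides; edges: the elements of `F`, joining their two classes) from the node
`v = (b, cl b a)` in `2n` rounds, every reached node carrying a vector `Y` with entries in
`{0, ±1}`, supported on elements of `F` with both ends reached, whose class totals vanish except
at `v` and at that node (crossing `e` from its side-`b` node adds `+e`, from the other side `-e`;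
so at a reached node `v' ≠ v` of side `b` the totals are `+1` at `v`, `-1` at `v'`). If
`v' = (b, cl b a')` is reached, take `e` with `Y e ≠ 0`, remove it from `F`, `cyc e = Y e • Y`,
`he e = log₂ (w / T)` (so `T 2^he ≤ w < 2 T 2^he`). Merge the two classes (relabel `cl b a'` as
`cl b a`), add the edge `(a, a', w)`. Invariants: classes are connected by edges of weight `≥` the
current maximum `w`; all pairs of scale `> w` are merged; every `e ∈ F` has a certificate
`(X₀, X₁)` of class unions with `(X₀ ∆ X₁) ∩ F = {e}` (after a merge replace a certificate that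
separates `v, v'` by its symmetric difference with the reached set, resp. with the certificate of
the removed element, which separates `v, v'`); a removed element keeps the certificate it had;
earlier cycles have zero total on all current classes, later cycles are supported in the current
`F`. Each merge reduces the number of classes, so at the end no triple is left. The first
component of the output is the given list `c`. -/
def KrStmt : Prop :=
  ∃ kr : ℕ × ℤ × List (List ℤ) × List (List ℤ) × List ℕ → Pre, PT kr ∧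
    ∀ (n : ℕ) (T : ℤ) (s₀ s₁ : List (List ℤ)) (c : List ℕ), 1 ≤ T →
      (kr (n, T, s₀, s₁, c)).1 = c ∧
      KSpec n T (fun b => gz (if b then s₁ else s₀)) (kr (n, T, s₀, s₁, c))

/-- the elements of component `i` -/
def kap (n : ℕ) (P : Pre) (i : ℕ) : Finset (Fin n) := univ.filter (fun e => cp P e = i)
/-- the elements of the components before `i` -/
def low (n : ℕ) (P : Pre) (i : ℕ) : Finset (Fin n) := univ.filter (fun e => cp P e < i)

/-- the specification of the preprocessing -/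
structure Spec (n m : ℕ) (f : Bool → Finset (Fin n) → ℤ) (P : Pre) : Prop extends Pair n m f where
  cpl : ∀ e < n, cp P e < n
  clo : ∀ b i, f b (low n P i) ≤ m ^ 2 * qt m
  scc : ∀ (A : Finset (Fin n)) (a a' : Fin n), cp P a = cp P a' → a ∈ A → a' ∉ A →
    (qt m : ℤ) < f false A + f true A
  cll : ∀ b, ∀ e < n, cl P b e < n
  clc : ∀ b (a a' : Fin n), cl P b a = cl P b a' → cp P a = cp P a'
  len : ∀ b, (ed P b).length ≤ n
  edg : ∀ b, ∀ ε ∈ ed P b, ε.1 < n ∧ ε.2.1 < n ∧ 0 ≤ ε.2.2 ∧ ε.2.2 ≤ 2 ^ m ∧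
    cl P b ε.1 = cl P b ε.2.1
  spl : ∀ b (A : Finset (Fin n)) (a a' : Fin n), cl P b a = cl P b a' → a ∈ A → a' ∉ A →
    (qT m : ℤ) ≤ zeta P b A
  cy1 : ∀ e j : Fin n, isF P e = false → |cyc P e j| ≤ 1 ∧ (cyc P e j ≠ 0 → cp P j = cp P e) ∧
    he P e ≤ m
  cy2 : ∀ e : Fin n, isF P e = false → ∀ b (A : Finset (Fin n)), ∑ j ∈ A, cyc P e j ≠ 0 →
    (qT m : ℤ) * 2 ^ he P e ≤ zeta P b A
  inj : Function.Injective (comb (n := n) P)
  rng : ∀ z₀ z₁ : Fin n → ℤ, Bs (f false) z₀ → Bs (f true) z₁ → ∑ j, |z₀ j + z₁ j| ≤ qT m →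
    ∃ a : Fin n → ℤ, comb P a = z₀ ∧
      ∀ e : Fin n, |a e| ≤ m ^ 4 * qT m * (if isF P e = true then 1 else 2 ^ he P e)
  deep : ∃ z : Fin n → ℤ, Bs (f false) z ∧ Bs (f true) (-z) ∧ ∀ A : Finset (Fin n),
    zeta P false A ≤ m ^ 4 * (f false A - ∑ j ∈ A, z j) ∧
      zeta P true A ≤ m ^ 4 * (f true A + ∑ j ∈ A, z j)

/-- **CLS**. (1) A set `Y` closed under the arcs of `g ≥ 0` has `g Y ≤ n² θ`:
`Y = ⋃_{a ∈ Y} ⋂_{a' ∉ Y} A_{a a'}` with `g A_{a a'} ≤ θ`, and `g (A ∩ B), g (A ∪ B) ≤ g A + g B`.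
(2) Class totals: let `κ` run over the strong components of `D(θ)`, `C = {e reachable from κ} \ κ`;
`C` is closed for both functions and `C ∪ (X ∩ κ)` is closed for `f b`, so
`z_b(X ∩ κ) = z_b(C ∪ (X ∩ κ)) - z_b(C) ≤ n²θ + z_{¬b}(C) - d(C) ≤ 2n²θ + |d|₁`; sum over `κ`; the
lower bound is the upper bound for the complement. -/
def ClsStmt : Prop :=
  (∀ (n : ℕ) (g : Finset (Fin n) → ℤ) (θ : ℤ) (Y : Finset (Fin n)), Sub g → (∀ A, 0 ≤ g A) →
    g ∅ = 0 → g univ = 0 → 0 ≤ θ → (∀ a ∈ Y, ∀ a', Arc g θ a a' → a' ∈ Y) → g Y ≤ n ^ 2 * θ) ∧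
  ∀ (n m : ℕ) (f : Bool → Finset (Fin n) → ℤ) (θ : ℤ) (b : Bool) (X : Finset (Fin n))
    (z : Bool → Fin n → ℤ), Pair n m f → 0 ≤ θ → (∀ c, Bs (f c) (z c)) →
    (∀ a a', Arc (f b) θ a a' → Reach f θ a' a → (a ∈ X ↔ a' ∈ X)) →
    |∑ j ∈ X, z b j| ≤ n * (2 * n ^ 2 * θ + ∑ j, |z false j + z true j|)

/-- **DEEP**. A path `a' → a` in `D(θ)` with fewer than `n` arcs gives vectors `Y b` of total `0`
with `Y false + Y true = e_{a'} - e_a`, `Y b (A) ≤ n`, and `Y b (A) > 0 → θ < f b A`. For each edge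
`ε = (a,a',w)` of side `b` (use `θ = w - 1`) push `δ_ε = ⌊w/(8n²)⌋ ≥ w/(16n²)` along the cycle:
`z_c = ∑ δ_ε (Y_ε c + [c = b](e_a - e_a'))`, so `z_true = -z_false`, the positive terms of `z_c(A)`
add up to at most `f c A / 2`, and an edge entering `A` contributes `-δ_ε`. Hence
`f c A - z_c(A) ≥ δ_ε` for each edge of side `c` crossing `A`. -/
def DeepStmt : Prop :=
  ∀ (n m : ℕ) (f : Bool → Finset (Fin n) → ℤ) (P : Pre), Pair n m f → (∀ b, (ed P b).length ≤ n) →
    (∀ b, ∀ ε ∈ ed P b, ∃ a a' : Fin n, ε.1 = a ∧ ε.2.1 = a' ∧ (8 * n ^ 2 : ℤ) ≤ ε.2.2 ∧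
      Arc (f b) (ε.2.2 - 1) a a' ∧ Reach f (ε.2.2 - 1) a' a) →
    ∃ z : Fin n → ℤ, Bs (f false) z ∧ Bs (f true) (-z) ∧ ∀ A : Finset (Fin n),
      zeta P false A ≤ m ^ 4 * (f false A - ∑ j ∈ A, z j) ∧
        zeta P true A ≤ m ^ 4 * (f true A + ∑ j ∈ A, z j)

/-- **SPC** (uses CLS, DEEP). `KSpec.dual` is a left inverse of `comb`, so (square matrices,
`Matrix.mul_eq_one_comm`) `comb` is bijective; `|a e| ≤ |z₀(X false)| + |z₁(X true)| + |d|₁`.
Edge weights are `≤ f b {a} ≤ 2^m`, so `he ≤ m`; edges join elements of the same component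
(`Reach` is monotone in `θ`). -/
def SpcStmt : Prop :=
  ∀ (n m : ℕ) (f : Bool → Finset (Fin n) → ℤ) (s : Bool → ℕ → ℕ → ℤ) (P : Pre), Pair n m f →
    ScSpec f (qt m) s (cp P) → KSpec n (qT m) s P → Spec n m f P

/-- **PRE** (uses CAP, SCL, KR, SPC). -/
def PreStmt : Prop :=
  ∀ (α : Type) [Enc α] (fo : Orc → α → Bool → List Bool → ℤ) (n m : α → ℕ), PT n → PT m →
    OPT (fun O (q : α × Bool × List Bool) => fo O q.1 q.2.1 q.2.2) →
    ∃ pre : Orc → α → Pre, OPT pre ∧
      ∀ O x (f : Bool → Finset (Fin (n x)) → ℤ), Pair (n x) (m x) f → Reads (fo O x) f →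
        Spec (n x) (m x) f (pre O x)

/-! ### A common base -/

/-- **XS**. Frank's construction (see FRK) with `b = r false`, `p A = R - r true Aᶜ`, fixing the
elements `0, 1, …` in turn: with `x` known on `Fx = {j < e}`,
`x e = max_{X ⊆ {j > e}, Y, Y' ⊆ Fx} (p (X ∪ Y' ∪ {e}) - x(Y') - b (X ∪ Y) + x(Y))`, one call of
`sfm` on `2n` elements (first copy: `X ∪ Y`, second copy: `Y'`; normalise at `∅`; bit bound
`2m + 4`; clamp the entries to `[0, 2^m]` for the size bound). `ok` verifies the result with two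
more calls. -/
def XsStmt : Prop :=
  ∀ (α : Type) [Enc α] (ro : Orc → α → Bool → List Bool → ℤ) (n m : α → ℕ) (R : α → ℤ),
    PT n → PT m → PT R → OPT (fun O (q : α × Bool × List Bool) => ro O q.1 q.2.1 q.2.2) →
    ∃ xs : Orc → α → Bool × List ℤ, OPT xs ∧
      ∀ O x (r : Bool → Finset (Fin (n x)) → ℕ), n x ≤ m x → R x ≤ 2 ^ m x →
        (∀ b, Crest.Polymatroid.IsPolymatroidRank (r b) ∧ (r b univ : ℤ) = R x) →
        Reads (ro O x) (fun b A => (r b A : ℤ)) →
        ((xs O x).1 = true → ∑ j : Fin (n x), (xs O x).2.getD j 0 = R x ∧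
          ∀ b (A : Finset (Fin (n x))), ∑ j ∈ A, (xs O x).2.getD j 0 ≤ r b A) ∧
        ((xs O x).1 = false → Crest.Polymatroid.numCommonIntBases (R x).toNat (r false) (r true) = 0)

/-- the normalised pair attached to a common base -/
def nrm {n : ℕ} (r : Bool → Finset (Fin n) → ℕ) (x : Fin n → ℤ) (b : Bool) (A : Finset (Fin n)) : ℤ :=
  if b then (r true Aᶜ : ℤ) - ∑ j ∈ Aᶜ, x j else (r false A : ℤ) - ∑ j ∈ A, x j

/-- **NRM**. Bases of polymatroids are nonnegative (`x e = R - x(univ \ e) ≥ R - r(univ \ e)`);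
`y ↦ y - x` is a bijection from the common bases. -/
def NrmStmt : Prop :=
  ∀ (n m R : ℕ) (r : Bool → Finset (Fin n) → ℕ) (x : Fin n → ℤ), 2000 ≤ m → n ≤ m → R ≤ 2 ^ m →
    (∀ b, Crest.Polymatroid.IsPolymatroidRank (r b) ∧ r b univ = R) → ∑ j, x j = R →
    (∀ b (A : Finset (Fin n)), ∑ j ∈ A, x j ≤ r b A) →
    Pair n m (nrm r x) ∧
      Zd (nrm r x false) (nrm r x true) 0 = Crest.Polymatroid.numCommonIntBases R (r false) (r true)

/-- **ZS** (uses FRK, ZLC, GRO). Every `d'` with zero component totals and `|d'|₁ ≤ t` has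
`d'(A) ≤ f false A + f true A` (`scc`; for unions of components `d'(A) = 0`), so `1 ≤ Zd d'`
(the set is finite), and `Zd ≤ (2·2^m+1)^n ≤ exp(m³)`. Induction on `|d|₁`: pass from `d` to
`d - e_a + e_b` (`d a > 0 > d b`, same component); on the line through both points GRO (and its
mirror image) with a base point at distance `t/4` bounds the ratio by `exp(4 m³/t)`. -/
def ZsStmt : Prop :=
  ∀ (n m : ℕ) (f : Bool → Finset (Fin n) → ℤ) (P : Pre), Spec n m f P → ∀ d : Fin n → ℤ,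
    (∀ i, ∑ j ∈ kap n P i, d j = 0) → ∑ j, |d j| ≤ 2 * m ^ 76 →
    |(Zd (f false) (f true) d : ℝ) - Zd (f false) (f true) 0| ≤
      Zd (f false) (f true) 0 / (16 * m)

theorem anchorB : True := by
  have := @qt.eq_1; have := @qT.eq_1; have := @Reads.eq_1; have := @Arc.eq_1; have := @Reach.eq_1
  have := @gz.eq_1; have := @CapSpec.eq_1; have := @cp.eq_1; have := @cl.eq_1; have := @isF.eq_1
  have := @cyc.eq_1; have := @he.eq_1; have := @ed.eq_1; have := @zetaL.eq_1; have := @zeta.eq_1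
  have := @Cross.eq_1; have := @bv.eq_1; have := @comb.eq_1; have := @kap.eq_1; have := @low.eq_1
  have := @nrm.eq_1; have := @bitsOf.eq_1; have := @setOfBits.eq_1
  trivial

end Crest.Agent.R302
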