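import Crest.Agent.R309.DefsC
import Crest.Agent.R302.OPT

/-!
Row 302, part E: a generic annealed counter with oracle access (abstracted from `R309/DefsC`:
`KT, SAMP, EST, ANN, CNT, PT1, PT2`; copy those proofs).
-/

set_option autoImplicit false

namespace Crest.Agent.R302

open Finset Crest.Agent.PT Crest.Agent.QC Crest.Agent.R317 Crest.Agent.R300U Crest.Agent.R309

/-- A weighted model: weights `W s p x` at temperature `s` and tilt `p` (zero outside the state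
space), moves `mv i σ`, a final randomised test `acc x u` (`n` random bits), a start state, a size
parameter `n` and a bound `h` for the heights of the weights. -/
structure Mdl where
  W : ℕ → List ℤ → List ℤ → ℚ
  mv : ℕ → ℕ → List ℤ → List ℤ
  acc : List ℤ → ℕ → Bool
  x0 : List ℤ
  n : ℕ
  h : ℕ

/-- number of rounds of annealing and descent -/
def eTt (n : ℕ) : ℕ := n + (8 * n ^ 2 + 2) * (2 * n + 1) + 1
/-- Poincaré constant of the chain -/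
def eC (n : ℕ) : ℕ := 32 * n * (n + 1)
def eB1 (n : ℕ) : ℕ := n + n * eTt n
def eT (n A : ℕ) : ℕ := eC n * (eB1 n + 2 * A)
def eXi (n a : ℕ) : ℕ := 1024 * n * a * eTt n
def eN (n a : ℕ) : ℕ := 4 * eXi n a ^ 2 * (a + eTt n + 2)

namespace Mdl

variable (M : Mdl)

/-- admissible parameters -/
def Valid (s : ℕ) (p : List ℤ) : Prop := s ≤ M.n ∧ ∀ v, |p.getD v 0| ≤ eTt M.n

/-- partition function -/
def Z (Ω : Finset (List ℤ)) (s : ℕ) (p : List ℤ) : ℝ := ∑ x ∈ Ω, (M.W s p x : ℝ)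

def aB : ℕ := M.n.size
def b0 : ℕ := M.aB + 2
def b1 : ℕ := M.b0 + 2 * M.h

/-- proposal from `b0` random bits: index, laziness bit, sign bit -/
def prop (x : List ℤ) (u : ℕ) : List ℤ :=
  if fld u 0 M.aB < M.n ∧ fld u M.aB 1 = 1 then
    M.mv (un M.n (fld u 0 M.aB)) (un 1 (fld u (M.aB + 1) 1)) x
  else x

/-- one step of the chain, from `b1` random bits -/
def mstep (s : ℕ) (p : List ℤ) (x : List ℤ) (u : ℕ) : List ℤ :=
  if fld u M.b0 (2 * M.h) < accN (2 * M.h) (M.W s p x) (M.W s p (M.prop x (fld u 0 M.b0))) then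
    M.prop x (fld u 0 M.b0) else x

/-- run the chain -/
def samp (s : ℕ) (p : List ℤ) (T u : ℕ) : List ℤ := iterN M.b1 (M.mstep s p) M.x0 u T

/-- bits of one sample -/
def bS (a : ℕ) : ℕ := eT M.n (eXi M.n a) * M.b1
/-- bits of one coin -/
def bC (a : ℕ) : ℕ := M.bS a + eXi M.n a
/-- bits of one estimate -/
def bE (a : ℕ) : ℕ := eN M.n a * M.bC a
/-- bits of the whole preparation -/
def bP (a : ℕ) : ℕ := eTt M.n * M.bE a

/-- one sample at accuracy `a` -/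
def smp (a s : ℕ) (p : List ℤ) (u : ℕ) : List ℤ := M.samp s p (eT M.n (eXi M.n a)) u

/-- a coin of bias about `Z'/(2Z)` -/
def coin (a s : ℕ) (p : List ℤ) (s' : ℕ) (p' : List ℤ) (u : ℕ) : Prop :=
  fld u (M.bS a) (eXi M.n a) <
    ⌊2 ^ eXi M.n a * M.W s' p' (M.smp a s p u) / (2 * M.W s p (M.smp a s p u))⌋₊

/-- estimate of `Z'/Z` -/
noncomputable def est (a s : ℕ) (p : List ℤ) (s' : ℕ) (p' : List ℤ) (u : ℕ) : ℚ :=
  2 * (cnt (M.bC a) (eN M.n a) (M.coin a s p s' p') u : ℚ) / eN M.n a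

/-- estimate of the accepted fraction (`n ≤ eXi n a` bits for the test) -/
noncomputable def estA (a s : ℕ) (p : List ℤ) (u : ℕ) : ℚ :=
  (cnt (M.bC a) (eN M.n a) (fun v => M.acc (M.smp a s p v) (fld v (M.bS a) M.n) = true) u : ℚ) /
    eN M.n a

/-- the candidate tilt number `q` -/
def cand (p : List ℤ) (q : ℕ) : List ℤ := bump M.n p (q / 2) (if q % 2 = 0 then 1 else -1)

/-- one step of annealing or descent -/
noncomputable def astep (a : ℕ) (st : St) (u : ℕ) : St :=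
  if st.1 < M.n then
    (st.1 + 1, st.2.1, st.2.2.1 * M.est a st.1 st.2.1 (st.1 + 1) st.2.1 u, st.2.2.2)
  else if st.2.2.2 < 2 * M.n then
    (if M.est a st.1 st.2.1 st.1 (M.cand st.2.1 st.2.2.2) u ≤ 1 - 1 / (2 * M.n : ℚ) then
      (st.1, M.cand st.2.1 st.2.2.2,
        st.2.2.1 * M.est a st.1 st.2.1 st.1 (M.cand st.2.1 st.2.2.2) u, 0)
    else (st.1, st.2.1, st.2.2.1, st.2.2.2 + 1))
  else st

/-- annealing followed by descent -/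
noncomputable def prep (a u : ℕ) : St := iterN (M.bE a) (M.astep a) (0, [], 1, 0) u (eTt M.n)

/-- the counter -/
noncomputable def cntq (a u : ℕ) : ℚ :=
  (M.prep a (fld u 0 (M.bP a))).2.2.1 *
    M.estA a M.n (M.prep a (fld u 0 (M.bP a))).2.1 (fld u (M.bP a) (M.bE a))

/-- What the engine needs: `Ω` is the state space, `A` the accepted mass, `a` the accuracy. -/
structure Good (Ω : Finset (List ℤ)) (A : ℝ) (a : ℕ) : Prop where
  pos : 1 ≤ M.n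
  mem0 : M.x0 ∈ Ω
  zero : ∀ s p x, x ∉ Ω → M.W s p x = 0
  ht : ∀ s p, M.Valid s p → ∀ x ∈ Ω, 0 < M.W s p x ∧ (M.W s p x).num.toNat < 2 ^ M.h ∧
    (M.W s p x).den < 2 ^ M.h
  inv : ∀ i < M.n, ∀ σ < 2, ∀ x ∈ Ω, M.mv i (1 - σ) (M.mv i σ x) = x
  poi : ∀ s p, M.Valid s p → ∀ g : List ℤ → ℝ, Var Ω (fun x => (M.W s p x : ℝ)) g ≤
    M.n * ∑ i ∈ range M.n, ∑ x ∈ Ω,
      min (M.W s p x : ℝ) (M.W s p (M.mv i 1 x)) * (g (M.mv i 1 x) - g x) ^ 2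
  card : Ω.card ≤ 2 ^ M.n
  w0 : ∀ s p, M.W s p M.x0 = 1
  le1 : ∀ s, ∀ x ∈ Ω, M.W s [] x ≤ 1
  up : ∀ s p, M.Valid s p → ∀ x ∈ Ω, M.W s p x ≤ 2 ^ (M.n * eTt M.n)
  z0 : M.Z Ω 0 [] ≤ 1 + 1 / (32 * a)
  rs : ∀ s < M.n, ∀ x ∈ Ω, M.W s [] x ≤ M.W (s + 1) [] x ∧ M.W (s + 1) [] x ≤ 2 * M.W s [] x
  rp : ∀ p, M.Valid M.n p → ∀ v < M.n, ∀ δ : ℤ, |δ| ≤ 1 → |p.getD v 0 + δ| ≤ eTt M.n → ∀ x ∈ Ω,
    M.W M.n p x ≤ 2 * M.W M.n (bump M.n p v δ) x ∧ M.W M.n (bump M.n p v δ) x ≤ 2 * M.W M.n p x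
  mass : ∀ p, M.Valid M.n p →
    ∑ x ∈ Ω, (M.W M.n p x : ℝ) * Pb M.n (fun u => M.acc x u = true) = A
  dsc : ∀ p : List ℤ, (∀ v, |p.getD v 0| < eTt M.n) → (∀ v < M.n, ∀ δ : ℤ, δ = 1 ∨ δ = -1 →
    (1 - 1 / (M.n : ℝ)) * M.Z Ω M.n p < M.Z Ω M.n (bump M.n p v δ)) → M.Z Ω M.n p ≤ 8 * A

end Mdl

/-- **ESAMP** (as KT + KRA + SAMP; MIX, AV, ITR, `KT.acq_facts`, `KT.Av_accept`). The kernel on `Ω`:
`K x y = ∑_{i<n} ∑_{σ<2} [mv i σ x = y] acq (W x) (W y) / (4 · 2^aB)` for `y ≠ x` (a proposal of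
weight `0` is rejected: `accN = 0`); reversible by `inv`, lazy, `2^aB ≤ 2n+1`,
`∑∑ π K (f x - f y)² ≥ (∑_i ∑_x min(..)(..)²)/(8 · 2^aB)` (`σ = 1`, `min ≤ 2 w acq`);
`Z/π x0 ≤ 2^eB1`, `(1-1/C)^C ≤ 1/2`. -/
def ESampStmt : Prop :=
  ∀ (M : Mdl) (Ω : Finset (List ℤ)) (A : ℝ) (a : ℕ), M.Good Ω A a → ∀ s p, M.Valid s p →
    (∀ T u, M.samp s p T u ∈ Ω) ∧
    ∀ (B : ℕ) (φ : List ℤ → ℝ), (∀ l, |φ l| ≤ 1) →
      |(Kt M.b1 (M.mstep s p))^[eT M.n B] φ M.x0 -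
        (∑ x ∈ Ω, (M.W s p x : ℝ) * φ x) / M.Z Ω s p| ≤ (2 : ℝ)⁻¹ ^ B

/-- **EEST** (uses ESAMP; as EST). -/
def EEstStmt : Prop :=
  ∀ (M : Mdl) (Ω : Finset (List ℤ)) (A : ℝ) (a : ℕ), M.Good Ω A a → 1 ≤ a → ∀ s p, M.Valid s p →
    (∀ s' p', (∀ x ∈ Ω, 0 ≤ M.W s' p' x ∧ M.W s' p' x ≤ 2 * M.W s p x) →
      Pb (M.bE a) (fun u => 6 / (eXi M.n a : ℝ) <
        |(M.est a s p s' p' u : ℝ) - M.Z Ω s' p' / M.Z Ω s p|) ≤
        (2 : ℝ)⁻¹ ^ (a + 1) / (eTt M.n + 1)) ∧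
    (s = M.n → Pb (M.bE a) (fun u => 3 / (eXi M.n a : ℝ) <
        |(M.estA a s p u : ℝ) - A / M.Z Ω s p|) ≤ (2 : ℝ)⁻¹ ^ (a + 1))

/-- **EANN** (uses EEST; as ANN with `z = 1/n`). Initially `Ẑ = 1 ≤ Z ≤ 1 + 1/(32a)`; all ratios
`Z'/Z` are `≥ 1/2`; a move multiplies `Z` by at most `1 - z/4`; `1 ≤ Z`, `Z n [] ≤ 2^n`, so at most
`8 n²` moves. -/
def EAnnStmt : Prop :=
  ∀ (M : Mdl) (Ω : Finset (List ℤ)) (A : ℝ) (a : ℕ), M.Good Ω A a → 1 ≤ a →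
    (∀ u, (M.prep a u).1 = M.n ∧ M.Valid M.n (M.prep a u).2.1 ∧ 0 ≤ (M.prep a u).2.2.1) ∧
    ∀ c, M.bP a ≤ c → Pb c (fun u => ¬ (M.Z Ω M.n (M.prep a u).2.1 ≤ 8 * A ∧
      |((M.prep a u).2.2.1 : ℝ) - M.Z Ω M.n (M.prep a u).2.1| ≤
        M.Z Ω M.n (M.prep a u).2.1 / (8 * a))) ≤ (2 : ℝ)⁻¹ ^ (a + 1)

/-- **ECNT** (uses EEST, EANN; as CNT). `A ≤ Z ≤ 8A`. -/
def ECntStmt : Prop :=
  ∀ (M : Mdl) (Ω : Finset (List ℤ)) (A : ℝ) (a : ℕ), M.Good Ω A a → 1 ≤ a →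
    (∀ u, 0 ≤ M.cntq a u) ∧
    1 - (2 : ℝ)⁻¹ ^ a ≤ Pb (M.bP a + M.bE a) (fun u => |(M.cntq a u : ℝ) - A| ≤ A / (4 * a))

/-- **EOPT** (as PT1, PT2 with `OPT` for `PT`). For every oracle the chain state is `x0` or has
nonzero weight, so its size is bounded; `prep` grows by a bounded amount per step (`bump` has length
`n` and changes entries by at most one; `cnt ≤ eN`). -/
def EOptStmt : Prop :=
  ∀ (α : Type) [Enc α] (M : Orc → α → Mdl) (n h : α → ℕ) (B : α → ℕ), PT n → PT h → PB B →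
    (∀ O x, (M O x).n = n x ∧ (M O x).h = h x) →
    OPT (fun O (q : α × ℕ × List ℤ × List ℤ) => (M O q.1).W q.2.1 q.2.2.1 q.2.2.2) →
    OPT (fun O (q : α × ℕ × ℕ × List ℤ) => (M O q.1).mv q.2.1 q.2.2.1 q.2.2.2) →
    OPT (fun O (q : α × List ℤ × Bin) => (M O q.1).acc q.2.1 q.2.2.val) →
    OPT (fun O (x : α) => (M O x).x0) →
    (∀ O x s p y, (M O x).W s p y ≠ 0 → sz y ≤ B x) →
    OPT (fun O (q : α × ℕ × Bin) => (M O q.1).cntq q.2.1 q.2.2.val) ∧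
    ∃ c : α × ℕ → ℕ, PT c ∧ ∀ O x a, (M O x).bP a + (M O x).bE a = c (x, a)

/-- **SUB**. Substitution of an oracle computation for the oracle: run the controller of
`OPT.controller'` for `(sz x + 2)^k` rounds (`OPT.iter`/`natRec` on the table, answering each
question by `G`); the table is `proto` for the virtual oracle, whose entries have bounded size. -/
def SubStmt : Prop :=
  ∀ (α β : Type) [Enc α] [Enc β] (F : Orc → α → β) (G : Orc → α → Q → ℤ), OPT F →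
    OPT (fun O (p : α × Q) => G O p.1 p.2) →
    OPT (fun O x => F (fun q => (G O x q).toNat) x)

theorem anchorE : True := by
  have := @eTt.eq_1; have := @eC.eq_1; have := @eB1.eq_1; have := @eT.eq_1; have := @eXi.eq_1
  have := @eN.eq_1; have := @Mdl.Valid.eq_1; have := @Mdl.Z.eq_1; have := @Mdl.aB.eq_1
  have := @Mdl.b0.eq_1; have := @Mdl.b1.eq_1; have := @Mdl.prop.eq_1; have := @Mdl.mstep.eq_1
  have := @Mdl.samp.eq_1; have := @Mdl.bS.eq_1; have := @Mdl.bC.eq_1; have := @Mdl.bE.eq_1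
  have := @Mdl.bP.eq_1; have := @Mdl.smp.eq_1; have := @Mdl.coin.eq_1; have := @Mdl.est.eq_1
  have := @Mdl.estA.eq_1; have := @Mdl.cand.eq_1; have := @Mdl.astep.eq_1; have := @Mdl.prep.eq_1
  have := @Mdl.cntq.eq_1
  trivial

end Crest.Agent.R302
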