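import Crest.Agent.R302.DefsB
import Crest.Agent.R302.DefsE
import Crest.Agent.ORAM.MCDefs

/-!
Row 302, part C: the model. A state is a list `x` of length `2n`; `xv x e false` is the coefficient
of the basis vector of `e` (scaled by `2^he` off the forest) in the first view, `xv x e true` the
coefficient of the forest element `e` in the second view.
-/

set_option autoImplicit false

namespace Crest.Agent.R302

open Finset Crest.Agent.PT Crest.Agent.QC Crest.Agent.R317 Crest.Agent.R300U Crest.Agent.R309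

/-! ### Parameters -/

def qu (m : ℕ) : ℕ := m ^ 141
def qW (m : ℕ) : ℕ := m ^ 75
def qH (m : ℕ) : ℕ := m ^ 146
def qM (m : ℕ) : ℕ := m ^ 143
def qJ (m : ℕ) : ℕ := 4 * qM m * m.size
def qV (m : ℕ) : ℕ := m ^ 17
def qG (m : ℕ) : ℕ := m ^ 25
def qO (m : ℕ) : ℕ := m ^ 131
def qN (m : ℕ) : ℕ := m ^ 600
def qh (m : ℕ) : ℕ := m ^ 300 * (eTt (qN m) + 1)

/-! ### States -/

def xv (n : ℕ) (x : List ℤ) (e : ℕ) (b : Bool) : ℤ := x.getD (if b then n + e else e) 0

def sgn (b : Bool) : ℤ := if b then -1 else 1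

/-- the point seen by side `b` -/
def zv (n : ℕ) (P : Pre) (b : Bool) (x : List ℤ) (j : ℕ) : ℤ :=
  (if isF P j = true then xv n x j b else 0) +
    sgn b * ∑ e ∈ range n, if isF P e = true then 0 else 2 ^ he P e * xv n x e false * cyc P e j

/-- the mismatch at `j` -/
def dF (n : ℕ) (P : Pre) (x : List ℤ) (j : ℕ) : ℤ :=
  if isF P j = true then xv n x j false + xv n x j true else 0

/-- the mismatch of component `i` -/
def dc (n : ℕ) (P : Pre) (x : List ℤ) (i : ℕ) : ℤ :=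
  ∑ j ∈ range n, if cp P j = i then dF n P x j else 0

/-- forest elements that are not the first of their component -/
def nd (P : Pre) (j : ℕ) : Prop := isF P j = true ∧ Ex j (fun j' => isF P j' = true ∧ cp P j' = cp P j)

instance (P : Pre) (j : ℕ) : Decidable (nd P j) := by unfold nd Ex; infer_instance

/-- the box -/
def inB (n m : ℕ) (P : Pre) (x : List ℤ) : Prop :=
  x.length = 2 * n ∧ All n (fun e => |xv n x e false| ≤ qu m ∧
    |xv n x e true| ≤ if isF P e = true then (qu m : ℤ) else 0)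

instance (n m : ℕ) (P : Pre) (x : List ℤ) : Decidable (inB n m P x) := by
  unfold inB All; infer_instance

/-- the random offset -/
def off (n m : ℕ) (P : Pre) (u j : ℕ) : ℤ :=
  ∑ e ∈ range n, if isF P e = true then 0 else bz (fld u (e * m) (he P e)) * cyc P e j

/-- the weight, given the outcome `hb` of the hard tests and the wall levels `jv` -/
def wgt (n m : ℕ) (P : Pre) (hb : Bool) (jv : Bool → ℕ → ℕ) (s : ℕ) (p x : List ℤ) : ℚ :=
  if inB n m P x ∧ hb = true then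
    (∏ k ∈ range (2 * n),
      (1 + 1 / (qM m : ℚ)) ^ (-(((qJ m - s : ℕ) : ℤ) * |zcl (qu m) (x.getD k 0)|))) *
    (∏ i ∈ range n, ((m : ℚ) ^ 2) ^ (-|zcl (qM m) (dc n P x i)|) *
      (1 + 1 / (qM m : ℚ)) ^ (zcl (eTt (qN m)) (p.getD i 0) * zcl (qM m) (dc n P x i))) *
    (∏ j ∈ range n, if nd P j then
      (1 + 1 / (qH m : ℚ)) ^ (-(zcl (qM m) (dF n P x j) * zcl (qM m) (dF n P x j))) else 1) *
    ∏ i ∈ range n, (1 + 1 / (m : ℚ) ^ 4) ^ (-((jv false i + jv true i : ℕ) : ℤ))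
  else 0

/-- the moves: an exchange `j → j'`, or a unit step when `j = j'` -/
def mvm (n i σ : ℕ) (x : List ℤ) : List ℤ :=
  mkL (2 * n) (fun k => x.getD k 0 + (if σ = 1 then 1 else -1) *
    ((if k = i % (2 * n) then 1 else 0) - (if k = i / (2 * n) ∧ i / (2 * n) ≠ i % (2 * n) then 1 else 0)))

/-- the soft part of the final test -/
def accS (n m : ℕ) (P : Pre) (x : List ℤ) : Prop :=
  All n (fun i => dc n P x i = 0) ∧ All n (fun j => nd P j → |dF n P x j| ≤ qW m)

instance (n m : ℕ) (P : Pre) (x : List ℤ) : Decidable (accS n m P x) := by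
  unfold accS All; infer_instance

/-- the normalisation of the accepted mass -/
def fac (n m : ℕ) (P : Pre) : ℚ :=
  ∏ e ∈ range n, if isF P e = true then
    (if nd P e then 1 / ∑ j ∈ range (2 * qW m + 1),
      (1 + 1 / (qH m : ℚ)) ^ (-(((j : ℤ) - qW m) * ((j : ℤ) - qW m))) else 1)
    else 2 ^ he P e

/-! ### The mathematical model -/

section Math

variable (n m : ℕ) (f : Bool → Finset (Fin n) → ℤ) (P : Pre)

/-- the union of the classes with label in `L` -/
def cu (b : Bool) (L : Finset (Fin n)) : Finset (Fin n) :=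
  univ.filter (fun j => (bitsOf L).getD (cl P b j) false = true)

/-- the hard constraints -/
def HB (b : Bool) (x : List ℤ) : Prop :=
  ∑ j : Fin n, zv n P b x j = 0 ∧ ∀ L, ∑ j ∈ cu n P b L, zv n P b x j ≤ f b (cu n P b L)

/-- numerator of the violation of the wall `A ∩ κ_i`, relaxed by `ω` -/
def num (b : Bool) (i : ℕ) (ω : ℤ) (z : ℕ → ℤ) (A : Finset (Fin n)) : ℤ :=
  qT m * (∑ j ∈ A ∩ kap n P i, z j - f b (A ∩ kap n P i ∪ low n P i) - m ^ 2 * qt m) -
    ω * zeta P b (A ∩ kap n P i)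

/-- denominator -/
def den (b : Bool) (i : ℕ) (A : Finset (Fin n)) : ℤ :=
  qT m * (zeta P b (A ∩ kap n P i) + qT m * (A ∩ kap n P i).card)

/-- the gauge of the walls (`A = ∅` gives `0`) -/
noncomputable def rho (b : Bool) (i : ℕ) (ω : ℤ) (z : ℕ → ℤ) : ℝ :=
  (univ : Finset (Finset (Fin n))).sup' ⟨∅, mem_univ _⟩
    (fun A => (num n m f P b i ω z A : ℝ) / den n m P b i A)

open Classical in
/-- the wall level -/
noncomputable def jvm (x : List ℤ) (b : Bool) (i : ℕ) : ℕ :=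
  ∑ j ∈ range (qG m),
    if ∀ A, qV m * num n m f P b i (m ^ 2) (zv n P b x) A ≤ j * den n m P b i A then 0 else 1

open Classical in
/-- the model -/
noncomputable def mdlM : Mdl where
  W s p x := wgt n m P (decide (HB n f P false x ∧ HB n f P true x)) (jvm n m f P x) s p x
  mv := mvm n
  acc x u := decide (accS n m P x ∧
    ∀ b, Bs (f b) (fun j : Fin n => zv n P b x j + sgn b * off n m P u j))
  x0 := List.replicate (2 * n) 0
  n := qN m
  h := qh m

open Classical in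
/-- the state space -/
noncomputable def Om : Finset (List ℤ) :=
  ((Fintype.piFinset (fun _ : Fin (2 * n) => Icc (-(qu m : ℤ)) (qu m))).image List.ofFn).filter
    (fun x => inB n m P x ∧ HB n f P false x ∧ HB n f P true x)

/-- the accepted mass -/
noncomputable def amass : ℝ :=
  ∑ x ∈ Om n m f P, ((mdlM n m f P).W (qN m) [] x : ℝ) *
    Pb (qN m) (fun u => (mdlM n m f P).acc x u = true)

open Classical in
/-- the states without mismatch of the components -/
noncomputable def Sec : Finset (List ℤ) := (Om n m f P).filter (fun x => ∀ i < n, dc n P x i = 0)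

/-- the smooth part of the weight, with real wall levels and relaxations `m² + ω - qO` -/
noncomputable def psi0 (ω : Fin n × Bool → ℕ) (x : List ℤ) : ℝ :=
  (∏ j : Fin n, if nd P j then (1 + 1 / (qH m : ℝ)) ^ (-(dF n P x j * dF n P x j)) else 1) *
    ∏ c : Fin n × Bool, (1 + 1 / (m : ℝ) ^ 4) ^
      (-(qV m * rho n m f P c.2 c.1 (m ^ 2 + ω c - qO m) (zv n P c.2 x)))

/-- the partition function of the sector -/
noncomputable def fs (ω : Fin n × Bool → ℕ) : ℝ := ∑ x ∈ Sec n m f P, psi0 n m f P ω x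

/-- variables: two halves of each block, relaxations, slacks -/
abbrev VV : Type := ((Fin n × Bool) × Bool) ⊕ (Fin n × Bool) ⊕ Fin n

/-- half the range of a block -/
def hK (k : Fin n × Bool) : ℕ := if k.2 = true ∧ isF P k.1 = false then 0 else qu m

/-- the state of a grid point -/
def st (y : Fin n × Bool → ℕ) : List ℤ :=
  List.ofFn (fun e : Fin n => (y (e, false) : ℤ) - hK n m P (e, false)) ++
    List.ofFn (fun e : Fin n => (y (e, true) : ℤ) - hK n m P (e, true))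

/-- the multi-index of a grid point with extra variables -/
def emb (y : Fin n × Bool → ℕ) (ω : Fin n × Bool → ℕ) (z : Fin n → ℕ) : VV n → ℕ
  | .inl c => node (fun k => 2 * hK n m P k) y c
  | .inr (.inl c) => ω c
  | .inr (.inr i) => z i

/-- component of a variable that is counted in a total -/
def vc : VV n → Option ℕ
  | .inl c => if c.2 = true ∨ isF P c.1.1 = false then some (cp P c.1.1) else none
  | .inr (.inl c) => some c.1
  | .inr (.inr i) => some i

/-- the variables of component `i` -/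
def SS (i : ℕ) : Finset (VV n) := univ.filter (fun v => vc n P v = some i)

/-- slot of a variable for the hard constraints of side `b` -/
def slot (b : Bool) : VV n → Option (Fin n)
  | .inl c => if c.2 = false ∧ c.1.2 = b ∧ isF P c.1.1 = true then
      (if h : cl P b c.1.1 < n then some ⟨cl P b c.1.1, h⟩ else none) else none
  | .inr _ => none

/-- capacities for the hard constraints -/
def cc (b : Bool) (L : Finset (Fin n)) : ℤ :=
  f b (cu n P b L) + qu m * ((cu n P b L).filter (fun j : Fin n => isF P j = true)).card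

/-- the defect -/
noncomputable def dfc (α : VV n → ℕ) : ℤ :=
  ∑ b : Bool, ((∑ v, if (slot n P b v).isSome then (α v : ℤ) else 0) + cc n m f P b univ -
    2 * prk (cc n m f P b) (slot n P b) α)

/-- the family of `L`-functions -/
noncomputable def FL (Ψ : (VV n → ℕ) → ℝ) (ε : ℝ) (χ : Fin n → ℤ → ℝ) (o : Fin n → ℤ)
    (χ' : Fin n × Bool → ℤ → ℝ) (α : VV n → ℕ) : ℝ :=
  ε ^ dfc n m f P α * Ψ α * (∏ i : Fin n, χ i ((∑ v ∈ SS n P i, (α v : ℤ)) - o i)) *
    ∏ k : Fin n × Bool, χ' k ((α (.inl (k, false)) : ℤ) - hK n m P k)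

end Math

/-- **REP**. Bookkeeping. `st` is a bijection from the grid to the box. Cycles have zero total on
class unions (`cy2`: `zeta` vanishes there by `edg`), so `HB b` only concerns the forest
coordinates: `∑_{v in slots of L} α v ≤ cc L` for all `L` and equality for `univ`; with
`ρ = prk`: `ρ ≤ |α|` (`L = ∅`), `ρ ≤ cc univ`. -/
def RepStmt : Prop :=
  ∀ (n m : ℕ) (f : Bool → Finset (Fin n) → ℤ) (P : Pre), Spec n m f P →
    (∀ y ∈ box (fun k => 2 * hK n m P k), inB n m P (st n m P y) ∧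
      ∀ k : Fin n × Bool, xv n (st n m P y) k.1 k.2 = (y k : ℤ) - hK n m P k) ∧
    (∀ x, inB n m P x → ∃ y ∈ box (fun k => 2 * hK n m P k), st n m P y = x) ∧
    Function.Injective (st n m P) ∧
    (∀ x, x ∈ Om n m f P ↔ inB n m P x ∧ HB n f P false x ∧ HB n f P true x) ∧
    (∀ (G : List ℤ → ℝ), ∑ x ∈ Om n m f P, G x = ∑ y ∈ box (fun k => 2 * hK n m P k),
      @ite _ (st n m P y ∈ Om n m f P) (Classical.dec _) (G (st n m P y)) 0) ∧
    (∀ α, 0 ≤ dfc n m f P α) ∧
    (∀ α k, dfc n m f P (α + ev (.inl (k, true))) = dfc n m f P α) ∧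
    (∀ b, Sub (cc n m f P b)) ∧
    (∀ y ∈ box (fun k => 2 * hK n m P k), ∀ ω z,
      (dfc n m f P (emb n m P y ω z) = 0 ↔ st n m P y ∈ Om n m f P) ∧
      ∀ i : Fin n, (∑ v ∈ SS n P i, (emb n m P y ω z v : ℤ)) =
        2 * qu m * (kap n P i).card - dc n P (st n m P y) i + ω (i, false) + ω (i, true) + z i) ∧
    (∀ x, inB n m P x → (∀ i, |dc n P x i| ≤ 2 * m * qu m) ∧ (∀ j, |dF n P x j| ≤ 2 * qu m) ∧
      (∀ j < n, zv n P false x j + zv n P true x j = dF n P x j)) ∧
    ∀ b (L : Finset (Fin n)), zeta P b (cu n P b L) = 0 ∧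
      ∀ e : Fin n, isF P e = false → ∑ j ∈ cu n P b L, cyc P e j = 0

/-- **RHO** (uses REP). Properties of the gauge. `zeta ≥ 0`, `den ≥ T² |A ∩ κ|`,
`den ≥ T zeta`. (1) nonnegative, antitone in `ω`, only depends on `z` on `κ_i`; (2) midpoint
convex in `(ω, z)` (a maximum of affine functions); (3) Lipschitz: one unit of `ω` or of `z j`
changes it by `≤ 1/T`, a step `2^he • cyc e` by `≤ n/T` (`cy1`, `cy2`); (4) on the box it is at most
`2 m⁷` (compare with `z = 0`, where it vanishes for `ω ≥ 0`), so the level is its rounding;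
(5) in the sector, `|z_b(low i)| ≤ m² t` (`HB` for both sides: `low i` is a class union, `clo`,
`dc = 0`), so class unions have `num ≤ 0`, and the other sets have `den ≤ T (n+1) zeta` (`spl`). -/
def RhoStmt : Prop :=
  ∀ (n m : ℕ) (f : Bool → Finset (Fin n) → ℤ) (P : Pre), Spec n m f P → ∀ (b : Bool) (i : ℕ),
    (∀ ω z, 0 ≤ rho n m f P b i ω z) ∧
    (∀ ω ω' z, ω ≤ ω' → rho n m f P b i ω' z ≤ rho n m f P b i ω z) ∧
    (∀ ω (z z' : ℕ → ℤ), (∀ j < n, cp P j = i → z j = z' j) →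
      rho n m f P b i ω z = rho n m f P b i ω z') ∧
    (∀ ω δ (z w : ℕ → ℤ), 2 * rho n m f P b i ω z ≤
      rho n m f P b i (ω + δ) (z + w) + rho n m f P b i (ω - δ) (z - w)) ∧
    (∀ ω z, |rho n m f P b i (ω + 1) z - rho n m f P b i ω z| ≤ 1 / qT m) ∧
    (∀ ω z (j : ℕ) (σ : ℤ), |σ| ≤ 1 →
      |rho n m f P b i ω (z + Pi.single j σ) - rho n m f P b i ω z| ≤ 1 / qT m) ∧
    (∀ ω z (e : Fin n) (σ : ℤ), |σ| ≤ 1 → isF P e = false →
      |rho n m f P b i ω (fun j => z j + σ * (2 ^ he P e * cyc P e j)) - rho n m f P b i ω z| ≤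
        m / qT m) ∧
    (∀ x, inB n m P x → qV m * rho n m f P b i (m ^ 2) (zv n P b x) ≤ jvm n m f P x b i ∧
      (jvm n m f P x b i : ℝ) ≤ qV m * rho n m f P b i (m ^ 2) (zv n P b x) + 1 ∧
      (rho n m f P b i (m ^ 2) (zv n P b x) = 0 → jvm n m f P x b i = 0)) ∧
    (∀ x ∈ Sec n m f P, |∑ j ∈ low n P i, zv n P b x j| ≤ m ^ 2 * qt m ∧ ∀ ω (Δ : ℕ),
      rho n m f P b i (ω + Δ) (zv n P b x) ≤
        max 0 (rho n m f P b i ω (zv n P b x) - Δ / (qT m * (n + 1))))

/-- **LAP** (uses REP, RHO, POT, CLO, SML, SMT). For each component `i` let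
`Φ_i g = log(1+1/m⁴) qV ∑_b rho b i (m² + g(ω(i,b)) - qO) (z_b g)` on `VV → ℤ`, where
`z_b g j = [isF j] (u - g((j,b),true)) + sgn b ∑_{e ∉ F} 2^he (u - g((e,false),true)) cyc e j`:
midpoint convex, `Λ = 2 m^14/T`-Lipschitz, depends on `SS i` only. Smooth it with SMT on the
subtype (or all of `VV`, `card ≤ 7m`; averaging keeps `DepOn`: use CLO (5) for the subtype of
`SS i`), `k = m^58`. `U_i α = W_i α + log(1+1/qH) ∑_{nd j, cp j = i} (2u - α((j,false),true) -
α((j,true),true))² + λ ∑_{v ∈ SS i, v not a slack} α v ²` with `λ = m^(-288)`; the slack variable is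
not seen by `U_i` (apply SML without it). `Ψ = ∏_i exp(λ-correction) exp(-U_i)`: errors
`2 card k² Λ ≤ 28 m^(-5)` and `λ · 7m · (2u)² ≤ 28 m^(-5)` per component. SML: `δ = 3 m^(-146)`,
`μ = λ`. The Potts factor is `ε^(|α|+c) (ε²)^(-prk)`. -/
def LapStmt : Prop :=
  ∀ (n m : ℕ) (f : Bool → Finset (Fin n) → ℤ) (P : Pre), Spec n m f P →
    ∃ Ψ : (VV n → ℕ) → ℝ, (∀ α, 0 < Ψ α) ∧
      (∀ ε χ o χ', 0 < ε → ε ≤ 1 → (∀ i, LC (χ i)) → (∀ k, LC (χ' k)) →
        IsL (FL n m f P Ψ ε χ o χ')) ∧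
      (∀ y ∈ box (fun k => 2 * hK n m P k), ∀ ω z, (∀ c, ω c ≤ qT m) →
        Real.exp (-(1 / (m : ℝ) ^ 2)) * psi0 n m f P ω (st n m P y) ≤ Ψ (emb n m P y ω z) ∧
        Ψ (emb n m P y ω z) ≤ Real.exp (1 / (m : ℝ) ^ 2) * psi0 n m f P ω (st n m P y)) ∧
      ∀ k, Cheap Ψ 2 (qM m) (.inl (k, true))

/-- **WF** (uses REP, RHO). The weight on the state space, without clamps; `psi0` at `ω = qO`
approximates the last two factors. -/
def WfStmt : Prop :=
  ∀ (n m : ℕ) (f : Bool → Finset (Fin n) → ℤ) (P : Pre), Spec n m f P →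
    ∀ s p, (mdlM n m f P).Valid s p → ∀ x ∈ Om n m f P, ∃ c : ℝ,
      Real.exp (-(2 / (m : ℝ) ^ 3)) ≤ c ∧ c ≤ 1 ∧ ((mdlM n m f P).W s p x : ℝ) =
        c * psi0 n m f P (fun _ => qO m) x *
          (∏ k : Fin n × Bool, (1 + 1 / (qM m : ℝ)) ^ (-(((qJ m - s : ℕ) : ℤ) * |xv n x k.1 k.2|))) *
          ∏ i : Fin n, ((m : ℝ) ^ 2) ^ (-|dc n P x i|) *
            (1 + 1 / (qM m : ℝ)) ^ (p.getD i 0 * dc n P x i)

/-- **POI** (uses REP, RHO, LAP, WF, BUP2, CLO (4)). `π_ε y = FL Ψ ε χ o χ' (emb y qO 0)` with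
`χ i t = (m²)^(-|t|)`, `o i = 2u|κ_i| + 2 qO`, `χ' (e,b) t = ξ^|t| λ^(p (cp e) t)` on the forest,
`ξ^|t|` otherwise (`ξ = (1+1/qM)^(-(qJ-s)) ≥ 3^(-4 size m) ≥ m^(-9)`, `λ = 1+1/qM`); the halves
`(k,true)` are cheap with `Λ = 2m²` (restrict to the block variables; degrees shift by `2n qO`).
Extend `g`: `ĝ y = g (st y)` on `Om`; otherwise, if some `y + e_k` is in the grid and in `Om`, the
value at such a neighbour of maximal weight `W`; else `0`. BUP2, then `ε → 0`: only edges whose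
upper end `s` is in `Om` survive, and the weights are within a factor `2` of `W`. For a forest
coordinate `k` the lower end is not in `Om` (the total of the view is `-1`), so the term is
`W s (g s - g s*)² = min (W s) (W s*) (…)²` with `s* = mvm n (k·2n + k*) 1 s` (or `s* = s`); for
another coordinate the lower end `s'` is in `Om`, `s = mvm n (k·2n+k) 1 s'` and
`W s ≤ 8 m⁹ min (W s) (W s')`. -/
def PoiStmt : Prop :=
  ∀ (n m : ℕ) (f : Bool → Finset (Fin n) → ℤ) (P : Pre), Spec n m f P →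
    ∀ s p, (mdlM n m f P).Valid s p → ∀ g : List ℤ → ℝ,
      Var (Om n m f P) (fun x => ((mdlM n m f P).W s p x : ℝ)) g ≤
        qN m * ∑ i ∈ range (qN m), ∑ x ∈ Om n m f P,
          min ((mdlM n m f P).W s p x : ℝ) ((mdlM n m f P).W s p (mvm n i 1 x)) *
            (g (mvm n i 1 x) - g x) ^ 2

/-- **MG1** (uses REP, LAP, WF, MRG, SMB, LIM; as MAR). Take `χ i = ε^|·|` for the given `i`, vary
the slack `z i` in a window; `G γ = Sm blocks γ FL` is `IsL`, so `G(γ+2v) G γ ≤ G(γ+v)²` (SCH with a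
unit vector); the limit is the marginal of `dc i`; rescale by `exp(-2/m²)`. -/
def Mg1Stmt : Prop :=
  ∀ (n m : ℕ) (f : Bool → Finset (Fin n) → ℤ) (P : Pre), Spec n m f P →
    ∀ p, (mdlM n m f P).Valid (qN m) p → ∀ i < n, ∃ g : ℤ → ℝ, GLC g ∧ 0 < g 0 ∧ ∀ d : ℤ,
      g d ≤ (∑ x ∈ (Om n m f P).filter (fun x => dc n P x i = d),
        ((mdlM n m f P).W (qN m) p x : ℝ)) * ((m : ℝ) ^ 2) ^ d.natAbs ∧
      (∑ x ∈ (Om n m f P).filter (fun x => dc n P x i = d),
        ((mdlM n m f P).W (qN m) p x : ℝ)) * ((m : ℝ) ^ 2) ^ d.natAbs ≤ 2 * g d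

/-- **SEC** (uses REP, WF, MG1, DES2; as the root case of `R309/ACC`). `η = 1/(16m)`, `l = 1/m²`,
`M = qM`, `D = 2 m u`; `Z (bump p i (-1)) = ∑ g' d l^|d| (1+1/M)^(-d)`; mirror image for `+1`. -/
def SecStmt : Prop :=
  ∀ (n m : ℕ) (f : Bool → Finset (Fin n) → ℤ) (P : Pre), Spec n m f P →
    ∀ p : List ℤ, (∀ v, |p.getD v 0| < eTt (qN m)) → (∀ v < qN m, ∀ δ : ℤ, δ = 1 ∨ δ = -1 →
      (1 - 1 / (qN m : ℝ)) * (mdlM n m f P).Z (Om n m f P) (qN m) p <
        (mdlM n m f P).Z (Om n m f P) (qN m) (bump (qN m) p v δ)) →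
    7 * (mdlM n m f P).Z (Om n m f P) (qN m) p ≤
      8 * ∑ x ∈ Sec n m f P, ((mdlM n m f P).W (qN m) p x : ℝ)

/-- **MG2** (uses REP, LAP, MRG, SMB, LIM, `MAR.rev_cs`). All `χ i = ε^|·|`, `χ' = 1`; bases with
`j` units at the relaxation `c` and `T - j` at the slack of its component. -/
def Mg2Stmt : Prop :=
  ∀ (n m : ℕ) (f : Bool → Finset (Fin n) → ℤ) (P : Pre), Spec n m f P →
    ∀ (ω : Fin n × Bool → ℕ) (c : Fin n × Bool), (∀ c', ω c' ≤ qT m) → ∃ g : ℤ → ℝ, GLC g ∧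
      ∀ j : ℕ, j ≤ qT m →
        Real.exp (-(1 / (m : ℝ) ^ 2)) * fs n m f P (Function.update ω c j) ≤ g j ∧
        g j ≤ Real.exp (1 / (m : ℝ) ^ 2) * fs n m f P (Function.update ω c j)

/-- **MEM** (uses REP, RHO). Offsets satisfy `T |off(A)| ≤ n² zeta b A` (`cy1`, `cy2`,
`fld < 2^he`). (1) The deep state: write the deep point as `comb a` (`rng`), put
`x e = a e` and `x (n+e) = -a e` on the forest, `x e = ⌊a e / 2^he⌋` otherwise. (2) Deep states are
accepted: for `A` a class union use `HB`; otherwise sum over the components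
(`∑_i f((A ∩ κ_i) ∪ low i) ≤ f A + ∑_i f(low i)`), each part satisfies
`z(A ∩ κ_i) ≤ f(..) + m² t`, and one part gains `m^126/4`. (3) Accepted states have level zero. -/
def MemStmt : Prop :=
  ∀ (n m : ℕ) (f : Bool → Finset (Fin n) → ℤ) (P : Pre), Spec n m f P →
    (∃ x ∈ Sec n m f P, ∀ ω, psi0 n m f P ω x = 1) ∧
    (∀ x ∈ Sec n m f P,
      (∀ b, ∀ i < n, rho n m f P b i (m ^ 2 - m ^ 126) (zv n P b x) ≤ 1 / (m : ℝ) ^ 12) →
      ∀ u b, Bs (f b) (fun j : Fin n => zv n P b x j + sgn b * off n m P u j)) ∧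
    ∀ x, inB n m P x → ∀ u, (mdlM n m f P).acc x u = true →
      x ∈ Sec n m f P ∧ ∀ b, ∀ i < n, rho n m f P b i (m ^ 2) (zv n P b x) = 0

/-- **ACC** (uses REP, RHO, WF, MG2, MEM, GRO, BAS for `card ≤ exp(m³)`). `1 ≤ fs ω ≤ exp(m³)` for
all `ω`. With `ω₁ = qO - m^126`, changing one coordinate from `ω₁` to any value `≤ qO` multiplies
`fs` by at most `exp(6/m²)` (MG2, GRO with `a = 0`, `c = ω₁`, `L = m³+1`), so
`fs qO ≤ 1.1 fs ω₁`. At `ω₁`: the states with `rho c > m^(-12)` have mass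
`≤ exp(-m/2) fs (update ω₁ c (ω₁ + 2m^125))` (RHO (5), `log(1+1/m⁴) qV ≥ m^13/2`); those with
`|dF j| > qW` have mass `≤ exp(m³) exp(-m⁴/2)`. The others are accepted for all offsets. -/
def AccStmt : Prop :=
  ∀ (n m : ℕ) (f : Bool → Finset (Fin n) → ℤ) (P : Pre), Spec n m f P →
    ∀ p, (mdlM n m f P).Valid (qN m) p →
      ∑ x ∈ Sec n m f P, ((mdlM n m f P).W (qN m) p x : ℝ) ≤ 2 * amass n m f P

open Classical in
/-- the admissible mismatches -/
noncomputable def Dset (n m : ℕ) (P : Pre) : Finset (Fin n → ℤ) :=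
  (Fintype.piFinset (fun _ : Fin n => Icc (-(m * qW m : ℤ)) (m * qW m))).filter (fun d =>
    (∀ j : Fin n, isF P j = false → d j = 0) ∧ (∀ i, ∑ j ∈ kap n P i, d j = 0) ∧
      ∀ j : Fin n, nd P j → |d j| ≤ qW m)

/-- the weight of a mismatch -/
noncomputable def Th (n m : ℕ) (P : Pre) (d : Fin n → ℤ) : ℝ :=
  ∏ j : Fin n, if nd P j then (1 + 1 / (qH m : ℝ)) ^ (-(d j * d j)) else 1

/-- **BIJ** (uses REP, RHO, MEM). The fields `fld u (e m) (he e)` are independent and uniform, so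
`Pb · ∏ 2^he` counts the offset vectors `o` with `0 ≤ o e < 2^he`; `(x, o) ↦ (d, z)` with
`d = dF x`, `z = zv false x + off = comb a`, `a e = 2^he x e + o e`, is a bijection from the accepted
pairs onto `{(d, z) | d ∈ Dset, Bs f₀ z, Bs f₁ (d - z)}` (`inj`, `rng`, Euclidean division); accepted
states have weight `Th d`. -/
def BijStmt : Prop :=
  ∀ (n m : ℕ) (f : Bool → Finset (Fin n) → ℤ) (P : Pre), Spec n m f P →
    amass n m f P * ∏ e : Fin n, (if isF P e = true then (1 : ℝ) else 2 ^ he P e) =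
      ∑ d ∈ Dset n m P, Th n m P d * Zd (f false) (f true) d

/-- **AM** (uses BIJ, ZS). `Dset` is parametrised by the coordinates `nd j`, so `∑ Th` is a product;
`|d|₁ ≤ 2 n qW`. -/
def AmStmt : Prop :=
  ∀ (n m : ℕ) (f : Bool → Finset (Fin n) → ℤ) (P : Pre), Spec n m f P →
    0 < fac n m P ∧ |amass n m f P * fac n m P - Zd (f false) (f true) 0| ≤
      Zd (f false) (f true) 0 / (16 * m)

/-- **BAS** (uses REP, WF for convenience). The elementary fields of `Good`. `2 qu + 1 ≤ 2^m`,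
`(1+1/M)^(M/2) ≤ 2`, `(1+1/qM)^qJ ≥ 2^(4 size m) ≥ m⁴`; every base `1 + 1/M` has numerator and
denominator `≤ 2^m`. -/
def BasStmt : Prop :=
  ∀ (n m : ℕ) (f : Bool → Finset (Fin n) → ℤ) (P : Pre), Spec n m f P →
    (mdlM n m f P).x0 ∈ Sec n m f P ∧
    (∀ s p x, x ∉ Om n m f P → (mdlM n m f P).W s p x = 0) ∧
    (∀ s p, ∀ x ∈ Om n m f P, 0 < (mdlM n m f P).W s p x ∧
      ((mdlM n m f P).W s p x).num.toNat < 2 ^ qh m ∧ ((mdlM n m f P).W s p x).den < 2 ^ qh m) ∧
    (∀ i, ∀ σ < 2, ∀ x ∈ Om n m f P, mvm n i (1 - σ) (mvm n i σ x) = x) ∧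
    (Om n m f P).card ≤ 2 ^ (2 * m ^ 2) ∧
    (∀ s p, (mdlM n m f P).W s p (mdlM n m f P).x0 = 1) ∧
    (∀ s, ∀ x ∈ Om n m f P, (mdlM n m f P).W s [] x ≤ 1) ∧
    (∀ s p, ∀ x ∈ Om n m f P, (mdlM n m f P).W s p x ≤ 2 ^ (qN m * eTt (qN m))) ∧
    ((mdlM n m f P).Z (Om n m f P) 0 [] ≤ 1 + 1 / (32 * m)) ∧
    (∀ s, ∀ x ∈ Om n m f P, (mdlM n m f P).W s [] x ≤ (mdlM n m f P).W (s + 1) [] x ∧
      (mdlM n m f P).W (s + 1) [] x ≤ 2 * (mdlM n m f P).W s [] x) ∧
    (∀ p, (mdlM n m f P).Valid (qN m) p → ∀ v < qN m, ∀ δ : ℤ, |δ| ≤ 1 →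
      |p.getD v 0 + δ| ≤ eTt (qN m) → ∀ x ∈ Om n m f P,
      (mdlM n m f P).W (qN m) p x ≤ 2 * (mdlM n m f P).W (qN m) (bump (qN m) p v δ) x ∧
      (mdlM n m f P).W (qN m) (bump (qN m) p v δ) x ≤ 2 * (mdlM n m f P).W (qN m) p x) ∧
    ∀ p, ∑ x ∈ Om n m f P, ((mdlM n m f P).W (qN m) p x : ℝ) *
      Pb (qN m) (fun u => (mdlM n m f P).acc x u = true) = amass n m f P

/-! ### The algorithm -/

section Alg

variable (n m : ℕ) (fo : Bool → List Bool → ℤ) (P : Pre)

/-- membership of `z` in the base polytope of `l ↦ fo b (σ l)`, tested on the sets `σ l` -/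
noncomputable def memA (b : Bool) (σ : List Bool → ℕ → Bool) (z : ℕ → ℤ) : Bool :=
  decide (∑ j ∈ range n, z j = 0 ∧ 0 ≤ sfm (fun l => fo b (mkL n (σ l)) -
    ∑ j ∈ range n, if σ l j = true then z j else 0) n (10 * m))

/-- `j · den - qV · num` on indicator lists -/
def gapA (b : Bool) (i j : ℕ) (z : ℕ → ℤ) (l : List Bool) : ℤ :=
  j * (qT m * (zetaL (ed P b) (mkL n fun e => l.getD e false && decide (cp P e = i)) +
      qT m * ∑ e ∈ range n, if l.getD e false = true ∧ cp P e = i then 1 else 0)) -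
    qV m * (qT m * ((∑ e ∈ range n, if l.getD e false = true ∧ cp P e = i then z e else 0) -
        fo b (mkL n fun e => (l.getD e false && decide (cp P e = i)) || decide (cp P e < i)) -
        m ^ 2 * qt m) -
      m ^ 2 * zetaL (ed P b) (mkL n fun e => l.getD e false && decide (cp P e = i)))

/-- the wall level -/
noncomputable def jvA (x : List ℤ) (b : Bool) (i : ℕ) : ℕ :=
  ∑ j ∈ range (qG m), if 0 ≤ sfm (fun l => gapA n m fo P b i j (zv n P b x) l -
      gapA n m fo P b i j (zv n P b x) []) n (10 * m) + gapA n m fo P b i j (zv n P b x) [] then 0 else 1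

/-- the model, with the tests performed by submodular minimisation -/
noncomputable def mdlA : Mdl where
  W s p x := wgt n m P
    (memA n m fo false (fun l j => l.getD (cl P false j) false) (zv n P false x) &&
      memA n m fo true (fun l j => l.getD (cl P true j) false) (zv n P true x))
    (jvA n m fo P x) s p x
  mv := mvm n
  acc x u := decide (inB n m P x ∧ accS n m P x) &&
    (memA n m fo false (fun l j => l.getD j false) (fun j => zv n P false x j + off n m P u j) &&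
      memA n m fo true (fun l j => l.getD j false) (fun j => zv n P true x j - off n m P u j))
  x0 := List.replicate (2 * n) 0
  n := qN m
  h := qh m

end Alg

/-- **ALG** (uses REP; `sfm_spec`). On the box `|zv| ≤ 2^(3m)`, all the functions handed to `sfm` are
submodular, vanish at `∅` and are bounded by `2^(10m)`. -/
def AlgStmt : Prop :=
  ∀ (n m : ℕ) (f : Bool → Finset (Fin n) → ℤ) (fo : Bool → List Bool → ℤ) (P : Pre),
    Spec n m f P → Reads fo f →
    (∀ s p x, (mdlA n m fo P).W s p x = (mdlM n m f P).W s p x) ∧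
    ∀ x, inB n m P x → ∀ u, (mdlA n m fo P).acc x u = (mdlM n m f P).acc x u

/-- **OPM** (`opt_sfm`; first land `@[fun_prop]` lemmas for the accessors and parameters in
`R302/PT0.lean`). -/
def OpmStmt : Prop :=
  ∀ (α : Type) [Enc α] (fo : Orc → α → Bool → List Bool → ℤ) (n m : α → ℕ) (P : α → Pre),
    PT n → PT m → PT P → OPT (fun O (q : α × Bool × List Bool) => fo O q.1 q.2.1 q.2.2) →
    OPT (fun O (q : α × ℕ × List ℤ × List ℤ) =>
      (mdlA (n q.1) (m q.1) (fo O q.1) (P q.1)).W q.2.1 q.2.2.1 q.2.2.2) ∧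
    OPT (fun O (q : α × List ℤ × Bin) =>
      (mdlA (n q.1) (m q.1) (fo O q.1) (P q.1)).acc q.2.1 q.2.2.val) ∧
    PT (fun q : α × ℕ × ℕ × List ℤ => mvm (n q.1) q.2.1 q.2.2.1 q.2.2.2) ∧
    PT (fun x => fac (n x) (m x) (P x)) ∧ PT (fun x => qN (m x)) ∧ PT (fun x => qh (m x)) ∧
    PT (fun x => (List.replicate (2 * n x) 0 : List ℤ)) ∧
    ∃ B : α → ℕ, PB B ∧ ∀ x y, inB (n x) (m x) (P x) y → sz y ≤ B x

/-- **GOOD** (uses BAS, POI, SEC, ACC, ALG, REP). -/
def GoodStmt : Prop :=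
  ∀ (n m a : ℕ) (f : Bool → Finset (Fin n) → ℤ) (fo : Bool → List Bool → ℤ) (P : Pre),
    Spec n m f P → Reads fo f → 1 ≤ a → a ≤ m →
    (mdlA n m fo P).Good (Om n m f P) (amass n m f P) a

/-- **MAIN** (uses XS, NRM, PRE, OPM, EOPT, ECNT, GOOD, AM). `m = n + size R + a + 2000`; the rank
oracle is `OPT.ask` clipped to `m + 1` bits; output `0` if `xs` fails, else `cntq · fac`. -/
def MainStmt : Prop :=
  ∃ (c : ORAM.CIn → ℕ) (F : Orc → ORAM.CIn × Bin → ℚ), PT c ∧ OPT F ∧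
    ∀ (n R : ℕ) (r : Bool → Finset (Fin n) → ℕ) (O : Orc),
      (∀ b, Crest.Polymatroid.IsPolymatroidRank (r b) ∧ r b univ = R) →
      (∀ b S, O (b, bitsOf S) = r b S) → ∀ a : ℕ, 1 ≤ a →
      (∀ u, 0 ≤ F O ((n, ⟨R⟩, a), ⟨u⟩)) ∧
      (Crest.Polymatroid.numCommonIntBases R (r false) (r true) = 0 →
        ∀ u, F O ((n, ⟨R⟩, a), ⟨u⟩) = 0) ∧
      1 - (2 : ℝ)⁻¹ ^ a ≤ Pb (c (n, ⟨R⟩, a)) fun u =>
        (1 - 1 / (a : ℝ)) * Crest.Polymatroid.numCommonIntBases R (r false) (r true) ≤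
          (F O ((n, ⟨R⟩, a), ⟨u⟩) : ℝ) ∧
        (F O ((n, ⟨R⟩, a), ⟨u⟩) : ℝ) ≤
          (1 + 1 / (a : ℝ)) * Crest.Polymatroid.numCommonIntBases R (r false) (r true)

/-- **RK**. Matroids: the rank function (`Matroid.eRk`, `toNat`) is a polymatroid rank, computed by
the greedy algorithm with the independence oracle; common integer bases are indicator vectors of
common bases. -/
def RkStmt : Prop :=
  ∃ G : Orc → ℕ × Q → ℤ, OPT G ∧
    ∀ (n r : ℕ) (M₁ M₂ : Matroid (Fin n)), M₁.E = Set.univ → M₂.E = Set.univ →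
      M₁.eRank = r → M₂.eRank = r → ∃ ρ : Bool → Finset (Fin n) → ℕ,
        (∀ b, Crest.Polymatroid.IsPolymatroidRank (ρ b) ∧ ρ b univ = r) ∧
        (∀ b S, (G (ORAM.orc (Crest.Polymatroid.indepOracle M₁ M₂)) (n, b, bitsOf S)).toNat = ρ b S) ∧
        Crest.Polymatroid.numCommonIntBases r (ρ false) (ρ true) =
          Crest.Polymatroid.numCommonBases M₁ M₂

theorem anchorC : True := by
  have := @qu.eq_1; have := @qW.eq_1; have := @qH.eq_1; have := @qM.eq_1; have := @qJ.eq_1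
  have := @qV.eq_1; have := @qG.eq_1; have := @qO.eq_1; have := @qN.eq_1; have := @qh.eq_1
  have := @xv.eq_1; have := @sgn.eq_1; have := @zv.eq_1; have := @dF.eq_1; have := @dc.eq_1
  have := @nd.eq_1; have := @inB.eq_1; have := @off.eq_1; have := @wgt.eq_1; have := @mvm.eq_1
  have := @accS.eq_1; have := @fac.eq_1; have := @cu.eq_1; have := @HB.eq_1; have := @num.eq_1
  have := @den.eq_1; have := @rho.eq_1; have := @jvm.eq_1; have := @mdlM.eq_1; have := @Om.eq_1
  have := @amass.eq_1; have := @Sec.eq_1; have := @psi0.eq_1; have := @fs.eq_1; have := @hK.eq_1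
  have := @st.eq_1; have := @emb.eq_def; have := @emb.eq_1; have := @emb.eq_2; have := @emb.eq_3
  have := @vc.eq_def; have := @vc.eq_1; have := @vc.eq_2; have := @vc.eq_3; have := @SS.eq_1
  have := @slot.eq_def; have := @slot.eq_1; have := @slot.eq_2; have := @cc.eq_1
  have := @dfc.eq_1; have := @FL.eq_1; have := @Dset.eq_1; have := @Th.eq_1; have := @memA.eq_1
  have := @gapA.eq_1; have := @jvA.eq_1; have := @mdlA.eq_1
  trivial

end Crest.Agent.R302
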