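import Crest.Agent.R302.DefsE
import Crest.Agent.R309.EST

/-!
Row 302: accuracy of the estimates of the generic engine.
-/

set_option autoImplicit false

namespace Crest.Agent.R302

open Finset Crest.Agent.PT Crest.Agent.QC Crest.Agent.R317 Crest.Agent.R300U Crest.Agent.R309

namespace EEST

theorem eTt_pos (n : ℕ) : 1 ≤ eTt n := by
  unfold eTt
  omega

theorem eXi_ge {n : ℕ} (hn : 1 ≤ n) (a : ℕ) : 1024 * a ≤ eXi n a := by
  unfold eXi
  have h2 := eTt_pos n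
  calc 1024 * a = 1024 * 1 * a * 1 := by ring
    _ ≤ 1024 * n * a * eTt n := by gcongr

theorem eXi_ge' (n : ℕ) {a : ℕ} (ha : 1 ≤ a) : n ≤ eXi n a := by
  unfold eXi
  have h2 := eTt_pos n
  calc n = 1 * n * 1 * 1 := by ring
    _ ≤ 1024 * n * a * eTt n := by gcongr; norm_num

/-- Hoeffding with the parameters of the estimates -/
theorem conc {n a : ℕ} (hn : 1 ≤ n) (ha : 1 ≤ a) (b : ℕ) (β : ℕ → Prop) :
    Pb (eN n a * b) (fun u => 1 / (eXi n a : ℝ) < |(cnt b (eN n a) β u : ℝ) / eN n a - Pb b β|) ≤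
      (2 : ℝ)⁻¹ ^ (a + 1) / (eTt n + 1) := by
  have hX : 1 ≤ eXi n a := by have := eXi_ge hn a; omega
  have hX' : (1 : ℝ) ≤ eXi n a := by exact_mod_cast hX
  have hN : (eN n a : ℝ) = 4 * (eXi n a : ℝ) ^ 2 * ((a : ℝ) + eTt n + 2) := by
    unfold eN
    push_cast
    ring
  have hN0 : (0 : ℝ) < eN n a := by rw [hN]; positivity
  have h := hoeffding b (eN n a) (eN n a * b) β (1 / (eXi n a : ℝ)) le_rfl (by positivity)
    (by rw [div_le_one (by linarith)]; exact hX')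
  have e : (eN n a : ℝ) * (1 / (eXi n a : ℝ)) ^ 2 / 4 = (a : ℝ) + eTt n + 2 := by
    rw [hN]
    field_simp
  rw [e] at h
  refine le_trans (Pb_mono fun u _ hu => ?_) (h.trans (EST.exp_bound a (eTt n)))
  have e2 : (cnt b (eN n a) β u : ℝ) - eN n a * Pb b β =
      eN n a * ((cnt b (eN n a) β u : ℝ) / eN n a - Pb b β) := by
    field_simp
  rw [e2, abs_mul, abs_of_pos hN0]
  exact mul_lt_mul_of_pos_left hu hN0

/-- the law of a sample -/
theorem Av_samp (hSamp : ESampStmt) {M : Mdl} {Ω : Finset (List ℤ)} {A : ℝ} {a : ℕ}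
    (hM : M.Good Ω A a) {s : ℕ} {p : List ℤ} (hv : M.Valid s p)
    (B c : ℕ) (hc : eT M.n B * M.b1 ≤ c) (φ : List ℤ → ℝ) (hφ : ∀ l, |φ l| ≤ 1) :
    |Av c (fun u => φ (M.samp s p (eT M.n B) u)) -
      (∑ x ∈ Ω, (M.W s p x : ℝ) * φ x) / M.Z Ω s p| ≤ (2 : ℝ)⁻¹ ^ B := by
  have := (hSamp M Ω A a hM s p hv).2 B φ hφ
  unfold Mdl.samp
  rw [Av_iterN _ _ _ _ c hc φ]
  exact this

theorem coin_bias (hSamp : ESampStmt) {M : Mdl} {Ω : Finset (List ℤ)} {A : ℝ} {a : ℕ}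
    (hM : M.Good Ω A a) (ha : 1 ≤ a) {s : ℕ}
    {p : List ℤ} (hv : M.Valid s p) (s' : ℕ) (p' : List ℤ)
    (h : ∀ x ∈ Ω, 0 ≤ M.W s' p' x ∧ M.W s' p' x ≤ 2 * M.W s p x) :
    |Pb (M.bC a) (M.coin a s p s' p') - M.Z Ω s' p' / (2 * M.Z Ω s p)| ≤
      2 / (eXi M.n a : ℝ) := by
  classical
  have hX : 1 ≤ eXi M.n a := by have := eXi_ge hM.pos a; omega
  set X := eXi M.n a with hXdef
  have h' : ∀ x ∈ Ω, (0 : ℝ) ≤ M.W s' p' x ∧ (M.W s' p' x : ℝ) ≤ 2 * M.W s p x := by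
    intro x hx
    obtain ⟨h0, h1⟩ := h x hx
    exact ⟨by exact_mod_cast h0, by exact_mod_cast h1⟩
  let r : List ℤ → ℝ := fun l => (M.W s' p' l : ℝ) / (2 * (M.W s p l : ℝ))
  let φ : List ℤ → ℝ := fun l => if |r l| ≤ 1 then r l else 0
  have hr : ∀ x ∈ Ω, 0 ≤ r x ∧ r x ≤ 1 := by
    intro x hx
    obtain ⟨h0, h1⟩ := h' x hx
    refine ⟨div_nonneg h0 (by linarith), div_le_one_of_le₀ h1 (by linarith)⟩
  have hφr : ∀ x ∈ Ω, φ x = r x := by
    intro x hx
    obtain ⟨h0, h1⟩ := hr x hx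
    simp only [φ]
    rw [if_pos (by rw [abs_of_nonneg h0]; exact h1)]
  have hφ : ∀ l, |φ l| ≤ 1 := by
    intro l
    simp only [φ]
    split_ifs with h1
    · exact h1
    · simp
  have hsum : ∑ x ∈ Ω, (M.W s p x : ℝ) * φ x = M.Z Ω s' p' / 2 := by
    unfold Mdl.Z
    rw [sum_div]
    refine sum_congr rfl fun x hx => ?_
    obtain ⟨h0, h1⟩ := h' x hx
    rw [hφr x hx]
    simp only [r]
    by_cases hz : (M.W s p x : ℝ) = 0
    · have : (M.W s' p' x : ℝ) = 0 := by linarith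
      rw [hz, this]
      simp
    · field_simp
  have h1 := Av_samp hSamp hM hv X (M.bS a) le_rfl φ hφ
  rw [hsum] at h1
  let m : List ℤ → ℕ := fun l => ⌊2 ^ X * M.W s' p' l / (2 * M.W s p l)⌋₊
  have hm : ∀ l, m l = ⌊(2 : ℝ) ^ X * r l⌋₊ := by
    intro l
    simp only [m, r]
    rw [← EST.natFloor_cast]
    congr 1
    push_cast
    ring
  have h2 : Pb (M.bC a) (M.coin a s p s' p') =
      Av (M.bS a) (fun w => Pb X (fun y => y < m (M.smp a s p w))) := by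
    rw [← Pb_mod_fld (c := M.bC a) (s := M.bS a) (k := X) le_rfl
      (fun w y => y < m (M.smp a s p w))]
    refine Pb_congr fun u _ => ?_
    have : M.smp a s p (u % 2 ^ M.bS a) = M.smp a s p u := iterN_mod _ _ _ _ _ _ le_rfl
    rw [this]
    rfl
  have h3 : ∀ w, |Pb X (fun y => y < m (M.smp a s p w)) - φ (M.smp a s p w)| ≤ (2 : ℝ)⁻¹ ^ X := by
    intro w
    have hy : M.smp a s p w ∈ Ω := (hSamp M Ω A a hM s p hv).1 (eT M.n X) w
    generalize M.smp a s p w = y at hy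
    obtain ⟨h0, h1⟩ := hr y hy
    have hp : (0 : ℝ) < 2 ^ X := by positivity
    have hf1 : (m y : ℝ) ≤ 2 ^ X * r y := by
      rw [hm]; exact Nat.floor_le (by positivity)
    have hf2 : 2 ^ X * r y < m y + 1 := by
      rw [hm]; exact Nat.lt_floor_add_one _
    have hle : m y ≤ 2 ^ X := by
      have : (m y : ℝ) ≤ 2 ^ X := hf1.trans (mul_le_of_le_one_right hp.le h1)
      exact_mod_cast this
    rw [Pb_lt hle, hφr y hy]
    have e2 : (m y : ℝ) / 2 ^ X - r y = (m y - 2 ^ X * r y) * 2⁻¹ ^ X := by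
      rw [inv_pow]
      field_simp
    rw [e2, abs_mul, abs_of_pos (by positivity : (0 : ℝ) < 2⁻¹ ^ X)]
    refine mul_le_of_le_one_left (by positivity) ?_
    rw [abs_le]
    constructor <;> linarith
  have h4 : |Pb (M.bC a) (M.coin a s p s' p') - Av (M.bS a) (fun w => φ (M.smp a s p w))| ≤
      (2 : ℝ)⁻¹ ^ X := by
    rw [h2, ← Av_sub]
    exact (abs_Av_le _ _).trans (Av_le_const fun w _ => h3 w)
  have h5 := EST.half_pow_le hX
  have e3 : M.Z Ω s' p' / (2 * M.Z Ω s p) = M.Z Ω s' p' / 2 / M.Z Ω s p := by rw [div_div]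
  rw [e3]
  have h6 := abs_sub_le (Pb (M.bC a) (M.coin a s p s' p'))
    (Av (M.bS a) (fun w => φ (M.smp a s p w))) (M.Z Ω s' p' / 2 / M.Z Ω s p)
  have h1' : |Av (M.bS a) (fun w => φ (M.smp a s p w)) - M.Z Ω s' p' / 2 / M.Z Ω s p| ≤
      (2 : ℝ)⁻¹ ^ X := h1
  have e4 : 2 / (X : ℝ) = 1 / X + 1 / X := by ring
  linarith

theorem acc_bias (hSamp : ESampStmt) {M : Mdl} {Ω : Finset (List ℤ)} {A : ℝ} {a : ℕ}
    (hM : M.Good Ω A a) (ha : 1 ≤ a) {p : List ℤ} (hv : M.Valid M.n p) :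
    |Pb (M.bC a) (fun v => M.acc (M.smp a M.n p v) (fld v (M.bS a) M.n) = true) -
      A / M.Z Ω M.n p| ≤ 1 / (eXi M.n a : ℝ) := by
  have hX : 1 ≤ eXi M.n a := by have := eXi_ge hM.pos a; omega
  have h1 := Av_samp hSamp hM hv (eXi M.n a) (M.bS a) le_rfl
    (fun l => Pb M.n (fun u => M.acc l u = true)) (fun l => by
      rw [abs_of_nonneg (Pb_nonneg _ _)]; exact Pb_le_one _ _)
  rw [hM.mass p hv] at h1
  have h2 : Pb (M.bC a) (fun v => M.acc (M.smp a M.n p v) (fld v (M.bS a) M.n) = true) =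
      Av (M.bS a) (fun w => Pb M.n (fun y => M.acc (M.smp a M.n p w) y = true)) := by
    rw [← Pb_mod_fld (c := M.bC a) (s := M.bS a) (k := M.n)
      (by have := eXi_ge' M.n ha; unfold Mdl.bC; omega)
      (fun w y => M.acc (M.smp a M.n p w) y = true)]
    refine Pb_congr fun u _ => ?_
    have : M.smp a M.n p (u % 2 ^ M.bS a) = M.smp a M.n p u := iterN_mod _ _ _ _ _ _ le_rfl
    rw [this]
  rw [h2]
  exact le_trans h1 (EST.half_pow_le hX)

end EEST

theorem EEST_proof (hSamp : ESampStmt) : EEstStmt := by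
  intro M Ω A a hM ha s p hv
  have hX : (0 : ℝ) < eXi M.n a := by
    have := EEST.eXi_ge hM.pos a
    exact_mod_cast (by omega : 0 < eXi M.n a)
  constructor
  · intro s' p' h
    refine le_trans (Pb_mono fun u _ hu => ?_)
      (EEST.conc hM.pos ha (M.bC a) (M.coin a s p s' p'))
    have hb := EEST.coin_bias hSamp hM ha hv s' p' h
    by_contra hc
    rw [not_lt] at hc
    have e : (M.est a s p s' p' u : ℝ) - M.Z Ω s' p' / M.Z Ω s p =
        2 * ((cnt (M.bC a) (eN M.n a) (M.coin a s p s' p') u : ℝ) / eN M.n a -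
          Pb (M.bC a) (M.coin a s p s' p')) +
        2 * (Pb (M.bC a) (M.coin a s p s' p') - M.Z Ω s' p' / (2 * M.Z Ω s p)) := by
      unfold Mdl.est
      push_cast
      ring
    rw [e] at hu
    obtain ⟨c1, c2⟩ := abs_le.1 hc
    obtain ⟨b1', b2'⟩ := abs_le.1 hb
    have e1 : 6 / (eXi M.n a : ℝ) = 6 * (1 / (eXi M.n a : ℝ)) := by ring
    have e2 : 2 / (eXi M.n a : ℝ) = 2 * (1 / (eXi M.n a : ℝ)) := by ring
    refine absurd hu (not_lt.2 (abs_le.2 ⟨?_, ?_⟩)) <;> linarith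
  · intro hs
    subst hs
    have h0 : (2 : ℝ)⁻¹ ^ (a + 1) / (eTt M.n + 1) ≤ (2 : ℝ)⁻¹ ^ (a + 1) :=
      div_le_self (by positivity) (by have : (0 : ℝ) ≤ eTt M.n := by positivity
                                      linarith)
    refine le_trans (Pb_mono fun u _ hu => ?_)
      ((EEST.conc hM.pos ha (M.bC a)
        (fun v => M.acc (M.smp a M.n p v) (fld v (M.bS a) M.n) = true)).trans h0)
    have hb := EEST.acc_bias hSamp hM ha hv
    by_contra hc
    rw [not_lt] at hc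
    have e : (M.estA a M.n p u : ℝ) = (cnt (M.bC a) (eN M.n a)
        (fun v => M.acc (M.smp a M.n p v) (fld v (M.bS a) M.n) = true) u : ℝ) / eN M.n a := by
      unfold Mdl.estA
      push_cast
      ring
    rw [e] at hu
    obtain ⟨c1, c2⟩ := abs_le.1 hc
    obtain ⟨b1', b2'⟩ := abs_le.1 hb
    have e1 : 3 / (eXi M.n a : ℝ) = 3 * (1 / (eXi M.n a : ℝ)) := by ring
    have e2 : 0 < 1 / (eXi M.n a : ℝ) := by positivity
    refine absurd hu (not_lt.2 (abs_le.2 ⟨?_, ?_⟩)) <;> linarith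

end Crest.Agent.R302
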