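import Crest.Agent.R302.DefsC
import Crest.Agent.R302.CAP
import Crest.Agent.R302.ZS
import Crest.Agent.R309.AV

/-!
Row 302, task MAIN: the counter.
-/

set_option autoImplicit false

namespace Crest.Agent.R302

open Finset Crest.Agent.PT Crest.Agent.QC Crest.Agent.R317 Crest.Agent.R300U Crest.Agent.R309

namespace MAIN

/-- the size parameter -/
def mm (x : ORAM.CIn) : ℕ := x.1 + x.2.1.val.size + x.2.2 + 2000

/-- the clipped rank oracle -/
def ro (O : Orc) (x : ORAM.CIn) (b : Bool) (l : List Bool) : ℤ := bz (O (b, l) % 2 ^ (mm x + 1))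

/-- the complement of a set -/
def cpl (n : ℕ) (b : Bool) (l : List Bool) : List Bool :=
  mkL n (fun j => decide (l.getD j false ≠ b))

/-- the total of `z` on a set -/
def tot (n : ℕ) (z : List ℤ) (l : List Bool) : ℤ :=
  ∑ j ∈ range n, if l.getD j false = true then z.getD j 0 else 0

/-- the normalised pair -/
def fo (O : Orc) (q : ORAM.CIn × List ℤ) (b : Bool) (l : List Bool) : ℤ :=
  ro O q.1 b (cpl q.1.1 b l) - tot q.1.1 q.2 (cpl q.1.1 b l)

theorem pt_mm : PT mm := by unfold mm; fun_prop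

theorem opt_ro : OPT (fun O (q : ORAM.CIn × Bool × List Bool) => ro O q.1 q.2.1 q.2.2) :=
  OPT.ask (q := fun q : ORAM.CIn × Bool × List Bool => (q.2.1, q.2.2))
    (m := fun q => mm q.1 + 1) (by fun_prop) (by have := pt_mm; fun_prop)

theorem opt_fo :
    OPT (fun O (q : (ORAM.CIn × List ℤ) × Bool × List Bool) => fo O q.1 q.2.1 q.2.2) := by
  have h1 : PT (fun q : (ORAM.CIn × List ℤ) × Bool × List Bool => cpl q.1.1.1 q.2.1 q.2.2) := by
    unfold cpl; fun_prop
  have h2 : PT (fun q : ℕ × List ℤ × List Bool => tot q.1 q.2.1 q.2.2) := by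
    unfold tot; fun_prop
  have h3 : PT (fun q : (ORAM.CIn × List ℤ) × Bool × List Bool =>
      tot q.1.1.1 q.1.2 (cpl q.1.1.1 q.2.1 q.2.2)) :=
    h2.comp (f := fun q : (ORAM.CIn × List ℤ) × Bool × List Bool =>
      (q.1.1.1, q.1.2, cpl q.1.1.1 q.2.1 q.2.2)) (by fun_prop)
  have h4 := opt_ro.pre (f := fun q : (ORAM.CIn × List ℤ) × Bool × List Bool =>
    (q.1.1, q.2.1, cpl q.1.1.1 q.2.1 q.2.2)) (by fun_prop)
  exact (h4.pair (OPT.pt h3)).post (g := fun r : ℤ × ℤ => r.1 - r.2) (by fun_prop)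

theorem cpl_false {n : ℕ} (S : Finset (Fin n)) : cpl n false (bitsOf S) = bitsOf S :=
  mkL_eq_bitsOf _ _ (fun j => by rw [getD_bitsOf]; simp)

theorem cpl_true {n : ℕ} (S : Finset (Fin n)) : cpl n true (bitsOf S) = bitsOf Sᶜ :=
  mkL_eq_bitsOf _ _ (fun j => by rw [getD_bitsOf]; simp)

theorem tot_bits {n : ℕ} (z : List ℤ) (S : Finset (Fin n)) :
    tot n z (bitsOf S) = ∑ j ∈ S, z.getD j 0 := by
  unfold tot
  rw [sum_range]
  simp only [getD_bitsOf, decide_eq_true_eq]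
  rw [sum_ite_mem, univ_inter]

theorem arith {a m c A φ N : ℝ} (ha : 1 ≤ a) (hm : a ≤ m) (hφ : 0 < φ) (hN : 0 ≤ N)
    (h1 : |c - A| ≤ A / (4 * a)) (h2 : |A * φ - N| ≤ N / (16 * m)) :
    (1 - 1 / a) * N ≤ c * φ ∧ c * φ ≤ (1 + 1 / a) * N := by
  have ha0 : 0 < a := by linarith
  set t := 1 / a with ht
  have ht0 : 0 < t := by positivity
  have ht1 : t ≤ 1 := by rw [ht, div_le_one ha0]; exact ha
  have e1 : A / (4 * a) = A * (t / 4) := by rw [ht]; field_simp
  have e2 : N / (16 * m) ≤ N * (t / 16) := by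
    calc N / (16 * m) ≤ N / (16 * a) := div_le_div_of_nonneg_left hN (by positivity) (by linarith)
      _ = N * (t / 16) := by rw [ht]; field_simp
  rw [e1] at h1
  obtain ⟨a1, a2⟩ := abs_le.1 h1
  obtain ⟨b1, b2⟩ := abs_le.1 (h2.trans e2)
  have hNt : 0 ≤ N * t := by positivity
  have hNtt : N * t * t ≤ N * t := mul_le_of_le_one_right hNt ht1
  have hNtt0 : 0 ≤ N * t * t := by positivity
  constructor
  · have k1 : (A * (1 - t / 4)) * φ ≤ c * φ := mul_le_mul_of_nonneg_right (by linarith) hφ.le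
    have k2 : (N - N * (t / 16)) * (1 - t / 4) ≤ (A * φ) * (1 - t / 4) :=
      mul_le_mul_of_nonneg_right (by linarith) (by linarith)
    nlinarith
  · have k1 : c * φ ≤ (A * (1 + t / 4)) * φ := mul_le_mul_of_nonneg_right (by linarith) hφ.le
    have k2 : (A * φ) * (1 + t / 4) ≤ (N + N * (t / 16)) * (1 + t / 4) :=
      mul_le_mul_of_nonneg_right (by linarith) (by linarith)
    nlinarith

theorem bits_eq (M M' : Mdl) (h1 : M.n = M'.n) (h2 : M.h = M'.h) (a : ℕ) :
    M.bP a + M.bE a = M'.bP a + M'.bE a := by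
  simp only [Mdl.bP, Mdl.bE, Mdl.bC, Mdl.bS, Mdl.b1, Mdl.b0, Mdl.aB, h1, h2]

theorem bits_A (n m : ℕ) (f f' : Bool → List Bool → ℤ) (P P' : Pre) (a : ℕ) :
    (mdlA n m f P).bP a + (mdlA n m f P).bE a = (mdlA n m f' P').bP a + (mdlA n m f' P').bE a :=
  bits_eq (mdlA n m f P) (mdlA n m f' P') (Eq.refl (qN m)) (Eq.refl (qh m)) a

end MAIN

open MAIN in
theorem MAIN_proof (hXs : XsStmt) (hNrm : NrmStmt) (hPre : PreStmt) (hOpm : OpmStmt)
    (hEopt : EOptStmt) (hCnt : ECntStmt) (hGood : GoodStmt) (hAm : AmStmt) : MainStmt := by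
  have hmm := pt_mm
  obtain ⟨xs, hxs, hxs'⟩ := hXs ORAM.CIn ro (fun x => x.1) mm (fun x => bz x.2.1.val)
    (by fun_prop) hmm (by fun_prop) opt_ro
  obtain ⟨pre, hpre, hpre'⟩ := hPre (ORAM.CIn × List ℤ) fo (fun q => q.1.1) (fun q => mm q.1)
    (by fun_prop) (by fun_prop) opt_fo
  obtain ⟨o1, o2, o3, o4, o5, o6, o7, B, hB, hB'⟩ := hOpm ((ORAM.CIn × List ℤ) × Pre)
    (fun O q => fo O q.1) (fun q => q.1.1.1) (fun q => mm q.1.1) (fun q => q.2)
    (by fun_prop) (by fun_prop) (by fun_prop)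
    (opt_fo.pre (f := fun q : ((ORAM.CIn × List ℤ) × Pre) × Bool × List Bool =>
      (q.1.1, q.2.1, q.2.2)) (by fun_prop))
  obtain ⟨e1, c, hc, hc'⟩ := hEopt ((ORAM.CIn × List ℤ) × Pre)
    (fun O q => mdlA q.1.1.1 (mm q.1.1) (fo O q.1) q.2) (fun q => qN (mm q.1.1))
    (fun q => qh (mm q.1.1)) B o5 o6 hB (fun _ _ => ⟨rfl, rfl⟩) o1 (OPT.pt o3) o2 (OPT.pt o7)
    (fun O q s p y hy => hB' q y (by
      by_contra hn
      exact hy (if_neg fun h => hn h.1)))
  let P₀ : Pre := ([], [], [], [], [], [], [], [])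
  let G : Orc → ((ORAM.CIn × List ℤ) × Pre) × Bin → ℚ := fun O q =>
    (mdlA q.1.1.1.1 (mm q.1.1.1) (fo O q.1.1) q.1.2).cntq q.1.1.1.2.2 q.2.val *
      fac q.1.1.1.1 (mm q.1.1.1) q.1.2
  have hG : OPT G := by
    have h1 := e1.pre (f := fun q : ((ORAM.CIn × List ℤ) × Pre) × Bin => (q.1, q.1.1.1.2.2, q.2))
      (by fun_prop)
    exact h1.post₂ (g := fun (q : ((ORAM.CIn × List ℤ) × Pre) × Bin) (v : ℚ) =>
      v * fac q.1.1.1.1 (mm q.1.1.1) q.1.2)
      (pt_qmul (by fun_prop) (o4.comp (f := fun p : (((ORAM.CIn × List ℤ) × Pre) × Bin) × ℚ =>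
        p.1.1) (by fun_prop)))
  have hG1 : OPT (fun O (q : (ORAM.CIn × List ℤ) × Bin) => G O ((q.1, pre O q.1), q.2)) :=
    OPT.bind (G := fun O (q : (ORAM.CIn × List ℤ) × Bin) (P : Pre) => G O ((q.1, P), q.2))
      (hpre.pre PT.id'.fst)
      (hG.pre (f := fun p : ((ORAM.CIn × List ℤ) × Bin) × Pre => ((p.1.1, p.2), p.1.2))
        (by fun_prop))
  have hG2 : OPT (fun O (q : ORAM.CIn × Bin) => bif (xs O q.1).1 then
      G O (((q.1, (xs O q.1).2), pre O (q.1, (xs O q.1).2)), q.2) else 0) :=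
    OPT.bind (G := fun O (q : ORAM.CIn × Bin) (r : Bool × List ℤ) => bif r.1 then
        G O (((q.1, r.2), pre O (q.1, r.2)), q.2) else 0) (hxs.pre PT.id'.fst)
      (OPT.cond (OPT.pt (by fun_prop))
        (hG1.pre (f := fun p : (ORAM.CIn × Bin) × Bool × List ℤ => ((p.1.1, p.2.2), p.1.2))
          (by fun_prop)) (OPT.pt (PT.const 0)))
  refine ⟨fun x => c (((x, []), P₀), x.2.2), _,
    hc.comp (f := fun x : ORAM.CIn => (((x, ([] : List ℤ)), P₀), x.2.2)) (by fun_prop), hG2, ?_⟩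
  intro n R r O hr hO a ha
  set x : ORAM.CIn := (n, ⟨R⟩, a) with hx
  have hm : mm x = n + R.size + a + 2000 := rfl
  have hR : R ≤ 2 ^ mm x :=
    (Nat.lt_size_self R).le.trans (Nat.pow_le_pow_right (by norm_num) (by omega))
  have hro : Reads (ro O x) (fun b A => (r b A : ℤ)) := by
    intro b S
    unfold ro bz
    rw [hO, Nat.mod_eq_of_lt]
    have h1 := (hr b).1.2.1 S univ (subset_univ _)
    rw [(hr b).2] at h1
    have : 0 < 2 ^ mm x := by positivity
    rw [pow_succ]; omega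
  obtain ⟨x1, x2⟩ := hxs' O x r (show n ≤ mm x by omega) (by
    show ((R : ℕ) : ℤ) ≤ 2 ^ mm x
    exact_mod_cast hR) (fun b => ⟨(hr b).1, by rw [(hr b).2]; rfl⟩) hro
  simp only
  cases hb : (xs O x).1 with
  | false =>
    have hN : Crest.Polymatroid.numCommonIntBases R (r false) (r true) = 0 := x2 hb
    refine ⟨fun u => le_rfl, fun _ u => rfl, ?_⟩
    rw [Pb_true (fun u _ => by simp [hN])]
    have : (0 : ℝ) ≤ 2⁻¹ ^ a := by positivity
    linarith
  | true =>
    obtain ⟨y1, y2⟩ := x1 hb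
    set z := (xs O x).2 with hz
    obtain ⟨hP, hZ⟩ := hNrm n (mm x) R r (fun j => z.getD j 0) (by omega) (by omega) hR hr y1 y2
    have hfo : Reads (fo O (x, z)) (nrm r (fun j : Fin n => z.getD j 0)) := by
      intro b S
      show ro O x b (cpl n b (bitsOf S)) - tot n z (cpl n b (bitsOf S)) = _
      cases b
      · rw [cpl_false, hro, tot_bits]; rfl
      · rw [cpl_true, hro, tot_bits]; rfl
    have hS := hpre' O (x, z) _ hP hfo
    set P := pre O (x, z) with hPdef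
    have hgood := hGood n (mm x) a _ _ P hS hfo ha (by omega)
    obtain ⟨c1, c2⟩ := hCnt _ _ _ a hgood ha
    obtain ⟨f1, f2⟩ := hAm n (mm x) _ P hS
    rw [hZ] at f2
    have eF : ∀ u : ℕ, G O (((x, z), P), ⟨u⟩) =
        (mdlA n (mm x) (fo O (x, z)) P).cntq a u * fac n (mm x) P := fun _ => rfl
    simp only [cond_true, eF]
    refine ⟨fun u => mul_nonneg (c1 u) f1.le, fun h0 => ?_, ?_⟩
    · exfalso
      rw [← hZ] at h0
      have : 0 < Zd (nrm r (fun j : Fin n => z.getD j 0) false)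
          (nrm r (fun j : Fin n => z.getD j 0) true) 0 :=
        (Set.ncard_pos (ZS.fin hP 0)).2 ⟨0, ⟨by simp, fun A => by simpa using hP.nonneg false A⟩,
          ⟨by simp, fun A => by simpa using hP.nonneg true A⟩⟩
      omega
    · have e : c (((x, []), P₀), a) = (mdlA n (mm x) (fo O (x, z)) P).bP a +
          (mdlA n (mm x) (fo O (x, z)) P).bE a := by
        exact (hc' O ((x, []), P₀) a).symm.trans
          (bits_A n (mm x) (fo O (x, [])) (fo O (x, z)) P₀ P a)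
      show _ ≤ Pb (c (((x, []), P₀), a)) _
      rw [e]
      refine c2.trans (Pb_mono fun u _ hu => ?_)
      have := arith (by exact_mod_cast ha) (by exact_mod_cast (by omega : a ≤ mm x))
        (by exact_mod_cast f1) (Nat.cast_nonneg _) hu f2
      push_cast
      exact this

end Crest.Agent.R302
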