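import Crest.Agent.R302.DefsC
import Crest.Agent.R302.CAP
import Crest.Agent.R302.EOPT

/-! Row 302, task RK: matroid rank from an independence oracle. -/

set_option autoImplicit false

namespace Crest.Agent.R302

open Finset Crest.Agent.PT Crest.Agent.QC Crest.Agent.R317 Crest.Agent.R300U Crest.Polymatroid

namespace RK

/-- add `i` to the indicator list -/
def addL (n : ℕ) (I : List Bool) (i : ℕ) : List Bool :=
  mkL n (fun j => decide (j = i) || I.getD j false)

/-- one greedy step -/
def gstep (O : Orc) (n : ℕ) (b : Bool) (l : List Bool) (i : ℕ) (I : List Bool) : List Bool :=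
  if l.getD i false = true ∧ bz (O (b, addL n I i) % 2 ^ 1) = 1 then addL n I i else I

/-- the greedy algorithm -/
def grd (O : Orc) (n : ℕ) (b : Bool) (l : List Bool) (k : ℕ) : List Bool :=
  Nat.rec (mkL n (fun _ => false)) (gstep O n b l) k

/-- the rank -/
def rk (O : Orc) (q : ℕ × Q) : ℤ :=
  ∑ j ∈ range q.1, if (grd O q.1 q.2.1 q.2.2 q.1).getD j false = true then 1 else 0

theorem grd_len (O : Orc) (n : ℕ) (b : Bool) (l : List Bool) (k : ℕ) :
    (grd O n b l k).length = n := by
  induction k with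
  | zero => simp [grd]
  | succ k ih =>
    show (gstep O n b l k (grd O n b l k)).length = n
    unfold gstep
    split_ifs
    · simp [addL]
    · exact ih

theorem opt_rk : OPT rk := by
  have hadd : PT (fun p : (ℕ × Q) × ℕ × List Bool => addL p.1.1 p.2.2 p.2.1) := by
    unfold addL; fun_prop
  have h1 := OPT.ask (q := fun p : (ℕ × Q) × ℕ × List Bool => (p.1.2.1, addL p.1.1 p.2.2 p.2.1))
    (m := fun _ => 1) (PT.pair (by fun_prop) hadd) (PT.const _)
  have h2 : OPT (fun O (p : (ℕ × Q) × ℕ × List Bool) => gstep O p.1.1 p.1.2.1 p.1.2.2 p.2.1 p.2.2) :=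
    (h1.post₂ (g := fun (p : (ℕ × Q) × ℕ × List Bool) (v : ℤ) =>
      if p.1.2.2.getD p.2.1 false = true ∧ v = 1 then addL p.1.1 p.2.2 p.2.1 else p.2.2)
      (PT.iteD (by fun_prop) (hadd.comp PT.id'.fst) (by fun_prop))).congr (fun _ _ => rfl)
  have h3 : OPT (fun O (q : ℕ × Q) => grd O q.1 q.2.1 q.2.2 q.1) :=
    OPT.natRec (g := fun q : ℕ × Q => q.1) (Z := fun _ q => mkL q.1 (fun _ => false))
      (S := fun O q => gstep O q.1 q.2.1 q.2.2) (by fun_prop) (OPT.pt (by fun_prop)) h2
      (B := fun q => q.1 * 3) (PT.pbNat (by fun_prop)) (fun O q i _ => by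
        have := sz_list_le (grd O q.1 q.2.1 q.2.2 i) 1 (fun x _ => by cases x <;> rfl)
        rwa [grd_len] at this)
  have h4 : PT (fun p : (ℕ × Q) × List Bool =>
      ∑ j ∈ range p.1.1, if p.2.getD j false = true then (1 : ℤ) else 0) := by fun_prop
  exact (h3.post₂ (g := fun (q : ℕ × Q) (I : List Bool) =>
    ∑ j ∈ range q.1, if I.getD j false = true then (1 : ℤ) else 0) h4).congr (fun _ _ => rfl)

theorem addL_bits {n : ℕ} (I : Finset (Fin n)) (i : Fin n) :
    addL n (bitsOf I) i = bitsOf (insert i I) :=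
  mkL_eq_bitsOf _ _ (fun j => by rw [getD_bitsOf]; simp [Fin.val_inj])

open Classical in
theorem grd_spec {n : ℕ} (O : Orc) (b : Bool) (M : Matroid (Fin n))
    (hO : ∀ A : Finset (Fin n), O (b, bitsOf A) = if M.Indep (A : Set (Fin n)) then 1 else 0)
    (S : Finset (Fin n)) (k : ℕ) (hk : k ≤ n) :
    ∃ I : Finset (Fin n), grd O n b (bitsOf S) k = bitsOf I ∧ I ⊆ S ∧ M.Indep (I : Set (Fin n)) ∧
      ∀ e ∈ S, (e : ℕ) < k → e ∉ I → ¬ M.Indep (insert e (I : Set (Fin n))) := by
  induction k with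
  | zero =>
    exact ⟨∅, mkL_eq_bitsOf _ _ (by simp), empty_subset _, by simp, fun e _ h => by omega⟩
  | succ k ih =>
    obtain ⟨I, h1, h2, h3, h4⟩ := ih (by omega)
    have e : grd O n b (bitsOf S) (k + 1) = gstep O n b (bitsOf S) k (bitsOf I) := by
      rw [← h1]; rfl
    set i : Fin n := ⟨k, by omega⟩ with hi
    have hik : k = (i : ℕ) := rfl
    rw [e]
    unfold gstep
    rw [hik, addL_bits, getD_bitsOf, hO]
    by_cases hc : i ∈ S ∧ M.Indep ((insert i I : Finset (Fin n)) : Set (Fin n))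
    · rw [if_pos (by simp only [hc.1, hc.2, if_true, bz]; simp)]
      refine ⟨insert i I, rfl, insert_subset hc.1 h2, hc.2, fun e he hek heI hind => ?_⟩
      rw [mem_insert, not_or] at heI
      have : (e : ℕ) ≠ i := fun h => heI.1 (Fin.ext h)
      refine h4 e he (by omega) heI.2 (hind.subset ?_)
      rw [coe_insert]
      exact Set.insert_subset_insert (Set.subset_insert _ _)
    · rw [if_neg]
      · refine ⟨I, rfl, h2, h3, fun e he hek heI hind => ?_⟩
        by_cases h : e = i
        · subst h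
          exact hc ⟨he, by rwa [coe_insert]⟩
        · have : (e : ℕ) ≠ i := fun h' => h (Fin.ext h')
          exact h4 e he (by omega) heI hind
      · rintro ⟨a1, a2⟩
        apply hc
        refine ⟨by simpa using a1, ?_⟩
        by_contra hh
        rw [if_neg hh] at a2
        simp [bz] at a2

/-- the rank function -/
noncomputable def mrk {n : ℕ} (M : Matroid (Fin n)) (S : Finset (Fin n)) : ℕ :=
  (M.eRk (S : Set (Fin n))).toNat

theorem rho_cast {n : ℕ} (M : Matroid (Fin n)) (S : Finset (Fin n)) :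
    (mrk M S : ℕ∞) = M.eRk (S : Set (Fin n)) :=
  ENat.natCast_toNat (ne_top_of_le_ne_top (by simp) (M.eRk_le_encard _))

theorem rho_poly {n : ℕ} (M : Matroid (Fin n)) : IsPolymatroidRank (mrk M) := by
  refine ⟨by simp [mrk], fun A B h => ?_, fun A B => ?_⟩
  · have := M.eRk_mono (show (A : Set (Fin n)) ⊆ B from h)
    rw [← rho_cast, ← rho_cast] at this
    exact_mod_cast this
  · have := M.eRk_inter_add_eRk_union_le (A : Set (Fin n)) B
    rw [← coe_inter, ← coe_union, ← rho_cast, ← rho_cast, ← rho_cast, ← rho_cast] at this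
    have h : mrk M (A ∩ B) + mrk M (A ∪ B) ≤ mrk M A + mrk M B := by exact_mod_cast this
    omega

theorem rho_univ {n r : ℕ} (M : Matroid (Fin n)) (h : M.eRank = r) : mrk M univ = r := by
  simp [mrk, h]

theorem rho_indep {n : ℕ} {M : Matroid (Fin n)} {I : Finset (Fin n)}
    (h : M.Indep (I : Set (Fin n))) : mrk M I = I.card := by
  simp [mrk, h.eRk_eq_encard]

theorem rho_single {n : ℕ} (M : Matroid (Fin n)) (e : Fin n) : mrk M {e} ≤ 1 := by
  have := M.eRk_singleton_le e
  rw [← coe_singleton, ← rho_cast] at this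
  exact_mod_cast this

theorem base_iff {n r : ℕ} {M : Matroid (Fin n)} (h : M.eRank = r) (B : Finset (Fin n)) :
    M.IsBase (B : Set (Fin n)) ↔ B.card = r ∧ B.card ≤ mrk M B := by
  constructor
  · intro hB
    have h1 := hB.encard_eq_eRank
    rw [h, Set.encard_coe_eq_coe_finsetCard] at h1
    exact ⟨by exact_mod_cast h1, (rho_indep hB.indep).ge⟩
  · rintro ⟨h1, h2⟩
    have h3 : (B : Set (Fin n)).encard ≤ M.eRk B := by
      rw [← rho_cast, Set.encard_coe_eq_coe_finsetCard]; exact_mod_cast h2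
    have hI : M.Indep (B : Set (Fin n)) :=
      (M.indep_iff_eRk_eq_encard_of_finite B.finite_toSet).2 ((M.eRk_le_encard _).antisymm h3)
    refine hI.isBase_of_eRk_ge B.finite_toSet (le_trans ?_ h3)
    rw [h, Set.encard_coe_eq_coe_finsetCard, h1]

open Classical in
theorem rk_spec {n : ℕ} (O : Orc) (b : Bool) (M : Matroid (Fin n)) (hE : M.E = Set.univ)
    (hO : ∀ A : Finset (Fin n), O (b, bitsOf A) = if M.Indep (A : Set (Fin n)) then 1 else 0)
    (S : Finset (Fin n)) : (rk O (n, b, bitsOf S)).toNat = mrk M S := by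
  obtain ⟨I, h1, h2, h3, h4⟩ := grd_spec O b M hO S n le_rfl
  have hb : M.IsBasis (I : Set (Fin n)) S :=
    h3.isBasis_of_forall_insert h2 (fun e he =>
      ⟨h4 e he.1 e.2 he.2, by rw [hE]; exact Set.subset_univ _⟩)
  have e1 : mrk M S = I.card := by simp [mrk, hb.eRk_eq_encard]
  have e2 : rk O (n, b, bitsOf S) = I.card := by
    unfold rk
    simp only [h1]
    rw [← Fin.sum_univ_eq_sum_range (fun j => if (bitsOf I).getD j false = true then (1 : ℤ) else 0)]
    simp only [getD_bitsOf, decide_eq_true_eq]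
    simp
  rw [e1, e2, Int.toNat_natCast]

theorem count_eq {n r : ℕ} (M₁ M₂ : Matroid (Fin n)) (h₁ : M₁.eRank = r) (h₂ : M₂.eRank = r) :
    numCommonIntBases r (mrk M₁) (mrk M₂) = numCommonBases M₁ M₂ := by
  classical
  unfold numCommonIntBases numCommonBases
  have key : ∀ x : Fin n → Fin (r + 1), (∀ j, (x j : ℕ) ≤ 1) → ∀ A : Finset (Fin n),
      ∑ j ∈ A, (x j : ℕ) = (A ∩ univ.filter (fun j => (x j : ℕ) = 1)).card := by
    intro x hx A
    rw [inter_filter, inter_univ, card_filter]
    exact sum_congr rfl fun j _ => by have := hx j; split_ifs <;> omega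
  have hle : ∀ x : Fin n → Fin (r + 1), (∀ A : Finset (Fin n), ∑ j ∈ A, (x j : ℕ) ≤ mrk M₁ A ∧
      ∑ j ∈ A, (x j : ℕ) ≤ mrk M₂ A) → ∀ j, (x j : ℕ) ≤ 1 := fun x h j => by
    have := (h {j}).1
    rw [sum_singleton] at this
    exact this.trans (rho_single _ _)
  refine card_bij (fun x _ => univ.filter (fun j => (x j : ℕ) = 1)) ?_ ?_ ?_
  · intro x hx
    simp only [mem_filter, mem_univ, true_and] at hx ⊢
    have h0 := key x (hle x hx.2)
    have h1 := h0 univ
    rw [univ_inter, hx.1] at h1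
    have h2 := h0 (univ.filter (fun j => (x j : ℕ) = 1))
    rw [inter_self] at h2
    have h3 := hx.2 (univ.filter (fun j => (x j : ℕ) = 1))
    rw [h2] at h3
    exact ⟨(base_iff h₁ _).2 ⟨h1.symm, h3.1⟩, (base_iff h₂ _).2 ⟨h1.symm, h3.2⟩⟩
  · intro x hx y hy h
    simp only [mem_filter, mem_univ, true_and] at hx hy
    funext j
    have h1 := hle x hx.2 j
    have h2 := hle y hy.2 j
    have h3 : (x j : ℕ) = 1 ↔ (y j : ℕ) = 1 := by
      have := Finset.ext_iff.1 h j
      simpa using this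
    exact Fin.ext (by omega)
  · intro B hB
    simp only [mem_filter, mem_univ, true_and] at hB
    have hc := ((base_iff h₁ B).1 hB.1).1
    let x : Fin n → Fin (r + 1) := fun j => ⟨if j ∈ B then 1 else 0, by
      split_ifs with h
      · have := card_pos.2 ⟨j, h⟩; omega
      · omega⟩
    have hx : ∀ j, (x j : ℕ) ≤ 1 := fun j => by simp only [x]; split_ifs <;> omega
    have hs : univ.filter (fun j => (x j : ℕ) = 1) = B := by
      ext j; simp [x]
    have hA : ∀ (M : Matroid (Fin n)), M.IsBase (B : Set (Fin n)) → ∀ A : Finset (Fin n),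
        (A ∩ B).card ≤ mrk M A := fun M hM A => by
      rw [← rho_indep (M := M) (hM.indep.subset (by simp))]
      exact (rho_poly M).2.1 _ _ inter_subset_left
    refine ⟨x, ?_, hs⟩
    simp only [mem_filter, mem_univ, true_and]
    refine ⟨by rw [key x hx, hs, univ_inter, hc], fun A => ?_⟩
    rw [key x hx, hs]
    exact ⟨hA _ hB.1 A, hA _ hB.2 A⟩

end RK

open RK in
theorem RK_proof : RkStmt := by
  refine ⟨rk, opt_rk, fun n r M₁ M₂ e₁ e₂ h₁ h₂ =>
    ⟨fun b => mrk (if b then M₂ else M₁), fun b => ⟨rho_poly _, ?_⟩, fun b S => ?_, ?_⟩⟩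
  · cases b
    · exact rho_univ _ h₁
    · exact rho_univ _ h₂
  · refine rk_spec _ b _ (by cases b <;> assumption) (fun A => ?_) S
    have : ORAM.setOf n (bitsOf A) = A := setOfBits_bitsOf A
    simp only [ORAM.orc, indepOracle]
    rw [this]
  · exact count_eq M₁ M₂ h₁ h₂

end Crest.Agent.R302
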