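import Crest.Agent.R302.ALL
import Crest.Agent.R302.MAIN
import Crest.Agent.R302.BIJ
import Crest.Agent.R302.RK
import Crest.Agent.R302.SUB
import Crest.Agent.R302.XS
import Crest.Agent.R302.NRM
import Crest.Agent.R302.EOPT
import Crest.Agent.R302.ECNT

/-! Row 302: the main statement without hypotheses. -/

set_option autoImplicit false

namespace Crest.Agent.R302

theorem mainAll : MainStmt :=
  MAIN_proof XS_proof NRM_proof All.pre OPM_proof EOPT_proof ecnt All.goodAll
    (All.am (BIJ_proof All.rho All.mem))

end Crest.Agent.R302
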