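import Crest.Agent.R302.DefsB

/-! Row 302, task KR, abstract part: the invariant of the merging process. -/

set_option autoImplicit false

namespace Crest.Agent.R302

namespace KR

open Finset

/-- abstract state -/
structure AS (n : ℕ) where
  cl : Bool → Fin n → ℕ
  F : Fin n → Bool
  cy : Fin n → Fin n → ℤ
  he : Fin n → ℕ
  ed : Bool → Eds
  co : Fin n → ℕ
  pi : Bool → Fin n → Fin n → ℤ

variable {n : ℕ}

/-- constant on classes -/
def CC {β : Type} (cl : Bool → Fin n → ℕ) (g : Bool → Fin n → β) : Prop :=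
  ∀ b a a', cl b a = cl b a' → g b a = g b a'

/-- pairing of the boundary of `Y` with `g` -/
def pr (Y : Fin n → ℤ) (g : Bool → Fin n → ℤ) : ℤ := ∑ j, Y j * (g false j - g true j)

def ind (χ : Bool → Fin n → Bool) (b : Bool) (j : Fin n) : ℤ := if χ b j = true then 1 else 0

lemma CC.ind {cl : Bool → Fin n → ℕ} {χ : Bool → Fin n → Bool} (h : CC cl χ) : CC cl (ind χ) :=
  fun b a a' e => by unfold KR.ind; rw [h b a a' e]

lemma pr_add (Y Z : Fin n → ℤ) (c : ℤ) (g : Bool → Fin n → ℤ) :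
    pr (fun j => Y j + c * Z j) g = pr Y g + c * pr Z g := by
  unfold pr
  rw [mul_sum, ← sum_add_distrib]
  exact sum_congr rfl fun j _ => by ring

lemma pr_sub (Y Z : Fin n → ℤ) (g : Bool → Fin n → ℤ) :
    pr (fun j => Y j - Z j) g = pr Y g - pr Z g := by
  unfold pr
  rw [← sum_sub_distrib]
  exact sum_congr rfl fun j _ => by ring

lemma pr_mul (Z : Fin n → ℤ) (c : ℤ) (g : Bool → Fin n → ℤ) :
    pr (fun j => c * Z j) g = c * pr Z g := by
  unfold pr
  rw [mul_sum]
  exact sum_congr rfl fun j _ => by ring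

lemma pr_cert {Y : Fin n → ℤ} {χ : Bool → Fin n → Bool} {e : Fin n}
    (h : ∀ j, Y j ≠ 0 → j ≠ e → χ false j = χ true j) :
    pr Y (ind χ) = Y e * (ind χ false e - ind χ true e) := by
  unfold pr
  refine sum_eq_single e (fun j _ hj => ?_) (fun h => absurd (mem_univ _) h)
  by_cases h0 : Y j = 0
  · rw [h0, zero_mul]
  · unfold ind
    rw [h j h0 hj, sub_self, mul_zero]

lemma pr_zero {Y : Fin n → ℤ} {χ : Bool → Fin n → Bool}
    (h : ∀ j, Y j ≠ 0 → χ false j = χ true j) : pr Y (ind χ) = 0 := by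
  unfold pr
  refine sum_eq_zero fun j _ => ?_
  by_cases h0 : Y j = 0
  · rw [h0, zero_mul]
  · unfold ind
    rw [h j h0, sub_self, mul_zero]

lemma ind_sq {χ : Bool → Fin n → Bool} {e : Fin n} (h : χ false e ≠ χ true e) :
    ind χ false e - ind χ true e = 1 ∨ ind χ false e - ind χ true e = -1 := by
  unfold ind
  cases h1 : χ false e <;> cases h2 : χ true e <;> simp_all

lemma ind_diff (χ : Bool → Fin n → Bool) (b c : Bool) (i j : Fin n) :
    |ind χ b i - ind χ c j| ≤ 1 := by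
  unfold ind
  split_ifs <;> simp

lemma cross_iff (a a' : Fin n) (w : ℤ) (X : Finset (Fin n)) :
    Cross ((a : ℕ), (a' : ℕ), w) X ↔ ¬ (a ∈ X ↔ a' ∈ X) := by
  unfold Cross bitsOf
  simp only [R317.getD_ofFn]
  by_cases h1 : a ∈ X <;> by_cases h2 : a' ∈ X <;> simp [h1, h2]

structure Inv (T : ℤ) (L : ℕ) (s : Bool → ℕ → ℕ → ℤ) (A : AS n) : Prop where
  lt : ∀ b j, A.cl b j < n
  col : ∀ j, A.co j < n
  hel : ∀ j, A.he j ≤ L
  cnt : ∀ b, (A.ed b).length + (univ.image (A.cl b)).card ≤ n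
  edg : ∀ b, ∀ ε ∈ A.ed b, ∃ a a' : Fin n, ε = ((a : ℕ), (a' : ℕ), s b a a') ∧ a ≠ a' ∧
    T < s b a a' ∧ A.cl b a = A.cl b a'
  con : ∀ b (X : Finset (Fin n)), (∀ ε ∈ A.ed b, ¬ Cross ε X) →
    ∀ a a', A.cl b a = A.cl b a' → (a ∈ X ↔ a' ∈ X)
  big : ∀ b, ∀ ε ∈ A.ed b, ∀ c (a a' : Fin n), A.cl c a ≠ A.cl c a' → s c a a' ≤ ε.2.2
  clco : ∀ b a a', A.cl b a = A.cl b a' → A.co a = A.co a'
  coc : ∀ X : Finset (Fin n), (∀ b, ∀ ε ∈ A.ed b, ¬ Cross ε X) →
    ∀ a a', A.co a = A.co a' → (a ∈ X ↔ a' ∈ X)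
  sup : ∀ c i j, A.pi c i j ≠ 0 → A.F j = true ∧ A.co j = A.co i
  pot : ∃ rt : Fin n → Fin n, (∀ i i', A.co i = A.co i' → rt i = rt i') ∧
    ∀ g, CC A.cl g → ∀ c i, pr (A.pi c i) g = g c i - g false (rt i)
  cer : ∀ e, A.F e = true → ∃ χ : Bool → Fin n → Bool, CC A.cl χ ∧
    ∀ j, A.F j = true → (χ false j ≠ χ true j ↔ j = e)
  cy0 : ∀ e, A.F e = false → ∀ g, CC A.cl g → pr (A.cy e) g = 0
  cy1 : ∀ e j, |A.cy e j| ≤ 1
  cy2 : ∀ e, A.F e = false → ∀ b (X : Finset (Fin n)), ∑ j ∈ X, A.cy e j ≠ 0 →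
    ∃ ε ∈ A.ed b, Cross ε X ∧ T * 2 ^ A.he e ≤ ε.2.2
  cy3 : ∀ e, A.F e = false → ∀ j, A.cy e j ≠ 0 → A.co j = A.co e
  cy4 : ∀ e, A.F e = false → ∃ b, ∃ ε ∈ A.ed b, T * 2 ^ A.he e ≤ ε.2.2
  dual : ∀ e, A.F e = false → ∃ (χ : Bool → Fin n → Bool) (σ : ℤ), |σ| = 1 ∧
    (∀ (b : Bool) (a a' : Fin n), 2 * T * 2 ^ A.he e < s b a a' → χ b a = χ b a') ∧
    (∀ j, A.F j = true → χ false j = χ true j) ∧
    ∀ e', A.F e' = false → σ * pr (A.cy e') (ind χ) = if e' = e then 1 else 0

variable {T : ℤ} {L : ℕ} {s : Bool → ℕ → ℕ → ℤ} {A : AS n}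

lemma abs_le_of_cert {Y : Fin n → ℤ} {χ : Bool → Fin n → Bool} {e : Fin n}
    (h : ∀ j, Y j ≠ 0 → j ≠ e → χ false j = χ true j) (he : χ false e ≠ χ true e)
    (hb : |pr Y (ind χ)| ≤ 1) : |Y e| ≤ 1 := by
  rw [pr_cert h] at hb
  rcases ind_sq he with h1 | h1 <;> rw [h1] at hb <;> simpa using hb

lemma Inv.pi_le (h : Inv T L s A) (c : Bool) (i j : Fin n) : |A.pi c i j| ≤ 1 := by
  by_cases h0 : A.pi c i j = 0
  · rw [h0]; simp
  obtain ⟨χ, hc, hχ⟩ := h.cer j (h.sup c i j h0).1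
  obtain ⟨rt, -, hp⟩ := h.pot
  refine abs_le_of_cert (χ := χ) (fun k hk hkj => ?_) ((hχ j (h.sup c i j h0).1).2 rfl) ?_
  · by_contra h1
    exact hkj ((hχ k (h.sup c i k hk).1).1 h1)
  · rw [hp _ hc.ind]
    exact ind_diff _ _ _ _ _

/-- the difference of the two potentials -/
def Yv (A : AS n) (b : Bool) (a a' j : Fin n) : ℤ := A.pi b a j - A.pi b a' j

lemma Inv.Y_sup (h : Inv T L s A) {b : Bool} {a a' j : Fin n} (hj : Yv A b a a' j ≠ 0) :
    A.F j = true ∧ (A.co j = A.co a ∨ A.co j = A.co a') := by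
  unfold Yv at hj
  by_cases h0 : A.pi b a j = 0
  · have h1 : A.pi b a' j ≠ 0 := fun h1 => hj (by rw [h0, h1, sub_self])
    exact ⟨(h.sup _ _ _ h1).1, Or.inr (h.sup _ _ _ h1).2⟩
  · exact ⟨(h.sup _ _ _ h0).1, Or.inl (h.sup _ _ _ h0).2⟩

lemma Inv.pr_Y (h : Inv T L s A) {b : Bool} {a a' : Fin n} (hs : A.co a = A.co a')
    {g : Bool → Fin n → ℤ} (hg : CC A.cl g) : pr (Yv A b a a') g = g b a - g b a' := by
  obtain ⟨rt, h1, hp⟩ := h.pot
  have := pr_sub (A.pi b a) (A.pi b a') g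
  rw [hp g hg, hp g hg, h1 a a' hs] at this
  rw [show Yv A b a a' = fun j => A.pi b a j - A.pi b a' j from rfl, this]
  ring

lemma Inv.Y_ne (h : Inv T L s A) {b : Bool} {a a' : Fin n} (hs : A.co a = A.co a')
    (hne : A.cl b a ≠ A.cl b a') : ∃ j, Yv A b a a' j ≠ 0 := by
  by_contra h0
  push Not at h0
  have hg : CC A.cl (fun c j => if c = b ∧ A.cl c j = A.cl c a then (1 : ℤ) else 0) :=
    fun c i i' e => by simp only [e]
  have := h.pr_Y (b := b) hs hg
  unfold pr at this
  rw [sum_eq_zero fun j _ => by rw [h0 j, zero_mul]] at this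
  simp [hne.symm] at this

lemma Inv.Y_le (h : Inv T L s A) {b : Bool} {a a' : Fin n} (hs : A.co a = A.co a') (j : Fin n) :
    |Yv A b a a' j| ≤ 1 := by
  by_cases h0 : Yv A b a a' j = 0
  · rw [h0]; simp
  obtain ⟨χ, hc, hχ⟩ := h.cer j (h.Y_sup h0).1
  refine abs_le_of_cert (χ := χ) (fun k hk hkj => ?_) ((hχ j (h.Y_sup h0).1).2 rfl) ?_
  · by_contra h1
    exact hkj ((hχ k (h.Y_sup hk).1).1 h1)
  · rw [h.pr_Y hs hc.ind]
    exact ind_diff _ _ _ _ _

def coef (A : AS n) (b : Bool) (a a' e : Fin n) (c : Bool) (i : Fin n) : ℤ :=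
  if A.co a = A.co a' then -(A.pi c i e * Yv A b a a' e) else if A.co i = A.co a' then 1 else 0

/-- one merge -/
def upd (A : AS n) (b : Bool) (a a' e : Fin n) (w : ℤ) (h : ℕ) : AS n where
  cl c j := if c = b ∧ A.cl c j = A.cl c a' then A.cl c a else A.cl c j
  F j := if A.co a = A.co a' ∧ j = e then false else A.F j
  cy i j := if A.co a = A.co a' ∧ i = e then Yv A b a a' e * Yv A b a a' j else A.cy i j
  he i := if A.co a = A.co a' ∧ i = e then h else A.he i
  ed c := if c = b then ((a : ℕ), (a' : ℕ), w) :: A.ed c else A.ed c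
  co j := if A.co j = A.co a' then A.co a else A.co j
  pi c i j := A.pi c i j + coef A b a a' e c i * Yv A b a a' j

section
variable {b : Bool} {a a' e : Fin n} {w : ℤ} {k : ℕ}

lemma upd_cl_eq {c : Bool} {i j : Fin n} (h : A.cl c i = A.cl c j) :
    (upd A b a a' e w k).cl c i = (upd A b a a' e w k).cl c j := by
  simp only [upd, h]

lemma upd_cl_aa : (upd A b a a' e w k).cl b a = (upd A b a a' e w k).cl b a' := by
  simp [upd]

lemma upd_cl_cases {c : Bool} {i j : Fin n}
    (h : (upd A b a a' e w k).cl c i = (upd A b a a' e w k).cl c j) :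
    A.cl c i = A.cl c j ∨ (c = b ∧ A.cl c i = A.cl c a ∧ A.cl c j = A.cl c a') ∨
      (c = b ∧ A.cl c i = A.cl c a' ∧ A.cl c j = A.cl c a) := by
  simp only [upd] at h
  split_ifs at h with h1 h2 h2
  · exact Or.inl (h1.2.trans h2.2.symm)
  · exact Or.inr (Or.inr ⟨h1.1, h1.2, h.symm⟩)
  · exact Or.inr (Or.inl ⟨h2.1, h, h2.2⟩)
  · exact Or.inl h

lemma cc_upd {β : Type} {g : Bool → Fin n → β} :
    CC (upd A b a a' e w k).cl g ↔ CC A.cl g ∧ g b a = g b a' := by
  refine ⟨fun h => ⟨fun c i j hij => h c i j (upd_cl_eq hij), h b a a' upd_cl_aa⟩, ?_⟩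
  rintro ⟨h1, h2⟩ c i j hij
  rcases upd_cl_cases hij with h | ⟨rfl, h, h'⟩ | ⟨rfl, h, h'⟩
  · exact h1 c i j h
  · rw [h1 _ _ _ h, h1 _ _ _ h', h2]
  · rw [h1 _ _ _ h, h1 _ _ _ h', h2]

lemma upd_co_eq {i j : Fin n} (h : A.co i = A.co j) :
    (upd A b a a' e w k).co i = (upd A b a a' e w k).co j := by
  simp only [upd, h]

lemma upd_co_aa : (upd A b a a' e w k).co a = (upd A b a a' e w k).co a' := by
  simp [upd]

lemma upd_co_cases {i j : Fin n} (h : (upd A b a a' e w k).co i = (upd A b a a' e w k).co j) :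
    A.co i = A.co j ∨ (A.co i = A.co a ∧ A.co j = A.co a') ∨ (A.co i = A.co a' ∧ A.co j = A.co a) := by
  simp only [upd] at h
  split_ifs at h with h1 h2 h2
  · exact Or.inl (h1.trans h2.symm)
  · exact Or.inr (Or.inr ⟨h1, h.symm⟩)
  · exact Or.inr (Or.inl ⟨h, h2⟩)
  · exact Or.inl h

lemma mem_upd_ed {c : Bool} {ε : ℕ × ℕ × ℤ} :
    ε ∈ (upd A b a a' e w k).ed c ↔ (c = b ∧ ε = ((a : ℕ), (a' : ℕ), w)) ∨ ε ∈ A.ed c := by
  simp only [upd]
  split_ifs with h
  · simp [h]
  · simp [h]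

lemma upd_F_true {j : Fin n} :
    (upd A b a a' e w k).F j = true ↔ A.F j = true ∧ ¬ (A.co a = A.co a' ∧ j = e) := by
  simp only [upd]
  split_ifs with h <;> simp [h]

lemma upd_F_false {j : Fin n} (h : (upd A b a a' e w k).F j = false) :
    (A.co a = A.co a' ∧ j = e) ∨ (¬ (A.co a = A.co a' ∧ j = e) ∧ A.F j = false) := by
  simp only [upd] at h
  split_ifs at h with h1
  · exact Or.inl h1
  · exact Or.inr ⟨h1, h⟩

lemma upd_con (h : Inv T L s A) (c : Bool) (X : Finset (Fin n))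
    (hX : ∀ ε ∈ (upd A b a a' e w k).ed c, ¬ Cross ε X) (i j : Fin n)
    (hij : (upd A b a a' e w k).cl c i = (upd A b a a' e w k).cl c j) : i ∈ X ↔ j ∈ X := by
  have h1 := h.con c X fun ε hε => hX ε (mem_upd_ed.2 (Or.inr hε))
  have h2 : c = b → (a ∈ X ↔ a' ∈ X) := fun hc => by
    have := hX _ (mem_upd_ed.2 (Or.inl ⟨hc, rfl⟩))
    rw [cross_iff] at this
    exact not_not.1 this
  rcases upd_cl_cases hij with h | ⟨hc, h, h'⟩ | ⟨hc, h, h'⟩
  · exact h1 i j h
  · rw [h1 _ _ h, h1 _ _ h', h2 hc]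
  · rw [h1 _ _ h, h1 _ _ h', h2 hc]

lemma pr_side (Y : Fin n → ℤ) (c : Bool) (X : Finset (Fin n)) :
    pr Y (fun c' j => if c' = c ∧ j ∈ X then 1 else 0) =
      (if c = true then -1 else 1) * ∑ j ∈ X, Y j := by
  unfold pr
  cases c
  · simp [sum_ite_mem]
  · simp [sum_ite_mem]

theorem Inv.upd (h : Inv T L s A) (hne : A.cl b a ≠ A.cl b a') (hw : w = s b a a') (hT : T < w)
    (hmax : ∀ c (i j : Fin n), A.cl c i ≠ A.cl c j → s c i j ≤ w)
    (he : A.co a = A.co a' → Yv A b a a' e ≠ 0) (h1 : T * 2 ^ k ≤ w) (h2 : w < 2 * T * 2 ^ k)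
    (hL : k ≤ L) : Inv T L s (upd A b a a' e w k) := by
  have hsq : A.co a = A.co a' → Yv A b a a' e * Yv A b a a' e = 1 := fun hs => by
    have a1 := h.Y_le (b := b) hs e
    have a2 := he hs
    rw [abs_le] at a1
    have : Yv A b a a' e = 1 ∨ Yv A b a a' e = -1 := by omega
    rcases this with h | h <;> rw [h] <;> norm_num
  have hcy0 : ∀ e', (KR.upd A b a a' e w k).F e' = false → ∀ g, CC (KR.upd A b a a' e w k).cl g →
      pr ((KR.upd A b a a' e w k).cy e') g = 0 := by
    intro e' he' g hg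
    rw [cc_upd] at hg
    rcases upd_F_false he' with h3 | ⟨h3, h4⟩
    · have : (KR.upd A b a a' e w k).cy e' = fun j => Yv A b a a' e * Yv A b a a' j := by
        funext j; simp only [KR.upd, if_pos h3]
      rw [this, pr_mul, h.pr_Y h3.1 hg.1, hg.2, sub_self, mul_zero]
    · have : (KR.upd A b a a' e w k).cy e' = A.cy e' := by
        funext j; simp only [KR.upd, if_neg h3]
      rw [this]
      exact h.cy0 e' h4 g hg.1
  refine ⟨?_, ?_, ?_, ?_, ?_, upd_con h, ?_, ?_, ?_, ?_, ?_, ?_, hcy0, ?_, ?_, ?_, ?_, ?_⟩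
  · intro c j
    simp only [KR.upd]
    split_ifs
    · exact h.lt _ _
    · exact h.lt _ _
  · intro j
    simp only [KR.upd]
    split_ifs
    · exact h.col _
    · exact h.col _
  · intro j
    simp only [KR.upd]
    split_ifs
    · exact hL
    · exact h.hel _
  · intro c
    have h3 := h.cnt c
    by_cases hc : c = b
    · subst hc
      have h4 : univ.image ((KR.upd A c a a' e w k).cl c) ⊆
          (univ.image (A.cl c)).erase (A.cl c a') := by
        intro x hx
        obtain ⟨j, -, rfl⟩ := mem_image.1 hx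
        simp only [KR.upd, true_and]
        split_ifs with h5
        · exact mem_erase.2 ⟨hne, mem_image_of_mem _ (mem_univ _)⟩
        · exact mem_erase.2 ⟨h5, mem_image_of_mem _ (mem_univ _)⟩
      have h5 := card_le_card h4
      have h6 := card_erase_add_one (mem_image_of_mem (A.cl c) (mem_univ a'))
      have h7 : ((KR.upd A c a a' e w k).ed c).length = (A.ed c).length + 1 := by
        simp [KR.upd]
      omega
    · have h4 : (KR.upd A b a a' e w k).cl c = A.cl c := by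
        funext j; simp [KR.upd, hc]
      have h5 : (KR.upd A b a a' e w k).ed c = A.ed c := by simp [KR.upd, hc]
      rw [h4, h5]
      exact h3
  · intro c ε hε
    rcases mem_upd_ed.1 hε with ⟨rfl, rfl⟩ | hε
    · exact ⟨a, a', by rw [hw], fun h3 => hne (by rw [h3]), hw ▸ hT, upd_cl_aa⟩
    · obtain ⟨i, j, h3, h4, h5, h6⟩ := h.edg c ε hε
      exact ⟨i, j, h3, h4, h5, upd_cl_eq h6⟩
  · intro c ε hε c' i j hij
    have h3 : A.cl c' i ≠ A.cl c' j := fun h3 => hij (upd_cl_eq h3)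
    rcases mem_upd_ed.1 hε with ⟨rfl, rfl⟩ | hε
    · exact hmax c' i j h3
    · exact h.big c ε hε c' i j h3
  · intro c i j hij
    rcases upd_cl_cases hij with h3 | ⟨-, h3, h4⟩ | ⟨-, h3, h4⟩
    · exact upd_co_eq (h.clco _ _ _ h3)
    · rw [upd_co_eq (h.clco _ _ _ h3), upd_co_eq (h.clco _ _ _ h4), upd_co_aa]
    · rw [upd_co_eq (h.clco _ _ _ h3), upd_co_eq (h.clco _ _ _ h4), upd_co_aa]
  · intro X hX i j hij
    have h3 := h.coc X fun c ε hε => hX c ε (mem_upd_ed.2 (Or.inr hε))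
    have h4 : a ∈ X ↔ a' ∈ X := by
      have := hX b _ (mem_upd_ed.2 (Or.inl ⟨rfl, rfl⟩))
      rw [cross_iff] at this
      exact not_not.1 this
    rcases upd_co_cases hij with h5 | ⟨h5, h6⟩ | ⟨h5, h6⟩
    · exact h3 i j h5
    · rw [h3 _ _ h5, h3 _ _ h6, h4]
    · rw [h3 _ _ h5, h3 _ _ h6, h4]
  · intro c i j hij
    have hij' : A.pi c i j + coef A b a a' e c i * Yv A b a a' j ≠ 0 := hij
    rw [upd_F_true]
    have h3 : ¬ (A.co a = A.co a' ∧ j = e) := by
      rintro ⟨hs, rfl⟩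
      apply hij'
      unfold coef
      rw [if_pos hs, neg_mul, mul_assoc, hsq hs]
      ring
    by_cases h0 : A.pi c i j = 0
    · rw [h0, zero_add] at hij'
      have h4 := h.Y_sup (right_ne_zero_of_mul hij')
      have h5 := left_ne_zero_of_mul hij'
      refine ⟨⟨h4.1, h3⟩, ?_⟩
      unfold coef at h5
      split_ifs at h5 with hs h6
      · have h7 := h.sup c i e (left_ne_zero_of_mul (neg_ne_zero.1 h5))
        have h8 := h.Y_sup (he hs)
        apply upd_co_eq
        rcases h4.2 with h9 | h9 <;> rcases h8.2 with h10 | h10 <;> omega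
      · rw [upd_co_eq h6]
        rcases h4.2 with h9 | h9
        · rw [upd_co_eq h9, upd_co_aa]
        · exact upd_co_eq h9
      · exact absurd rfl h5
    · exact ⟨⟨(h.sup c i j h0).1, h3⟩, upd_co_eq (h.sup c i j h0).2⟩
  · obtain ⟨rt, hr, hp⟩ := h.pot
    refine ⟨fun i => if A.co i = A.co a' then rt a else rt i, fun i j hij => ?_, fun g hg c i => ?_⟩
    · rcases upd_co_cases hij with h3 | ⟨h3, h4⟩ | ⟨h3, h4⟩
      · simp only [h3, hr i j h3]
      · simp only [h4, if_true, hr i a h3, ite_self]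
      · simp only [h3, if_true, hr j a h4, ite_self]
    · rw [cc_upd] at hg
      have h3 : (KR.upd A b a a' e w k).pi c i =
          fun j => A.pi c i j + coef A b a a' e c i * Yv A b a a' j := rfl
      rw [h3, pr_add, hp g hg.1]
      by_cases hs : A.co a = A.co a'
      · rw [h.pr_Y hs hg.1, hg.2, sub_self, mul_zero, add_zero]
        by_cases h4 : A.co i = A.co a'
        · simp only [if_pos h4, hr i a (h4.trans hs.symm)]
        · simp only [if_neg h4]
      · have h5 := pr_sub (A.pi b a) (A.pi b a') g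
        rw [hp g hg.1, hp g hg.1, hg.2] at h5
        rw [show Yv A b a a' = fun j => A.pi b a j - A.pi b a' j from rfl, h5]
        unfold coef
        rw [if_neg hs]
        by_cases h4 : A.co i = A.co a'
        · simp only [if_pos h4, hr i a' h4]
          ring
        · simp only [if_neg h4]
          ring
  · intro e' he'
    rw [upd_F_true] at he'
    obtain ⟨χ, hc, hχ⟩ := h.cer e' he'.1
    by_cases h3 : χ b a = χ b a'
    · exact ⟨χ, cc_upd.2 ⟨hc, h3⟩, fun j hj => hχ j (upd_F_true.1 hj).1⟩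
    have key : ∃ ψ : Bool → Fin n → Bool, CC A.cl ψ ∧ ψ b a ≠ ψ b a' ∧
        ∀ j, (KR.upd A b a a' e w k).F j = true → ψ false j = ψ true j := by
      by_cases hs : A.co a = A.co a'
      · obtain ⟨ψ, hc', hψ⟩ := h.cer e (h.Y_sup (he hs)).1
        refine ⟨ψ, hc', fun h4 => ?_, fun j hj => ?_⟩
        · have h5 := h.pr_Y (b := b) hs hc'.ind
          rw [pr_cert (e := e) (fun j hj hje => by
            by_contra h6
            exact hje ((hψ j (h.Y_sup hj).1).1 h6))] at h5
          have h6 : ind ψ b a - ind ψ b a' = 0 := by unfold ind; rw [h4, sub_self]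
          rw [h6] at h5
          have h7 := he hs
          rcases ind_sq ((hψ e (h.Y_sup (he hs)).1).2 rfl) with h8 | h8 <;> rw [h8] at h5 <;> omega
        · rw [upd_F_true] at hj
          by_contra h6
          exact hj.2 ⟨hs, (hψ j hj.1).1 h6⟩
      · exact ⟨fun _ j => decide (A.co j = A.co a'), fun c i j hij => by
          simp only [h.clco c i j hij], by simp [hs], fun _ _ => rfl⟩
    obtain ⟨ψ, hc', h4, h5⟩ := key
    refine ⟨fun c j => xor (χ c j) (ψ c j), cc_upd.2 ⟨fun c i j hij => by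
      simp only [hc c i j hij, hc' c i j hij], ?_⟩, fun j hj => ?_⟩
    · revert h3 h4
      cases χ b a <;> cases χ b a' <;> cases ψ b a <;> cases ψ b a' <;> simp
    · rw [← hχ j (upd_F_true.1 hj).1]
      simp only [h5 j hj]
      cases χ false j <;> cases χ true j <;> cases ψ true j <;> simp
  · intro i j
    simp only [KR.upd]
    split_ifs with h3
    · rw [abs_mul]
      exact mul_le_one₀ (h.Y_le h3.1 _) (abs_nonneg _) (h.Y_le h3.1 _)
    · exact h.cy1 i j
  · intro e' he' c X hX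
    rcases upd_F_false he' with h3 | ⟨h3, h4⟩
    · by_contra h5
      push Not at h5
      have h6 : ∀ ε ∈ (KR.upd A b a a' e w k).ed c, ¬ Cross ε X := by
        intro ε hε h7
        have h8 := h5 ε hε h7
        have h9 : (KR.upd A b a a' e w k).he e' = k := by simp only [KR.upd, if_pos h3]
        rw [h9] at h8
        rcases mem_upd_ed.1 hε with ⟨-, rfl⟩ | hε
        · exact absurd h1 (not_le.2 h8)
        · have := h.big c ε hε b a a' hne
          omega
      have h7 := hcy0 e' he' (fun c' j => if c' = c ∧ j ∈ X then 1 else 0) (fun c' i j hij => by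
        by_cases h8 : c' = c
        · subst h8
          simp only [upd_con h c' X h6 i j hij]
        · simp [h8])
      rw [pr_side] at h7
      apply hX
      cases c <;> simpa using h7
    · have h5 : ∀ j, (KR.upd A b a a' e w k).cy e' j = A.cy e' j := fun j => by
        simp only [KR.upd, if_neg h3]
      have h6 : (KR.upd A b a a' e w k).he e' = A.he e' := by simp only [KR.upd, if_neg h3]
      simp only [h5] at hX
      obtain ⟨ε, hε, h7⟩ := h.cy2 e' h4 c X hX
      exact ⟨ε, mem_upd_ed.2 (Or.inr hε), h6 ▸ h7⟩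
  · intro e' he' j hj
    apply upd_co_eq
    rcases upd_F_false he' with h3 | ⟨h3, h4⟩
    · have h5 : (KR.upd A b a a' e w k).cy e' j = Yv A b a a' e * Yv A b a a' j := by
        simp only [KR.upd, if_pos h3]
      rw [h5] at hj
      have h6 := (h.Y_sup (right_ne_zero_of_mul hj)).2
      have h7 := (h.Y_sup (left_ne_zero_of_mul hj)).2
      obtain ⟨h8, rfl⟩ := h3
      rcases h6 with h6 | h6 <;> rcases h7 with h7 | h7 <;> omega
    · have h5 : (KR.upd A b a a' e w k).cy e' j = A.cy e' j := by simp only [KR.upd, if_neg h3]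
      exact h.cy3 e' h4 j (h5 ▸ hj)
  · intro e' he'
    rcases upd_F_false he' with h3 | ⟨h3, h4⟩
    · have h9 : (KR.upd A b a a' e w k).he e' = k := by simp only [KR.upd, if_pos h3]
      exact ⟨b, _, mem_upd_ed.2 (Or.inl ⟨rfl, rfl⟩), by rw [h9]; exact h1⟩
    · have h6 : (KR.upd A b a a' e w k).he e' = A.he e' := by simp only [KR.upd, if_neg h3]
      obtain ⟨c, ε, hε, h7⟩ := h.cy4 e' h4
      exact ⟨c, ε, mem_upd_ed.2 (Or.inr hε), h6 ▸ h7⟩
  · intro e' he'
    rcases upd_F_false he' with h3 | ⟨h3, h4⟩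
    · obtain ⟨hs, rfl⟩ := h3
      have hF := (h.Y_sup (he hs)).1
      obtain ⟨ψ, hc', hψ⟩ := h.cer e' hF
      have h9 : (KR.upd A b a a' e' w k).he e' = k := by simp [KR.upd, hs]
      have hσ := ind_sq ((hψ e' hF).2 rfl)
      refine ⟨ψ, ind ψ false e' - ind ψ true e', by rcases hσ with h | h <;> rw [h] <;> simp,
        fun c i j hij => ?_, fun j hj => ?_, fun e'' he'' => ?_⟩
      · apply hc'
        by_contra h5
        have := hmax c i j h5
        rw [h9] at hij
        omega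
      · rw [upd_F_true] at hj
        by_contra h6
        exact hj.2 ⟨hs, (hψ j hj.1).1 h6⟩
      · rcases upd_F_false he'' with h5 | ⟨h5, h6⟩
        · obtain ⟨-, rfl⟩ := h5
          have : (KR.upd A b a a' e'' w k).cy e'' =
              fun j => Yv A b a a' e'' * Yv A b a a' j := by
            funext j; simp [KR.upd, hs]
          rw [this, pr_mul, pr_cert (e := e'') (fun j hj hje => by
            by_contra h6
            exact hje ((hψ j (h.Y_sup hj).1).1 h6)), if_pos rfl, ← mul_assoc (Yv A b a a' e''),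
            hsq hs]
          rcases hσ with h | h <;> rw [h] <;> simp
        · have : (KR.upd A b a a' e' w k).cy e'' = A.cy e'' := by
            funext j; simp only [KR.upd, if_neg h5]
          rw [this, h.cy0 e'' h6 _ hc'.ind, mul_zero, if_neg (fun h7 => h5 ⟨hs, h7⟩)]
    · obtain ⟨χ, σ, h5, h6, h7, h8⟩ := h.dual e' h4
      have h9 : (KR.upd A b a a' e w k).he e' = A.he e' := by simp only [KR.upd, if_neg h3]
      refine ⟨χ, σ, h5, h9 ▸ h6, fun j hj => h7 j (upd_F_true.1 hj).1, fun e'' he'' => ?_⟩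
      rcases upd_F_false he'' with h10 | ⟨h10, h11⟩
      · have : (KR.upd A b a a' e w k).cy e'' = fun j => Yv A b a a' e * Yv A b a a' j := by
          funext j; simp only [KR.upd, if_pos h10]
        rw [this, pr_mul, pr_zero (fun j hj => h7 j (h.Y_sup hj).1), mul_zero, mul_zero, if_neg]
        rintro rfl
        exact h3 h10
      · have : (KR.upd A b a a' e w k).cy e'' = A.cy e'' := by
          funext j; simp only [KR.upd, if_neg h10]
        rw [this]
        exact h8 e'' h11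

end

/-- the initial state -/
def ini (n : ℕ) : AS n where
  cl _ j := j
  F _ := true
  cy _ _ := 0
  he _ := 0
  ed _ := []
  co j := j
  pi c i j := if c = true ∧ j = i then -1 else 0

theorem inv_ini (T : ℤ) (L : ℕ) (s : Bool → ℕ → ℕ → ℤ) : Inv T L s (ini n) := by
  refine ⟨fun _ j => j.2, fun j => j.2, fun _ => Nat.zero_le _, fun b => ?_,
    fun _ _ h => absurd h List.not_mem_nil, fun b X _ a a' h => ?_,
    fun _ _ h => absurd h List.not_mem_nil, fun _ _ _ h => h, fun X _ a a' h => ?_,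
    fun c i j h => ?_, ⟨id, fun i i' h => Fin.ext h, fun g _ c i => ?_⟩, fun e _ => ?_,
    fun _ h => by simp [ini] at h, fun _ _ => by simp [ini], fun _ h => by simp [ini] at h,
    fun _ h => by simp [ini] at h, fun _ h => by simp [ini] at h, fun _ h => by simp [ini] at h⟩
  · have := card_image_le (s := (univ : Finset (Fin n))) (f := (ini n).cl b)
    simpa [ini] using this
  · rw [show a = a' from Fin.ext h]
  · rw [show a = a' from Fin.ext h]
  · refine ⟨rfl, ?_⟩
    simp only [ini] at h ⊢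
    by_contra h1
    exact h (if_neg fun h2 => h1 (by rw [h2.2]))
  · unfold pr
    cases c <;> simp [ini]
  · refine ⟨fun c j => decide (c = false ∧ j = e), fun b a a' h => ?_, fun j _ => by simp⟩
    rw [show a = a' from Fin.ext h]

end KR

end Crest.Agent.R302
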