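import Crest.Agent.R309.SCH

/-!
Row 302: smoothing of convex lattice functions (core lemmas).
-/

set_option autoImplicit false

namespace Crest.Agent.R302.SMC

open Finset

variable {V : Type} [Fintype V] [DecidableEq V]

/-- unit vector -/
def e (a : V) : V → ℤ := Pi.single a 1

/-- forward difference -/
def D (a : V) (g : (V → ℤ) → ℝ) (y : V → ℤ) : ℝ := g (y + e a) - g y

/-- `ℓ¹` norm -/
def n1 (v : V → ℤ) : ℕ := ∑ a, (v a).natAbs

theorem anchor : True := by
  have := @e.eq_1; have := @D.eq_1; have := @n1.eq_1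
  trivial

theorem n1_sub (v : V → ℤ) (a : V) (h : 0 < v a) : n1 (v - e a) + 1 = n1 v := by
  unfold n1
  rw [← Finset.add_sum_erase _ _ (mem_univ a), ← Finset.add_sum_erase univ (fun b => (v b).natAbs) (mem_univ a)]
  have h1 : ∑ x ∈ univ.erase a, ((v - e a) x).natAbs = ∑ x ∈ univ.erase a, (v x).natAbs := by
    refine sum_congr rfl fun x hx => ?_
    have : x ≠ a := (mem_erase.1 hx).1
    simp [e, Pi.single_eq_of_ne this]
  rw [h1]
  simp only [e, Pi.sub_apply, Pi.single_eq_same]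
  omega

theorem n1_add (v : V → ℤ) (a : V) (h : v a < 0) : n1 (v + e a) + 1 = n1 v := by
  unfold n1
  rw [← Finset.add_sum_erase _ _ (mem_univ a), ← Finset.add_sum_erase univ (fun b => (v b).natAbs) (mem_univ a)]
  have h1 : ∑ x ∈ univ.erase a, ((v + e a) x).natAbs = ∑ x ∈ univ.erase a, (v x).natAbs := by
    refine sum_congr rfl fun x hx => ?_
    have : x ≠ a := (mem_erase.1 hx).1
    simp [e, Pi.single_eq_of_ne this]
  rw [h1]
  simp only [e, Pi.add_apply, Pi.single_eq_same]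
  omega

theorem n1_neg (v : V → ℤ) : n1 (-v) = n1 v := by
  unfold n1; simp

/-- mean value inequality on an `ℓ¹` ball -/
theorem mvi (φ : (V → ℤ) → ℝ) (z : V → ℤ) (r : ℕ) (c : ℝ)
    (h : ∀ y, n1 (y - z) ≤ r → ∀ a, |D a φ y| ≤ c) :
    ∀ y, n1 (y - z) ≤ r → |φ y - φ z| ≤ c * n1 (y - z) := by
  suffices H : ∀ m y, n1 (y - z) = m → m ≤ r → |φ y - φ z| ≤ c * m from
    fun y hy => H _ y rfl hy
  intro m
  induction m with
  | zero =>
    intro y hy _
    have : y = z := by
      funext a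
      have h0 : ((y - z) a).natAbs = 0 := by
        have := (sum_eq_zero_iff.1 hy) a (mem_univ a)
        exact this
      have := Int.natAbs_eq_zero.1 h0
      simpa [sub_eq_zero] using this
    simp [this]
  | succ m ih =>
    intro y hy hm
    obtain ⟨a, ha⟩ : ∃ a, (y - z) a ≠ 0 := by
      by_contra hc
      push Not at hc
      have : n1 (y - z) = 0 := by unfold n1; simp [hc]
      omega
    rcases lt_or_gt_of_ne ha with ha | ha
    · have h1 := n1_add _ a ha
      have h2 : y + e a - z = y - z + e a := by abel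
      have h3 := ih (y + e a) (by rw [h2]; omega) (by omega)
      have h4 := h y (by omega) a
      unfold D at h4
      rw [abs_le] at h3 h4 ⊢
      push_cast
      constructor <;> linarith [h3.1, h3.2, h4.1, h4.2]
    · have h1 := n1_sub _ a ha
      have h2 : y - e a - z = y - z - e a := by abel
      have h3 := ih (y - e a) (by rw [h2]; omega) (by omega)
      have h4 := h (y - e a) (by rw [h2]; omega) a
      unfold D at h4
      rw [sub_add_cancel] at h4
      rw [abs_le] at h3 h4 ⊢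
      push_cast
      constructor <;> linarith [h3.1, h3.2, h4.1, h4.2]

theorem D_comm (a b : V) (g : (V → ℤ) → ℝ) : D a (D b g) = D b (D a g) := by
  funext y
  unfold D
  rw [show y + e a + e b = y + e b + e a by abel]
  ring

theorem sum_e (a : V) (f : V → ℝ) : ∑ b, ((e a b : ℤ) : ℝ) * f b = f a := by
  rw [sum_eq_single a]
  · simp [e]
  · intro b _ hb; simp [e, Pi.single_eq_of_ne hb]
  · simp

/-- the quadratic form -/
def qf (K : V → V → ℝ) (v w : V → ℝ) : ℝ := ∑ a, ∑ b, v a * w b * K a b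

theorem anchor2 : True := by
  have := @qf.eq_1
  trivial

theorem qf_add_left (K : V → V → ℝ) (u v w : V → ℝ) : qf K (u + v) w = qf K u w + qf K v w := by
  unfold qf
  simp only [Pi.add_apply, add_mul, sum_add_distrib]

theorem qf_add_right (K : V → V → ℝ) (u v w : V → ℝ) : qf K u (v + w) = qf K u v + qf K u w := by
  unfold qf
  simp only [Pi.add_apply, add_mul, mul_add, sum_add_distrib]

theorem qf_symm {K : V → V → ℝ} (hK : ∀ a b, K a b = K b a) (v w : V → ℝ) :
    qf K v w = qf K w v := by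
  unfold qf
  rw [sum_comm]
  exact sum_congr rfl fun a _ => sum_congr rfl fun b _ => by rw [hK b a]; ring

theorem qf_smul (K : V → V → ℝ) (s : ℝ) (v : V → ℝ) :
    qf K (fun a => s * v a) (fun a => s * v a) = s ^ 2 * qf K v v := by
  unfold qf
  simp only [mul_sum]
  exact sum_congr rfl fun a _ => sum_congr rfl fun b _ => by ring

theorem abs_qf_le {K : V → V → ℝ} {κ : ℝ} (hK : ∀ a b, |K a b| ≤ κ) (v w : V → ℝ) :
    |qf K v w| ≤ κ * ((∑ a, |v a|) * ∑ b, |w b|) := by
  unfold qf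
  rw [sum_mul_sum, mul_sum]
  refine (abs_sum_le_sum_abs _ _).trans (sum_le_sum fun a _ => ?_)
  rw [mul_sum]
  refine (abs_sum_le_sum_abs _ _).trans (sum_le_sum fun b _ => ?_)
  rw [abs_mul, abs_mul]
  have := hK a b
  have h1 : 0 ≤ |v a| * |w b| := by positivity
  nlinarith

/-- real vector of an integer vector -/
def cR (W : V → ℤ) : V → ℝ := fun a => (W a : ℝ)

theorem anchor3 : True := by
  have := @cR.eq_1
  trivial

theorem qf_e_right (K : V → V → ℝ) (v : V → ℝ) (b : V) :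
    qf K v (cR (e b)) = ∑ a, v a * K a b := by
  unfold qf cR
  refine sum_congr rfl fun a _ => ?_
  have := sum_e b (fun c => v a * K a c)
  rw [← this]
  exact sum_congr rfl fun c _ => by ring

/-- second-order Taylor estimate -/
theorem taylor (g : (V → ℤ) → ℝ) (z : V → ℤ) (τ : ℝ) (hτ : 0 ≤ τ)
    (h : ∀ y a b, |D a (D b g) y - D a (D b g) z| ≤ τ * n1 (y - z)) (W : V → ℤ) :
    |g (z + W) + g (z - W) - 2 * g z - qf (fun a b => D a (D b g) z) (cR W) (cR W)| ≤
      2 * τ * (n1 W : ℝ) ^ 3 := by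
  set K : V → V → ℝ := fun a b => D a (D b g) z with hKdef
  have hK : ∀ a b, K a b = K b a := fun a b => by simp only [hKdef]; rw [D_comm]
  set r := n1 W with hr
  let hh : (V → ℤ) → ℝ := fun y => g y - qf K (cR (y - z)) (cR (y - z)) / 2
  have hadd : ∀ (y : V → ℤ) (b : V), cR (y + e b - z) = cR (y - z) + cR (e b) := by
    intro y b; funext a; simp only [cR, Pi.add_apply, Pi.sub_apply]; push_cast; ring
  have hD1 : ∀ y b, D b hh y = D b g y - (∑ a, cR (y - z) a * K a b) - K b b / 2 := by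
    intro y b
    simp only [D, hh]
    rw [hadd, qf_add_left, qf_add_right, qf_add_right, qf_symm hK (cR (e b)) (cR (y - z)),
      qf_e_right, qf_e_right]
    have : ∑ a, cR (e b) a * K a b = K b b := sum_e b (fun a => K a b)
    rw [this]
    ring
  have hD2 : ∀ y a b, D a (D b hh) y = D a (D b g) y - K a b := by
    intro y a b
    have e1 : D a (D b hh) y = D b hh (y + e a) - D b hh y := rfl
    have e2 : D a (D b g) y = D b g (y + e a) - D b g y := rfl
    rw [e1, e2, hD1, hD1, hadd]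
    simp only [Pi.add_apply, add_mul, sum_add_distrib]
    have : ∑ c, cR (e a) c * K c b = K a b := sum_e a (fun c => K c b)
    rw [this]
    ring
  have hr0 : (0 : ℝ) ≤ r := Nat.cast_nonneg _
  have h1 : ∀ b y, n1 (y - z) ≤ r → |D b hh y - D b hh z| ≤ τ * r * r := by
    intro b y hy
    refine (mvi (D b hh) z r (τ * r) (fun y' hy' a => ?_) y hy).trans ?_
    · rw [hD2]
      refine (h y' a b).trans ?_
      exact mul_le_mul_of_nonneg_left (by exact_mod_cast hy') hτ
    · exact mul_le_mul_of_nonneg_left (by exact_mod_cast hy) (by positivity)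
  let ht : (V → ℤ) → ℝ := fun y => hh y - ∑ a, cR (y - z) a * D a hh z
  have h2 : ∀ y, n1 (y - z) ≤ r → |ht y - ht z| ≤ τ * r * r * r := by
    intro y hy
    refine (mvi ht z r (τ * r * r) (fun y' hy' b => ?_) y hy).trans ?_
    · have : D b ht y' = D b hh y' - D b hh z := by
        have e1 : D b ht y' = (hh (y' + e b) - ∑ a, cR (y' + e b - z) a * D a hh z) -
            (hh y' - ∑ a, cR (y' - z) a * D a hh z) := rfl
        rw [e1, hadd]
        simp only [Pi.add_apply, add_mul, sum_add_distrib]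
        have : ∑ c, cR (e b) c * D c hh z = D b hh z := sum_e b (fun c => D c hh z)
        rw [this]
        have e2 : D b hh y' = hh (y' + e b) - hh y' := rfl
        rw [e2]
        ring
      rw [this]
      exact h1 b y' hy'
    · exact mul_le_mul_of_nonneg_left (by exact_mod_cast hy) (by positivity)
  have a1 := h2 (z + W) (by rw [add_sub_cancel_left])
  have a2 := h2 (z - W) (by rw [show z - W - z = -W by abel, n1_neg])
  have c0 : cR (z - z) = fun _ => (0 : ℝ) := by funext a; simp [cR]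
  have c1 : cR (z + W - z) = cR W := by rw [add_sub_cancel_left]
  have c2 : cR (z - W - z) = fun a => (-1) * cR W a := by funext a; simp [cR]
  have q0 : qf K (fun _ => (0 : ℝ)) (fun _ => (0 : ℝ)) = 0 := by simp [qf]
  simp only [ht, hh, c0, c1, c2, q0, qf_smul] at a1 a2
  have s2 : ∑ a, -1 * cR W a * D a (fun y => g y - qf K (cR (y - z)) (cR (y - z)) / 2) z =
      -∑ a, cR W a * D a (fun y => g y - qf K (cR (y - z)) (cR (y - z)) / 2) z := by
    rw [← sum_neg_distrib]; exact sum_congr rfl fun a _ => by ring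
  rw [s2] at a2
  simp only [zero_mul, sum_const_zero] at a1 a2
  rw [abs_le] at a1 a2 ⊢
  constructor <;> nlinarith [a1.1, a1.2, a2.1, a2.2]

/-- approximate positivity of the discrete Hessian of a convex function -/
theorem psd (g : (V → ℤ) → ℝ) (z : V → ℤ) (τ κ : ℝ) (M : ℕ) (hM : 1 ≤ M) (hτ : 0 ≤ τ) (hκ : 0 ≤ κ)
    (h : ∀ y a b, |D a (D b g) y - D a (D b g) z| ≤ τ * n1 (y - z))
    (hK : ∀ a b, |D a (D b g) z| ≤ κ) (hc : ∀ W, 2 * g z ≤ g (z + W) + g (z - W)) (v : V → ℝ) :
    -((16 * τ * (Fintype.card V : ℝ) ^ 3 * M + 6 * κ * (Fintype.card V : ℝ) ^ 2 / M) *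
      ∑ a, v a ^ 2) ≤ qf (fun a b => D a (D b g) z) v v := by
  set K : V → V → ℝ := fun a b => D a (D b g) z with hKdef
  have hKs : ∀ a b, K a b = K b a := fun a b => by simp only [hKdef]; rw [D_comm]
  set n : ℝ := (Fintype.card V : ℝ) with hn
  have hn0 : 0 ≤ n := Nat.cast_nonneg _
  have hM1 : (1 : ℝ) ≤ M := by exact_mod_cast hM
  have key : ∀ u : V → ℝ, (∀ a, |u a| ≤ 1) →
      -(16 * τ * n ^ 3 * M + 6 * κ * n ^ 2 / M) ≤ qf K u u := by
    intro u hu
    let W : V → ℤ := fun a => ⌊(M : ℝ) * u a⌋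
    let ε : V → ℝ := fun a => (M : ℝ) * u a - W a
    have hε : ∀ a, |ε a| ≤ 1 := fun a => by
      have h1 := Int.floor_le ((M : ℝ) * u a)
      have h2 := Int.lt_floor_add_one ((M : ℝ) * u a)
      rw [abs_le]; constructor <;> simp only [ε, W] <;> linarith
    have hW : ∀ a, |cR W a| ≤ 2 * M := fun a => by
      have h1 := hε a
      have h2 := hu a
      have h3 : |(M : ℝ) * u a| ≤ M := by
        rw [abs_mul, abs_of_nonneg (by linarith : (0 : ℝ) ≤ M)]
        exact mul_le_of_le_one_right (by linarith) h2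
      have h4 : cR W a = (M : ℝ) * u a - ε a := by simp [cR, ε]
      rw [h4]
      exact (abs_sub _ _).trans (by linarith)
    have sW : ∑ a, |cR W a| ≤ n * (2 * M) := by
      refine (sum_le_sum fun a _ => hW a).trans ?_
      simp [hn]
    have sε : ∑ a, |ε a| ≤ n := by
      refine (sum_le_sum fun a _ => hε a).trans ?_
      simp [hn]
    have hn1 : (n1 W : ℝ) = ∑ a, |cR W a| := by
      unfold n1 cR; push_cast
      exact sum_congr rfl fun a _ => by rw [Nat.cast_natAbs]; push_cast; rfl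
    have t1 := taylor g z τ hτ h W
    rw [hn1, abs_le] at t1
    have t2 : -(2 * τ * (n * (2 * M)) ^ 3) ≤ qf K (cR W) (cR W) := by
      have : (∑ a, |cR W a|) ^ 3 ≤ (n * (2 * M)) ^ 3 :=
        pow_le_pow_left₀ (sum_nonneg fun a _ => abs_nonneg _) sW 3
      have h5 := hc W
      nlinarith [t1.2]
    have e1 : (fun a => (M : ℝ) * u a) = cR W + ε := by funext a; simp [cR, ε]
    have e2 := qf_smul K (M : ℝ) u
    rw [e1, qf_add_left, qf_add_right, qf_add_right, qf_symm hKs ε (cR W)] at e2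
    have b1 := abs_qf_le hK (cR W) ε
    have b2 := abs_qf_le hK ε ε
    have p1 : (∑ a, |cR W a|) * ∑ b, |ε b| ≤ n * (2 * M) * n :=
      mul_le_mul sW sε (sum_nonneg fun a _ => abs_nonneg _) (by positivity)
    have p2 : (∑ a, |ε a|) * ∑ b, |ε b| ≤ n * n :=
      mul_le_mul sε sε (sum_nonneg fun a _ => abs_nonneg _) hn0
    have b1' : -(κ * (n * (2 * M) * n)) ≤ qf K (cR W) ε := by
      have := (abs_le.1 (b1.trans (mul_le_mul_of_nonneg_left p1 hκ))).1
      exact this
    have b2' : -(κ * (n * n)) ≤ qf K ε ε := (abs_le.1 (b2.trans (mul_le_mul_of_nonneg_left p2 hκ))).1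
    have hM0 : (0 : ℝ) < M := by linarith
    have hM2 : (0 : ℝ) < (M : ℝ) ^ 2 := by positivity
    have fin : -(16 * τ * n ^ 3 * M + 6 * κ * n ^ 2 / M) * (M : ℝ) ^ 2 ≤ qf K u u * (M : ℝ) ^ 2 := by
      have e3 : -(16 * τ * n ^ 3 * M + 6 * κ * n ^ 2 / M) * (M : ℝ) ^ 2 =
          -(2 * τ * (n * (2 * M)) ^ 3) - 6 * (κ * (n * n)) * M := by
        field_simp; ring
      rw [e3]
      have h6 : 0 ≤ κ * (n * n) := by positivity
      have h7 : κ * (n * n) ≤ κ * (n * n) * M := le_mul_of_one_le_right h6 hM1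
      nlinarith
    exact le_of_mul_le_mul_right fin hM2
  by_cases h0 : ∑ a, v a ^ 2 = 0
  · have : ∀ a, v a = 0 := fun a => by
      have := (sum_eq_zero_iff_of_nonneg (fun a _ => sq_nonneg (v a))).1 h0 a (mem_univ a)
      exact pow_eq_zero_iff (two_ne_zero) |>.1 this
    simp [h0, qf, this]
  · have hS : 0 < ∑ a, v a ^ 2 := lt_of_le_of_ne (sum_nonneg fun a _ => sq_nonneg _) (Ne.symm h0)
    set s := Real.sqrt (∑ a, v a ^ 2) with hs
    have hs0 : 0 < s := Real.sqrt_pos.2 hS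
    have hs2 : s ^ 2 = ∑ a, v a ^ 2 := Real.sq_sqrt hS.le
    have k1 := key (fun a => s⁻¹ * v a) (fun a => by
      rw [abs_mul, abs_of_pos (inv_pos.2 hs0), inv_mul_le_iff₀ hs0, mul_one]
      refine abs_le_of_sq_le_sq' ?_ hs0.le |> fun h => abs_le.2 h
      rw [hs2]
      exact single_le_sum (f := fun a => v a ^ 2) (fun a _ => sq_nonneg _) (mem_univ a))
    rw [qf_smul] at k1
    rw [← hs2]
    have : qf K v v = s ^ 2 * (s⁻¹ ^ 2 * qf K v v) := by field_simp
    rw [this]
    have hs3 : 0 < s ^ 2 := by positivity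
    nlinarith

/-! ### Averages -/

/-- average along one coordinate -/
noncomputable def A1 (w : ℕ) (a : V) (g : (V → ℤ) → ℝ) (z : V → ℤ) : ℝ :=
  (∑ i ∈ range w, g (z + (i : ℤ) • e a)) / w

/-- iterated averages -/
noncomputable def AL (w : ℕ) : List V → ((V → ℤ) → ℝ) → (V → ℤ) → ℝ
  | [], g => g
  | a :: t, g => A1 w a (AL w t g)

theorem anchor4 : True := by
  have := @A1.eq_1; have := @AL.eq_def; have := @AL.eq_1; have := @AL.eq_2
  trivial

theorem D_A1 (w : ℕ) (a b : V) (g : (V → ℤ) → ℝ) : D b (A1 w a g) = A1 w a (D b g) := by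
  funext z
  unfold D A1
  rw [← sub_div, ← sum_sub_distrib]
  congr 1
  exact sum_congr rfl fun i _ => by rw [show z + e b + (i : ℤ) • e a = z + (i : ℤ) • e a + e b by abel]

theorem D_AL (w : ℕ) (t : List V) (b : V) (g : (V → ℤ) → ℝ) : D b (AL w t g) = AL w t (D b g) := by
  induction t with
  | nil => rfl
  | cons a t ih => simp only [AL]; rw [D_A1, ih]

theorem A1_bound {w : ℕ} (hw : 1 ≤ w) (a : V) {g : (V → ℤ) → ℝ} {c : ℝ} (h : ∀ y, |g y| ≤ c) (z : V → ℤ) :
    |A1 w a g z| ≤ c := by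
  unfold A1
  have hw0 : (0 : ℝ) < w := by exact_mod_cast hw
  rw [abs_div, abs_of_pos hw0, div_le_iff₀ hw0]
  refine (abs_sum_le_sum_abs _ _).trans ((sum_le_sum fun i _ => h _).trans ?_)
  simp [mul_comm]

theorem AL_bound {w : ℕ} (hw : 1 ≤ w) (t : List V) {g : (V → ℤ) → ℝ} {c : ℝ} (h : ∀ y, |g y| ≤ c) :
    ∀ z, |AL w t g z| ≤ c := by
  induction t with
  | nil => exact h
  | cons a t ih => exact fun z => A1_bound hw a ih z

theorem D_A1_self {w : ℕ} (hw : 1 ≤ w) (a : V) {g : (V → ℤ) → ℝ} {c : ℝ} (h : ∀ y, |g y| ≤ c)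
    (z : V → ℤ) : |D a (A1 w a g) z| ≤ 2 * c / w := by
  have hw0 : (0 : ℝ) < w := by exact_mod_cast hw
  have e1 : D a (A1 w a g) z = (g (z + (w : ℤ) • e a) - g z) / w := by
    unfold D A1
    rw [← sub_div, ← sum_sub_distrib]
    congr 1
    have := sum_range_sub (fun i : ℕ => g (z + (i : ℤ) • e a)) w
    simp only [Nat.cast_zero, zero_smul, add_zero] at this
    rw [← this]
    refine sum_congr rfl fun i _ => ?_
    congr 2
    push_cast
    rw [add_smul, one_smul]; abel
  rw [e1, abs_div, abs_of_pos hw0]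
  gcongr
  exact (abs_sub _ _).trans (by linarith [h (z + (w : ℤ) • e a), h z])

theorem D_AL_mem {w : ℕ} (hw : 1 ≤ w) (a : V) {g : (V → ℤ) → ℝ} {c : ℝ} (h : ∀ y, |g y| ≤ c) :
    ∀ t : List V, a ∈ t → ∀ z, |D a (AL w t g) z| ≤ 2 * c / w := by
  intro t
  induction t with
  | nil => simp
  | cons b t ih =>
    intro ha z
    by_cases hb : a = b
    · subst hb
      exact D_A1_self hw a (AL_bound hw t h) z
    · have : a ∈ t := by simpa [hb] using ha
      simp only [AL]
      rw [D_A1]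
      exact A1_bound hw b (ih this) z

theorem A1_cvx (w : ℕ) (a : V) {g : (V → ℤ) → ℝ} (h : ∀ z W, 2 * g z ≤ g (z + W) + g (z - W)) :
    ∀ z W, 2 * A1 w a g z ≤ A1 w a g (z + W) + A1 w a g (z - W) := by
  intro z W
  unfold A1
  rw [← add_div, ← mul_div_assoc, ← sum_add_distrib, mul_sum]
  refine div_le_div_of_nonneg_right (sum_le_sum fun i _ => ?_) (Nat.cast_nonneg _)
  have := h (z + (i : ℤ) • e a) W
  rwa [show z + (i : ℤ) • e a + W = z + W + (i : ℤ) • e a by abel,
    show z + (i : ℤ) • e a - W = z - W + (i : ℤ) • e a by abel] at this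

theorem AL_cvx (w : ℕ) (t : List V) {g : (V → ℤ) → ℝ} (h : ∀ z W, 2 * g z ≤ g (z + W) + g (z - W)) :
    ∀ z W, 2 * AL w t g z ≤ AL w t g (z + W) + AL w t g (z - W) := by
  induction t with
  | nil => exact h
  | cons a t ih => exact A1_cvx w a ih

theorem AL_lip {w : ℕ} (hw : 1 ≤ w) (t : List V) {g : (V → ℤ) → ℝ} {l : ℝ}
    (h : ∀ a y, |D a g y| ≤ l) : ∀ a y, |D a (AL w t g) y| ≤ l := by
  intro a y
  rw [D_AL]
  exact AL_bound hw t (h a) y

theorem A1_close {w : ℕ} (hw : 1 ≤ w) (a : V) {g : (V → ℤ) → ℝ} {l : ℝ} (hl : 0 ≤ l)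
    (h : ∀ a y, |D a g y| ≤ l) (z : V → ℤ) : |A1 w a g z - g z| ≤ l * w := by
  have hw0 : (0 : ℝ) < w := by exact_mod_cast hw
  have h1 : ∀ i : ℕ, |g (z + (i : ℤ) • e a) - g z| ≤ l * i := by
    intro i
    induction i with
    | zero => simp
    | succ i ih =>
      have h2 := h a (z + (i : ℤ) • e a)
      unfold D at h2
      have e1 : z + ((i + 1 : ℕ) : ℤ) • e a = z + (i : ℤ) • e a + e a := by
        push_cast; rw [add_smul, one_smul]; abel
      rw [e1]
      push_cast
      rw [abs_le] at ih h2 ⊢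
      constructor <;> linarith [ih.1, ih.2, h2.1, h2.2]
  have e2 : A1 w a g z - g z = (∑ i ∈ range w, (g (z + (i : ℤ) • e a) - g z)) / w := by
    unfold A1
    rw [sum_sub_distrib]
    simp only [sum_const, card_range, nsmul_eq_mul]
    field_simp
  rw [e2, abs_div, abs_of_pos hw0, div_le_iff₀ hw0]
  refine (abs_sum_le_sum_abs _ _).trans ((sum_le_sum (g := fun _ => l * w) fun i hi => ?_).trans ?_)
  · refine (h1 i).trans (mul_le_mul_of_nonneg_left ?_ hl)
    exact_mod_cast (mem_range.1 hi).le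
  · simp [mul_comm]

theorem AL_close {w : ℕ} (hw : 1 ≤ w) (t : List V) {g : (V → ℤ) → ℝ} {l : ℝ} (hl : 0 ≤ l)
    (h : ∀ a y, |D a g y| ≤ l) : ∀ z, |AL w t g z - g z| ≤ l * w * t.length := by
  induction t with
  | nil => simp [AL]
  | cons a t ih =>
    intro z
    have h1 := A1_close hw a hl (AL_lip hw t h) z
    have h2 := ih z
    simp only [AL, List.length_cons]
    push_cast
    rw [abs_le] at h1 h2 ⊢
    constructor <;> linarith [h1.1, h1.2, h2.1, h2.2]

/-- **Smoothing.** A Lipschitz, midpoint convex lattice function is close to a function with small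
and almost positive discrete Hessian. -/
theorem smooth (Φ : (V → ℤ) → ℝ) (l : ℝ) (w M : ℕ) (hw : 1 ≤ w) (hM : 1 ≤ M) (hl : 0 ≤ l)
    (hL : ∀ a y, |D a Φ y| ≤ l) (hc : ∀ z W, 2 * Φ z ≤ Φ (z + W) + Φ (z - W)) :
    ∃ Ψ : (V → ℤ) → ℝ, (∀ z, |Ψ z - Φ z| ≤ 2 * l * w * Fintype.card V) ∧
      (∀ a y, |D a Ψ y| ≤ l) ∧ (∀ a b y, |D a (D b Ψ) y| ≤ 2 * l / w) ∧
      ∀ z (v : V → ℝ), -((64 * l / (w : ℝ) ^ 2 * (Fintype.card V : ℝ) ^ 3 * M +
          12 * l / w * (Fintype.card V : ℝ) ^ 2 / M) * ∑ a, v a ^ 2) ≤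
        qf (fun a b => D a (D b Ψ) z) v v := by
  set t : List V := (univ : Finset V).toList with ht
  have hmem : ∀ a, a ∈ t := fun a => by simp [ht]
  have hlen : (t.length : ℝ) = Fintype.card V := by simp [ht]
  have hw0 : (0 : ℝ) < w := by exact_mod_cast hw
  have h2 : ∀ a b y, |D a (D b (AL w t Φ)) y| ≤ 2 * l / w := by
    intro a b y
    rw [D_AL w t b]
    exact D_AL_mem hw a (hL b) t (hmem a) y
  have h2' : ∀ a b y, |D a (D b (AL w t (AL w t Φ))) y| ≤ 2 * l / w := by
    intro a b y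
    rw [D_AL w t b, D_AL w t a]
    exact AL_bound hw t (h2 a b) y
  have h3 : ∀ c a b y, |D c (D a (D b (AL w t (AL w t Φ)))) y| ≤ 4 * l / (w : ℝ) ^ 2 := by
    intro c a b y
    rw [D_AL w t b, D_AL w t a]
    refine (D_AL_mem hw c (h2 a b) t (hmem c) y).trans (le_of_eq ?_)
    field_simp; ring
  refine ⟨AL w t (AL w t Φ), fun z => ?_, AL_lip hw t (AL_lip hw t hL), h2', fun z v => ?_⟩
  · have a1 := AL_close hw t hl (AL_lip hw t hL) z
    have a2 := AL_close hw t hl hL z
    rw [hlen] at a1 a2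
    rw [abs_le] at a1 a2 ⊢
    constructor <;> linarith [a1.1, a1.2, a2.1, a2.2]
  · have := psd (AL w t (AL w t Φ)) z (4 * l / (w : ℝ) ^ 2) (2 * l / w) M hM (by positivity)
      (by positivity) (fun y a b => mvi (D a (D b (AL w t (AL w t Φ)))) z _ _
        (fun y' _ c => h3 c a b y') y le_rfl) (fun a b => h2' a b z)
      (AL_cvx w t (AL_cvx w t hc) z) v
    refine le_trans (le_of_eq ?_) this
    ring

/-- A function with uniformly positive and small discrete Hessian has an `L` exponential. -/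
theorem isL_exp (Θ : (V → ℕ) → ℝ) (μ κ : ℝ) (hκ1 : κ ≤ 1)
    (hμ : (Fintype.card V : ℝ) * κ ^ 2 ≤ μ)
    (hk : ∀ γ a b, |Θ (γ + R309.ev a + R309.ev b) - Θ (γ + R309.ev a) - Θ (γ + R309.ev b) + Θ γ| ≤ κ)
    (hp : ∀ γ (v : V → ℝ), μ * ∑ a, v a ^ 2 ≤ qf (fun a b =>
      Θ (γ + R309.ev a + R309.ev b) - Θ (γ + R309.ev a) - Θ (γ + R309.ev b) + Θ γ) v v) :
    R309.IsL (fun γ => Real.exp (-Θ γ)) := by
  refine (R309.SCH_proof V _).2 ⟨fun γ => Real.exp_pos _, fun γ x => ?_⟩
  set k : V → V → ℝ := fun a b =>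
    Θ (γ + R309.ev a + R309.ev b) - Θ (γ + R309.ev a) - Θ (γ + R309.ev b) + Θ γ with hkdef
  set y : V → ℝ := fun a => x a * Real.exp (-Θ (γ + R309.ev a)) with hy
  have e1 : R309.Qv (fun γ => Real.exp (-Θ γ)) γ x * Real.exp (-Θ γ) =
      qf (fun a b => Real.exp (-k a b)) y y := by
    unfold R309.Qv qf
    simp only [sum_mul]
    refine sum_congr rfl fun a _ => sum_congr rfl fun b _ => ?_
    have : Real.exp (-Θ (γ + R309.ev a + R309.ev b)) * Real.exp (-Θ γ) =
        Real.exp (-Θ (γ + R309.ev a)) * Real.exp (-Θ (γ + R309.ev b)) * Real.exp (-k a b) := by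
      rw [← Real.exp_add, ← Real.exp_add, ← Real.exp_add]
      congr 1; simp only [hkdef]; ring
    simp only [hy]
    calc x a * x b * Real.exp (-Θ (γ + R309.ev a + R309.ev b)) * Real.exp (-Θ γ)
        = x a * x b * (Real.exp (-Θ (γ + R309.ev a + R309.ev b)) * Real.exp (-Θ γ)) := by ring
      _ = _ := by rw [this]; ring
  have e2 : R309.Dv (fun γ => Real.exp (-Θ γ)) γ x ^ 2 = qf (fun _ _ => 1) y y := by
    unfold R309.Dv qf
    rw [sq, sum_mul_sum]
    simp only [mul_one, hy]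
  rw [e1, e2]
  have e3 : qf (fun a b => Real.exp (-k a b)) y y =
      qf (fun _ _ => 1) y y - qf k y y + qf (fun a b => Real.exp (-k a b) - 1 + k a b) y y := by
    unfold qf
    simp only [← sum_sub_distrib, ← sum_add_distrib]
    exact sum_congr rfl fun a _ => sum_congr rfl fun b _ => by ring
  have hκ0 : ∀ a b, |Real.exp (-k a b) - 1 + k a b| ≤ κ ^ 2 := by
    intro a b
    have h1 : |(-k a b)| ≤ 1 := by rw [abs_neg]; exact (hk γ a b).trans hκ1
    have h2 := Real.abs_exp_sub_one_sub_id_le h1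
    rw [sub_neg_eq_add] at h2
    refine h2.trans ?_
    rw [neg_sq, ← sq_abs]
    exact pow_le_pow_left₀ (abs_nonneg _) (hk γ a b) 2
  have b1 := (abs_le.1 (abs_qf_le hκ0 y y)).2
  have b2 : (∑ a, |y a|) * ∑ b, |y b| ≤ (Fintype.card V : ℝ) * ∑ a, y a ^ 2 := by
    have := sq_sum_le_card_mul_sum_sq (s := (univ : Finset V)) (f := fun a => |y a|)
    simp only [sq_abs, card_univ] at this
    rw [← sq]; exact this
  have b3 := hp γ y
  have hS : 0 ≤ ∑ a, y a ^ 2 := sum_nonneg fun a _ => sq_nonneg _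
  have b4 : κ ^ 2 * ((∑ a, |y a|) * ∑ b, |y b|) ≤ μ * ∑ a, y a ^ 2 := by
    calc κ ^ 2 * ((∑ a, |y a|) * ∑ b, |y b|) ≤ κ ^ 2 * ((Fintype.card V : ℝ) * ∑ a, y a ^ 2) :=
          mul_le_mul_of_nonneg_left b2 (sq_nonneg _)
      _ = ((Fintype.card V : ℝ) * κ ^ 2) * ∑ a, y a ^ 2 := by ring
      _ ≤ μ * ∑ a, y a ^ 2 := mul_le_mul_of_nonneg_right hμ hS
  rw [e3]
  linarith

end Crest.Agent.R302.SMC
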