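import Crest.Agent.R302.DefsA
import Crest.Agent.R302.SmcCore

/-!
Row 302: exponentials of smooth strongly convex functions are `L`-functions.
-/

set_option autoImplicit false

namespace Crest.Agent.R302

theorem SML_proof : SmlStmt := by
  intro V _ _ U δ μ hδ hμ h1 h2
  exact SMC.isL_exp U μ δ hδ hμ h1 h2

end Crest.Agent.R302
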