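import Crest.Agent.R302.DefsA
import Crest.Agent.R302.SmcCore

/-!
Row 302: smoothing of convex lattice functions.
-/

set_option autoImplicit false

namespace Crest.Agent.R302

open Finset

theorem SMT_proof : SmtStmt := by
  intro V _ _ Φ Λ k hk hΛ hc hL
  have hk2 : 1 ≤ k ^ 2 := Nat.one_le_pow _ _ hk
  obtain ⟨Ψ, h1, h2, h3, h4⟩ := SMC.smooth Φ Λ (k ^ 2) k hk2 hk hΛ (fun a y => hL y a) hc
  have hD : ∀ g a b, D2 Ψ g (Pi.single a 1) (Pi.single b 1) = SMC.D a (SMC.D b Ψ) g := by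
    intro g a b
    unfold D2 SMC.D SMC.e
    ring
  have hk0 : (0 : ℝ) < k := by exact_mod_cast hk
  refine ⟨Ψ, fun g => (h1 g).trans (le_of_eq ?_), fun g a => h2 a g, fun g a b => ?_,
    fun g y => ?_⟩
  · push_cast; ring
  · rw [hD]
    refine (h3 a b g).trans (le_of_eq ?_)
    push_cast; ring
  · simp only [hD]
    refine le_trans ?_ (h4 g y)
    have hS : 0 ≤ ∑ a, y a ^ 2 := sum_nonneg fun a _ => sq_nonneg _
    rw [neg_mul]
    refine neg_le_neg (mul_le_mul_of_nonneg_right ?_ hS)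
    have hn : ((Fintype.card V : ℕ) : ℝ) ^ 2 ≤ (Fintype.card V : ℝ) ^ 3 := by
      have : (Fintype.card V) ^ 2 ≤ (Fintype.card V) ^ 3 := by
        rcases Nat.eq_zero_or_pos (Fintype.card V) with h | h
        · simp [h]
        · exact Nat.pow_le_pow_right h (by norm_num)
      exact_mod_cast this
    have hn0 : (0 : ℝ) ≤ (Fintype.card V : ℝ) ^ 3 := by positivity
    have e1 : 64 * Λ / ((k ^ 2 : ℕ) : ℝ) ^ 2 * (Fintype.card V : ℝ) ^ 3 * k +
        12 * Λ / ((k ^ 2 : ℕ) : ℝ) * (Fintype.card V : ℝ) ^ 2 / k =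
        (64 * Λ * (Fintype.card V : ℝ) ^ 3 + 12 * Λ * (Fintype.card V : ℝ) ^ 2) / (k : ℝ) ^ 3 := by
      push_cast; field_simp
    rw [e1]
    refine div_le_div_of_nonneg_right ?_ (by positivity)
    nlinarith [mul_le_mul_of_nonneg_left hn hΛ, mul_nonneg hΛ hn0]

end Crest.Agent.R302
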