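import Crest.Agent.R302.DefsC
import Crest.Agent.R302.SML
import Crest.Agent.R302.SMT

/-! Row 302, task LAP, part a: the smooth factor of one component. -/

set_option autoImplicit false

namespace Crest.Agent.R302

open Finset Crest.Agent.R309

namespace LAP

/-- A generic smooth factor: convex Lipschitz part, squares of disjoint pair sums, Gaussian. -/
theorem smooth {T J : Type} [Fintype T] [DecidableEq T] (Φ : (T → ℤ) → ℝ) (Λ c lam δ r : ℝ) (k : ℕ)
    (s : Finset J) (t : J → T → ℝ) (hk : 1 ≤ k) (hΛ : 0 ≤ Λ) (hc : 0 ≤ c) (hl : 0 ≤ lam)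
    (hmc : ∀ g z, 2 * Φ g ≤ Φ (g + z) + Φ (g - z))
    (hlip : ∀ g a, |Φ (g + Pi.single a 1) - Φ g| ≤ Λ)
    (ht0 : ∀ j a, 0 ≤ t j a) (ht1 : ∀ j a, t j a ≤ 1) (hts : ∀ a, ∑ j ∈ s, t j a ≤ 1)
    (hδ : 2 * Λ / (k : ℝ) ^ 2 + 2 * c + 2 * lam ≤ δ) (hδ1 : δ ≤ 1)
    (hη : 100 * Λ * (Fintype.card T : ℝ) ^ 3 / (k : ℝ) ^ 3 ≤ lam)
    (hμ : (Fintype.card T : ℝ) * δ ^ 2 ≤ lam) :
    ∃ W : (T → ℤ) → ℝ, (∀ g, |W g - Φ g| ≤ 2 * Fintype.card T * (k : ℝ) ^ 2 * Λ) ∧
      (∀ g a, |W (g + Pi.single a 1) - W g| ≤ Λ) ∧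
      IsL (fun α : T → ℕ => Real.exp (-(W (fun v => (α v : ℤ)) +
        c * ∑ j ∈ s, (r - ∑ v, t j v * (α v : ℝ)) ^ 2 + lam * ∑ v, (α v : ℝ) ^ 2))) := by
  obtain ⟨W, h1, h2, h3, h4⟩ := SMT_proof T Φ Λ k hk hΛ hmc hlip
  refine ⟨W, h1, h2, ?_⟩
  have hcast : ∀ (γ : T → ℕ) (a : T), (fun v => (((γ + ev a) v : ℕ) : ℤ)) =
      (fun v => (γ v : ℤ)) + Pi.single a 1 := by
    intro γ a; funext v
    by_cases h : v = a
    · subst h; simp [ev]
    · simp [ev, h]
  have hlin : ∀ (j : J) (γ : T → ℕ) (a : T), ∑ v, t j v * (((γ + ev a) v : ℕ) : ℝ) =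
      ∑ v, t j v * (γ v : ℝ) + t j a := by
    intro j γ a
    have : ∀ v, t j v * (((γ + ev a) v : ℕ) : ℝ) =
        t j v * (γ v : ℝ) + if v = a then t j a else 0 := by
      intro v
      by_cases h : v = a
      · subst h; simp [ev]; ring
      · simp [ev, h]
    simp only [this, sum_add_distrib, sum_ite_eq', mem_univ, if_true]
  have hsq : ∀ (γ : T → ℕ) (a : T), ∑ v, (((γ + ev a) v : ℕ) : ℝ) ^ 2 =
      ∑ v, (γ v : ℝ) ^ 2 + (2 * γ a + 1) := by
    intro γ a
    have : ∀ v, (((γ + ev a) v : ℕ) : ℝ) ^ 2 =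
        (γ v : ℝ) ^ 2 + if v = a then (2 * (γ a : ℝ) + 1) else 0 := by
      intro v
      by_cases h : v = a
      · subst h; simp [ev]; ring
      · simp [ev, h]
    simp only [this, sum_add_distrib, sum_ite_eq', mem_univ, if_true]
  have hD : ∀ (γ : T → ℕ) (a b : T), D2 (fun α : T → ℕ => W (fun v => (α v : ℤ)) +
      c * ∑ j ∈ s, (r - ∑ v, t j v * (α v : ℝ)) ^ 2 + lam * ∑ v, (α v : ℝ) ^ 2) γ (ev a) (ev b) =
      D2 W (fun v => (γ v : ℤ)) (Pi.single a 1) (Pi.single b 1) +
        2 * c * ∑ j ∈ s, t j a * t j b + 2 * lam * if a = b then 1 else 0 := by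
    intro γ a b
    unfold D2
    simp only [hcast, hlin, hsq]
    have e1 : ∑ j ∈ s, (r - (∑ v, t j v * (γ v : ℝ) + t j a + t j b)) ^ 2 =
        ∑ j ∈ s, (r - (∑ v, t j v * (γ v : ℝ) + t j a)) ^ 2 +
        ∑ j ∈ s, (r - (∑ v, t j v * (γ v : ℝ) + t j b)) ^ 2 -
        ∑ j ∈ s, (r - ∑ v, t j v * (γ v : ℝ)) ^ 2 + 2 * ∑ j ∈ s, t j a * t j b := by
      rw [mul_sum, ← sum_add_distrib, ← sum_sub_distrib, ← sum_add_distrib]
      exact sum_congr rfl (fun j _ => by ring)
    have e2 : (((γ + ev a) b : ℕ) : ℝ) = γ b + if a = b then 1 else 0 := by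
      by_cases h : a = b
      · subst h; simp [ev]
      · simp [ev, h, Ne.symm h]
    rw [e1, e2]; ring
  refine SML_proof T _ δ lam hδ1 hμ (fun γ a b => ?_) (fun γ y => ?_)
  · rw [hD]
    have p0 : 0 ≤ ∑ j ∈ s, t j a * t j b := sum_nonneg (fun j _ => mul_nonneg (ht0 _ _) (ht0 _ _))
    have p1 : ∑ j ∈ s, t j a * t j b ≤ 1 :=
      (sum_le_sum (fun j _ => mul_le_of_le_one_right (ht0 _ _) (ht1 _ _))).trans (hts a)
    have p2 := abs_le.1 (h3 (fun v => (γ v : ℤ)) a b)
    have p3 : 0 ≤ c * ∑ j ∈ s, t j a * t j b := mul_nonneg hc p0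
    have p4 : c * ∑ j ∈ s, t j a * t j b ≤ c := mul_le_of_le_one_right hc p1
    rw [abs_le]
    split_ifs <;> constructor <;> nlinarith
  · simp only [hD, mul_add, sum_add_distrib]
    have q1 := h4 (fun v => (γ v : ℤ)) y
    have q2 : ∑ a, ∑ b, y a * y b * (2 * c * ∑ j ∈ s, t j a * t j b) =
        2 * c * ∑ j ∈ s, (∑ a, t j a * y a) ^ 2 := by
      have e : ∀ j, (∑ a, t j a * y a) ^ 2 = ∑ a, ∑ b, (t j a * y a) * (t j b * y b) := by
        intro j; rw [sq, sum_mul_sum]
      simp only [e]
      rw [sum_comm (s := s), mul_sum]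
      refine sum_congr rfl (fun a _ => ?_)
      rw [sum_comm (s := s), mul_sum]
      refine sum_congr rfl (fun b _ => ?_)
      rw [mul_sum, mul_sum, mul_sum]
      exact sum_congr rfl (fun j _ => by ring)
    have q3 : ∑ a, ∑ b, y a * y b * (2 * lam * if a = b then 1 else 0) =
        2 * lam * ∑ a, y a ^ 2 := by
      rw [mul_sum]
      refine sum_congr rfl (fun a _ => ?_)
      simp only [mul_ite, mul_one, mul_zero, sum_ite_eq, mem_univ, if_true]; ring
    have q4 : 0 ≤ 2 * c * ∑ j ∈ s, (∑ a, t j a * y a) ^ 2 :=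
      mul_nonneg (by linarith) (sum_nonneg (fun _ _ => sq_nonneg _))
    have q5 : 0 ≤ ∑ a, y a ^ 2 := sum_nonneg (fun _ _ => sq_nonneg _)
    rw [q2, q3]
    nlinarith [mul_le_mul_of_nonneg_right hη q5]

variable {n : ℕ} (P : Pre)

/-- the linear part of the view -/
def lin (b : Bool) (G : VV n → ℤ) (j : ℕ) : ℤ :=
  (∑ e : Fin n, if isF P e = true ∧ j = e then G (.inl ((e, b), true)) else 0) +
    sgn b * ∑ e : Fin n, if isF P e = true then 0 else
      2 ^ he P e * G (.inl ((e, false), true)) * cyc P e j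

theorem lin_add (b : Bool) (G H : VV n → ℤ) : lin P b (G + H) = lin P b G + lin P b H := by
  funext j
  simp only [lin, Pi.add_apply]
  have e1 : (∑ e : Fin n, if isF P e = true ∧ j = e then
      G (.inl ((e, b), true)) + H (.inl ((e, b), true)) else 0) =
      (∑ e : Fin n, if isF P e = true ∧ j = e then G (.inl ((e, b), true)) else 0) +
      ∑ e : Fin n, if isF P e = true ∧ j = e then H (.inl ((e, b), true)) else 0 := by
    rw [← sum_add_distrib]; exact sum_congr rfl (fun e _ => by split_ifs <;> simp)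
  have e2 : (∑ e : Fin n, if isF P e = true then 0 else
      2 ^ he P e * (G (.inl ((e, false), true)) + H (.inl ((e, false), true))) * cyc P e j) =
      (∑ e : Fin n, if isF P e = true then 0 else
        2 ^ he P e * G (.inl ((e, false), true)) * cyc P e j) +
      ∑ e : Fin n, if isF P e = true then 0 else
        2 ^ he P e * H (.inl ((e, false), true)) * cyc P e j := by
    rw [← sum_add_distrib]; exact sum_congr rfl (fun e _ => by split_ifs <;> ring)
  rw [e1, e2]; ring

theorem lin_neg (b : Bool) (G : VV n → ℤ) : lin P b (-G) = -lin P b G := by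
  have h0 : lin P b (0 : VV n → ℤ) = 0 := by funext j; simp [lin]
  have := lin_add P b G (-G)
  rw [add_neg_cancel, h0] at this
  exact (neg_eq_of_add_eq_zero_right this.symm).symm

theorem lin_sub (b : Bool) (G H : VV n → ℤ) : lin P b (G - H) = lin P b G - lin P b H := by
  rw [sub_eq_add_neg, lin_add, lin_neg, ← sub_eq_add_neg]

theorem lin_single (b : Bool) (v : VV n) :
    lin P b (Pi.single v 1) = 0 ∨ (∃ j : ℕ, lin P b (Pi.single v 1) = Pi.single j 1) ∨
      ∃ e : Fin n, isF P e = false ∧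
        lin P b (Pi.single v 1) = fun j => sgn b * (2 ^ he P e * cyc P e j) := by
  rcases v with ⟨⟨e, b'⟩, h⟩ | v
  · cases h
    · left; funext j; simp [lin, Pi.single_apply]
    · by_cases hF : isF P e = true
      · by_cases hb : b' = b
        · subst hb
          right; left; refine ⟨e, ?_⟩
          funext j
          have e2 : (∑ e' : Fin n, if isF P e' = true then (0 : ℤ) else 2 ^ he P e' *
              (Pi.single (Sum.inl ((e, b'), true) : VV n) (1 : ℤ) : VV n → ℤ)
                (.inl ((e', false), true)) * cyc P e' j) = 0 := by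
            refine sum_eq_zero (fun e' _ => ?_)
            split_ifs with h'
            · rfl
            · have : e' ≠ e := fun h'' => h' (h'' ▸ hF)
              simp [Pi.single_apply, this]
          unfold lin
          rw [e2, sum_eq_single e]
          · simp [hF, Pi.single_apply]
          · intro e' _ h'; simp [Pi.single_apply, h']
          · simp
        · left; funext j
          unfold lin
          rw [sum_eq_zero, sum_eq_zero]
          · simp
          · intro e' _
            split_ifs with h'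
            · rfl
            · have : e' ≠ e := fun h'' => h' (h'' ▸ hF)
              simp [Pi.single_apply, this]
          · intro e' _; simp [Pi.single_apply, Ne.symm hb]
      · have h1 : ∀ j : ℕ, (∑ e' : Fin n, if isF P e' = true ∧ j = e' then
            (Pi.single (Sum.inl ((e, b'), true) : VV n) (1 : ℤ) : VV n → ℤ)
              (.inl ((e', b), true)) else 0) = 0 := by
          intro j
          refine sum_eq_zero (fun e' _ => ?_)
          split_ifs with h'
          · have : e' ≠ e := fun h'' => hF (h'' ▸ h'.1)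
            simp [Pi.single_apply, this]
          · rfl
        cases b'
        · right; right; refine ⟨e, by simpa using hF, ?_⟩
          funext j
          unfold lin
          rw [h1, sum_eq_single e]
          · simp [hF]
          · intro e' _ h'; simp [Pi.single_apply, h']
          · simp
        · left; funext j
          unfold lin
          rw [h1, sum_eq_zero]
          · simp
          · intro e' _; simp [Pi.single_apply]
  · left; funext j; simp [lin, Pi.single_apply]

end LAP

end Crest.Agent.R302
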