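import Crest.Agent.R302.LAPa

/-! Row 302, task LAP, part b: the factor of one component of the model. -/

set_option autoImplicit false

namespace Crest.Agent.R302

open Finset Crest.Agent.R309

namespace LAP

variable {n : ℕ} (P : Pre)

/-- the variables seen by the smooth factor of component `i` -/
def S' (i : Fin n) : Finset (VV n) := (SS n P i).erase (.inr (.inr i))

/-- the corresponding type -/
abbrev TT (i : Fin n) : Type := {v : VV n // v ∈ S' P i}

/-- extension by zero -/
def ext (i : Fin n) (g : TT P i → ℤ) : VV n → ℤ := fun v => if h : v ∈ S' P i then g ⟨v, h⟩ else 0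

theorem ext_add (i : Fin n) (g z : TT P i → ℤ) : ext P i (g + z) = ext P i g + ext P i z := by
  funext v; unfold ext; simp only [Pi.add_apply]; split_ifs <;> simp

theorem ext_sub (i : Fin n) (g z : TT P i → ℤ) : ext P i (g - z) = ext P i g - ext P i z := by
  funext v; unfold ext; simp only [Pi.sub_apply]; split_ifs <;> simp

theorem ext_single (i : Fin n) (a : TT P i) :
    ext P i (Pi.single a 1) = Pi.single a.1 1 := by
  funext v; unfold ext
  split_ifs with h
  · by_cases e : v = a.1
    · subst e; simp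
    · have : (⟨v, h⟩ : TT P i) ≠ a := fun h' => e (congrArg Subtype.val h')
      simp [Pi.single_apply, e, this]
  · have : v ≠ a.1 := fun h' => h (h' ▸ a.2)
    simp [Pi.single_apply, this]

theorem mem_half (i e : Fin n) (b : Bool) (h : cp P e = i) :
    (Sum.inl ((e, b), true) : VV n) ∈ S' P i := by
  unfold S' SS; rw [mem_erase, mem_filter]; simp [vc, h]

theorem mem_om (i : Fin n) (b : Bool) : (Sum.inr (Sum.inl (i, b)) : VV n) ∈ S' P i := by
  unfold S' SS; rw [mem_erase, mem_filter]; simp [vc]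

theorem card_VV : Fintype.card (VV n) = 7 * n := by
  simp [VV]; ring

theorem card_TT (i : Fin n) : Fintype.card (TT P i) ≤ 7 * n := by
  rw [← card_VV]; exact Fintype.card_subtype_le _

variable (m : ℕ) (f : Bool → Finset (Fin n) → ℤ)

/-- the convex potential of component `i` -/
noncomputable def Phi (i : Fin n) (G : VV n → ℤ) : ℝ :=
  Real.log (1 + 1 / (m : ℝ) ^ 4) * qV m * ∑ b : Bool,
    rho n m f P b i (m ^ 2 + G (.inr (.inl (i, b))) - qO m)
      (lin P b (fun _ : VV n => (qu m : ℤ)) - lin P b G)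

/-- the target potential of component `i` -/
noncomputable def U0 (i : Fin n) (ω : Fin n × Bool → ℕ) (x : List ℤ) : ℝ :=
  Real.log (1 + 1 / (m : ℝ) ^ 4) * qV m * ∑ b : Bool,
      rho n m f P b i (m ^ 2 + ω (i, b) - qO m) (zv n P b x) +
    Real.log (1 + 1 / (qH m : ℝ)) *
      ∑ j ∈ univ.filter (fun j : Fin n => nd P j ∧ cp P j = i), (dF n P x j : ℝ) ^ 2

theorem log_nonneg' {x : ℝ} (hx : 0 < x) : 0 ≤ Real.log (1 + 1 / x) :=
  Real.log_nonneg (by have : 0 ≤ 1 / x := by positivity
                      linarith)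

theorem log_le' {x : ℝ} (hx : 0 < x) : Real.log (1 + 1 / x) ≤ 1 / x := by
  have := Real.log_le_sub_one_of_pos (x := 1 + 1 / x) (by positivity)
  linarith

variable {P m f}

theorem Phi_mc (hRho : RhoStmt) (hS : Spec n m f P) (i : Fin n) (G Z : VV n → ℤ) :
    2 * Phi P m f i G ≤ Phi P m f i (G + Z) + Phi P m f i (G - Z) := by
  have hm : (0 : ℝ) < m := by have := hS.big; exact_mod_cast (by omega : 0 < m)
  have hc : 0 ≤ Real.log (1 + 1 / (m : ℝ) ^ 4) * qV m :=
    mul_nonneg (log_nonneg' (by positivity)) (by positivity)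
  unfold Phi
  rw [← mul_add, ← sum_add_distrib, mul_left_comm, mul_sum]
  refine mul_le_mul_of_nonneg_left (sum_le_sum (fun b _ => ?_)) hc
  have h := (hRho n m f P hS b i).2.2.2.1 (m ^ 2 + G (.inr (.inl (i, b))) - qO m)
    (Z (.inr (.inl (i, b)))) (lin P b (fun _ : VV n => (qu m : ℤ)) - lin P b G) (-lin P b Z)
  have e1 : (m : ℤ) ^ 2 + (G + Z) (.inr (.inl (i, b))) - qO m =
      m ^ 2 + G (.inr (.inl (i, b))) - qO m + Z (.inr (.inl (i, b))) := by
    simp only [Pi.add_apply]; ring
  have e2 : (m : ℤ) ^ 2 + (G - Z) (.inr (.inl (i, b))) - qO m =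
      m ^ 2 + G (.inr (.inl (i, b))) - qO m - Z (.inr (.inl (i, b))) := by
    simp only [Pi.sub_apply]; ring
  have e3 : lin P b (fun _ : VV n => (qu m : ℤ)) - lin P b (G + Z) =
      lin P b (fun _ : VV n => (qu m : ℤ)) - lin P b G + -lin P b Z := by
    rw [lin_add]; abel
  have e4 : lin P b (fun _ : VV n => (qu m : ℤ)) - lin P b (G - Z) =
      lin P b (fun _ : VV n => (qu m : ℤ)) - lin P b G - -lin P b Z := by
    rw [lin_sub]; abel
  rw [e1, e2, e3, e4]; exact h

theorem Phi_lip (hRho : RhoStmt) (hS : Spec n m f P) (i : Fin n) (G : VV n → ℤ) (v : VV n) :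
    |Phi P m f i (G + Pi.single v 1) - Phi P m f i G| ≤ 4 / (m : ℝ) ^ 122 := by
  have hm2 : (2000 : ℝ) ≤ m := by exact_mod_cast hS.big
  have hm : (0 : ℝ) < m := by linarith
  have hc : 0 ≤ Real.log (1 + 1 / (m : ℝ) ^ 4) * qV m :=
    mul_nonneg (log_nonneg' (by positivity)) (by positivity)
  have hc' : Real.log (1 + 1 / (m : ℝ) ^ 4) * qV m ≤ (m : ℝ) ^ 13 := by
    calc _ ≤ 1 / (m : ℝ) ^ 4 * qV m :=
          mul_le_mul_of_nonneg_right (log_le' (by positivity)) (by positivity)
      _ = _ := by unfold qV; push_cast; field_simp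
  have hT : (0 : ℝ) < qT m := by unfold qT; push_cast; positivity
  have h1 : (1 : ℝ) / qT m ≤ m / qT m := div_le_div_of_nonneg_right (by linarith) hT.le
  have key : ∀ b : Bool, |rho n m f P b i (m ^ 2 + (G + Pi.single v 1 : VV n → ℤ)
      (.inr (.inl (i, b))) - qO m)
        (lin P b (fun _ : VV n => (qu m : ℤ)) - lin P b (G + Pi.single v 1)) -
      rho n m f P b i (m ^ 2 + G (.inr (.inl (i, b))) - qO m)
        (lin P b (fun _ : VV n => (qu m : ℤ)) - lin P b G)| ≤ 2 * (m / qT m) := by
    intro b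
    obtain ⟨-, -, -, -, r1, r2, r3, -⟩ := hRho n m f P hS b i
    set z := lin P b (fun _ : VV n => (qu m : ℤ)) - lin P b G with hz
    set w := m ^ 2 + G (.inr (.inl (i, b))) - (qO m : ℤ) with hw
    have a1 : ∀ z', |rho n m f P b i (m ^ 2 + (G + Pi.single v 1 : VV n → ℤ)
        (.inr (.inl (i, b))) - qO m) z' - rho n m f P b i w z'| ≤ m / qT m := by
      intro z'
      by_cases hv : v = .inr (.inl (i, b))
      · subst hv
        have : (m : ℤ) ^ 2 + (G + Pi.single (Sum.inr (Sum.inl (i, b)) : VV n) 1 : VV n → ℤ)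
            (.inr (.inl (i, b))) - qO m = w + 1 := by simp [hw]; ring
        rw [this]; exact (r1 w z').trans h1
      · have : (m : ℤ) ^ 2 + (G + Pi.single v 1 : VV n → ℤ) (.inr (.inl (i, b))) - qO m = w := by
          simp [hw, Pi.single_apply, Ne.symm hv]
        rw [this, sub_self, abs_zero]; positivity
    have a2 : |rho n m f P b i w (lin P b (fun _ : VV n => (qu m : ℤ)) -
        lin P b (G + Pi.single v 1)) - rho n m f P b i w z| ≤ m / qT m := by
      rw [lin_add, ← sub_sub, ← hz]
      rcases lin_single P b v with h | ⟨j, h⟩ | ⟨e, hF, h⟩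
      · rw [h, sub_zero, sub_self, abs_zero]; positivity
      · have : z - Pi.single j 1 = z + Pi.single j (-1) := by
          rw [sub_eq_add_neg, Pi.single_neg]
        rw [h, this]; exact (r2 w z j (-1) (by simp)).trans h1
      · have : (z - fun j => sgn b * (2 ^ he P e * cyc P e j)) =
            fun j => z j + (-sgn b) * (2 ^ he P e * cyc P e j) := by
          funext j; simp only [Pi.sub_apply]; ring
        rw [h, this]
        exact r3 w z e (-sgn b) (by cases b <;> simp [sgn]) hF
    have := abs_add_le (rho n m f P b i (m ^ 2 + (G + Pi.single v 1 : VV n → ℤ)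
        (.inr (.inl (i, b))) - qO m)
        (lin P b (fun _ : VV n => (qu m : ℤ)) - lin P b (G + Pi.single v 1)) -
        rho n m f P b i w (lin P b (fun _ : VV n => (qu m : ℤ)) - lin P b (G + Pi.single v 1)))
      (rho n m f P b i w (lin P b (fun _ : VV n => (qu m : ℤ)) -
        lin P b (G + Pi.single v 1)) - rho n m f P b i w z)
    rw [sub_add_sub_cancel] at this
    linarith [a1 (lin P b (fun _ : VV n => (qu m : ℤ)) - lin P b (G + Pi.single v 1))]
  unfold Phi
  rw [← mul_sub, ← sum_sub_distrib, abs_mul, abs_of_nonneg hc]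
  have h2 := (abs_sum_le_sum_abs _ _).trans (sum_le_sum (s := univ) (fun b _ => key b))
  calc _ ≤ (m : ℝ) ^ 13 * ∑ _b : Bool, 2 * ((m : ℝ) / qT m) :=
        mul_le_mul hc' h2 (abs_nonneg _) (by positivity)
    _ = _ := by simp [qT]; field_simp; ring

theorem view_eq (hRep : RepStmt) (hS : Spec n m f P) (i : Fin n) (b : Bool)
    {y : Fin n × Bool → ℕ} (hy : y ∈ box (fun k => 2 * hK n m P k)) (ω : Fin n × Bool → ℕ)
    (z : Fin n → ℕ) (j : ℕ) (hj : j < n) (hc : cp P j = i) :
    (lin P b (fun _ : VV n => (qu m : ℤ)) -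
      lin P b (ext P i (fun v : TT P i => (emb n m P y ω z v.1 : ℤ)))) j =
      zv n P b (st n m P y) j := by
  have hx := ((hRep n m f P hS).1 y hy).2
  have hyl : ∀ k, y k ≤ 2 * hK n m P k := fun k => by
    have := Fintype.mem_piFinset.1 hy k
    simpa [Nat.lt_succ_iff] using this
  have hv : ∀ (e : Fin n) (b' : Bool), cp P e = i → hK n m P (e, b') = qu m →
      (qu m : ℤ) - ext P i (fun v : TT P i => (emb n m P y ω z v.1 : ℤ)) (.inl ((e, b'), true)) =
        xv n (st n m P y) e b' := by
    intro e b' he' hk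
    have h1 := hx (e, b')
    have h2 := hyl (e, b')
    simp only [ext, mem_half P i e b' he', dif_pos, emb, node, if_true]
    simp only at h1
    rw [h1]; rw [hk] at h2 ⊢
    push_cast [Nat.cast_sub h2]; ring
  rw [← lin_sub]
  unfold lin zv
  congr 1
  · rw [sum_eq_single (⟨j, hj⟩ : Fin n)]
    · by_cases hF : isF P j = true
      · simp only [hF, true_and, if_true, Pi.sub_apply]
        exact hv ⟨j, hj⟩ b hc (by simp [hK, hF])
      · simp [hF]
    · intro e _ h'
      have : j ≠ e := fun h'' => h' (Fin.ext h''.symm)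
      simp [this]
    · simp
  · congr 1
    rw [← Fin.sum_univ_eq_sum_range (fun e => if isF P e = true then 0 else
      2 ^ he P e * xv n (st n m P y) e false * cyc P e j) n]
    refine sum_congr rfl (fun e _ => ?_)
    split_ifs with hF
    · rfl
    · by_cases h0 : cyc P e j = 0
      · simp [h0]
      · have h1 := (hS.cy1 e ⟨j, hj⟩ (by simpa using hF)).2.1 h0
        simp only [Pi.sub_apply]
        rw [hv e false (by rw [← h1]; exact hc) (by simp [hK])]

end LAP

end Crest.Agent.R302
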