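import Crest.Agent.R302.LAPb
import Crest.Agent.R302.CLO

/-! Row 302, task LAP, part c: the smooth factor of one component, with its estimates. -/

set_option autoImplicit false

namespace Crest.Agent.R302

open Finset Crest.Agent.R309

namespace LAP

theorem quad_lip {T J : Type} [Fintype T] [DecidableEq T] (c lam r M : ℝ) (s : Finset J)
    (t : J → T → ℝ) (hc : 0 ≤ c) (hl : 0 ≤ lam) (ht0 : ∀ j a, 0 ≤ t j a) (ht1 : ∀ j a, t j a ≤ 1)
    (hts : ∀ a, ∑ j ∈ s, t j a ≤ 1) (hr0 : 0 ≤ r) (hr : r ≤ M) (γ : T → ℕ)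
    (hγ : ∑ v, (γ v : ℝ) ≤ M) (a : T) :
    |(c * ∑ j ∈ s, (r - ∑ v, t j v * (((γ + ev a) v : ℕ) : ℝ)) ^ 2 +
        lam * ∑ v, (((γ + ev a) v : ℕ) : ℝ) ^ 2) -
      (c * ∑ j ∈ s, (r - ∑ v, t j v * (γ v : ℝ)) ^ 2 + lam * ∑ v, (γ v : ℝ) ^ 2)| ≤
      (c + lam) * (2 * M + 1) := by
  have hlin : ∀ (j : J), ∑ v, t j v * (((γ + ev a) v : ℕ) : ℝ) =
      ∑ v, t j v * (γ v : ℝ) + t j a := by
    intro j
    have : ∀ v, t j v * (((γ + ev a) v : ℕ) : ℝ) =
        t j v * (γ v : ℝ) + if v = a then t j a else 0 := by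
      intro v
      by_cases h : v = a
      · subst h; simp [ev]; ring
      · simp [ev, h]
    simp only [this, sum_add_distrib, sum_ite_eq', mem_univ, if_true]
  have hsq : ∑ v, (((γ + ev a) v : ℕ) : ℝ) ^ 2 = ∑ v, (γ v : ℝ) ^ 2 + (2 * γ a + 1) := by
    have : ∀ v, (((γ + ev a) v : ℕ) : ℝ) ^ 2 =
        (γ v : ℝ) ^ 2 + if v = a then (2 * (γ a : ℝ) + 1) else 0 := by
      intro v
      by_cases h : v = a
      · subst h; simp [ev]; ring
      · simp [ev, h]
    simp only [this, sum_add_distrib, sum_ite_eq', mem_univ, if_true]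
  have hM : 0 ≤ M := hr0.trans hr
  have ha : (γ a : ℝ) ≤ M :=
    (single_le_sum (f := fun v => (γ v : ℝ)) (fun v _ => by positivity) (mem_univ a)).trans hγ
  have ha0 : (0 : ℝ) ≤ γ a := by positivity
  have hq : |∑ j ∈ s, (r - (∑ v, t j v * (γ v : ℝ) + t j a)) ^ 2 -
      ∑ j ∈ s, (r - ∑ v, t j v * (γ v : ℝ)) ^ 2| ≤ 2 * M + 1 := by
    rw [← sum_sub_distrib]
    refine (abs_sum_le_sum_abs _ _).trans ?_
    refine (sum_le_sum (g := fun j => t j a * (2 * M + 1)) (fun j _ => ?_)).trans ?_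
    · have b0 : 0 ≤ ∑ v, t j v * (γ v : ℝ) :=
        sum_nonneg (fun v _ => mul_nonneg (ht0 _ _) (by positivity))
      have b1 : ∑ v, t j v * (γ v : ℝ) ≤ M :=
        (sum_le_sum (fun v _ => mul_le_of_le_one_left (by positivity) (ht1 _ _))).trans hγ
      generalize ∑ v, t j v * (γ v : ℝ) = S at b0 b1
      have e : (r - (S + t j a)) ^ 2 - (r - S) ^ 2 = t j a * (t j a - 2 * (r - S)) := by ring
      rw [e, abs_mul, abs_of_nonneg (ht0 j a)]
      refine mul_le_mul_of_nonneg_left ?_ (ht0 j a)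
      rw [abs_le]; constructor <;> linarith [ht0 j a, ht1 j a]
    · rw [← sum_mul]; exact mul_le_of_le_one_left (by linarith) (hts a)
  simp only [hlin, hsq]
  generalize ∑ j ∈ s, (r - (∑ v, t j v * (γ v : ℝ) + t j a)) ^ 2 = A at hq ⊢
  generalize ∑ j ∈ s, (r - ∑ v, t j v * (γ v : ℝ)) ^ 2 = B at hq ⊢
  have e : c * A + lam * (∑ v, (γ v : ℝ) ^ 2 + (2 * γ a + 1)) - (c * B + lam * ∑ v, (γ v : ℝ) ^ 2) =
      c * (A - B) + lam * (2 * γ a + 1) := by ring
  rw [e]
  refine (abs_add_le _ _).trans ?_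
  rw [abs_mul, abs_of_nonneg hc, abs_of_nonneg (mul_nonneg hl (by linarith)), add_mul]
  exact add_le_add (mul_le_mul_of_nonneg_left hq hc) (mul_le_mul_of_nonneg_left (by linarith) hl)

variable {n : ℕ} (P : Pre)

/-- the indicator of the two halves of `j` -/
noncomputable def tt (i : Fin n) (j : Fin n) (v : TT P i) : ℝ :=
  if v.1 = .inl ((j, false), true) ∨ v.1 = .inl ((j, true), true) then 1 else 0

theorem tt_sum (i : Fin n) (s : Finset (Fin n)) (a : TT P i) : ∑ j ∈ s, tt P i j a ≤ 1 := by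
  by_cases h : ∃ j ∈ s, tt P i j a ≠ 0
  · obtain ⟨j, hj, hne⟩ := h
    rw [sum_eq_single_of_mem j hj]
    · unfold tt; split_ifs <;> norm_num
    · intro j' _ hj'
      unfold tt at hne ⊢
      split_ifs at hne with h1
      · rw [if_neg]
        rcases h1 with h1 | h1 <;> simp [h1, Ne.symm hj']
      · exact absurd rfl hne
  · rw [sum_eq_zero]
    · norm_num
    · intro j hj; by_contra h'; exact h ⟨j, hj, h'⟩

theorem tt_pair (i j : Fin n) (h : cp P j = i) (α : VV n → ℕ) :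
    ∑ v : TT P i, tt P i j v * (α v.1 : ℝ) =
      α (.inl ((j, false), true)) + α (.inl ((j, true), true)) := by
  rw [sum_eq_add_of_mem (⟨_, mem_half P i j false h⟩ : TT P i) ⟨_, mem_half P i j true h⟩
    (mem_univ _) (mem_univ _) (by simp)]
  · simp [tt]
  · intro v _ hv
    unfold tt
    rw [if_neg, zero_mul]
    rintro (h1 | h1)
    · exact hv.1 (Subtype.ext h1)
    · exact hv.2 (Subtype.ext h1)

variable {P} {m : ℕ} {f : Bool → Finset (Fin n) → ℤ}

theorem emb_le {y : Fin n × Bool → ℕ} (hy : y ∈ box (fun k => 2 * hK n m P k))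
    {ω : Fin n × Bool → ℕ} (hω : ∀ c, ω c ≤ qT m) (z : Fin n → ℕ) (hm : 1 ≤ m) (i : Fin n)
    (v : TT P i) : emb n m P y ω z v.1 ≤ 2 * qu m := by
  have hyl : ∀ k, y k ≤ 2 * hK n m P k := fun k => by
    have := Fintype.mem_piFinset.1 hy k
    simpa [Nat.lt_succ_iff] using this
  have hk : ∀ k, hK n m P k ≤ qu m := fun k => by unfold hK; split_ifs <;> omega
  obtain ⟨v, hv⟩ := v
  rcases v with c | c | i'
  · have := hyl c.1; have := hk c.1
    simp only [emb, node]; split_ifs <;> omega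
  · have h1 := hω c
    have h2 : qT m ≤ qu m := Nat.pow_le_pow_right hm (by norm_num)
    simp only [emb]; omega
  · exfalso
    unfold S' SS at hv; rw [mem_erase, mem_filter] at hv
    have h2 := hv.2.2
    simp only [vc, Option.some.injEq] at h2
    exact hv.1 (by rw [Fin.ext h2])

set_option maxHeartbeats 1600000 in
theorem comp (hRep : RepStmt) (hRho : RhoStmt) (hS : Spec n m f P) (i : Fin n) :
    ∃ U : (VV n → ℕ) → ℝ, IsL (fun α => Real.exp (-U α)) ∧ DepOn U (SS n P i) ∧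
      (∀ y ∈ box (fun k => 2 * hK n m P k), ∀ ω z, (∀ c, ω c ≤ qT m) →
        |U (emb n m P y ω z) - U0 P m f i ω (st n m P y)| ≤ 1 / (m : ℝ) ^ 3) ∧
      ∀ α v, ∑ w, α w ≤ qM m → |U (α + ev v) - U α| ≤ 1 / (2 * (m : ℝ)) := by
  have hm2 : (2000 : ℝ) ≤ m := by exact_mod_cast hS.big
  have hm : (0 : ℝ) < m := by linarith
  have hm1 : 1 ≤ m := by have := hS.big; omega
  have hm1' : (1 : ℝ) ≤ m := by linarith
  have hcard : (Fintype.card (TT P i) : ℝ) ≤ 7 * m := by
    have := card_TT P i; have := hS.le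
    exact_mod_cast (by omega : Fintype.card (TT P i) ≤ 7 * m)
  have hcard0 : (0 : ℝ) ≤ Fintype.card (TT P i) := by positivity
  have hH : (qH m : ℝ) = m ^ 146 := by unfold qH; push_cast; rfl
  have hc0 : 0 ≤ Real.log (1 + 1 / (qH m : ℝ)) := log_nonneg' (by rw [hH]; positivity)
  have hc1 : Real.log (1 + 1 / (qH m : ℝ)) ≤ 1 / (m : ℝ) ^ 146 := by
    rw [← hH]; exact log_le' (by rw [hH]; positivity)
  have p2 : (4000000 : ℝ) ≤ (m : ℝ) ^ 2 := by nlinarith
  have p3 : (4000000 : ℝ) ≤ (m : ℝ) ^ 3 := p2.trans (pow_le_pow_right₀ hm1' (by norm_num))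
  have p5 : (4000000 : ℝ) ≤ (m : ℝ) ^ 5 := p2.trans (pow_le_pow_right₀ hm1' (by norm_num))
  obtain ⟨W, h1, h2, h3⟩ := smooth (T := TT P i) (fun g => Phi P m f i (ext P i g))
    (4 / (m : ℝ) ^ 122) (Real.log (1 + 1 / (qH m : ℝ))) (1 / (m : ℝ) ^ 288) (3 / (m : ℝ) ^ 146)
    (2 * qu m) (m ^ 58) (univ.filter (fun j : Fin n => nd P j ∧ cp P j = i)) (tt P i)
    (Nat.one_le_pow _ _ hm1) (by positivity) hc0 (by positivity)
    (fun g z => by simp only [ext_add, ext_sub]; exact Phi_mc hRho hS i _ _)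
    (fun g a => by simp only [ext_add, ext_single]; exact Phi_lip hRho hS i _ _)
    (fun j a => by unfold tt; split_ifs <;> norm_num)
    (fun j a => by unfold tt; split_ifs <;> norm_num) (fun a => tt_sum P i _ a)
    (by
      have e1 : 2 * (4 / (m : ℝ) ^ 122) / ((m ^ 58 : ℕ) : ℝ) ^ 2 = 8 / m ^ 92 * (1 / m ^ 146) := by
        push_cast; field_simp; norm_num
      have e2 : 2 * (1 / (m : ℝ) ^ 288) = 2 / m ^ 142 * (1 / m ^ 146) := by field_simp
      have e3 : 3 / (m : ℝ) ^ 146 = 3 * (1 / m ^ 146) := by ring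
      have q1 : (4000000 : ℝ) ≤ (m : ℝ) ^ 92 := p2.trans (pow_le_pow_right₀ hm1' (by norm_num))
      have q2 : (4000000 : ℝ) ≤ (m : ℝ) ^ 142 := p2.trans (pow_le_pow_right₀ hm1' (by norm_num))
      have q3 : 8 / (m : ℝ) ^ 92 ≤ 1 / 2 := by rw [div_le_iff₀ (by positivity)]; linarith
      have q4 : 2 / (m : ℝ) ^ 142 ≤ 1 / 2 := by rw [div_le_iff₀ (by positivity)]; linarith
      have q5 : (0 : ℝ) ≤ 1 / m ^ 146 := by positivity
      rw [e1, e2, e3]
      nlinarith [mul_le_mul_of_nonneg_right q3 q5, mul_le_mul_of_nonneg_right q4 q5])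
    (by
      have q2 : (4000000 : ℝ) ≤ (m : ℝ) ^ 146 := p2.trans (pow_le_pow_right₀ hm1' (by norm_num))
      rw [div_le_iff₀ (by positivity)]; linarith)
    (by
      calc _ ≤ 100 * (4 / (m : ℝ) ^ 122) * (7 * m) ^ 3 / ((m ^ 58 : ℕ) : ℝ) ^ 3 := by gcongr
        _ = 137200 / m ^ 5 * (1 / m ^ 288) := by push_cast; field_simp; norm_num
        _ ≤ 1 * (1 / m ^ 288) := by
          refine mul_le_mul_of_nonneg_right ?_ (by positivity)
          rw [div_le_iff₀ (by positivity)]; linarith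
        _ = _ := one_mul _)
    (by
      calc _ ≤ (7 * m) * (3 / (m : ℝ) ^ 146) ^ 2 := by gcongr
        _ = 63 / m ^ 3 * (1 / m ^ 288) := by field_simp; norm_num
        _ ≤ 1 * (1 / m ^ 288) := by
          refine mul_le_mul_of_nonneg_right ?_ (by positivity)
          rw [div_le_iff₀ (by positivity)]; linarith
        _ = _ := one_mul _)
  refine ⟨fun α => W (fun v => (α v.1 : ℤ)) + Real.log (1 + 1 / (qH m : ℝ)) *
      ∑ j ∈ univ.filter (fun j : Fin n => nd P j ∧ cp P j = i),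
        (2 * qu m - ∑ v : TT P i, tt P i j v * (α v.1 : ℝ)) ^ 2 +
      1 / (m : ℝ) ^ 288 * ∑ v : TT P i, (α v.1 : ℝ) ^ 2, ?_, ?_, ?_, ?_⟩
  · exact (CLO_proof (VV n)).2.2.2.2.1 (TT P i) Subtype.val _ Subtype.val_injective h3
  · intro α β hαβ
    have : ∀ v : TT P i, α v.1 = β v.1 := fun v => hαβ v.1 (mem_of_mem_erase v.2)
    simp only [this]
  · intro y hy ω z hω
    have hx := ((hRep n m f P hS).1 y hy).2
    have hyl : ∀ k, y k ≤ 2 * hK n m P k := fun k => by
      have := Fintype.mem_piFinset.1 hy k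
      simpa [Nat.lt_succ_iff] using this
    have a1 : Phi P m f i (ext P i (fun v : TT P i => (emb n m P y ω z v.1 : ℤ))) =
        Real.log (1 + 1 / (m : ℝ) ^ 4) * qV m * ∑ b : Bool,
          rho n m f P b i (m ^ 2 + ω (i, b) - qO m) (zv n P b (st n m P y)) := by
      unfold Phi
      congr 1
      refine sum_congr rfl (fun b _ => ?_)
      have e : ext P i (fun v : TT P i => (emb n m P y ω z v.1 : ℤ)) (.inr (.inl (i, b))) =
          ω (i, b) := by simp only [ext, mem_om P i b, dif_pos, emb]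
      rw [e]
      exact (hRho n m f P hS b i).2.2.1 _ _ _ (fun j hj hc => view_eq hRep hS i b hy ω z j hj hc)
    have a2 : ∑ j ∈ univ.filter (fun j : Fin n => nd P j ∧ cp P j = i),
        (2 * qu m - ∑ v : TT P i, tt P i j v * (emb n m P y ω z v.1 : ℝ)) ^ 2 =
        ∑ j ∈ univ.filter (fun j : Fin n => nd P j ∧ cp P j = i),
          (dF n P (st n m P y) j : ℝ) ^ 2 := by
      refine sum_congr rfl (fun j hj => ?_)
      obtain ⟨-, hn, hc⟩ := mem_filter.1 hj
      have hF : isF P j = true := hn.1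
      have k0 : hK n m P (j, false) = qu m := by simp [hK]
      have k1 : hK n m P (j, true) = qu m := by simp [hK, hF]
      have x0 := hx (j, false); have x1 := hx (j, true)
      have y0 := hyl (j, false); have y1 := hyl (j, true)
      rw [tt_pair P i j hc]
      simp only [emb, node, if_true, dF, hF] at x0 x1 ⊢
      rw [x0, x1]; rw [k0] at y0 ⊢; rw [k1] at y1 ⊢
      push_cast [Nat.cast_sub y0, Nat.cast_sub y1]; ring
    have a3 : 1 / (m : ℝ) ^ 288 * ∑ v : TT P i, (emb n m P y ω z v.1 : ℝ) ^ 2 ≤ 28 / (m : ℝ) ^ 5 := by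
      have : ∑ v : TT P i, (emb n m P y ω z v.1 : ℝ) ^ 2 ≤ 7 * m * (2 * (m : ℝ) ^ 141) ^ 2 := by
        refine (sum_le_card_nsmul _ _ ((2 * (m : ℝ) ^ 141) ^ 2) (fun v _ => ?_)).trans ?_
        · have h := emb_le hy hω z hm1 i v
          have : (emb n m P y ω z v.1 : ℝ) ≤ 2 * (m : ℝ) ^ 141 := by
            unfold qu at h; exact_mod_cast h
          gcongr
        · rw [nsmul_eq_mul, card_univ]; gcongr
      calc _ ≤ 1 / (m : ℝ) ^ 288 * (7 * m * (2 * (m : ℝ) ^ 141) ^ 2) := by gcongr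
        _ = _ := by field_simp; norm_num
    have a4 : 0 ≤ 1 / (m : ℝ) ^ 288 * ∑ v : TT P i, (emb n m P y ω z v.1 : ℝ) ^ 2 := by positivity
    have a5 := h1 (fun v : TT P i => (emb n m P y ω z v.1 : ℤ))
    have a6 : 2 * (Fintype.card (TT P i) : ℝ) * ((m ^ 58 : ℕ) : ℝ) ^ 2 * (4 / (m : ℝ) ^ 122) ≤
        56 / (m : ℝ) ^ 5 := by
      calc _ ≤ 2 * (7 * m) * ((m ^ 58 : ℕ) : ℝ) ^ 2 * (4 / (m : ℝ) ^ 122) := by gcongr
        _ = _ := by push_cast; field_simp; norm_num
    have a7 : 56 / (m : ℝ) ^ 5 + 28 / (m : ℝ) ^ 5 ≤ 1 / (m : ℝ) ^ 3 := by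
      have : 56 / (m : ℝ) ^ 5 + 28 / (m : ℝ) ^ 5 = 84 / m ^ 2 * (1 / m ^ 3) := by
        field_simp; norm_num
      rw [this]
      refine mul_le_of_le_one_left (by positivity) ?_
      rw [div_le_iff₀ (by positivity)]; linarith
    simp only [a1] at a5
    simp only [a2, U0]
    rw [abs_le] at a5 ⊢
    constructor <;> linarith [a5.1, a5.2]
  · intro α v hα
    by_cases hv : v ∈ S' P i
    · have e : ∀ w : TT P i, (α + ev v) w.1 = ((fun w : TT P i => α w.1) + ev ⟨v, hv⟩ : TT P i → ℕ) w := by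
        intro w
        by_cases h : w = ⟨v, hv⟩
        · subst h; simp [ev]
        · have : w.1 ≠ v := fun h' => h (Subtype.ext h')
          simp [ev, h, this]
      have e2 : (fun w : TT P i => ((((fun w : TT P i => α w.1) + ev ⟨v, hv⟩ : TT P i → ℕ) w : ℕ) : ℤ)) =
          (fun w : TT P i => (α w.1 : ℤ)) + Pi.single ⟨v, hv⟩ 1 := by
        funext w
        by_cases h : w = ⟨v, hv⟩
        · subst h; simp [ev]
        · simp [ev, h]
      have hM : (qM m : ℝ) = m ^ 143 := by unfold qM; push_cast; rfl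
      have hu : (qu m : ℝ) = m ^ 141 := by unfold qu; push_cast; rfl
      have b1 := quad_lip (Real.log (1 + 1 / (qH m : ℝ))) (1 / (m : ℝ) ^ 288) (2 * qu m) (qM m)
        (univ.filter (fun j : Fin n => nd P j ∧ cp P j = i)) (tt P i) hc0 (by positivity)
        (fun j a => by unfold tt; split_ifs <;> norm_num)
        (fun j a => by unfold tt; split_ifs <;> norm_num) (fun a => tt_sum P i _ a)
        (by positivity)
        (by
          rw [hM, hu, show (m : ℝ) ^ 143 = m ^ 2 * m ^ 141 by ring]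
          exact mul_le_mul_of_nonneg_right (by linarith) (by positivity))
        (fun w : TT P i => α w.1)
        (by
          have h1 : ∑ w : TT P i, (α w.1 : ℝ) = ∑ w ∈ S' P i, (α w : ℝ) :=
            (sum_subtype (S' P i) (fun _ => Iff.rfl) (fun w => (α w : ℝ))).symm
          have h2 : ((∑ w, α w : ℕ) : ℝ) ≤ qM m := by exact_mod_cast hα
          rw [h1]; push_cast at h2
          exact (sum_le_univ_sum_of_nonneg (fun w => by positivity)).trans h2)
        ⟨v, hv⟩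
      have b2 := h2 (fun w : TT P i => (α w.1 : ℤ)) ⟨v, hv⟩
      have b3 : (Real.log (1 + 1 / (qH m : ℝ)) + 1 / (m : ℝ) ^ 288) * (2 * qM m + 1) ≤
          1 / (4 * (m : ℝ)) := by
        have q1 : 1 / (m : ℝ) ^ 288 ≤ 1 / m ^ 146 :=
          one_div_le_one_div_of_le (by positivity) (pow_le_pow_right₀ hm1' (by norm_num))
        have q2 : (1 : ℝ) ≤ m ^ 143 := one_le_pow₀ hm1'
        calc _ ≤ (2 * (1 / (m : ℝ) ^ 146)) * (3 * m ^ 143) := by
              rw [hM]; exact mul_le_mul (by linarith) (by linarith) (by positivity) (by positivity)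
          _ = 24 / m ^ 2 * (1 / (4 * m)) := by field_simp; norm_num
          _ ≤ _ := by
            refine mul_le_of_le_one_left (by positivity) ?_
            rw [div_le_iff₀ (by positivity)]; linarith
      have b4 : 4 / (m : ℝ) ^ 122 ≤ 1 / (4 * (m : ℝ)) := by
        have q1 : (4000000 : ℝ) ≤ (m : ℝ) ^ 121 := p2.trans (pow_le_pow_right₀ hm1' (by norm_num))
        rw [div_le_div_iff₀ (by positivity) (by positivity),
          show (m : ℝ) ^ 122 = m ^ 121 * m by ring]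
        nlinarith
      have b5 : 1 / (2 * (m : ℝ)) = 1 / (4 * m) + 1 / (4 * m) := by field_simp; norm_num
      simp only [e, e2]
      rw [abs_le] at b1 b2 ⊢
      constructor <;> linarith [b1.1, b1.2, b2.1, b2.2]
    · have e : ∀ w : TT P i, (α + ev v) w.1 = α w.1 := by
        intro w
        have : w.1 ≠ v := fun h' => hv (h' ▸ w.2)
        simp [ev, this]
      simp only [e, sub_self, abs_zero]; positivity

end LAP

end Crest.Agent.R302
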