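import Crest.Agent.R302.DefsA

/-! Row 302, task POI: the abstract comparison argument. -/

set_option autoImplicit false

namespace Crest.Agent.R302.POI

open Finset Crest.Agent.R309

theorem var_le {X : Type} (Ω : Finset X) (π g : X → ℝ) (h : ∀ x ∈ Ω, 0 ≤ π x) (c : ℝ) :
    Var Ω π g ≤ ∑ x ∈ Ω, π x * (g x - c) ^ 2 := by
  have e : ∑ x ∈ Ω, π x * (g x - c) ^ 2 =
      ∑ x ∈ Ω, π x * g x ^ 2 - 2 * c * ∑ x ∈ Ω, π x * g x + c ^ 2 * ∑ x ∈ Ω, π x := by
    simp only [mul_sum, ← sum_sub_distrib, ← sum_add_distrib]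
    exact sum_congr rfl fun x _ => by ring
  rw [e, Var]
  rcases (sum_nonneg h).eq_or_lt with h0 | h0
  · have hz := (sum_eq_zero_iff_of_nonneg h).1 h0.symm
    have : ∑ x ∈ Ω, π x * g x = 0 := sum_eq_zero fun x hx => by rw [hz x hx, zero_mul]
    rw [this, ← h0]; simp
  · set S := ∑ x ∈ Ω, π x
    set M := ∑ x ∈ Ω, π x * g x
    have : 2 * c * M - c ^ 2 * S ≤ M ^ 2 / S := by
      rw [le_div_iff₀ h0]; nlinarith [sq_nonneg (M - c * S)]
    linarith

theorem var_eq {X : Type} (Ω : Finset X) (π g : X → ℝ) (h : 0 < ∑ x ∈ Ω, π x) :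
    ∑ x ∈ Ω, π x * (g x - (∑ x ∈ Ω, π x * g x) / ∑ x ∈ Ω, π x) ^ 2 = Var Ω π g := by
  set c := (∑ x ∈ Ω, π x * g x) / ∑ x ∈ Ω, π x with hc
  have e : ∑ x ∈ Ω, π x * (g x - c) ^ 2 =
      ∑ x ∈ Ω, π x * g x ^ 2 - 2 * c * ∑ x ∈ Ω, π x * g x + c ^ 2 * ∑ x ∈ Ω, π x := by
    simp only [mul_sum, ← sum_sub_distrib, ← sum_add_distrib]
    exact sum_congr rfl fun x _ => by ring
  rw [e, Var, hc]
  field_simp
  ring

theorem core {κ X : Type} [Fintype κ] [DecidableEq κ] (u : κ → ℕ) (Ω : Finset X)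
    (st : (κ → ℕ) → X) (W g H : X → ℝ) (π : (κ → ℕ) → ℝ) (C C' : ℝ)
    (hsum : ∀ G : X → ℝ, ∑ x ∈ Ω, G x =
      ∑ y ∈ box u, @ite _ (st y ∈ Ω) (Classical.dec _) (G (st y)) 0)
    (W0 : ∀ x, 0 ≤ W x) (π0 : ∀ y, 0 ≤ π y) (H0 : ∀ x, 0 ≤ H x) (hC : 0 ≤ C) (hC' : 0 ≤ C')
    (h1 : ∀ y ∈ box u, st y ∈ Ω → W (st y) ≤ 2 * π y)
    (hP : ∀ ε : ℝ, 0 < ε → ε ≤ 1 → ∃ ρ : (κ → ℕ) → ℝ,
      (∀ y ∈ box u, 0 < ρ y ∧ (st y ∈ Ω → ρ y = π y) ∧ (st y ∉ Ω → ρ y ≤ ε * π y)) ∧
      ∀ G : (κ → ℕ) → ℝ, Var (box u) ρ G ≤ C * ∑ k, ∑ x ∈ (box u).filter (fun x => x k + 1 ≤ u k),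
        ρ (x + Pi.single k 1) * (G (x + Pi.single k 1) - G x) ^ 2)
    (hA : ∀ k, ∀ x ∈ box u, x k + 1 ≤ u k → st x ∈ Ω → st (x + Pi.single k 1) ∈ Ω →
      π (x + Pi.single k 1) * (g (st (x + Pi.single k 1)) - g (st x)) ^ 2 ≤ C' * H (st x))
    (hB : ∀ k k', ∀ x ∈ box u, x k + 1 ≤ u k → x k' + 1 ≤ u k' → st (x + Pi.single k 1) ∈ Ω →
      st (x + Pi.single k' 1) ∈ Ω → W (st (x + Pi.single k 1)) ≤ W (st (x + Pi.single k' 1)) →
      π (x + Pi.single k 1) * (g (st (x + Pi.single k 1)) - g (st (x + Pi.single k' 1))) ^ 2 ≤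
        C' * H (st (x + Pi.single k 1))) :
    Var Ω W g ≤ 4 * C * C' * Fintype.card κ * ∑ x ∈ Ω, H x := by
  classical
  have up : ∀ k, ∀ x ∈ box u, x k + 1 ≤ u k → x + Pi.single k 1 ∈ box u := by
    intro k x hx hk
    simp only [R309.box, Fintype.mem_piFinset, mem_range] at hx ⊢
    intro a
    by_cases h : a = k
    · subst h; simp; omega
    · simpa [h] using hx a
  have ex : ∀ x : κ → ℕ, ∃ v : ℝ, (st x ∈ Ω → v = g (st x)) ∧ (st x ∉ Ω → ∀ k, x k + 1 ≤ u k →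
      st (x + Pi.single k 1) ∈ Ω → ∃ k', x k' + 1 ≤ u k' ∧ st (x + Pi.single k' 1) ∈ Ω ∧
        W (st (x + Pi.single k 1)) ≤ W (st (x + Pi.single k' 1)) ∧
        v = g (st (x + Pi.single k' 1))) := by
    intro x
    by_cases hx : st x ∈ Ω
    · exact ⟨g (st x), fun _ => rfl, fun h => absurd hx h⟩
    · by_cases hn : (univ.filter fun k => x k + 1 ≤ u k ∧ st (x + Pi.single k 1) ∈ Ω).Nonempty
      · obtain ⟨k', hk', hm⟩ := exists_max_image _ (fun k => W (st (x + Pi.single k 1))) hn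
        rw [mem_filter] at hk'
        exact ⟨_, fun h => absurd h hx, fun _ k a b =>
          ⟨k', hk'.2.1, hk'.2.2, hm k (mem_filter.2 ⟨mem_univ _, a, b⟩), rfl⟩⟩
      · exact ⟨0, fun h => absurd h hx, fun _ k a b =>
          absurd ⟨k, mem_filter.2 ⟨mem_univ _, a, b⟩⟩ hn⟩
  choose G hG1 hG2 using ex
  set H' : (κ → ℕ) → ℝ := fun y => if st y ∈ Ω then H (st y) else 0 with hH'
  have H'0 : ∀ y, 0 ≤ H' y := fun y => by
    simp only [hH']; split_ifs; exacts [H0 _, le_rfl]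
  have sH : ∑ y ∈ box u, H' y = ∑ x ∈ Ω, H x := by
    rw [hsum H]; exact sum_congr rfl fun y _ => by simp only [hH']; congr
  set B := ∑ k, ∑ x ∈ (box u).filter (fun x => x k + 1 ≤ u k),
    π (x + Pi.single k 1) * (G (x + Pi.single k 1) - G x) ^ 2 with hB'
  have B0 : 0 ≤ B := sum_nonneg fun k _ => sum_nonneg fun x _ => mul_nonneg (π0 _) (sq_nonneg _)
  have main : ∀ ε : ℝ, 0 < ε → ε ≤ 1 →
      Var Ω W g ≤ 4 * C * C' * Fintype.card κ * ∑ x ∈ Ω, H x + ε * (2 * C * B) := by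
    intro ε e0 e1
    obtain ⟨ρ, hρ, hV⟩ := hP ε e0 e1
    have ne : (box u).Nonempty := ⟨0, by simp [R309.box]⟩
    have pos : 0 < ∑ y ∈ box u, ρ y := sum_pos (fun y hy => (hρ y hy).1) ne
    set c := (∑ x ∈ box u, ρ x * G x) / ∑ x ∈ box u, ρ x
    have s1 : Var Ω W g ≤ 2 * Var (box u) ρ G := by
      refine (var_le Ω W g (fun x _ => W0 x) c).trans ?_
      rw [← var_eq _ _ _ pos, hsum, mul_sum]
      refine sum_le_sum fun y hy => ?_
      split_ifs with h
      · rw [(hρ y hy).2.1 h, hG1 y h, ← mul_assoc]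
        exact mul_le_mul_of_nonneg_right (h1 y hy h) (sq_nonneg _)
      · have := (hρ y hy).1
        positivity
    have s2 : ∀ k, ∑ x ∈ (box u).filter (fun x => x k + 1 ≤ u k),
        ρ (x + Pi.single k 1) * (G (x + Pi.single k 1) - G x) ^ 2 ≤
        2 * C' * ∑ x ∈ Ω, H x + ε * ∑ x ∈ (box u).filter (fun x => x k + 1 ≤ u k),
          π (x + Pi.single k 1) * (G (x + Pi.single k 1) - G x) ^ 2 := by
      intro k
      have a1 : ∑ x ∈ (box u).filter (fun x => x k + 1 ≤ u k), H' x ≤ ∑ x ∈ Ω, H x := by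
        rw [← sH]
        exact sum_le_sum_of_subset_of_nonneg (filter_subset _ _) fun y _ _ => H'0 y
      have a2 : ∑ x ∈ (box u).filter (fun x => x k + 1 ≤ u k), H' (x + Pi.single k 1) ≤
          ∑ x ∈ Ω, H x := by
        rw [← sH, ← sum_image (s := (box u).filter (fun x => x k + 1 ≤ u k))
          (g := fun x => x + Pi.single k 1) (f := H') (fun x _ y _ h => add_right_cancel h)]
        refine sum_le_sum_of_subset_of_nonneg (fun y hy => ?_) fun y _ _ => H'0 y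
        obtain ⟨x, hx, rfl⟩ := mem_image.1 hy
        exact up k x (mem_filter.1 hx).1 (mem_filter.1 hx).2
      have a3 : ∑ x ∈ (box u).filter (fun x => x k + 1 ≤ u k),
          ρ (x + Pi.single k 1) * (G (x + Pi.single k 1) - G x) ^ 2 ≤
          ∑ x ∈ (box u).filter (fun x => x k + 1 ≤ u k), (C' * H' x + C' * H' (x + Pi.single k 1) +
            ε * (π (x + Pi.single k 1) * (G (x + Pi.single k 1) - G x) ^ 2)) := by
        refine sum_le_sum fun x hx => ?_
        obtain ⟨hx, hk⟩ := mem_filter.1 hx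
        have hx' := up k x hx hk
        have p1 := mul_nonneg hC' (H'0 x)
        have p2 := mul_nonneg hC' (H'0 (x + Pi.single k 1))
        have p3 : 0 ≤ ε * (π (x + Pi.single k 1) * (G (x + Pi.single k 1) - G x) ^ 2) :=
          mul_nonneg e0.le (mul_nonneg (π0 _) (sq_nonneg _))
        by_cases hs : st (x + Pi.single k 1) ∈ Ω
        · rw [(hρ _ hx').2.1 hs]
          by_cases h0 : st x ∈ Ω
          · have := hA k x hx hk h0 hs
            rw [← hG1 _ hs, ← hG1 _ h0] at this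
            simp only [hH', if_pos h0] at p1 ⊢
            linarith
          · obtain ⟨k', b1, b2, b3, b4⟩ := hG2 x h0 k hk hs
            have := hB k k' x hx hk b1 hs b2 b3
            rw [← hG1 _ hs, ← b4] at this
            simp only [hH', if_pos hs] at p2 ⊢
            linarith
        · have := mul_le_mul_of_nonneg_right ((hρ _ hx').2.2 hs)
            (sq_nonneg (G (x + Pi.single k 1) - G x))
          linarith
      rw [sum_add_distrib, sum_add_distrib, ← mul_sum, ← mul_sum, ← mul_sum] at a3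
      have := mul_le_mul_of_nonneg_left a1 hC'
      have := mul_le_mul_of_nonneg_left a2 hC'
      linarith
    have s3 := sum_le_sum fun k (_ : k ∈ (univ : Finset κ)) => s2 k
    rw [sum_add_distrib, sum_const, card_univ, nsmul_eq_mul, ← mul_sum, ← hB'] at s3
    have s4 := (hV G).trans (mul_le_mul_of_nonneg_left s3 hC)
    linarith
  refine le_of_forall_pos_le_add fun η hη => ?_
  have K0 : 0 ≤ 2 * C * B := by positivity
  have := main (min 1 (η / (2 * C * B + 1))) (lt_min one_pos (by positivity)) (min_le_left _ _)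
  refine this.trans ?_
  gcongr
  calc min 1 (η / (2 * C * B + 1)) * (2 * C * B) ≤ η / (2 * C * B + 1) * (2 * C * B + 1) :=
        mul_le_mul (min_le_right _ _) (by linarith) K0 (by positivity)
    _ = η := by field_simp

theorem lc (a : ℝ) (ha : 1 ≤ a) (φ : ℤ → ℤ) (h : ∀ z, φ (z - 1) + φ (z + 1) ≤ 2 * φ z) :
    LC (fun t => a ^ φ t) := by
  have a0 : 0 < a := by linarith
  refine ⟨fun z => zpow_pos a0 _, fun z => ?_⟩
  rw [← zpow_add₀ a0.ne', sq, ← zpow_add₀ a0.ne']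
  exact zpow_le_zpow_right₀ ha (by linarith [h z])

theorem prod_zpow {I : Type} (s : Finset I) (a : ℝ) (ha : a ≠ 0) (φ : I → ℤ) :
    ∏ i ∈ s, a ^ φ i = a ^ ∑ i ∈ s, φ i := by
  classical
  induction s using Finset.induction_on with
  | empty => simp
  | insert i s hi ih => rw [prod_insert hi, sum_insert hi, ih, zpow_add₀ ha]

end Crest.Agent.R302.POI
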