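import Crest.Agent.R302.DefsC
import Crest.Agent.R302.EOPT
import Crest.Agent.R302.PRE

/-! Row 302: accessors, parameters and the oracle-free parts of the model are polynomial-time. -/

set_option autoImplicit false

namespace Crest.Agent.R302

open Finset Crest.Agent.PT Crest.Agent.QC Crest.Agent.R317 Crest.Agent.R300U Crest.Agent.R309

variable {α : Type} [Enc α]

@[fun_prop] theorem pt_qu {m : α → ℕ} (hm : PT m) : PT (fun a => qu (m a)) := by
  unfold qu; fun_prop
@[fun_prop] theorem pt_qW {m : α → ℕ} (hm : PT m) : PT (fun a => qW (m a)) := by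
  unfold qW; fun_prop
@[fun_prop] theorem pt_qH {m : α → ℕ} (hm : PT m) : PT (fun a => qH (m a)) := by
  unfold qH; fun_prop
@[fun_prop] theorem pt_qM {m : α → ℕ} (hm : PT m) : PT (fun a => qM (m a)) := by
  unfold qM; fun_prop
@[fun_prop] theorem pt_qJ {m : α → ℕ} (hm : PT m) : PT (fun a => qJ (m a)) := by
  unfold qJ; fun_prop
@[fun_prop] theorem pt_qV {m : α → ℕ} (hm : PT m) : PT (fun a => qV (m a)) := by
  unfold qV; fun_prop
@[fun_prop] theorem pt_qG {m : α → ℕ} (hm : PT m) : PT (fun a => qG (m a)) := by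
  unfold qG; fun_prop
@[fun_prop] theorem pt_qO {m : α → ℕ} (hm : PT m) : PT (fun a => qO (m a)) := by
  unfold qO; fun_prop
@[fun_prop] theorem pt_qN {m : α → ℕ} (hm : PT m) : PT (fun a => qN (m a)) := by
  unfold qN; fun_prop
@[fun_prop] theorem pt_qh {m : α → ℕ} (hm : PT m) : PT (fun a => qh (m a)) := by
  unfold qh
  have := EOPT.pt_eTt (pt_qN hm)
  fun_prop

@[fun_prop] theorem pt_gz {S : α → List (List ℤ)} {i j : α → ℕ} (hS : PT S) (hi : PT i)
    (hj : PT j) : PT (fun a => gz (S a) (i a) (j a)) := by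
  unfold gz; fun_prop

@[fun_prop] theorem pt_cp {P : α → Pre} {e : α → ℕ} (hP : PT P) (he : PT e) :
    PT (fun a => cp (P a) (e a)) := by
  unfold cp; fun_prop

@[fun_prop] theorem pt_cl {P : α → Pre} {b : α → Bool} {e : α → ℕ} (hP : PT P) (hb : PT b)
    (he : PT e) : PT (fun a => cl (P a) (b a) (e a)) := by
  unfold cl; fun_prop

@[fun_prop] theorem pt_isF {P : α → Pre} {e : α → ℕ} (hP : PT P) (he : PT e) :
    PT (fun a => isF (P a) (e a)) := by
  unfold isF; fun_prop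

@[fun_prop] theorem pt_cyc {P : α → Pre} {e j : α → ℕ} (hP : PT P) (he : PT e) (hj : PT j) :
    PT (fun a => cyc (P a) (e a) (j a)) := by
  unfold cyc; fun_prop

@[fun_prop] theorem pt_he' {P : α → Pre} {e : α → ℕ} (hP : PT P) (h : PT e) :
    PT (fun a => he (P a) (e a)) := by
  unfold he; fun_prop

@[fun_prop] theorem pt_ed {P : α → Pre} {b : α → Bool} (hP : PT P) (hb : PT b) :
    PT (fun a => ed (P a) (b a)) := by
  unfold ed; fun_prop

@[fun_prop] theorem pt_zetaL {E : α → Eds} {l : α → List Bool} (hE : PT E) (hl : PT l) :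
    PT (fun a => zetaL (E a) (l a)) := by
  unfold zetaL; fun_prop

@[fun_prop] theorem pt_xv {n e : α → ℕ} {x : α → List ℤ} {b : α → Bool} (hn : PT n) (hx : PT x)
    (he : PT e) (hb : PT b) : PT (fun a => xv (n a) (x a) (e a) (b a)) := by
  unfold xv; fun_prop

@[fun_prop] theorem pt_sgn {b : α → Bool} (hb : PT b) : PT (fun a => sgn (b a)) := by
  unfold sgn; fun_prop

@[fun_prop] theorem pt_zv {n j : α → ℕ} {P : α → Pre} {b : α → Bool} {x : α → List ℤ} (hn : PT n)
    (hP : PT P) (hb : PT b) (hx : PT x) (hj : PT j) :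
    PT (fun a => zv (n a) (P a) (b a) (x a) (j a)) := by
  unfold zv; fun_prop

@[fun_prop] theorem pt_dF {n j : α → ℕ} {P : α → Pre} {x : α → List ℤ} (hn : PT n)
    (hP : PT P) (hx : PT x) (hj : PT j) : PT (fun a => dF (n a) (P a) (x a) (j a)) := by
  unfold dF; fun_prop

@[fun_prop] theorem pt_dc {n i : α → ℕ} {P : α → Pre} {x : α → List ℤ} (hn : PT n)
    (hP : PT P) (hx : PT x) (hi : PT i) : PT (fun a => dc (n a) (P a) (x a) (i a)) := by
  unfold dc; fun_prop

@[fun_prop] theorem dt_nd {P : α → Pre} {j : α → ℕ} (hP : PT P) (hj : PT j) :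
    DT (fun a => nd (P a) (j a)) := by
  unfold nd; fun_prop

@[fun_prop] theorem dt_inB {n m : α → ℕ} {P : α → Pre} {x : α → List ℤ} (hn : PT n) (hm : PT m)
    (hP : PT P) (hx : PT x) : DT (fun a => inB (n a) (m a) (P a) (x a)) := by
  unfold inB; fun_prop

@[fun_prop] theorem pt_off {n m u j : α → ℕ} {P : α → Pre} (hn : PT n) (hm : PT m) (hP : PT P)
    (hu : BT u) (hj : PT j) : PT (fun a => off (n a) (m a) (P a) (u a) (j a)) := by
  unfold off
  refine PT.sumInt (f := fun a e => if isF (P a) e = true then 0 else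
    bz (fld (u a) (e * m a) (he (P a) e)) * cyc (P a) e (j a)) hn ?_
  exact PT.iteD (by fun_prop) (PT.const _) (PT.intMul (pt_bz (BT.fld (hu.comp PT.id'.fst)
    (by fun_prop) (by fun_prop))) (by fun_prop))

@[fun_prop] theorem pt_mvm {n i σ : α → ℕ} {x : α → List ℤ} (hn : PT n) (hi : PT i) (hσ : PT σ)
    (hx : PT x) : PT (fun a => mvm (n a) (i a) (σ a) (x a)) := by
  unfold mvm; fun_prop

@[fun_prop] theorem dt_accS {n m : α → ℕ} {P : α → Pre} {x : α → List ℤ} (hn : PT n) (hm : PT m)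
    (hP : PT P) (hx : PT x) : DT (fun a => accS (n a) (m a) (P a) (x a)) := by
  unfold accS
  refine DT.and (by fun_prop) (DT.all hn (dt_imp (by fun_prop) (by fun_prop)))

@[fun_prop] theorem pt_fac {n m : α → ℕ} {P : α → Pre} (hn : PT n) (hm : PT m) (hP : PT P) :
    PT (fun a => fac (n a) (m a) (P a)) := by
  unfold fac
  have h1 : PT (fun a => 1 / ∑ j ∈ range (2 * qW (m a) + 1),
      (1 + 1 / (qH (m a) : ℚ)) ^ (-(((j : ℤ) - qW (m a)) * ((j : ℤ) - qW (m a))))) :=
    pt_qdiv (PT.const _) (pt_qsum (f := fun a (j : ℕ) =>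
      (1 + 1 / (qH (m a) : ℚ)) ^ (-(((j : ℤ) - qW (m a)) * ((j : ℤ) - qW (m a))))) (by fun_prop)
      (pt_qzpow (by fun_prop) (by fun_prop)))
  refine pt_qprod (f := fun a e => if isF (P a) e = true then (if nd (P a) e then
    1 / ∑ j ∈ range (2 * qW (m a) + 1),
      (1 + 1 / (qH (m a) : ℚ)) ^ (-(((j : ℤ) - qW (m a)) * ((j : ℤ) - qW (m a)))) else 1)
    else 2 ^ he (P a) e) hn ?_
  exact PT.iteD (by fun_prop) (PT.iteD (by fun_prop) (h1.comp PT.id'.fst) (PT.const _))
    (pt_qpow (PT.const _) (by fun_prop))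

/-- the weight with the wall levels given as a list -/
theorem pt_wgt {n m s : α → ℕ} {P : α → Pre} {hb : α → Bool} {J : α → List ℕ} {p x : α → List ℤ}
    (hn : PT n) (hm : PT m) (hP : PT P) (hhb : PT hb) (hJ : PT J) (hs : PT s) (hp : PT p)
    (hx : PT x) : PT (fun a => wgt (n a) (m a) (P a) (hb a)
      (fun b i => if b = true then 0 else (J a).getD i 0) (s a) (p a) (x a)) := by
  unfold wgt
  have h0 := EOPT.pt_eTt (pt_qN hm)
  have h1 : PT (fun a => ∏ k ∈ range (2 * n a), (1 + 1 / (qM (m a) : ℚ)) ^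
      (-(((qJ (m a) - s a : ℕ) : ℤ) * |zcl (qu (m a)) ((x a).getD k 0)|))) :=
    pt_qprod (f := fun a k => (1 + 1 / (qM (m a) : ℚ)) ^
      (-(((qJ (m a) - s a : ℕ) : ℤ) * |zcl (qu (m a)) ((x a).getD k 0)|))) (by fun_prop)
      (pt_qzpow (by fun_prop) (ZT.neg (ZT.mul (ZT.natCast (by fun_prop))
        (ZT.abs (zt_zcl (by fun_prop) (by fun_prop))))))
  have h2 : PT (fun a => ∏ i ∈ range (n a),
      ((m a : ℚ) ^ 2) ^ (-|zcl (qM (m a)) (dc (n a) (P a) (x a) i)|) * (1 + 1 / (qM (m a) : ℚ)) ^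
        (zcl (eTt (qN (m a))) ((p a).getD i 0) * zcl (qM (m a)) (dc (n a) (P a) (x a) i))) :=
    pt_qprod (f := fun a i =>
      ((m a : ℚ) ^ 2) ^ (-|zcl (qM (m a)) (dc (n a) (P a) (x a) i)|) * (1 + 1 / (qM (m a) : ℚ)) ^
        (zcl (eTt (qN (m a))) ((p a).getD i 0) * zcl (qM (m a)) (dc (n a) (P a) (x a) i))) hn
      (pt_qmul (pt_qzpow (pt_qpow (by fun_prop) (PT.const _))
        (ZT.neg (ZT.abs (zt_zcl (by fun_prop) (by fun_prop)))))
        (pt_qzpow (by fun_prop) (ZT.mul (zt_zcl (h0.comp PT.id'.fst) (by fun_prop))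
          (zt_zcl (by fun_prop) (by fun_prop)))))
  have h3 : PT (fun a => ∏ j ∈ range (n a), if nd (P a) j then (1 + 1 / (qH (m a) : ℚ)) ^
      (-(zcl (qM (m a)) (dF (n a) (P a) (x a) j) * zcl (qM (m a)) (dF (n a) (P a) (x a) j)))
      else 1) :=
    pt_qprod (f := fun a j => if nd (P a) j then (1 + 1 / (qH (m a) : ℚ)) ^
      (-(zcl (qM (m a)) (dF (n a) (P a) (x a) j) * zcl (qM (m a)) (dF (n a) (P a) (x a) j)))
      else 1) hn
      (PT.iteD (by fun_prop) (pt_qzpow (by fun_prop) (ZT.neg (ZT.mul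
        (zt_zcl (by fun_prop) (by fun_prop)) (zt_zcl (by fun_prop) (by fun_prop))))) (PT.const _))
  have h4 : PT (fun a => ∏ i ∈ range (n a),
      (1 + 1 / (m a : ℚ) ^ 4) ^ (-(((J a).getD i 0 + 0 : ℕ) : ℤ))) :=
    pt_qprod (f := fun a i => (1 + 1 / (m a : ℚ) ^ 4) ^ (-(((J a).getD i 0 + 0 : ℕ) : ℤ))) hn
      (pt_qzpow (pt_qadd (PT.const _) (pt_qdiv (PT.const _) (pt_qpow (by fun_prop) (PT.const _))))
        (ZT.neg (ZT.natCast (by fun_prop))))
  exact PT.iteD (by fun_prop) (pt_qmul (pt_qmul (pt_qmul h1 h2) h3) h4) (PT.const _)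

theorem wgt_list (n m : ℕ) (P : Pre) (hb : Bool) (jv : Bool → ℕ → ℕ) (s : ℕ) (p x : List ℤ) :
    wgt n m P hb (fun b i => if b = true then 0 else
      (mkL n (fun i => jv false i + jv true i)).getD i 0) s p x = wgt n m P hb jv s p x := by
  unfold wgt
  congr 2
  refine prod_congr rfl fun i hi => ?_
  simp only [Bool.false_eq_true, if_false, if_true, add_zero]
  rw [getD_mkL _ _ (mem_range.1 hi)]

end Crest.Agent.R302
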