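import Crest.Agent.R302.DefsA
import Crest.Agent.R309.SLI
import Crest.Agent.R309.KEY
import Crest.Agent.R309.MRG
import Crest.Agent.R309.ONE
import Crest.Agent.R309.SCH

/-! Row 302, task SLI2: comparison of the means on two neighbouring slices. -/

set_option autoImplicit false

namespace Crest.Agent.R302

open Finset Crest.Agent.R309

namespace SLI2

open SLI

variable {V : Type} [Fintype V] [DecidableEq V]

theorem deg_ev (γ : V → ℕ) (a : V) : ∑ w, (γ + ev a) w = ∑ w, γ w + 1 := by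
  simp [ev, sum_add_distrib]

theorem deg_pt (γ : V → ℕ) (a b : V) (i j : ℕ) :
    ∑ w, (γ + pt a b i j) w = ∑ w, γ w + i + j := by
  simp [pt, sum_add_distrib, add_assoc]

omit [Fintype V] [DecidableEq V] in
theorem tsum_cons (B : V × V × ℕ) (t : List (V × V × ℕ)) : tsum (B :: t) = B.2.2 + tsum t := by
  simp [tsum]

theorem Sm_mono' (t : List (V × V × ℕ)) (γ : V → ℕ) {Φ Ψ : (V → ℕ) → ℝ}
    (h : ∀ U : V → ℕ, ∑ w, U w = ∑ w, γ w + tsum t → Φ U ≤ Ψ U) : Sm t γ Φ ≤ Sm t γ Ψ := by
  induction t generalizing γ with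
  | nil => simpa [Sm] using h γ (by simp [tsum])
  | cons B t ih =>
    simp only [Sm]
    refine sum_le_sum fun i hi => ih _ fun U hU => h U ?_
    rw [hU, deg_pt, tsum_cons]
    have := mem_range.1 hi
    omega

theorem WS_le' (t : List (V × V × ℕ)) {F : (V → ℕ) → ℝ} {Λ : ℝ} {m : ℕ} (hF : ∀ U, 0 < F U)
    (hΛ : 1 ≤ Λ) (ht : ∀ B ∈ t, Cheap F Λ m B.2.1) (γ : V → ℕ) (hγ : ∑ w, γ w + tsum t ≤ m) :
    WS F t γ ≤ t.length / 2 * Λ * Sm t γ F := by
  induction t generalizing γ with
  | nil => simp [WS]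
  | cons B t ih =>
    obtain ⟨a, b, s⟩ := B
    have ih' := ih (fun B hB => ht B (List.mem_cons_of_mem _ hB))
    have hc := ht _ List.mem_cons_self
    rw [tsum_cons] at hγ
    simp only [WS, Sm, List.length_cons, Nat.cast_add, Nat.cast_one] at hc hγ ⊢
    have h1 : ∑ i ∈ range s, Sm t (γ + pt a b i (s - 1 - i)) F ≤
        Λ * ∑ i ∈ range (s + 1), Sm t (γ + pt a b i (s - i)) F := by
      have h0 : ∀ i ∈ range s, Sm t (γ + pt a b i (s - 1 - i)) F ≤
          Λ * Sm t (γ + pt a b i (s - 1 - i) + ev b) F := fun i hi => by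
        rw [Sm_shift t (γ + pt a b i (s - 1 - i)), ← Sm_mul]
        refine Sm_mono' _ _ fun U hU => (hc U ?_).2
        rw [hU, deg_pt]
        have := mem_range.1 hi
        omega
      refine (sum_le_sum h0).trans ?_
      rw [← mul_sum]
      refine mul_le_mul_of_nonneg_left ?_ (by linarith)
      rw [sum_range_succ]
      refine le_add_of_le_of_nonneg (le_of_eq (sum_congr rfl fun i hi => ?_))
        (Sm_pos _ _ hF).le
      rw [add_assoc, ← pt_succ_right]
      have := mem_range.1 hi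
      congr 3; omega
    have h2 : (∑ i ∈ range s, ((i : ℝ) + 1) * ((s : ℝ) - i) * Sm t (γ + pt a b i (s - 1 - i)) F) /
        (2 * ((s : ℝ) + 1) ^ 2) ≤ (∑ i ∈ range s, Sm t (γ + pt a b i (s - 1 - i)) F) / 2 := by
      rw [div_le_div_iff₀ (by positivity) (by norm_num), sum_mul, sum_mul]
      refine sum_le_sum fun i hi => ?_
      have hi' : (i : ℝ) + 1 ≤ s := by exact_mod_cast mem_range.1 hi
      have hi0 : (0 : ℝ) ≤ i := by positivity
      have hp := (Sm_pos t (γ + pt a b i (s - 1 - i)) hF).le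
      have : ((i : ℝ) + 1) * ((s : ℝ) - i) ≤ ((s : ℝ) + 1) ^ 2 := by nlinarith
      nlinarith
    have h3 : ∑ i ∈ range (s + 1), WS F t (γ + pt a b i (s - i)) ≤
        t.length / 2 * Λ * ∑ i ∈ range (s + 1), Sm t (γ + pt a b i (s - i)) F := by
      rw [mul_sum]
      refine sum_le_sum fun i hi => ih' _ ?_
      rw [deg_pt]
      have := mem_range.1 hi
      omega
    nlinarith

theorem Dir_mono' (t : List (V × V × ℕ)) {c c' : V → V → (V → ℕ) → ℝ} {L : ℝ} (γ : V → ℕ)
    (h : ∀ B ∈ t, ∀ U : V → ℕ, ∑ w, U w + 1 = ∑ w, γ w + tsum t →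
      c B.1 B.2.1 U ≤ L * c' B.1 B.2.1 U) (g : (V → ℕ) → ℝ) :
    Dir c t γ g ≤ L * Dir c' t γ g := by
  induction t generalizing γ with
  | nil => simp [Dir]
  | cons B t ih =>
    simp only [Dir]
    rw [mul_add, mul_sum (s := range (B.2.2 + 1)), mul_left_comm, mul_sum (a := L)]
    refine add_le_add (mul_le_mul_of_nonneg_left (sum_le_sum fun i hi => ?_) (by positivity))
      (sum_le_sum fun i hi => ih _ fun B' hB' U hU => h B' (List.mem_cons_of_mem _ hB') U ?_)
    · rw [← Sm_mul]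
      refine Sm_mono' _ _ fun U hU => ?_
      rw [← mul_assoc]
      refine mul_le_mul_of_nonneg_right (h B List.mem_cons_self U ?_) (sq_nonneg _)
      rw [hU, deg_pt, tsum_cons]
      have := mem_range.1 hi
      omega
    · rw [hU, deg_pt, tsum_cons]
      have := mem_range.1 hi
      omega

end SLI2

open SLI SLI2 in
theorem SLI2_proof : Sli2Stmt := by
  intro V _ _ F Λ m hL hΛ t ht a b hb β g hm
  have hKey := KEY_proof (MRG_proof SCH_proof) ONE_proof
  have hF := hL.1
  have hZa := Sm_pos t (β + ev a) hF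
  have hZb := Sm_pos t (β + ev b) hF
  set Za := Sm t (β + ev a) F with hZa'
  set Zb := Sm t (β + ev b) F with hZb'
  set Sa := Sm t (β + ev a) (fun U => F U * g U) with hSa
  set Sb := Sm t (β + ev b) (fun U => F U * g U) with hSb
  set Sx := Sm t β (fun U => F (U + ev a) * g (U + ev b)) with hSx
  set D := Dir (cX F) t β (fun U => g (U + ev b)) with hD
  set E := Sm t β (fun U => cF F a b U * (g (U + ev a) - g (U + ev b)) ^ 2) with hE
  set DM := Dir (cF F) t (β + ev b) g with hDM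
  have hlen : (0 : ℝ) ≤ t.length := by positivity
  have hP : -Qv (WS F t) β (fun v => (if v = b then 1 / Zb else 0) - (if v = a then 1 / Za else 0))
      ≤ t.length * Λ ^ 2 / Zb := by
    rw [Qv_two]
    have hw1 := WS_nonneg t (β + ev b + ev b) (F := F) (fun U => (hF U).le)
    have hw2 := WS_nonneg t (β + ev a + ev a) (F := F) (fun U => (hF U).le)
    have h2 := WS_le' t hF hΛ ht (β + ev a + ev b) (by rw [deg_ev, deg_ev]; omega)
    have h3 : Sm t (β + ev a + ev b) F ≤ Λ * Za := by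
      rw [Sm_shift, hZa', ← Sm_mul]
      refine Sm_mono' _ _ fun U hU => (hb U ?_).1
      rw [hU, deg_ev]; omega
    have h4 : WS F t (β + ev a + ev b) ≤ t.length / 2 * Λ * (Λ * Za) :=
      h2.trans (mul_le_mul_of_nonneg_left h3 (by positivity))
    have h5 : 2 * (1 / Zb) * (1 / Za) * WS F t (β + ev a + ev b) ≤ t.length * Λ ^ 2 / Zb := by
      refine (mul_le_mul_of_nonneg_left h4 (by positivity)).trans (le_of_eq ?_)
      field_simp
    have h6 := mul_nonneg (sq_nonneg (1 / Zb)) hw1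
    have h7 := mul_nonneg (sq_nonneg (1 / Za)) hw2
    linarith
  have hkey : ∀ τ : ℝ, 2 * (τ * (Sb / Zb - Sx / Za)) ≤ τ ^ 2 * (t.length * Λ ^ 2 / Zb) + D := by
    intro τ
    have hk := hKey V F hL t β
      (fun v => (if v = b then τ * (1 / Zb) else 0) - (if v = a then τ * (1 / Za) else 0))
      (fun U => g (U + ev b)) (by
        simp only [Dv_two]
        rw [Sm_sub, Sm_mul, Sm_mul, ← Sm_shift, ← Sm_shift, ← hZa', ← hZb']
        field_simp
        ring)
    simp only [Dv_two] at hk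
    have e1 : (fun U => g (U + ev b) * (τ * (1 / Zb) * F (U + ev b) - τ * (1 / Za) * F (U + ev a))) =
        fun U => τ * (1 / Zb) * (F (U + ev b) * g (U + ev b)) -
          τ * (1 / Za) * (F (U + ev a) * g (U + ev b)) := by
      funext U; ring
    have e2 : Sm t β (fun U => F (U + ev b) * g (U + ev b)) = Sb := by rw [hSb, Sm_shift]
    rw [e1, Sm_sub, Sm_mul, Sm_mul, e2, ← hSx, ← hD, Qv_two] at hk
    rw [Qv_two] at hP
    have := mul_le_mul_of_nonneg_left hP (sq_nonneg τ)
    have e3 : τ * (Sb / Zb - Sx / Za) = τ * (1 / Zb) * Sb - τ * (1 / Za) * Sx := by ring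
    rw [e3]
    nlinarith
  have hΔ := disc (by positivity) hkey
  have hDD : D ≤ Λ ^ 2 * DM := by
    rw [hD, hDM, Dir_shift]
    refine Dir_mono' t β (fun B hB U hU => ?_) _
    simp only [cX, cF]
    have hd : ∑ w, (U + ev B.1) w ≤ m := by rw [deg_ev]; omega
    have a1 := (ht B hB _ hd).1
    have a2 := (hb _ hd).2
    rw [add_right_comm U (ev b)]
    nlinarith
  have hD0 : 0 ≤ D := Dir_nonneg t (fun k l U => (hF _).le) β _
  have hDM0 : 0 ≤ DM := Dir_nonneg t (fun k l U => (hF _).le) _ _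
  have h2 : Za * (Sa / Za - Sx / Za) ^ 2 ≤ E := by
    have cs := Sm_cs t β (w := fun U => F (U + ev a)) (fun U => hF _)
      (fun U => g (U + ev a) - g (U + ev b))
    have e1 : Sm t β (fun U => F (U + ev a) * (g (U + ev a) - g (U + ev b))) = Sa - Sx := by
      rw [hSa, Sm_shift, hSx, ← Sm_sub]
      congr 1; funext U; ring
    rw [e1, ← Sm_shift, ← hZa'] at cs
    have : Za * (Sa / Za - Sx / Za) ^ 2 = (Sa - Sx) ^ 2 / Za := by field_simp
    rw [this, div_le_iff₀ hZa]
    have e2 : E = Sm t β (fun U => F (U + ev a) * (g (U + ev a) - g (U + ev b)) ^ 2) := rfl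
    rw [e2]
    linarith
  have h3 : Zb * (Sb / Zb - Sx / Za) ^ 2 ≤ t.length * Λ ^ 4 * DM := by
    have h4 : Zb * (Sb / Zb - Sx / Za) ^ 2 ≤ Zb * (t.length * Λ ^ 2 / Zb * D) :=
      mul_le_mul_of_nonneg_left hΔ hZb.le
    have h5 : Zb * (t.length * Λ ^ 2 / Zb * D) = t.length * Λ ^ 2 * D := by field_simp
    have h6 : t.length * Λ ^ 2 * D ≤ t.length * Λ ^ 2 * (Λ ^ 2 * DM) :=
      mul_le_mul_of_nonneg_left hDD (by positivity)
    nlinarith
  have hm1 := min_le_left Za Zb
  have hm2 := min_le_right Za Zb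
  have hm0 : 0 ≤ min Za Zb := le_min hZa.le hZb.le
  set x := Sa / Za - Sx / Za
  set y := Sb / Zb - Sx / Za
  have e : Sa / Za - Sb / Zb = x - y := by simp only [x, y]; ring
  rw [e]
  have h7 : (x - y) ^ 2 ≤ 2 * x ^ 2 + 2 * y ^ 2 := by nlinarith [sq_nonneg (x + y)]
  have h8 := mul_le_mul_of_nonneg_left h7 hm0
  have h9 := mul_le_mul_of_nonneg_right hm1 (sq_nonneg x)
  have h10 := mul_le_mul_of_nonneg_right hm2 (sq_nonneg y)
  nlinarith

end Crest.Agent.R302
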