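import Crest.Agent.R302.SfmO

/-!
Row 302: greedy vectors, the invariant of the minimisation algorithm and its termination.
-/

set_option autoImplicit false

namespace Crest.Agent.R302

open Crest.Agent.PT Crest.Agent.QC Crest.Agent.R317 Finset

namespace Sfm

/-- Normalised submodular functions on subsets of `range n`. -/
def Sub (n : ℕ) (f : Finset ℕ → ℤ) : Prop :=
  f ∅ = 0 ∧ ∀ A B, A ⊆ range n → B ⊆ range n → f (A ∪ B) + f (A ∩ B) ≤ f A + f B

/-- Elements that come before `v`. -/
def Pre (n : ℕ) (k : ℕ → ℤ) (v : ℕ) : Finset ℕ := (range n).filter (fun u => k u < k v)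

theorem mem_Pre {n : ℕ} {k : ℕ → ℤ} {u v : ℕ} : u ∈ Pre n k v ↔ u < n ∧ k u < k v := by
  simp [Pre]

theorem Pre_sub (n : ℕ) (k : ℕ → ℤ) (v : ℕ) : Pre n k v ⊆ range n := filter_subset _ _

theorem not_mem_Pre (n : ℕ) (k : ℕ → ℤ) (v : ℕ) : v ∉ Pre n k v := by simp [mem_Pre]

/-- `y` is the greedy vector of the ordering `k`. -/
structure Gr (n : ℕ) (f : Finset ℕ → ℤ) (k y : ℕ → ℤ) : Prop where
  inj : ∀ u < n, ∀ v < n, k u = k v → u = v
  val : ∀ v < n, y v = f (insert v (Pre n k v)) - f (Pre n k v)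

variable {n : ℕ} {f : Finset ℕ → ℤ}

theorem marg (hf : Sub n f) {A B : Finset ℕ} (hAB : A ⊆ B) (hB : B ⊆ range n) {v : ℕ}
    (hv : v < n) (hvB : v ∉ B) : f (insert v B) - f B ≤ f (insert v A) - f A := by
  have h := hf.2 (insert v A) B (insert_subset (mem_range.2 hv) (hAB.trans hB)) hB
  rw [insert_union, union_eq_right.2 hAB, insert_inter_of_notMem hvB, inter_eq_left.2 hAB] at h
  linarith

theorem Gr.le (hf : Sub n f) {k y : ℕ → ℤ} (h : Gr n f k y) (S : Finset ℕ) (hS : S ⊆ range n) :
    ∑ v ∈ S, y v ≤ f S := by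
  induction S using Finset.induction_on_max_value k with
  | empty => simp [hf.1]
  | insert a s ha hs ih =>
    have han : a < n := mem_range.1 (hS (mem_insert_self _ _))
    have hsn : s ⊆ range n := (subset_insert _ _).trans hS
    have h1 : s ⊆ Pre n k a := fun u hu => by
      have hu' := mem_range.1 (hsn hu)
      refine mem_Pre.2 ⟨hu', lt_of_le_of_ne (hs u hu) (fun e => ha ?_)⟩
      rwa [← h.inj u hu' a han e]
    have h2 := marg hf h1 (Pre_sub n k a) han (not_mem_Pre n k a)
    rw [sum_insert ha, h.val a han]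
    linarith [ih hsn]

theorem Gr.eq (hf : Sub n f) {k y : ℕ → ℤ} (h : Gr n f k y) (S : Finset ℕ) (hS : S ⊆ range n)
    (hd : ∀ u < n, ∀ v ∈ S, k u < k v → u ∈ S) : ∑ v ∈ S, y v = f S := by
  induction S using Finset.induction_on_max_value k with
  | empty => simp [hf.1]
  | insert a s ha hs ih =>
    have han : a < n := mem_range.1 (hS (mem_insert_self _ _))
    have hsn : s ⊆ range n := (subset_insert _ _).trans hS
    have h1 : Pre n k a = s := by
      ext u
      rw [mem_Pre]
      constructor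
      · rintro ⟨hu, hk⟩
        rcases mem_insert.1 (hd u hu a (mem_insert_self _ _) hk) with rfl | h'
        · exact absurd hk (lt_irrefl _)
        · exact h'
      · intro hu
        have hu' := mem_range.1 (hsn hu)
        refine ⟨hu', lt_of_le_of_ne (hs u hu) (fun e => ha ?_)⟩
        rwa [← h.inj u hu' a han e]
    rw [sum_insert ha, h.val a han, h1, ih hsn (fun u hu v hv hk => ?_)]
    · ring
    · rcases mem_insert.1 (hd u hu v (mem_insert_of_mem hv) hk) with rfl | h'
      · exact absurd hk (not_lt.2 (hs v hv))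
      · exact h'

/-- The set function given by indicator lists. -/
def gf (g : List Bool → ℤ) (n : ℕ) (S : Finset ℕ) : ℤ := g (mkL n fun j => decide (j ∈ S))

theorem mkL_congr {β : Type} {n : ℕ} {f g : ℕ → β} (h : ∀ i < n, f i = g i) : mkL n f = mkL n g :=
  List.map_congr_left (fun i hi => h i (List.mem_range.1 hi))

theorem gr_greedy (g : List Bool → ℤ) {k : List ℤ}
    (hk : ∀ u < n, ∀ v < n, k.getD u 0 = k.getD v 0 → u = v) :
    Gr n (gf g n) (fun v => k.getD v 0) (fun v => (greedy g n k).getD v 0) := by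
  refine ⟨hk, fun v hv => ?_⟩
  unfold greedy gf
  rw [getD_mkL _ _ hv]
  congr 2
  · refine mkL_congr (fun u hu => ?_)
    simp only [mem_insert, mem_Pre, decide_eq_decide]
    constructor
    · intro h
      rcases h.eq_or_lt with h | h
      · exact Or.inl (hk u hu v hv h)
      · exact Or.inr ⟨hu, h⟩
    · rintro (rfl | h)
      · exact le_rfl
      · exact h.2.le
  · refine mkL_congr (fun u hu => ?_)
    simp [mem_Pre, hu]

theorem sum_ent {β : Type} [AddCommMonoid β] (L : List Ent) (F : Ent → β) :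
    ∑ i ∈ range L.length, F (ent L i) = (L.map F).sum := by
  induction L with
  | nil => simp
  | cons e L ih =>
    rw [List.length_cons, sum_range_succ', List.map_cons, List.sum_cons, ← ih, add_comm]
    rfl

theorem xv_eq (L : List Ent) (v : ℕ) : xv L v = (L.map (fun e => lam e * yv e v)).sum :=
  sum_ent L (fun e => lam e * yv e v)

theorem ent_mem {L : List Ent} {i : ℕ} (h : i < L.length) : ent L i ∈ L := by
  simp [ent, List.getD_eq_getElem?_getD, h]

theorem ex_ent (L : List Ent) (p : Ent → Prop) :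
    Ex L.length (fun i => p (ent L i)) ↔ ∃ e ∈ L, p e := by
  constructor
  · rintro ⟨i, hi, h⟩; exact ⟨_, ent_mem hi, h⟩
  · rintro ⟨e, he, h⟩
    obtain ⟨i, hi, rfl⟩ := List.getElem_of_mem he
    exact ⟨i, hi, by simpa [ent, List.getD_eq_getElem?_getD, hi] using h⟩

theorem inW_iff (L : List Ent) (v : ℕ) : inW n L v ↔ ∃ e ∈ L, lab e v < n :=
  ex_ent L (fun e => lab e v < n)

theorem first_spec {n : ℕ} {p : ℕ → Prop} (h : ∃ i < n, p i) :
    first n p < n ∧ p (first n p) ∧ ∀ j < first n p, ¬ p j := by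
  classical
  have hex : ∃ i, p i := h.imp fun _ h => h.2
  have hlt : Nat.find hex < n := by
    obtain ⟨i, hi, hp⟩ := h
    exact (Nat.find_min' hex hp).trans_lt hi
  have : first n p = Nat.find hex := by
    unfold first
    have : ∀ i, (if Ex (i + 1) p then 0 else 1) = if i < Nat.find hex then 1 else 0 := by
      intro i
      by_cases hi : i < Nat.find hex
      · rw [if_pos hi, if_neg]
        rintro ⟨j, hj, hp⟩
        exact Nat.find_min hex (by omega) hp
      · rw [if_neg hi, if_pos]
        exact ⟨_, by omega, Nat.find_spec hex⟩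
    simp only [this]
    rw [sum_ite, sum_const_zero, add_zero, sum_const, smul_eq_mul, mul_one]
    have : (range n).filter (fun i => i < Nat.find hex) = range (Nat.find hex) := by
      ext i; simp only [mem_filter, mem_range]; omega
    rw [this, card_range]
  rw [this]
  exact ⟨hlt, Nat.find_spec hex, fun j hj => Nat.find_min hex hj⟩

theorem le_maxTo {n : ℕ} (F : ℕ → ℤ) {v : ℕ} (hv : v < n) : F v ≤ maxTo n F := by
  rw [maxTo_eq]
  have : (F v).toNat ≤ (range n).sup (fun i => (F i).toNat) :=
    le_sup (f := fun i => (F i).toNat) (mem_range.2 hv)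
  omega

theorem maxTo_cases (n : ℕ) (F : ℕ → ℤ) : maxTo n F = 0 ∨ ∃ v < n, maxTo n F = F v := by
  induction n with
  | zero => left; rfl
  | succ n ih =>
    have : maxTo (n + 1) F = max (maxTo n F) (F n) := rfl
    rw [this]
    rcases le_total (maxTo n F) (F n) with h | h
    · right; exact ⟨n, by omega, max_eq_right h⟩
    · rw [max_eq_left h]
      rcases ih with h | ⟨v, hv, h⟩
      · left; exact h
      · right; exact ⟨v, by omega, h⟩

theorem exists_gap (n : ℕ) (φ : ℕ → ℕ) : ∃ j < n + 1, ∀ v < n, φ v ≠ j := by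
  by_contra h
  push Not at h
  have h1 : range (n + 1) ⊆ (range n).image φ := fun j hj => by
    obtain ⟨v, hv, e⟩ := h j (mem_range.1 hj)
    exact mem_image.2 ⟨v, mem_range.2 hv, e⟩
  have h2 := (card_le_card h1).trans card_image_le
  simp at h2

/-- The invariant. -/
structure Inv (n : ℕ) (f : Finset ℕ → ℤ) (D N : ℤ) (L : List Ent) : Prop where
  pos : ∀ e ∈ L, 0 ≤ lam e
  sum : (L.map lam).sum = D
  kb : ∀ e ∈ L, ∀ v < n, 0 ≤ key e v ∧ key e v < N
  gr : ∀ e ∈ L, Gr n f (key e) (yv e)
  mono : ∀ e ∈ L, ∀ u < n, ∀ v < n, key e u < key e v → lab e u ≤ lab e v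
  lb : ∀ e ∈ L, ∀ v < n, lab e v ≤ n
  near : ∀ e ∈ L, ∀ e' ∈ L, ∀ v < n, lab e v ≤ lab e' v + 1
  zero : ∀ v < n, xv L v ≤ 0 → ∀ e ∈ L, lab e v = 0

theorem sum_xv (L : List Ent) (S : Finset ℕ) :
    ∑ v ∈ S, xv L v = (L.map (fun e => lam e * ∑ v ∈ S, yv e v)).sum := by
  simp only [xv_eq]
  induction L with
  | nil => simp
  | cons e L ih => simp only [List.map_cons, List.sum_cons, sum_add_distrib, ih, mul_sum]

theorem sum_lam_mul (L : List Ent) (c : ℤ) :
    (L.map (fun e => lam e * c)).sum = (L.map lam).sum * c := by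
  induction L with
  | nil => simp
  | cons e L ih => simp only [List.map_cons, List.sum_cons, ih, add_mul]

variable {D N : ℤ} {L : List Ent}

theorem Inv.x_le (hf : Sub n f) (h : Inv n f D N L) {S : Finset ℕ} (hS : S ⊆ range n) :
    ∑ v ∈ S, xv L v ≤ D * f S := by
  rw [sum_xv, ← h.sum, ← sum_lam_mul]
  exact List.sum_le_sum (fun e he =>
    mul_le_mul_of_nonneg_left ((h.gr e he).le hf S hS) (h.pos e he))

theorem Inv.x_eq (hf : Sub n f) (h : Inv n f D N L) {S : Finset ℕ} (hS : S ⊆ range n)
    (hd : ∀ e ∈ L, ∀ u < n, ∀ v ∈ S, key e u < key e v → u ∈ S) :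
    ∑ v ∈ S, xv L v = D * f S := by
  rw [sum_xv, ← h.sum, ← sum_lam_mul]
  congr 1
  exact List.map_congr_left (fun e he => by rw [(h.gr e he).eq hf S hS (hd e he)])

theorem Inv.len_pos (h : Inv n f D N L) (hD : 0 < D) : 0 < L.length := by
  rcases L with _ | ⟨e, L⟩
  · have := h.sum; simp at this; omega
  · simp

theorem xv_le_eta {v : ℕ} (hv : v < n) (hW : inW n L v) : xv L v ≤ eta n L := by
  classical
  have := le_maxTo (fun v => if inW n L v then xv L v else 0) hv
  rw [if_pos hW] at this
  exact this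

theorem eta_nonneg : 0 ≤ eta n L := maxTo_nonneg _ _

theorem Inv.out_spec (hf : Sub n f) (h : Inv n f D N L) (hD : 0 < D)
    (ht : (n : ℤ) * eta n L < D) :
    (∃ S ⊆ range n, out n (N, L) = f S) ∧ ∀ S ⊆ range n, out n (N, L) ≤ f S := by
  classical
  have he := ent_mem (h.len_pos hD)
  set e := ent L 0 with hedef
  have hout : out n (N, L) =
      -maxTo n (fun v => -∑ u ∈ range n, if key e u ≤ key e v then yv e u else 0) := rfl
  have hval : ∀ v, (∑ u ∈ range n, if key e u ≤ key e v then yv e u else 0) =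
      f ((range n).filter (fun u => key e u ≤ key e v)) := by
    intro v
    rw [← sum_filter]
    refine (h.gr e he).eq hf _ (filter_subset _ _) (fun u hu w hw hk => ?_)
    rw [mem_filter] at hw ⊢
    exact ⟨mem_range.2 hu, hk.le.trans hw.2⟩
  simp only [hval] at hout
  refine ⟨?_, fun S hS => ?_⟩
  · rcases maxTo_cases n (fun v => -f ((range n).filter (fun u => key e u ≤ key e v))) with
      h0 | ⟨v, hv, h0⟩
    · exact ⟨∅, empty_subset _, by rw [hout, h0, hf.1]; rfl⟩
    · exact ⟨_, filter_subset _ _, by rw [hout, h0, neg_neg]⟩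
  let dm : ℕ → ℕ := fun v => sInf {l | ∃ e ∈ L, lab e v = l}
  have dm_mem : ∀ v, ∃ e ∈ L, lab e v = dm v := fun v =>
    Nat.sInf_mem (s := {l | ∃ e ∈ L, lab e v = l}) ⟨_, e, he, rfl⟩
  have dm_le : ∀ v, ∀ e ∈ L, dm v ≤ lab e v := fun v e he => Nat.sInf_le ⟨e, he, rfl⟩
  obtain ⟨l, hl, hgap⟩ := exists_gap n dm
  set X := (range n).filter (fun v => dm v < l) with hX
  have hXn : X ⊆ range n := filter_subset _ _
  have hdown : ∀ e ∈ L, ∀ u < n, ∀ v ∈ X, key e u < key e v → u ∈ X := by
    intro e he u hu v hv hk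
    rw [hX, mem_filter, mem_range] at hv ⊢
    obtain ⟨e', he', h1⟩ := dm_mem v
    have h2 := h.mono e he u hu v hv.1 hk
    have h3 := h.near e he e' he' v hv.1
    have h4 := dm_le u e he
    have h5 := hgap u hu
    exact ⟨hu, by omega⟩
  have h1 : out n (N, L) ≤ f X := by
    rcases X.eq_empty_or_nonempty with h0 | h0
    · rw [h0, hf.1, hout]
      have := maxTo_nonneg n (fun v => -f ((range n).filter (fun u => key e u ≤ key e v)))
      omega
    · obtain ⟨v, hv, hmax⟩ := exists_max_image X (key e) h0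
      have hvn := mem_range.1 (hXn hv)
      have : (range n).filter (fun u => key e u ≤ key e v) = X := by
        ext u
        constructor
        · intro hu
          rw [mem_filter, mem_range] at hu
          rcases hu.2.eq_or_lt with h' | h'
          · rwa [(h.gr e he).inj u hu.1 v hvn h']
          · exact hdown e he u hu.1 v hv h'
        · intro hu
          exact mem_filter.2 ⟨hXn hu, hmax u hu⟩
      have h2 := le_maxTo (fun v => -f ((range n).filter (fun u => key e u ≤ key e v))) hvn
      simp only [this] at h2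
      rw [hout]; omega
  have h2 := h.x_eq hf hXn hdown
  have h3 := h.x_le hf hS
  have h4 : ∑ v ∈ X \ S, xv L v ≤ n * eta n L := by
    calc ∑ v ∈ X \ S, xv L v ≤ ∑ v ∈ X \ S, eta n L := by
          refine sum_le_sum (fun v hv => ?_)
          have hv' := (mem_sdiff.1 hv).1
          rw [hX, mem_filter, mem_range] at hv'
          obtain ⟨e', he', h1⟩ := dm_mem v
          exact xv_le_eta hv'.1 ((inW_iff L v).2 ⟨e', he', by omega⟩)
      _ = (X \ S).card * eta n L := by simp
      _ ≤ n * eta n L := by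
          refine mul_le_mul_of_nonneg_right ?_ eta_nonneg
          have := card_le_card ((sdiff_subset (s := X) (t := S)).trans hXn)
          rw [card_range] at this
          exact_mod_cast this
  have h5 : 0 ≤ ∑ v ∈ S \ X, xv L v := by
    refine sum_nonneg (fun v hv => ?_)
    obtain ⟨hv1, hv2⟩ := mem_sdiff.1 hv
    have hvn := mem_range.1 (hS hv1)
    by_contra hneg
    have h6 := h.zero v hvn (by omega) e he
    have h7 := dm_le v e he
    have h8 := hgap v hvn
    exact hv2 (mem_filter.2 ⟨hS hv1, by omega⟩)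
  have h6 := sum_sdiff_sub_sum_sdiff (s₁ := S) (s₂ := X) (f := xv L)
  have h7 : D * f X < D * (f S + 1) := by linarith
  have h8 := lt_of_mul_lt_mul_left h7 hD.le
  omega

end Sfm

end Crest.Agent.R302
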