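import Crest.Agent.R302.SfmA

/-!
Row 302: one push of the minimisation algorithm.
-/

set_option autoImplicit false

namespace Crest.Agent.R302

open Crest.Agent.PT Crest.Agent.QC Crest.Agent.R317 Finset

namespace Sfm

variable {n : ℕ} {f : Finset ℕ → ℤ} {D N : ℤ} {L : List Ent}

/-- The parameters chosen in a step that does not stop. -/
structure Par (n : ℕ) (L : List Ent) (M : ℤ) : Prop where
  dM : 8 * M ≤ del n L
  eta_lt : eta n L < (2 * (n : ℤ) + 2) * (del n L + 1)
  gap : ∀ v < n, xv L v ≤ mu n L - del n L ∨ mu n L + del n L ≤ xv L v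
  dmu : del n L ≤ mu n L
  ell_lt : ell n L < n
  idx_lt : idx n L < L.length
  ex : ∃ v < n, mu n L < xv L v ∧ lab (ent L (idx n L)) v = ell n L
  least : ∀ e ∈ L, ∀ v < n, mu n L < xv L v → ell n L ≤ lab e v

theorem par {m : ℕ} (ht : ¬ (n : ℤ) * eta n L < scale n m) : Par n L (2 ^ m) := by
  classical
  have h0 : 0 ≤ eta n L := eta_nonneg
  have hn : (0 : ℤ) < 2 * (n : ℤ) + 2 := by positivity
  have hd : del n L = eta n L / (2 * (n : ℤ) + 2) := pdiv_eq h0 hn.le
  have h1 : eta n L < (2 * (n : ℤ) + 2) * (del n L + 1) := by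
    rw [hd, mul_comm]; exact Int.lt_ediv_add_one_mul_self _ hn
  have h2 : (2 * (n : ℤ) + 2) * del n L ≤ eta n L := by
    rw [hd, mul_comm]; exact Int.ediv_mul_le _ hn.ne'
  have hM : (0 : ℤ) < 2 ^ m := by positivity
  have h3 : 8 * 2 ^ m ≤ del n L := by
    by_contra hc
    apply ht
    unfold scale
    have h4 : del n L + 1 ≤ 8 * 2 ^ m := by omega
    have h5 : eta n L < (2 * (n : ℤ) + 2) * (8 * 2 ^ m) :=
      h1.trans_le (mul_le_mul_of_nonneg_left h4 hn.le)
    have h6 : (0 : ℤ) ≤ n := by positivity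
    nlinarith
  have hdp : 0 < del n L := by omega
  obtain ⟨j, hj, hgap⟩ := exists_gap n (fun v => (xv L v / (2 * del n L)).toNat)
  have hex : ∃ j < n + 1, All n (fun v => xv L v ≤ 2 * (j : ℤ) * del n L ∨
      (2 * (j : ℤ) + 2) * del n L ≤ xv L v) := by
    refine ⟨j, hj, fun v hv => ?_⟩
    by_contra hc
    push Not at hc
    apply hgap v hv
    have : xv L v / (2 * del n L) = j := by
      rw [Int.ediv_eq_iff_of_pos (by omega)]
      constructor <;> nlinarith [hc.1, hc.2]
    simp [this]
  obtain ⟨g1, g2, -⟩ := first_spec hex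
  set J := first (n + 1) (fun j => All n (fun v => xv L v ≤ 2 * (j : ℤ) * del n L ∨
      (2 * (j : ℤ) + 2) * del n L ≤ xv L v)) with hJ
  have hmu : mu n L = (2 * (J : ℤ) + 1) * del n L := rfl
  have hJn : (J : ℤ) ≤ n := by exact_mod_cast Nat.lt_succ_iff.1 g1
  have hJ0 : (0 : ℤ) ≤ J := by positivity
  have hme : mu n L < eta n L := by rw [hmu]; nlinarith
  have hmp : 0 < mu n L := by rw [hmu]; positivity
  have hu : ∃ l < n, Ex L.length (fun i => Ex n (fun v => mu n L < xv L v ∧ lab (ent L i) v = l)) := by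
    rcases maxTo_cases n (fun v => if inW n L v then xv L v else 0) with h | ⟨v, hv, h⟩
    · have : eta n L = 0 := h
      omega
    · have h' : eta n L = if inW n L v then xv L v else 0 := h
      split_ifs at h' with hW
      · obtain ⟨e, he, hl⟩ := (inW_iff L v).1 hW
        exact ⟨_, hl, (ex_ent L (fun e' => Ex n (fun w => mu n L < xv L w ∧
          lab e' w = lab e v))).2 ⟨e, he, v, hv, by omega, rfl⟩⟩
      · omega
  obtain ⟨k1, k2, k3⟩ := first_spec hu
  obtain ⟨i1, i2, -⟩ := first_spec (p := fun i => Ex n (fun v => mu n L < xv L v ∧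
    lab (ent L i) v = ell n L)) k2
  refine ⟨h3, h1, fun v hv => ?_, by rw [hmu]; nlinarith, k1, i1, i2, fun e he v hv hx => ?_⟩
  · rcases g2 v hv with h | h
    · left; rw [hmu]; linarith
    · right; rw [hmu]; linarith
  · by_contra hc
    exact k3 (lab e v) (not_le.1 hc) ((ex_ent L (fun e' => Ex n (fun w => mu n L < xv L w ∧
      lab e' w = lab e v))).2 ⟨e, he, v, hv, hx, rfl⟩)

theorem perm_rest (h : idx n L < L.length) : L.Perm (ent L (idx n L) :: rest n L) := by
  have h1 : rest n L = L.eraseIdx (idx n L) := by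
    apply List.ext_getElem
    · simp [rest, List.length_eraseIdx, h]
    · intro i h1 h2
      simp only [rest, length_mkL] at h1
      simp only [rest, mkL, List.getElem_map, List.getElem_range, List.getElem_eraseIdx, ent]
      split_ifs with hi
      · simp [List.getD_eq_getElem?_getD, show i < L.length by omega]
      · simp [List.getD_eq_getElem?_getD, show i + 1 < L.length by omega]
  have h2 : ent L (idx n L) = L[idx n L] := by simp [ent, List.getD_eq_getElem?_getD, h]
  rw [h1, h2]
  exact (List.getElem_cons_eraseIdx_perm h).symm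

open Classical in
/-- The first potential. -/
noncomputable def Phi (n : ℕ) (L : List Ent) : ℤ :=
  ∑ v ∈ range n, if inW n L v then (max (xv L v) 0) ^ 2 else 0

/-- The second potential. -/
def Gam (n : ℕ) (L : List Ent) : ℕ := (L.map (fun e => ∑ v ∈ range n, (n - lab e v))).sum

theorem nkey_val {v : ℕ} (hv : v < n) : (front n L v →
    (nkey n (N, L)).getD v 0 = key (ent L (idx n L)) v) ∧ (¬ front n L v →
    (nkey n (N, L)).getD v 0 = key (ent L (idx n L)) v + N) := by
  unfold nkey
  rw [getD_mkL _ _ hv]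
  constructor <;> intro h <;> simp [h]

theorem nlab_val {v : ℕ} (hv : v < n) :
    (lab (ent L (idx n L)) v = ell n L ∧ mu n L < xv L v →
      (nlab n L).getD v 0 = lab (ent L (idx n L)) v + 1) ∧
    (¬ (lab (ent L (idx n L)) v = ell n L ∧ mu n L < xv L v) →
      (nlab n L).getD v 0 = lab (ent L (idx n L)) v) := by
  unfold nlab
  rw [getD_mkL _ _ hv]
  constructor <;> intro h
  · rw [if_pos h]
  · rw [if_neg h, add_zero]

theorem Inv.nkey_inj {M : ℤ} (h : Inv n f D N L) (hp : Par n L M) :
    ∀ u < n, ∀ v < n, (nkey n (N, L)).getD u 0 = (nkey n (N, L)).getD v 0 → u = v := by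
  intro u hu v hv e
  have he := ent_mem hp.idx_lt
  have h1 := nkey_val (N := N) (L := L) hu
  have h2 := nkey_val (N := N) (L := L) hv
  have h3 := h.kb _ he u hu
  have h4 := h.kb _ he v hv
  refine (h.gr _ he).inj u hu v hv ?_
  by_cases a : front n L u <;> by_cases b : front n L v
  · rw [h1.1 a, h2.1 b] at e; exact e
  · rw [h1.1 a, h2.2 b] at e; omega
  · rw [h1.2 a, h2.1 b] at e; omega
  · rw [h1.2 a, h2.2 b] at e; omega

theorem Inv.nkey_lt {M : ℤ} (h : Inv n f D N L) (hp : Par n L M) {u v : ℕ} (hu : u < n)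
    (hv : v < n) : (nkey n (N, L)).getD u 0 < (nkey n (N, L)).getD v 0 ↔
      (front n L u ∧ ¬ front n L v) ∨ ((front n L u ↔ front n L v) ∧
        key (ent L (idx n L)) u < key (ent L (idx n L)) v) := by
  have he := ent_mem hp.idx_lt
  have h1 := nkey_val (N := N) (L := L) hu
  have h2 := nkey_val (N := N) (L := L) hv
  have h3 := h.kb _ he u hu
  have h4 := h.kb _ he v hv
  by_cases a : front n L u <;> by_cases b : front n L v
  · rw [h1.1 a, h2.1 b]; simp [a, b]
  · rw [h1.1 a, h2.2 b]; simp only [a, b]; simp; omega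
  · rw [h1.2 a, h2.1 b]; simp only [a, b]; simp; omega
  · rw [h1.2 a, h2.2 b]; simp [a, b]

/-- How the greedy vector changes. -/
theorem Inv.change {M : ℤ} (hf : Sub n f) (h : Inv n f D N L) (hp : Par n L M) {y : ℕ → ℤ}
    (hy : Gr n f (fun v => (nkey n (N, L)).getD v 0) y) :
    (∀ v < n, front n L v → yv (ent L (idx n L)) v ≤ y v) ∧
    (∀ v < n, ¬ front n L v → y v ≤ yv (ent L (idx n L)) v) ∧
    (∀ v < n, lab (ent L (idx n L)) v ≠ ell n L → y v = yv (ent L (idx n L)) v) ∧
    ∑ v ∈ range n, y v = ∑ v ∈ range n, yv (ent L (idx n L)) v := by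
  have he := ent_mem hp.idx_lt
  have hg := h.gr _ he
  set e := ent L (idx n L) with hedef
  refine ⟨fun v hv a => ?_, fun v hv a => ?_, fun v hv a => ?_, ?_⟩
  · rw [hy.val v hv, hg.val v hv]
    refine marg hf (fun u hu => ?_) (Pre_sub _ _ _) hv (not_mem_Pre _ _ _)
    rw [mem_Pre] at hu ⊢
    have := (h.nkey_lt hp hu.1 hv).1 hu.2
    tauto
  · rw [hy.val v hv, hg.val v hv]
    refine marg hf (fun u hu => ?_) (Pre_sub _ _ _) hv (not_mem_Pre _ _ _)
    rw [mem_Pre] at hu ⊢
    refine ⟨hu.1, (h.nkey_lt hp hu.1 hv).2 ?_⟩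
    tauto
  · rw [hy.val v hv, hg.val v hv]
    have : Pre n (fun v => (nkey n (N, L)).getD v 0) v = Pre n (key e) v := by
      ext u
      rw [mem_Pre, mem_Pre]
      refine and_congr_right (fun hu => ?_)
      rw [h.nkey_lt hp hu hv]
      have m1 := h.mono e he u hu v hv
      have m2 := h.mono e he v hv u hu
      have m3 := hg.inj u hu v hv
      unfold front
      rw [← hedef]
      constructor
      · rintro (⟨b, c⟩ | ⟨-, c⟩)
        · by_contra hc
          rcases (not_lt.1 hc).eq_or_lt with h' | h'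
          · have := m3 h'.symm
            subst this
            exact c b
          · have := m2 h'
            omega
        · exact c
      · intro c
        have := m1 c
        by_cases b : lab e v < ell n L
        · right
          exact ⟨⟨fun _ => Or.inl b, fun _ => Or.inl (by omega)⟩, c⟩
        · have b' : ¬ (lab e v < ell n L ∨ lab e v = ell n L ∧ xv L v ≤ mu n L) := by tauto
          tauto
    rw [this]
  · rw [hy.eq hf _ subset_rfl (fun u hu _ _ _ => mem_range.2 hu),
      hg.eq hf _ subset_rfl (fun u hu _ _ _ => mem_range.2 hu)]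

theorem Gr.bound {M : ℤ} (hM : ∀ S ⊆ range n, |f S| ≤ M) {k y : ℕ → ℤ} (h : Gr n f k y) {v : ℕ}
    (hv : v < n) : -(2 * M) ≤ y v ∧ y v ≤ 2 * M := by
  have h1 := abs_le.1 (hM _ (insert_subset (mem_range.2 hv) (Pre_sub n k v)))
  have h2 := abs_le.1 (hM _ (Pre_sub n k v))
  rw [h.val v hv]
  constructor <;> linarith

/-- The effect of a push with step `a`. -/
theorem Inv.push {M : ℤ} (hf : Sub n f) (h : Inv n f D N L) (hp : Par n L M) (hM : 0 < M)
    {y : List ℤ} (hy : Gr n f (fun v => (nkey n (N, L)).getD v 0) (fun v => y.getD v 0))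
    {a : ℤ} (ha : 0 ≤ a) (hab : a * beta n L y ≤ del n L) {L' : List Ent}
    (h1 : ∀ z ∈ L', z = (a, nkey n (N, L), nlab n L, y) ∨ ∃ w ∈ L, z.2 = w.2 ∧ 0 ≤ lam z)
    (h2 : (L'.map lam).sum = D)
    (h3 : ∀ v, xv L' v = xv L v + a * (y.getD v 0 - yv (ent L (idx n L)) v)) :
    Inv n f D (2 * N) L' ∧ Phi n L' ≤ Phi n L - del n L * (a * beta n L y) := by
  classical
  have he := ent_mem hp.idx_lt
  obtain ⟨c1, c2, c3, c4⟩ := h.change hf hp hy
  set e := ent L (idx n L) with hedef
  have hb : ∀ v < n, y.getD v 0 - yv e v ≤ beta n L y ∧ yv e v - y.getD v 0 ≤ beta n L y := by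
    intro v hv
    have := le_maxTo (fun v => max (y.getD v 0 - yv e v) (yv e v - y.getD v 0)) hv
    exact max_le_iff.1 this
  set c : ℕ → ℤ := fun v => a * (y.getD v 0 - yv e v) with hc
  have d1 : ∀ v < n, c v ≤ del n L ∧ -c v ≤ del n L := fun v hv =>
    ⟨(mul_le_mul_of_nonneg_left (hb v hv).1 ha).trans hab, by
      have := (mul_le_mul_of_nonneg_left (hb v hv).2 ha).trans hab
      simp only [hc]; linarith⟩
  have d2 : ∀ v < n, front n L v → 0 ≤ c v := fun v hv a' =>
    mul_nonneg ha (sub_nonneg.2 (c1 v hv a'))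
  have d3 : ∀ v < n, ¬ front n L v → c v ≤ 0 := fun v hv a' =>
    mul_nonpos_of_nonneg_of_nonpos ha (sub_nonpos.2 (c2 v hv a'))
  have d4 : ∀ v < n, lab e v ≠ ell n L → c v = 0 := fun v hv a' => by
    simp only [hc]; rw [c3 v hv a', sub_self, mul_zero]
  have d5 : ∑ v ∈ range n, c v = 0 := by
    simp only [hc]; rw [← mul_sum, sum_sub_distrib, c4, sub_self, mul_zero]
  have hx : ∀ v, xv L' v = xv L v + c v := h3
  have hdm := hp.dM
  have hmu := hp.dmu
  have hl := hp.ell_lt
  have kk : ∀ z w : Ent, z.2 = w.2 → key z = key w ∧ lab z = lab w ∧ yv z = yv w := by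
    intro z w hzw
    refine ⟨?_, ?_, ?_⟩ <;> funext v <;> simp only [key, lab, yv, hzw]
  have labs : ∀ z ∈ L', ∀ v < n, (∃ w ∈ L, lab z v = lab w v) ∨
      (lab z v = ell n L + 1 ∧ lab e v = ell n L ∧ mu n L < xv L v) := by
    intro z hz v hv
    rcases h1 z hz with rfl | ⟨w, hw, hzw, -⟩
    · have := nlab_val (L := L) hv
      by_cases b : lab e v = ell n L ∧ mu n L < xv L v
      · right; exact ⟨(this.1 b).trans (by rw [← hedef, b.1]), b⟩
      · left; exact ⟨e, he, this.2 b⟩
    · left; exact ⟨w, hw, by rw [(kk z w hzw).2.1]⟩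
  refine ⟨⟨fun z hz => ?_, h2, fun z hz v hv => ?_, fun z hz => ?_, fun z hz u hu v hv hk => ?_,
    fun z hz v hv => ?_, fun z hz z' hz' v hv => ?_, fun v hv hx0 z hz => ?_⟩, ?_⟩
  · rcases h1 z hz with rfl | ⟨w, hw, -, h'⟩
    · exact ha
    · exact h'
  · rcases h1 z hz with rfl | ⟨w, hw, hzw, -⟩
    · have k1 := nkey_val (N := N) (L := L) hv
      have k2 := h.kb e he v hv
      rw [← hedef] at k1
      show 0 ≤ (nkey n (N, L)).getD v 0 ∧ (nkey n (N, L)).getD v 0 < 2 * N
      by_cases b : front n L v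
      · rw [k1.1 b]; omega
      · rw [k1.2 b]; omega
    · have := h.kb w hw v hv
      rw [(kk z w hzw).1]; omega
  · rcases h1 z hz with rfl | ⟨w, hw, hzw, -⟩
    · exact hy
    · rw [(kk z w hzw).1, (kk z w hzw).2.2]; exact h.gr w hw
  · rcases h1 z hz with rfl | ⟨w, hw, hzw, -⟩
    · have k0 := (h.nkey_lt hp hu hv).1 hk
      have k1 := nlab_val (L := L) hu
      have k2 := nlab_val (L := L) hv
      have k3 := h.mono e he u hu v hv
      unfold front at k0
      rw [← hedef] at k0 k1 k2
      show (nlab n L).getD u 0 ≤ (nlab n L).getD v 0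
      by_cases b : lab e u = ell n L ∧ mu n L < xv L u <;>
        by_cases b' : lab e v = ell n L ∧ mu n L < xv L v
      · rw [k1.1 b, k2.1 b']; omega
      · rw [k1.1 b, k2.2 b']; omega
      · rw [k1.2 b, k2.1 b']; omega
      · rw [k1.2 b, k2.2 b']; omega
    · rw [(kk z w hzw).1] at hk
      rw [(kk z w hzw).2.1]; exact h.mono w hw u hu v hv hk
  · rcases labs z hz v hv with ⟨w, hw, e1⟩ | ⟨e1, -, -⟩
    · rw [e1]; exact h.lb w hw v hv
    · omega
  · rcases labs z hz v hv with ⟨w, hw, e1⟩ | ⟨e1, e2, e3⟩ <;>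
      rcases labs z' hz' v hv with ⟨w', hw', e1'⟩ | ⟨e1', e2', e3'⟩
    · rw [e1, e1']; exact h.near w hw w' hw' v hv
    · have := h.near w hw e he v hv; omega
    · have := hp.least w' hw' v hv e3; omega
    · omega
  · have k1 := hp.gap v hv
    have k2 := d1 v hv
    have k3 := hx v
    have k4 : xv L v ≤ 0 := by
      by_cases b : lab e v = ell n L
      · by_cases b' : xv L v ≤ mu n L
        · have := d2 v hv (Or.inr ⟨b, b'⟩); omega
        · omega
      · have := d4 v hv b; omega
    rcases labs z hz v hv with ⟨w, hw, e1⟩ | ⟨e1, e2, e3⟩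
    · rw [e1]; exact h.zero v hv k4 w hw
    · omega
  · have key : ∀ v ∈ range n, (if inW n L' v then (max (xv L' v) 0) ^ 2 else 0) ≤
        (if inW n L v then (max (xv L v) 0) ^ 2 else 0) + (2 * mu n L * c v - del n L * |c v|) := by
      intro v hv
      have hv := mem_range.1 hv
      by_cases b : lab e v = ell n L
      · have w1 : inW n L v := (inW_iff L v).2 ⟨e, he, by omega⟩
        rw [if_pos w1]
        have w2 : (if inW n L' v then (max (xv L' v) 0) ^ 2 else 0) ≤ (max (xv L' v) 0) ^ 2 := by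
          split_ifs
          · exact le_rfl
          · positivity
        refine w2.trans ?_
        rw [hx]
        have k1 := hp.gap v hv
        have k2 := d1 v hv
        by_cases b' : xv L v ≤ mu n L
        · have k3 := d2 v hv (Or.inr ⟨b, b'⟩)
          have k4 : xv L v ≤ mu n L - del n L := by omega
          rw [abs_of_nonneg k3]
          have p0 : 0 ≤ max (xv L v) 0 := le_max_right _ _
          have p1 : max (xv L v) 0 ≤ mu n L - del n L := max_le k4 (by omega)
          have p2 : max (xv L v + c v) 0 ≤ max (xv L v) 0 + c v := by omega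
          have p3 : max (xv L v) 0 ≤ max (xv L v + c v) 0 := by omega
          have p4 : max (xv L v + c v) 0 ≤ mu n L := by omega
          generalize max (xv L v + c v) 0 = q at *
          generalize max (xv L v) 0 = p at *
          nlinarith [mul_nonneg (sub_nonneg.2 p3) (show 0 ≤ 2 * mu n L - del n L - (q + p) by omega),
            mul_nonneg (show 0 ≤ c v - (q - p) by omega) (show 0 ≤ 2 * mu n L - del n L by omega)]
        · have k3 := d3 v hv (by unfold front; rw [← hedef]; omega)
          have k4 : mu n L + del n L ≤ xv L v := by omega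
          rw [abs_of_nonpos k3, max_eq_left (by omega), max_eq_left (by omega)]
          nlinarith [mul_nonneg (neg_nonneg.2 k3)
            (show 0 ≤ 2 * xv L v + c v - 2 * mu n L - del n L by omega)]
      · rw [hx, d4 v hv b]
        simp only [add_zero, mul_zero, abs_zero, sub_self]
        by_cases w2 : inW n L' v
        · obtain ⟨z, hz, hz'⟩ := (inW_iff L' v).1 w2
          rcases labs z hz v hv with ⟨w, hw, e1⟩ | ⟨-, e2, -⟩
          · rw [if_pos w2, if_pos ((inW_iff L v).2 ⟨w, hw, by omega⟩)]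
          · exact absurd e2 b
        · rw [if_neg w2]
          split_ifs
          · positivity
          · exact le_rfl
    have s1 := sum_le_sum key
    rw [sum_add_distrib, sum_sub_distrib, ← mul_sum (range n) c, ← mul_sum (range n) (fun v => |c v|),
      d5] at s1
    have s2 : a * beta n L y ≤ ∑ v ∈ range n, |c v| := by
      rcases maxTo_cases n (fun v => max (y.getD v 0 - yv e v) (yv e v - y.getD v 0)) with
        h0 | ⟨v, hv, h0⟩
      · have : beta n L y = 0 := h0
        rw [this, mul_zero]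
        exact sum_nonneg (fun _ _ => abs_nonneg _)
      · have h0' : beta n L y = max (y.getD v 0 - yv e v) (yv e v - y.getD v 0) := h0
        refine le_trans ?_ (single_le_sum (fun _ _ => abs_nonneg _) (mem_range.2 hv))
        simp only [hc]
        rw [h0', abs_mul, abs_of_nonneg ha, abs_eq_max_neg, neg_sub]
    have s3 := mul_le_mul_of_nonneg_left s2 (show 0 ≤ del n L by omega)
    unfold Phi
    linarith

end Sfm

end Crest.Agent.R302
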