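import Crest.Agent.R302.OPT

/-!
Row 302: submodular function minimisation (the simple algorithm of Iwata and Orlin, without
Gaussian elimination, with integer weights): definitions and running time.
-/

set_option autoImplicit false

namespace Crest.Agent.R302

open Crest.Agent.PT Crest.Agent.QC Crest.Agent.R317

namespace Sfm

/-- An extreme base: weight, ordering keys, labels, greedy vector. -/
abbrev Ent : Type := ℤ × List ℤ × List ℕ × List ℤ

/-- State: a bound for the keys and the list of extreme bases. -/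
abbrev St : Type := ℤ × List Ent

/-- Weight. -/
def lam (e : Ent) : ℤ := e.1
/-- Ordering key. -/
def key (e : Ent) (v : ℕ) : ℤ := e.2.1.getD v 0
/-- Label. -/
def lab (e : Ent) (v : ℕ) : ℕ := e.2.2.1.getD v 0
/-- Greedy vector. -/
def yv (e : Ent) (v : ℕ) : ℤ := e.2.2.2.getD v 0
/-- Entry number `i`. -/
def ent (L : List Ent) (i : ℕ) : Ent := L.getD i (0, [], [], [])

open Classical in
/-- The least `i < n` with `p i`, or `n`. -/
noncomputable def first (n : ℕ) (p : ℕ → Prop) : ℕ :=
  ∑ i ∈ Finset.range n, if Ex (i + 1) p then 0 else 1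

/-- The current point (scaled). -/
def xv (L : List Ent) (v : ℕ) : ℤ := ∑ i ∈ Finset.range L.length, lam (ent L i) * yv (ent L i) v

/-- The active set. -/
def inW (n : ℕ) (L : List Ent) (v : ℕ) : Prop := Ex L.length (fun i => lab (ent L i) v < n)

open Classical in
/-- The largest coordinate on the active set. -/
noncomputable def eta (n : ℕ) (L : List Ent) : ℤ :=
  maxTo n (fun v => if inW n L v then xv L v else 0)

/-- Half the width of the gap. -/
noncomputable def del (n : ℕ) (L : List Ent) : ℤ := pdiv (eta n L) (2 * (n : ℤ) + 2)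

/-- The centre of the gap. -/
noncomputable def mu (n : ℕ) (L : List Ent) : ℤ :=
  (2 * (first (n + 1) (fun j => All n (fun v => xv L v ≤ 2 * (j : ℤ) * del n L ∨
    (2 * (j : ℤ) + 2) * del n L ≤ xv L v)) : ℤ) + 1) * del n L

/-- The lowest label of an element above the gap. -/
noncomputable def ell (n : ℕ) (L : List Ent) : ℕ :=
  first n (fun l => Ex L.length (fun i => Ex n (fun v => mu n L < xv L v ∧ lab (ent L i) v = l)))

/-- The entry that is pushed. -/
noncomputable def idx (n : ℕ) (L : List Ent) : ℕ :=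
  first L.length (fun i => Ex n (fun v => mu n L < xv L v ∧ lab (ent L i) v = ell n L))

/-- The elements that stay in front. -/
def front (n : ℕ) (L : List Ent) (v : ℕ) : Prop :=
  lab (ent L (idx n L)) v < ell n L ∨ (lab (ent L (idx n L)) v = ell n L ∧ xv L v ≤ mu n L)

open Classical in
/-- The new ordering. -/
noncomputable def nkey (n : ℕ) (s : St) : List ℤ :=
  mkL n (fun v => key (ent s.2 (idx n s.2)) v + if front n s.2 v then 0 else s.1)

open Classical in
/-- The new labels. -/
noncomputable def nlab (n : ℕ) (L : List Ent) : List ℕ :=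
  mkL n (fun v => lab (ent L (idx n L)) v +
    if lab (ent L (idx n L)) v = ell n L ∧ mu n L < xv L v then 1 else 0)

/-- The largest change of a coordinate. -/
noncomputable def beta (n : ℕ) (L : List Ent) (y : List ℤ) : ℤ :=
  maxTo n (fun v => max (y.getD v 0 - yv (ent L (idx n L)) v) (yv (ent L (idx n L)) v - y.getD v 0))

/-- The list without the pushed entry. -/
noncomputable def rest (n : ℕ) (L : List Ent) : List Ent :=
  mkL (L.length - 1) (fun i => if i < idx n L then ent L i else ent L (i + 1))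

/-- The push. -/
noncomputable def upd (n : ℕ) (s : St) (y : List ℤ) : St :=
  (2 * s.1, if lam (ent s.2 (idx n s.2)) * beta n s.2 y ≤ del n s.2 then
      (lam (ent s.2 (idx n s.2)), nkey n s, nlab n s.2, y) :: rest n s.2
    else (pdiv (del n s.2) (beta n s.2 y), nkey n s, nlab n s.2, y) ::
      (lam (ent s.2 (idx n s.2)) - pdiv (del n s.2) (beta n s.2 y), (ent s.2 (idx n s.2)).2) ::
        rest n s.2)

/-- The greedy vector of an ordering. -/
def greedy (g : List Bool → ℤ) (n : ℕ) (k : List ℤ) : List ℤ :=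
  mkL n (fun v => g (mkL n fun u => decide (k.getD u 0 ≤ k.getD v 0)) -
    g (mkL n fun u => decide (k.getD u 0 < k.getD v 0)))

/-- One step. -/
noncomputable def step (g : List Bool → ℤ) (n : ℕ) (D : ℤ) (s : St) : St :=
  if (n : ℤ) * eta n s.2 < D then s else upd n s (greedy g n (nkey n s))

/-- The scale. -/
def scale (n m : ℕ) : ℤ := 16 * ((n : ℤ) + 1) ^ 2 * 2 ^ m

/-- The number of steps. -/
def steps (n m : ℕ) : ℕ :=
  n * n + (n * n + 1) * (2 * (n + 1) * (4 * n + 4) ^ 2 * (2 * m + 3 * n + 3)) + 1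

/-- The initial state. -/
def init (g : List Bool → ℤ) (n : ℕ) (D : ℤ) : St :=
  ((n : ℤ), [(D, mkL n (fun v => (v : ℤ)), mkL n (fun _ => 0), greedy g n (mkL n (fun v => (v : ℤ))))])

/-- The least prefix sum of the first entry. -/
def out (n : ℕ) (s : St) : ℤ :=
  -maxTo n (fun v => -∑ u ∈ Finset.range n,
    if key (ent s.2 0) u ≤ key (ent s.2 0) v then yv (ent s.2 0) u else 0)

end Sfm

/-- The minimum of a submodular function `g` on subsets of `{0, …, n-1}` (given by indicator lists)
with values of absolute value at most `2 ^ m`. -/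
noncomputable def sfm (g : List Bool → ℤ) (n m : ℕ) : ℤ :=
  Sfm.out n ((Sfm.step g n (Sfm.scale n m))^[Sfm.steps n m] (Sfm.init g n (Sfm.scale n m)))

namespace Sfm

variable {α : Type} [Enc α]

@[fun_prop] theorem pt_lam {e : α → Ent} (he : PT e) : PT (fun a => lam (e a)) := by
  unfold lam; fun_prop

@[fun_prop] theorem pt_key {e : α → Ent} {v : α → ℕ} (he : PT e) (hv : PT v) :
    PT (fun a => key (e a) (v a)) := by
  unfold key; fun_prop

@[fun_prop] theorem pt_lab {e : α → Ent} {v : α → ℕ} (he : PT e) (hv : PT v) :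
    PT (fun a => lab (e a) (v a)) := by
  unfold lab; fun_prop

@[fun_prop] theorem pt_yv {e : α → Ent} {v : α → ℕ} (he : PT e) (hv : PT v) :
    PT (fun a => yv (e a) (v a)) := by
  unfold yv; fun_prop

@[fun_prop] theorem pt_ent {L : α → List Ent} {i : α → ℕ} (hL : PT L) (hi : PT i) :
    PT (fun a => ent (L a) (i a)) := by
  unfold ent; fun_prop

@[fun_prop] theorem pt_first {n : α → ℕ} {p : α → ℕ → Prop} (hn : PT n)
    (hp : DT (fun q : α × ℕ => p q.1 q.2)) : PT (fun a => first (n a) (p a)) := by
  classical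
  unfold first
  refine PT.sumNat (f := fun a i => if Ex (i + 1) (p a) then 0 else 1) hn ?_
  refine PT.iteD (DT.ex (by fun_prop) ?_) (PT.const _) (PT.const _)
  exact hp.comp (f := fun q : (α × ℕ) × ℕ => (q.1.1, q.2)) (by fun_prop)

@[fun_prop] theorem pt_xv {L : α → List Ent} {v : α → ℕ} (hL : PT L) (hv : PT v) :
    PT (fun a => xv (L a) (v a)) := by
  unfold xv; fun_prop

@[fun_prop] theorem dt_inW {n : α → ℕ} {L : α → List Ent} {v : α → ℕ} (hn : PT n) (hL : PT L)
    (hv : PT v) : DT (fun a => inW (n a) (L a) (v a)) := by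
  unfold inW; fun_prop

@[fun_prop] theorem pt_eta {n : α → ℕ} {L : α → List Ent} (hn : PT n) (hL : PT L) :
    PT (fun a => eta (n a) (L a)) := by
  classical
  unfold eta; fun_prop

@[fun_prop] theorem pt_del {n : α → ℕ} {L : α → List Ent} (hn : PT n) (hL : PT L) :
    PT (fun a => del (n a) (L a)) := by
  unfold del; fun_prop

@[fun_prop] theorem pt_mu {n : α → ℕ} {L : α → List Ent} (hn : PT n) (hL : PT L) :
    PT (fun a => mu (n a) (L a)) := by
  unfold mu; fun_prop

@[fun_prop] theorem pt_ell {n : α → ℕ} {L : α → List Ent} (hn : PT n) (hL : PT L) :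
    PT (fun a => ell (n a) (L a)) := by
  unfold ell; fun_prop

@[fun_prop] theorem pt_idx {n : α → ℕ} {L : α → List Ent} (hn : PT n) (hL : PT L) :
    PT (fun a => idx (n a) (L a)) := by
  unfold idx; fun_prop

@[fun_prop] theorem dt_front {n : α → ℕ} {L : α → List Ent} {v : α → ℕ} (hn : PT n) (hL : PT L)
    (hv : PT v) : DT (fun a => front (n a) (L a) (v a)) := by
  unfold front; fun_prop

@[fun_prop] theorem pt_nkey {n : α → ℕ} {s : α → St} (hn : PT n) (hs : PT s) :
    PT (fun a => nkey (n a) (s a)) := by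
  classical
  unfold nkey; fun_prop

@[fun_prop] theorem pt_nlab {n : α → ℕ} {L : α → List Ent} (hn : PT n) (hL : PT L) :
    PT (fun a => nlab (n a) (L a)) := by
  classical
  unfold nlab; fun_prop

@[fun_prop] theorem pt_beta {n : α → ℕ} {L : α → List Ent} {y : α → List ℤ} (hn : PT n)
    (hL : PT L) (hy : PT y) : PT (fun a => beta (n a) (L a) (y a)) := by
  unfold beta; fun_prop

@[fun_prop] theorem pt_rest {n : α → ℕ} {L : α → List Ent} (hn : PT n) (hL : PT L) :
    PT (fun a => rest (n a) (L a)) := by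
  unfold rest; fun_prop

@[fun_prop] theorem pt_upd {n : α → ℕ} {s : α → St} {y : α → List ℤ} (hn : PT n)
    (hs : PT s) (hy : PT y) : PT (fun a => upd (n a) (s a) (y a)) := by
  unfold upd; fun_prop

@[fun_prop] theorem pt_scale {n m : α → ℕ} (hn : PT n) (hm : PT m) :
    PT (fun a => scale (n a) (m a)) := by
  unfold scale; fun_prop

@[fun_prop] theorem pt_steps {n m : α → ℕ} (hn : PT n) (hm : PT m) :
    PT (fun a => steps (n a) (m a)) := by
  unfold steps; fun_prop

@[fun_prop] theorem pt_out {n : α → ℕ} {s : α → St} (hn : PT n) (hs : PT s) :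
    PT (fun a => out (n a) (s a)) := by
  unfold out; fun_prop

theorem opt_greedy {g : Orc → α → List Bool → ℤ} {n : α → ℕ}
    (hg : OPT (fun O (p : α × List Bool) => g O p.1 p.2)) (hn : PT n) :
    OPT (fun O (p : α × List ℤ) => greedy (g O p.1) (n p.1) p.2) := by
  unfold greedy
  refine OPT.mkL (F := fun O (p : α × List ℤ) v =>
    g O p.1 (mkL (n p.1) fun u => decide (p.2.getD u 0 ≤ p.2.getD v 0)) -
      g O p.1 (mkL (n p.1) fun u => decide (p.2.getD u 0 < p.2.getD v 0))) (by fun_prop) ?_
  exact ((hg.pre (f := fun q : (α × List ℤ) × ℕ => (q.1.1, mkL (n q.1.1) fun u =>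
      decide (q.1.2.getD u 0 ≤ q.1.2.getD q.2 0))) (by fun_prop)).pair
    (hg.pre (f := fun q : (α × List ℤ) × ℕ => (q.1.1, mkL (n q.1.1) fun u =>
      decide (q.1.2.getD u 0 < q.1.2.getD q.2 0))) (by fun_prop))).post
    (g := fun r : ℤ × ℤ => r.1 - r.2) (by fun_prop)

end Sfm

end Crest.Agent.R302
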